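import Crest.Agent.Lib.Ehrhard.Lip

/-!
# Borell's extension of the functional Ehrhard inequality (Lipschitz functions)

`a, b ≥ 0`, `a + b ≥ 1`, `|a - b| ≤ 1`, `a f(y) + b g(z) ≤ h(a y + b z)` implies
`a Φ⁻¹(E Φ f) + b Φ⁻¹(E Φ g) ≤ Φ⁻¹(E Φ h)` for the standard Gaussian measure.
-/

set_option autoImplicit false
open MeasureTheory ProbabilityTheory Set Filter Topology
open scoped NNReal ENNReal

namespace Crest.Agent.R239.Borell842

open Crest.Agent.Lib.Ehrhard

section smooth

variable {a b L M₁ M₂ M₃ : ℝ} {f f' f'' g g' g'' h h' h'' : ℝ → ℝ}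

/-- the algebraic heart of the maximum principle, general weights -/
lemma alg_core' {a b A L K q y z F G H Fy Gy p Fyy Gyy Hyy : ℝ} (hA : 0 ≤ A) (hL : 0 ≤ L)
    (hq : 0 < q) (hK : K = 5 + 8 * L * (A + L)) (hF : |F| ≤ A + L * |y|) (hG : |G| ≤ A + L * |z|)
    (hFy : |Fy| ≤ L) (hGy : |Gy| ≤ L) (hp : |p| ≤ L)
    (e1 : a * (Fy - p) = 2 * q * y) (e2 : b * (Gy - p) = 2 * q * z)
    (hneg : H - a * F - b * G ≤ 0) (h2 : 0 ≤ Hyy - a * Fyy - b * Gyy + 4 * q)
    (ht : (Hyy - H * p ^ 2) - a * (Fyy - F * Fy ^ 2) - b * (Gyy - G * Gy ^ 2)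
      + q * K * (1 + y ^ 2 + z ^ 2) ≤ 0) : False := by
  have key : ∀ a F Fy y : ℝ, |F| ≤ A + L * |y| → |Fy| ≤ L → a * (Fy - p) = 2 * q * y →
      -(4 * q * L * (A + L) * (1 + y ^ 2)) ≤ a * (F * (Fy ^ 2 - p ^ 2)) := by
    intro a F Fy y hF hFy e
    have h1 : a * (F * (Fy ^ 2 - p ^ 2)) = 2 * q * (F * y * (Fy + p)) := by
      have : a * (F * (Fy ^ 2 - p ^ 2)) = F * (Fy + p) * (a * (Fy - p)) := by ring
      rw [this, e]; ring
    rw [h1]
    have h2 : |F * y * (Fy + p)| ≤ (A + L * |y|) * |y| * (2 * L) := by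
      rw [abs_mul, abs_mul]
      have h3 : |Fy + p| ≤ 2 * L := (abs_add_le _ _).trans (by linarith)
      exact mul_le_mul (mul_le_mul_of_nonneg_right hF (abs_nonneg y)) h3 (abs_nonneg _)
        (by positivity)
    have h4 : (A + L * |y|) * |y| ≤ (A + L) * (1 + y ^ 2) := by
      have h5 : |y| ≤ 1 + y ^ 2 := by
        have := sq_abs y
        nlinarith [sq_nonneg (|y| - 1), abs_nonneg y]
      have h6 : |y| * |y| = y ^ 2 := by rw [← sq, sq_abs]
      nlinarith [mul_le_mul_of_nonneg_left h5 hA, abs_nonneg y, sq_nonneg y]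
    have h7 : |F * y * (Fy + p)| ≤ (A + L) * (1 + y ^ 2) * (2 * L) :=
      h2.trans (mul_le_mul_of_nonneg_right h4 (by positivity))
    have h8 := (abs_le.1 h7).1
    nlinarith [mul_le_mul_of_nonneg_left h8 (by positivity : (0:ℝ) ≤ 2 * q)]
  have k1 := key a F Fy y hF hFy e1
  have k2 := key b G Gy z hG hGy e2
  have k3 : p ^ 2 * (H - a * F - b * G) ≤ 0 := mul_nonpos_of_nonneg_of_nonpos (sq_nonneg p) hneg
  have k4 : 0 ≤ q * L * (A + L) * y ^ 2 := by positivity
  have k5 : 0 ≤ q * L * (A + L) * z ^ 2 := by positivity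
  have k6 : 0 ≤ q * L * (A + L) := by positivity
  have k7 : 0 ≤ q * y ^ 2 := by positivity
  have k8 : 0 ≤ q * z ^ 2 := by positivity
  rw [hK] at ht
  nlinarith

/-- second order condition at an interior minimum along a line -/
lemma second_dir {a b s y z q : ℝ} (hf : Nice L M₁ f f' f'')
    (hg : Nice L M₂ g g' g'') (hh : Nice L M₃ h h' h'') (σ : ℝ)
    (hm : IsLocalMin (fun t : ℝ => fl h s (a * (y + t) + b * (z + σ * t)) - a * fl f s (y + t)
      - b * fl g s (z + σ * t) + q * (1 + (y + t) ^ 2 + (z + σ * t) ^ 2)) 0) :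
    0 ≤ (a + σ * b) ^ 2 * Nice.fyy h h' h'' s (a * y + b * z) - a * Nice.fyy f f' f'' s y
      - σ ^ 2 * b * Nice.fyy g g' g'' s z + 2 * (1 + σ ^ 2) * q := by
  let c' : ℝ → ℝ := fun t => (a + σ * b) * Nice.fy h h' s (a * (y + t) + b * (z + σ * t))
    - a * Nice.fy f f' s (y + t)
    - σ * b * Nice.fy g g' s (z + σ * t) + q * (2 * (y + t) + 2 * σ * (z + σ * t))
  have i2 : ∀ t : ℝ, HasDerivAt (fun t : ℝ => y + t) 1 t := fun t => (hasDerivAt_id t).const_add _
  have i3 : ∀ t : ℝ, HasDerivAt (fun t : ℝ => z + σ * t) σ t := fun t => by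
    simpa using ((hasDerivAt_id t).const_mul σ).const_add z
  have i1 : ∀ t : ℝ, HasDerivAt (fun t : ℝ => a * (y + t) + b * (z + σ * t)) (a + σ * b) t :=
    fun t => (((i2 t).const_mul a).fun_add ((i3 t).const_mul b)).congr_deriv (by ring)
  refine second_deriv_nonneg (c := fun t : ℝ => fl h s (a * (y + t) + b * (z + σ * t)) - a * fl f s (y + t)
      - b * fl g s (z + σ * t) + q * (1 + (y + t) ^ 2 + (z + σ * t) ^ 2)) (c' := c') (t0 := 0) ?_ ?_ hm
  · intro t
    have d1 : HasDerivAt (fun t : ℝ => fl h s (a * (y + t) + b * (z + σ * t)))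
        (Nice.fy h h' s (a * (y + t) + b * (z + σ * t)) * (a + σ * b)) t :=
      HasDerivAt.comp t (h₂ := fun w => fl h s w) (hh.hfy s _) (i1 t)
    have d2 : HasDerivAt (fun t : ℝ => fl f s (y + t)) (Nice.fy f f' s (y + t) * 1) t :=
      HasDerivAt.comp t (h₂ := fun w => fl f s w) (hf.hfy s _) (i2 t)
    have d3 : HasDerivAt (fun t : ℝ => fl g s (z + σ * t)) (Nice.fy g g' s (z + σ * t) * σ) t :=
      HasDerivAt.comp t (h₂ := fun w => fl g s w) (hg.hfy s _) (i3 t)
    have d4 : HasDerivAt (fun t : ℝ => 1 + (y + t) ^ 2 + (z + σ * t) ^ 2)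
        (2 * (y + t) + 2 * σ * (z + σ * t)) t := by
      refine ((((i2 t).fun_pow 2).const_add 1).fun_add ((i3 t).fun_pow 2)).congr_deriv ?_
      simp; ring
    refine (((d1.fun_sub (d2.const_mul a)).fun_sub (d3.const_mul b)).fun_add
      (d4.const_mul q)).congr_deriv ?_
    simp only [c']
    ring
  · have d1 : HasDerivAt (fun t : ℝ => Nice.fy h h' s (a * (y + t) + b * (z + σ * t)))
        (Nice.fyy h h' h'' s (a * y + b * z) * (a + σ * b)) 0 := by
      refine HasDerivAt.comp (0:ℝ) (h₂ := fun w => Nice.fy h h' s w) ?_ (i1 0)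
      simpa using hh.hfyy s (a * y + b * z)
    have d2 : HasDerivAt (fun t : ℝ => Nice.fy f f' s (y + t)) (Nice.fyy f f' f'' s y * 1) 0 := by
      refine HasDerivAt.comp (0:ℝ) (h₂ := fun w => Nice.fy f f' s w) ?_ (i2 0)
      simpa using hf.hfyy s y
    have d3 : HasDerivAt (fun t : ℝ => Nice.fy g g' s (z + σ * t)) (Nice.fyy g g' g'' s z * σ) 0 := by
      refine HasDerivAt.comp (0:ℝ) (h₂ := fun w => Nice.fy g g' s w) ?_ (i3 0)
      simpa using hg.hfyy s z
    have d4 : HasDerivAt (fun t : ℝ => 2 * (y + t) + 2 * σ * (z + σ * t)) (2 + 2 * σ * σ) 0 := by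
      refine (((i2 0).const_mul 2).fun_add ((i3 0).const_mul (2 * σ))).congr_deriv ?_
      ring
    refine ((((d1.const_mul (a + σ * b)).fun_sub (d2.const_mul a)).fun_sub
      (d3.const_mul (σ * b))).fun_add (d4.const_mul q)).congr_deriv ?_
    ring

set_option maxHeartbeats 2000000 in
theorem borell_smooth (ha : 0 ≤ a) (hb : 0 ≤ b) (hab : 1 ≤ a + b) (hab' : |a - b| ≤ 1)
    (hf : Nice L M₁ f f' f'') (hg : Nice L M₂ g g' g'') (hh : Nice L M₃ h h' h'')
    (H : ∀ y z, a * f y + b * g z ≤ h (a * y + b * z)) :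
    a * gm γ f + b * gm γ g ≤ gm γ h := by
  by_contra hcon
  push Not at hcon
  obtain ⟨Af, hAf0, hAf⟩ := exists_growth hf
  obtain ⟨Ag, hAg0, hAg⟩ := exists_growth hg
  obtain ⟨Ah, hAh0, hAh⟩ := exists_growth hh
  have hL := hf.L_nonneg
  set A := Af + Ag + Ah with hA
  have hA0 : 0 ≤ A := by positivity
  have gf : ∀ s ∈ Icc (0:ℝ) 1, ∀ y, |fl f s y| ≤ A + L * |y| := fun s hs y =>
    (hAf s hs y).trans (by rw [hA]; linarith)
  have gg : ∀ s ∈ Icc (0:ℝ) 1, ∀ y, |fl g s y| ≤ A + L * |y| := fun s hs y =>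
    (hAg s hs y).trans (by rw [hA]; linarith)
  have gh : ∀ s ∈ Icc (0:ℝ) 1, ∀ y, |fl h s y| ≤ A + L * |y| := fun s hs y =>
    (hAh s hs y).trans (by rw [hA]; linarith)
  set K : ℝ := 5 + 8 * L * (A + L) with hK
  have hK0 : 0 < K := by positivity
  set δ : ℝ := a * gm γ f + b * gm γ g - gm γ h with hδ
  have hδ0 : 0 < δ := sub_pos.2 hcon
  set ε : ℝ := δ / (2 * Real.exp (K / 2)) with hε
  have hε0 : 0 < ε := by positivity
  -- the comparison function
  let C : ℝ → ℝ → ℝ → ℝ := fun s y z =>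
    fl h s (a * y + b * z) - a * fl f s y - b * fl g s z
      + ε * Real.exp (K * s ^ 2 / 2) * (1 + y ^ 2 + z ^ 2)
  have hCcont : Continuous (fun p : ℝ × ℝ × ℝ => C p.1 p.2.1 p.2.2) := by
    have c1 : Continuous (fun p : ℝ × ℝ × ℝ => fl h p.1 (a * p.2.1 + b * p.2.2)) :=
      (continuous_fl hh.cont).comp (f := fun p : ℝ × ℝ × ℝ => (p.1, a * p.2.1 + b * p.2.2))
        (by fun_prop)
    have c2 : Continuous (fun p : ℝ × ℝ × ℝ => fl f p.1 p.2.1) :=
      (continuous_fl hf.cont).comp (f := fun p : ℝ × ℝ × ℝ => (p.1, p.2.1)) (by fun_prop)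
    have c3 : Continuous (fun p : ℝ × ℝ × ℝ => fl g p.1 p.2.2) :=
      (continuous_fl hg.cont).comp (f := fun p : ℝ × ℝ × ℝ => (p.1, p.2.2)) (by fun_prop)
    exact ((c1.sub (c2.const_mul a)).sub (c3.const_mul b)).add (by fun_prop)
  -- at time 1 it is negative somewhere
  have hC1 : C 1 0 0 < 0 := by
    have e1 : C 1 0 0 = -δ + ε * Real.exp (K / 2) := by
      simp only [C, mul_zero, add_zero, fl_one_zero]
      rw [hδ]; ring_nf
    have e2 : ε * Real.exp (K / 2) = δ / 2 := by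
      rw [hε]; field_simp
    rw [e1, e2]; linarith
  -- at time 0 it is positive
  have hC0 : ∀ y z, 0 < C 0 y z := by
    intro y z
    have e1 : C 0 y z = (h (a * y + b * z) - (a * f y + b * g z)) + ε * (1 + y ^ 2 + z ^ 2) := by
      simp only [C, fl_zero]
      simp
      ring
    rw [e1]
    have := H y z
    have h2 : 0 < ε * (1 + y ^ 2 + z ^ 2) := by positivity
    linarith
  -- far away it is nonnegative
  set c : ℝ := 1 + a + b with hc
  have hc0 : 0 < c := by positivity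
  set R : ℝ := (2 * c * (A + L)) / ε + 1 with hR
  have hR1 : 1 ≤ R := by
    have : 0 ≤ (2 * c * (A + L)) / ε := by positivity
    linarith
  have hfar : ∀ s ∈ Icc (0:ℝ) 1, ∀ y z, (R ≤ |y| ∨ R ≤ |z|) → 0 ≤ C s y z := by
    intro s hs y z hyz
    set m := max |y| |z| with hm
    have hmR : R ≤ m := by
      rcases hyz with h | h
      · exact h.trans (le_max_left _ _)
      · exact h.trans (le_max_right _ _)
    have hm1 : 1 ≤ m := hR1.trans hmR
    have hy : |y| ≤ m := le_max_left _ _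
    have hz : |z| ≤ m := le_max_right _ _
    have hm2 : m ^ 2 ≤ y ^ 2 + z ^ 2 := by
      rcases max_cases |y| |z| with h | h
      · rw [hm, h.1, sq_abs]; nlinarith [sq_nonneg z]
      · rw [hm, h.1, sq_abs]; nlinarith [sq_nonneg y]
    have b1 : -(A + L * ((a + b) * m)) ≤ fl h s (a * y + b * z) := by
      have h1 := (abs_le.1 (gh s hs (a * y + b * z))).1
      have h2 : |a * y + b * z| ≤ (a + b) * m := by
        have h3 := abs_add_le (a * y) (b * z)
        rw [abs_mul, abs_mul, abs_of_nonneg ha, abs_of_nonneg hb] at h3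
        have h4 := mul_le_mul_of_nonneg_left hy ha
        have h5 := mul_le_mul_of_nonneg_left hz hb
        linarith
      have h6 := mul_le_mul_of_nonneg_left h2 hL
      linarith
    have b2 : a * fl f s y ≤ a * (A + L * m) := by
      refine mul_le_mul_of_nonneg_left ?_ ha
      have h1 := (abs_le.1 (gf s hs y)).2
      have h2 := mul_le_mul_of_nonneg_left hy hL
      linarith
    have b3 : b * fl g s z ≤ b * (A + L * m) := by
      refine mul_le_mul_of_nonneg_left ?_ hb
      have h1 := (abs_le.1 (gg s hs z)).2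
      have h2 := mul_le_mul_of_nonneg_left hz hL
      linarith
    have b4 : ε * (1 + y ^ 2 + z ^ 2) ≤ ε * Real.exp (K * s ^ 2 / 2) * (1 + y ^ 2 + z ^ 2) := by
      have : 1 ≤ Real.exp (K * s ^ 2 / 2) := Real.one_le_exp (by positivity)
      have h2 : ε ≤ ε * Real.exp (K * s ^ 2 / 2) := by nlinarith
      exact mul_le_mul_of_nonneg_right h2 (by positivity)
    have b5 : 2 * c * (A + L) * m ≤ ε * m ^ 2 := by
      have h1 : (2 * c * (A + L)) / ε ≤ m := by linarith
      rw [div_le_iff₀ hε0] at h1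
      have h2 : (2 * c * (A + L)) * m ≤ m * ε * m := mul_le_mul_of_nonneg_right h1 (by linarith)
      linarith [h2, (by ring : m * ε * m = ε * m ^ 2)]
    have b6 : ε * m ^ 2 ≤ ε * (y ^ 2 + z ^ 2) := mul_le_mul_of_nonneg_left hm2 hε0.le
    have b7 : A + L * ((a + b) * m) + a * (A + L * m) + b * (A + L * m) ≤ 2 * c * (A + L) * m := by
      have e : 2 * c * (A + L) * m - (A + L * ((a + b) * m) + a * (A + L * m) + b * (A + L * m))
          = c * A * (m - 1) + c * A * m + 2 * L * m := by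
        rw [hc]; ring
      have n1 : 0 ≤ c * A * (m - 1) := mul_nonneg (mul_nonneg hc0.le hA0) (by linarith)
      have n2 : 0 ≤ c * A * m := mul_nonneg (mul_nonneg hc0.le hA0) (by linarith)
      have n3 : 0 ≤ 2 * L * m := mul_nonneg (mul_nonneg (by norm_num) hL) (by linarith)
      linarith
    simp only [C]
    linarith
  -- minimise over the compact box
  have hcomp : IsCompact ((Icc (0:ℝ) 1) ×ˢ ((Icc (-R) R) ×ˢ (Icc (-R) R))) :=
    isCompact_Icc.prod (isCompact_Icc.prod isCompact_Icc)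
  have h00 : ((1:ℝ), (0:ℝ), (0:ℝ)) ∈ ((Icc (0:ℝ) 1) ×ˢ ((Icc (-R) R) ×ˢ (Icc (-R) R))) := by
    refine ⟨⟨zero_le_one, le_refl 1⟩, ⟨?_, ?_⟩, ⟨?_, ?_⟩⟩ <;> simp only <;> linarith
  obtain ⟨⟨s, y, z⟩, hmem, hmin⟩ := hcomp.exists_isMinOn ⟨_, h00⟩ hCcont.continuousOn
  have hmin' : ∀ s' ∈ Icc (0:ℝ) 1, ∀ y' ∈ Icc (-R) R, ∀ z' ∈ Icc (-R) R, C s y z ≤ C s' y' z' :=
    fun s' hs' y' hy' z' hz' => hmin (a := (s', y', z')) ⟨hs', hy', hz'⟩
  have hs : s ∈ Icc (0:ℝ) 1 := hmem.1
  have hyR : y ∈ Icc (-R) R := hmem.2.1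
  have hzR : z ∈ Icc (-R) R := hmem.2.2
  have hCneg : C s y z < 0 := (hmin' 1 h00.1 0 h00.2.1 0 h00.2.2).trans_lt hC1
  have hs0 : 0 < s := by
    rcases eq_or_lt_of_le hs.1 with h0 | h0
    · exfalso; rw [← h0] at hCneg; exact absurd (hC0 y z) (not_lt.2 hCneg.le)
    · exact h0
  have hylt : |y| < R := by
    by_contra h1; push Not at h1
    exact absurd hCneg (not_lt.2 (hfar s hs y z (Or.inl h1)))
  have hzlt : |z| < R := by
    by_contra h1; push Not at h1
    exact absurd hCneg (not_lt.2 (hfar s hs y z (Or.inr h1)))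
  have nhy : ∀ᶠ t in 𝓝 (0:ℝ), y + t ∈ Icc (-R) R := by
    have h1 : Tendsto (fun t : ℝ => y + t) (𝓝 0) (𝓝 (y + 0)) :=
      (continuous_const.add continuous_id).tendsto 0
    rw [add_zero] at h1
    exact h1.eventually (Icc_mem_nhds (abs_lt.1 hylt).1 (abs_lt.1 hylt).2)
  have nhz : ∀ σ : ℝ, ∀ᶠ t in 𝓝 (0:ℝ), z + σ * t ∈ Icc (-R) R := by
    intro σ
    have h1 : Tendsto (fun t : ℝ => z + σ * t) (𝓝 0) (𝓝 (z + σ * 0)) :=
      (continuous_const.add (continuous_const.mul continuous_id)).tendsto 0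
    rw [mul_zero, add_zero] at h1
    exact h1.eventually (Icc_mem_nhds (abs_lt.1 hzlt).1 (abs_lt.1 hzlt).2)
  set q : ℝ := ε * Real.exp (K * s ^ 2 / 2) with hq
  have hq0 : 0 < q := by positivity
  set p := Nice.fy h h' s (a * y + b * z) with hp
  set Fy := Nice.fy f f' s y with hFy
  set Gy := Nice.fy g g' s z with hGy
  -- derivative in `y`
  have e1 : a * p - a * Fy + 2 * q * y = 0 := by
    have hd : HasDerivAt (fun t => C s (y + t) z) (a * p - a * Fy + 2 * q * y) 0 := by
      have i2 : HasDerivAt (fun t : ℝ => y + t) 1 0 := (hasDerivAt_id (0:ℝ)).const_add y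
      have i1 : HasDerivAt (fun t : ℝ => a * (y + t) + b * z) a 0 :=
        (((i2.const_mul a).add_const (b * z))).congr_deriv (by ring)
      have d1 : HasDerivAt (fun t : ℝ => fl h s (a * (y + t) + b * z)) (p * a) 0 := by
        refine HasDerivAt.comp (0:ℝ) (h₂ := fun w => fl h s w) ?_ i1
        simpa using hh.hfy s (a * y + b * z)
      have d2 : HasDerivAt (fun t : ℝ => fl f s (y + t)) (Fy * 1) 0 := by
        refine HasDerivAt.comp (0:ℝ) (h₂ := fun w => fl f s w) ?_ i2
        simpa using hf.hfy s y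
      have d3 : HasDerivAt (fun t : ℝ => 1 + (y + t) ^ 2 + z ^ 2) (2 * y) 0 := by
        refine (((i2.fun_pow 2).const_add 1).add_const (z ^ 2)).congr_deriv ?_
        simp
      refine (((d1.fun_sub (d2.const_mul a)).sub_const (b * fl g s z)).fun_add
        (d3.const_mul q)).congr_deriv ?_
      ring
    have hm : IsLocalMin (fun t => C s (y + t) z) 0 := by
      filter_upwards [nhy] with t ht
      simpa using hmin' s hs (y + t) ht z hzR
    exact hm.hasDerivAt_eq_zero hd
  have e2 : b * p - b * Gy + 2 * q * z = 0 := by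
    have hd : HasDerivAt (fun t => C s y (z + t)) (b * p - b * Gy + 2 * q * z) 0 := by
      have i2 : HasDerivAt (fun t : ℝ => z + t) 1 0 := (hasDerivAt_id (0:ℝ)).const_add z
      have i1 : HasDerivAt (fun t : ℝ => a * y + b * (z + t)) b 0 :=
        (((i2.const_mul b).const_add (a * y))).congr_deriv (by ring)
      have d1 : HasDerivAt (fun t : ℝ => fl h s (a * y + b * (z + t))) (p * b) 0 := by
        refine HasDerivAt.comp (0:ℝ) (h₂ := fun w => fl h s w) ?_ i1
        simpa using hh.hfy s (a * y + b * z)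
      have d2 : HasDerivAt (fun t : ℝ => fl g s (z + t)) (Gy * 1) 0 := by
        refine HasDerivAt.comp (0:ℝ) (h₂ := fun w => fl g s w) ?_ i2
        simpa using hg.hfy s z
      have d3 : HasDerivAt (fun t : ℝ => 1 + y ^ 2 + (z + t) ^ 2) (2 * z) 0 := by
        refine ((i2.fun_pow 2).const_add (1 + y ^ 2)).congr_deriv ?_
        simp
      refine (((d1.sub_const (a * fl f s y)).fun_sub (d2.const_mul b)).fun_add
        (d3.const_mul q)).congr_deriv ?_
      ring
    have hm : IsLocalMin (fun t => C s y (z + t)) 0 := by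
      have := nhz 1
      simp only [one_mul] at this
      filter_upwards [this] with t ht
      simpa using hmin' s hs y hyR (z + t) ht
    exact hm.hasDerivAt_eq_zero hd
  -- second derivatives along the two diagonals
  set Hyy := Nice.fyy h h' h'' s (a * y + b * z) with hHyy
  set Fyy := Nice.fyy f f' f'' s y with hFyy
  set Gyy := Nice.fyy g g' g'' s z with hGyy
  have hdir : ∀ σ : ℝ, 0 ≤ (a + σ * b) ^ 2 * Hyy - a * Fyy - σ ^ 2 * b * Gyy
      + 2 * (1 + σ ^ 2) * q := by
    intro σ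
    refine second_dir hf hg hh σ ?_
    filter_upwards [nhy, nhz σ] with t ht ht'
    simpa [C, hq] using hmin' s hs (y + t) ht (z + σ * t) ht'
  have e3 : 0 ≤ Hyy - a * Fyy - b * Gyy + 4 * q := by
    have u1 := hdir 1
    have u2 := hdir (-1)
    have s1 : 1 ≤ (a + b) ^ 2 := by nlinarith
    have s2 : (a - b) ^ 2 ≤ 1 := by
      rw [← sq_abs]; nlinarith [abs_nonneg (a - b)]
    have v1 : 0 ≤ (a + b) ^ 2 * Hyy - a * Fyy - b * Gyy + 4 * q := by
      have : (a + 1 * b) ^ 2 * Hyy - a * Fyy - 1 ^ 2 * b * Gyy + 2 * (1 + 1 ^ 2) * q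
        = (a + b) ^ 2 * Hyy - a * Fyy - b * Gyy + 4 * q := by ring
      linarith
    have v2 : 0 ≤ (a - b) ^ 2 * Hyy - a * Fyy - b * Gyy + 4 * q := by
      have : (a + -1 * b) ^ 2 * Hyy - a * Fyy - (-1) ^ 2 * b * Gyy + 2 * (1 + (-1) ^ 2) * q
        = (a - b) ^ 2 * Hyy - a * Fyy - b * Gyy + 4 * q := by ring
      linarith
    rcases le_total 0 Hyy with hH | hH
    · have : (a - b) ^ 2 * Hyy ≤ 1 * Hyy := mul_le_mul_of_nonneg_right s2 hH
      linarith
    · have : (a + b) ^ 2 * Hyy ≤ 1 * Hyy := mul_le_mul_of_nonpos_right s1 hH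
      linarith
  -- time derivative
  set F0 := fl f s y with hF0
  set G0 := fl g s z with hG0
  set H0 := fl h s (a * y + b * z) with hH0
  have e4 : s * ((Hyy - H0 * p ^ 2) - a * (Fyy - F0 * Fy ^ 2) - b * (Gyy - G0 * Gy ^ 2)
      + q * K * (1 + y ^ 2 + z ^ 2)) ≤ 0 := by
    have hd : HasDerivAt (fun t => C t y z) (s * ((Hyy - H0 * p ^ 2) - a * (Fyy - F0 * Fy ^ 2)
        - b * (Gyy - G0 * Gy ^ 2) + q * K * (1 + y ^ 2 + z ^ 2))) s := by
      have d1 := hh.hfs s (a * y + b * z)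
      have d2 := hf.hfs s y
      have d3 := hg.hfs s z
      have d4 : HasDerivAt (fun t : ℝ => K * t ^ 2 / 2) (K * s) s := by
        refine (((hasDerivAt_pow 2 s).const_mul K).div_const 2).congr_deriv ?_
        norm_num; ring
      have d5 := ((d4.exp).const_mul ε).mul_const (1 + y ^ 2 + z ^ 2)
      refine (((d1.fun_sub (d2.const_mul a)).fun_sub (d3.const_mul b)).fun_add d5).congr_deriv ?_
      rw [hq]
      ring
    refine deriv_nonpos_of_left_min hd hs0 ?_
    intro t ht
    exact hmin' t ⟨ht.1, ht.2.trans hs.2⟩ y hyR z hzR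
  have e5 : (Hyy - H0 * p ^ 2) - a * (Fyy - F0 * Fy ^ 2) - b * (Gyy - G0 * Gy ^ 2)
      + q * K * (1 + y ^ 2 + z ^ 2) ≤ 0 := by
    by_contra h1
    push Not at h1
    exact absurd (mul_pos hs0 h1) (not_lt.2 e4)
  have e6 : H0 - a * F0 - b * G0 ≤ 0 := by
    have h1 : C s y z = H0 - a * F0 - b * G0 + q * (1 + y ^ 2 + z ^ 2) := rfl
    have h2 : 0 < q * (1 + y ^ 2 + z ^ 2) := by positivity
    linarith
  refine alg_core' hA0 hL hq0 hK (gf s hs y) (gg s hs z) (hf.bfy s y) (hg.bfy s z)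
    (hh.bfy s (a * y + b * z))
    (p := p) (Fy := Fy) (Gy := Gy) (Fyy := Fyy) (Gyy := Gyy) (Hyy := Hyy) (H := H0) ?_ ?_ e6 e3 e5
  · linarith
  · linarith

end smooth

/-! ### Lipschitz functions on the line -/

lemma av_mid' {a b ε : ℝ} (hε : 0 < ε) (hab : 0 < a + b) {f g h : ℝ → ℝ} (hf : Continuous f)
    (hg : Continuous g) (hh : Continuous h) (H : ∀ y z, a * f y + b * g z ≤ h (a * y + b * z))
    (y z : ℝ) :
    a * av ε f y + b * av ε g z ≤ av ((a + b) * ε) h (a * y + b * z) := by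
  have e : av ((a + b) * ε) h (a * y + b * z)
      = ε⁻¹ * ∫ s in (0:ℝ)..ε, h (a * y + b * z + (a + b) * s) := by
    unfold av
    have := intervalIntegral.integral_comp_mul_left (a := 0) (b := ε)
      (fun s => h (a * y + b * z + s)) hab.ne'
    rw [this, mul_zero, smul_eq_mul, mul_inv]
    ring
  rw [e]
  have e2 : a * av ε f y + b * av ε g z
      = ε⁻¹ * ((∫ s in (0:ℝ)..ε, a * f (y + s)) + ∫ s in (0:ℝ)..ε, b * g (z + s)) := by
    unfold av
    rw [intervalIntegral.integral_const_mul, intervalIntegral.integral_const_mul]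
    ring
  rw [e2]
  refine mul_le_mul_of_nonneg_left ?_ (inv_pos.2 hε).le
  rw [← intervalIntegral.integral_add
    ((by fun_prop : Continuous fun s => a * f (y + s)).intervalIntegrable _ _)
    ((by fun_prop : Continuous fun s => b * g (z + s)).intervalIntegrable _ _)]
  refine intervalIntegral.integral_mono_on hε.le
    ((by fun_prop : Continuous fun s => a * f (y + s) + b * g (z + s)).intervalIntegrable _ _)
    ((by fun_prop : Continuous fun s => h (a * y + b * z + (a + b) * s)).intervalIntegrable _ _) ?_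
  intro s _
  have := H (y + s) (z + s)
  have e : a * (y + s) + b * (z + s) = a * y + b * z + (a + b) * s := by ring
  rwa [e] at this

/-- one-dimensional functional Borell inequality for Lipschitz functions -/
theorem borell_lip {a b : ℝ} (ha : 0 ≤ a) (hb : 0 ≤ b) (hab : 1 ≤ a + b) (hab' : |a - b| ≤ 1)
    {f g h : ℝ → ℝ} {L : ℝ} (hf : ∀ x y, |f x - f y| ≤ L * |x - y|)
    (hg : ∀ x y, |g x - g y| ≤ L * |x - y|) (hh : ∀ x y, |h x - h y| ≤ L * |x - y|)
    (H : ∀ y z, a * f y + b * g z ≤ h (a * y + b * z)) :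
    a * gm γ f + b * gm γ g ≤ gm γ h := by
  have hL0 : 0 ≤ L := by
    have := (abs_nonneg _).trans (hf 1 0)
    simpa using this
  have hab0 : 0 < a + b := by linarith
  have cf := cont_of_lip hf
  have cg := cont_of_lip hg
  have ch := cont_of_lip hh
  have key : ∀ ε : ℝ, 0 < ε → a * gm γ f + b * gm γ g ≤ gm γ h + 4 * (a + b) * L * ε := by
    intro ε hε
    have hε' : 0 < (a + b) * ε := by positivity
    have cf1 := cont_of_lip (av_lip hε hf)
    have cg1 := cont_of_lip (av_lip hε hg)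
    have ch1 := cont_of_lip (av_lip hε' hh)
    have h1 := borell_smooth ha hb hab hab' (nice_av_av hε hf) (nice_av_av hε hg)
      (nice_av_av hε' hh) (av_mid' hε hab0 cf1 cg1 ch1 (av_mid' hε hab0 cf cg ch H))
    have close : ∀ {η : ℝ}, 0 < η → ∀ {f : ℝ → ℝ}, (∀ x y, |f x - f y| ≤ L * |x - y|) →
        |gm γ (av η (av η f)) - gm γ f| ≤ 2 * L * η := by
      intro η hη f hf
      have cf := cont_of_lip hf
      have cf2 := cont_of_lip (av_lip hη (av_lip hη hf))
      refine abs_gm_sub_le γ cf2.aemeasurable cf.aemeasurable fun x => ?_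
      have a1 := av_close hη hL0 (av_lip hη hf) x
      have a2 := av_close hη hL0 hf x
      have : av η (av η f) x - f x = (av η (av η f) x - av η f x) + (av η f x - f x) := by ring
      rw [this]
      exact (abs_add_le _ _).trans (by linarith)
    have c1 := mul_le_mul_of_nonneg_left (abs_le.1 (close hε hf)).1 ha
    have c2 := mul_le_mul_of_nonneg_left (abs_le.1 (close hε hg)).1 hb
    have c3 := (abs_le.1 (close hε' hh)).2
    nlinarith
  refine le_of_forall_pos_le_add fun δ hδ => ?_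
  have h1 := key (δ / (4 * (a + b) * L + 1)) (by positivity)
  have h2 : 4 * (a + b) * L * (δ / (4 * (a + b) * L + 1)) ≤ δ := by
    rw [← mul_div_assoc, div_le_iff₀ (by positivity)]
    nlinarith
  linarith

/-! ### Tensorisation -/

theorem borell_pi {a b : ℝ} (ha : 0 ≤ a) (hb : 0 ≤ b) (hab : 1 ≤ a + b) (hab' : |a - b| ≤ 1)
    (n : ℕ) : ∀ {f g h : (Fin n → ℝ) → ℝ} {L : ℝ},
    (∀ x y, |f x - f y| ≤ L * ‖x - y‖) →
    (∀ x y, |g x - g y| ≤ L * ‖x - y‖) → (∀ x y, |h x - h y| ≤ L * ‖x - y‖) →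
    (∀ y z, a * f y + b * g z ≤ h (a • y + b • z)) →
    a * gm (Measure.pi fun _ : Fin n => γ) f + b * gm (Measure.pi fun _ : Fin n => γ) g
      ≤ gm (Measure.pi fun _ : Fin n => γ) h := by
  induction n with
  | zero =>
    intro f g h L hf hg hh H
    have e : ∀ f : (Fin 0 → ℝ) → ℝ, gm (Measure.pi fun _ : Fin 0 => γ) f = f 0 := by
      intro f
      unfold gm
      rw [Measure.pi_of_empty (fun _ : Fin 0 => γ) 0]
      simp
    rw [e, e, e]
    have := H 0 0
    simpa using this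
  | succ n ih =>
    intro f g h L hf hg hh H
    have hL0 : 0 ≤ L := by
      have := (abs_nonneg _).trans (hf (fun _ => 1) 0)
      have h2 : ‖(fun _ : Fin (n + 1) => (1:ℝ)) - 0‖ = 1 := by
        rw [sub_zero, pi_norm_const]; simp
      rw [h2] at this
      linarith
    have cf := cont_of_lip' hf
    have cg := cont_of_lip' hg
    have ch := cont_of_lip' hh
    have cc : ∀ {f : (Fin (n + 1) → ℝ) → ℝ}, Continuous f → ∀ x : Fin n → ℝ,
        Continuous (fun a : ℝ => f (Fin.cons a x)) := fun hf x =>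
      hf.comp (continuous_cons.comp (by fun_prop : Continuous fun a : ℝ => (a, x)))
    rw [gm_pi_succ cf, gm_pi_succ cg, gm_pi_succ ch]
    have lip1 : ∀ {f : (Fin (n + 1) → ℝ) → ℝ}, (∀ x y, |f x - f y| ≤ L * ‖x - y‖) →
        ∀ x y, |gm γ (fun a => f (Fin.cons a x)) - gm γ (fun a => f (Fin.cons a y))|
          ≤ L * ‖x - y‖ := by
      intro f hf x y
      have cf := cont_of_lip' hf
      refine abs_gm_sub_le γ (cc cf x).aemeasurable (cc cf y).aemeasurable fun a => ?_
      exact (hf _ _).trans (mul_le_mul_of_nonneg_left (norm_cons_sub_cons_right a x y) hL0)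
    have lip0 : ∀ {f : (Fin (n + 1) → ℝ) → ℝ}, (∀ x y, |f x - f y| ≤ L * ‖x - y‖) →
        ∀ x : Fin n → ℝ, ∀ a b : ℝ, |f (Fin.cons a x) - f (Fin.cons b x)| ≤ L * |a - b| := by
      intro f hf x a b
      exact (hf _ _).trans (mul_le_mul_of_nonneg_left (norm_cons_sub_cons_left a b x) hL0)
    refine ih (lip1 hf) (lip1 hg) (lip1 hh) ?_
    intro y z
    refine borell_lip ha hb hab hab' (lip0 hf y) (lip0 hg z) (lip0 hh _) ?_
    intro u v
    have := H (Fin.cons u y) (Fin.cons v z)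
    have e : a • (Fin.cons u y : Fin (n + 1) → ℝ) + b • (Fin.cons v z : Fin (n + 1) → ℝ)
        = Fin.cons (a * u + b * v) (a • y + b • z) := by
      ext i
      refine Fin.cases ?_ (fun j => ?_) i
      · simp
      · simp
    rwa [e] at this

/-! ### Standard Gaussian measure -/

section std

variable {E : Type*} [NormedAddCommGroup E] [InnerProductSpace ℝ E] [FiniteDimensional ℝ E]
  [MeasurableSpace E] [BorelSpace E]

/-- **Borell's inequality**, functional form, for Lipschitz functions and the standard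
Gaussian measure. -/
theorem borell_std {a b : ℝ} (ha : 0 ≤ a) (hb : 0 ≤ b) (hab : 1 ≤ a + b) (hab' : |a - b| ≤ 1)
    {f g h : E → ℝ} {L : ℝ} (hf : ∀ x y, |f x - f y| ≤ L * ‖x - y‖)
    (hg : ∀ x y, |g x - g y| ≤ L * ‖x - y‖) (hh : ∀ x y, |h x - h y| ≤ L * ‖x - y‖)
    (H : ∀ y z, a * f y + b * g z ≤ h (a • y + b • z)) :
    a * gm (stdGaussian E) f + b * gm (stdGaussian E) g ≤ gm (stdGaussian E) h := by
  let T : (Fin (Module.finrank ℝ E) → ℝ) →ₗ[ℝ] E :=
    { toFun := fun x => ∑ i, x i • stdOrthonormalBasis ℝ E i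
      map_add' := fun x y => by simp [add_smul, Finset.sum_add_distrib]
      map_smul' := fun c x => by simp [Finset.smul_sum, smul_smul] }
  let T' := LinearMap.toContinuousLinearMap T
  have hT : ∀ x, T' x = ∑ i, x i • stdOrthonormalBasis ℝ E i := fun x => rfl
  have hgm : ∀ f : E → ℝ, Continuous f → gm (stdGaussian E) f =
      gm (Measure.pi fun _ : Fin (Module.finrank ℝ E) => γ) (fun x => f (T' x)) := by
    intro f hf
    have h1 := integral_map (μ := Measure.pi fun _ : Fin (Module.finrank ℝ E) => γ)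
      (φ := fun x => ∑ i, x i • stdOrthonormalBasis ℝ E i) (f := fun x => Phi (f x))
      (Measurable.aemeasurable (by fun_prop)) (continuous_Phi.comp hf).aestronglyMeasurable
    unfold gm stdGaussian
    rw [h1]
    rfl
  have lip : ∀ {f : E → ℝ}, (∀ x y, |f x - f y| ≤ L * ‖x - y‖) →
      ∀ x y, |f (T' x) - f (T' y)| ≤ (|L| * ‖T'‖) * ‖x - y‖ := by
    intro f hf x y
    calc |f (T' x) - f (T' y)| ≤ L * ‖T' x - T' y‖ := hf _ _
      _ ≤ |L| * ‖T' (x - y)‖ := by
        rw [map_sub]; exact mul_le_mul_of_nonneg_right (le_abs_self L) (norm_nonneg _)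
      _ ≤ |L| * (‖T'‖ * ‖x - y‖) := mul_le_mul_of_nonneg_left (T'.le_opNorm _) (abs_nonneg _)
      _ = _ := by ring
  rw [hgm f (cont_of_lip' hf), hgm g (cont_of_lip' hg), hgm h (cont_of_lip' hh)]
  refine borell_pi ha hb hab hab' _ (lip hf) (lip hg) (lip hh) ?_
  intro y z
  have := H (T' y) (T' z)
  rwa [← map_smul, ← map_smul, ← map_add] at this

/-- **Dilation**: for concave Lipschitz `V` and `t ≥ 1`,
`t Φ⁻¹(E Φ(V(G))) ≤ Φ⁻¹(E Φ(t V(G/t)))`. -/
theorem dilate {V : E → ℝ} {L : ℝ} (hL : ∀ x y, |V x - V y| ≤ L * ‖x - y‖)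
    (hV : ∀ x y, (V x + V y) / 2 ≤ V ((2:ℝ)⁻¹ • (x + y))) {t : ℝ} (ht : 1 ≤ t) :
    t * gm (stdGaussian E) V ≤ gm (stdGaussian E) (fun x => t * V (t⁻¹ • x)) := by
  have ht0 : 0 < t := by linarith
  have h1 := borell_std (E := E) (a := t / 2) (b := t / 2) (by positivity) (by positivity)
    (by linarith) (by simp) (f := V) (g := V) (h := fun x => t * V (t⁻¹ • x)) (L := L) hL hL ?_ ?_
  · have e : t / 2 * gm (stdGaussian E) V + t / 2 * gm (stdGaussian E) V
        = t * gm (stdGaussian E) V := by ring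
    rwa [e] at h1
  · intro x y
    have e : t * V (t⁻¹ • x) - t * V (t⁻¹ • y) = t * (V (t⁻¹ • x) - V (t⁻¹ • y)) := by ring
    rw [e, abs_mul, abs_of_pos ht0]
    have h2 := hL (t⁻¹ • x) (t⁻¹ • y)
    rw [← smul_sub, norm_smul, Real.norm_of_nonneg (inv_nonneg.2 ht0.le)] at h2
    calc t * |V (t⁻¹ • x) - V (t⁻¹ • y)| ≤ t * (L * (t⁻¹ * ‖x - y‖)) :=
          mul_le_mul_of_nonneg_left h2 ht0.le
      _ = L * ‖x - y‖ := by field_simp
  · intro y z
    have h2 := mul_le_mul_of_nonneg_left (hV y z) ht0.le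
    have e : t⁻¹ • ((t / 2) • y + (t / 2) • z) = (2:ℝ)⁻¹ • (y + z) := by
      rw [smul_add, smul_smul, smul_smul, smul_add]
      congr 2 <;> field_simp
    rw [e]
    linarith

end std

/-! ### Sets -/

section sets

variable {E : Type*} [NormedAddCommGroup E] [InnerProductSpace ℝ E] [FiniteDimensional ℝ E]
  [MeasurableSpace E] [BorelSpace E]

lemma concave_infDist {D : Set E} (hD : Convex ℝ D) (hne : D.Nonempty) (x y : E) :
    Metric.infDist ((2:ℝ)⁻¹ • (x + y)) D ≤ (Metric.infDist x D + Metric.infDist y D) / 2 := by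
  refine le_of_forall_pos_le_add fun δ hδ => ?_
  obtain ⟨u, hu, hu'⟩ := (Metric.infDist_lt_iff hne).1
    (lt_add_of_pos_right (Metric.infDist x D) hδ)
  obtain ⟨v, hv, hv'⟩ := (Metric.infDist_lt_iff hne).1
    (lt_add_of_pos_right (Metric.infDist y D) hδ)
  have hm : (2:ℝ)⁻¹ • (u + v) ∈ D := by
    rw [smul_add]
    exact hD hu hv (by norm_num) (by norm_num) (by norm_num)
  have h1 := Metric.infDist_le_dist_of_mem (x := (2:ℝ)⁻¹ • (x + y)) hm
  have h2 : dist ((2:ℝ)⁻¹ • (x + y)) ((2:ℝ)⁻¹ • (u + v)) ≤ (dist x u + dist y v) / 2 := by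
    rw [dist_eq_norm, dist_eq_norm, dist_eq_norm, ← smul_sub, norm_smul, Real.norm_eq_abs,
      abs_of_pos (by norm_num : (0:ℝ) < 2⁻¹)]
    have : x + y - (u + v) = (x - u) + (y - v) := by abel
    rw [this]
    have := norm_add_le (x - u) (y - v)
    linarith
  linarith

/-- `E Φ(R - R² dist(x, D)) → P(D)`. -/
lemma tendsto_Phi_infDist {Ω : Type*} [MeasurableSpace Ω] (μ : Measure Ω) [IsProbabilityMeasure μ]
    {D : Set E} (hDc : IsClosed D) (hne : D.Nonempty) {T : Ω → E} (hT : Measurable T) {t : ℝ}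
    (ht : 0 < t) :
    Tendsto (fun R : ℕ => ∫ ω, Phi (t * ((R:ℝ) - (R:ℝ) ^ 2 * Metric.infDist (T ω) D)) ∂μ) atTop
      (𝓝 (μ.real {ω | T ω ∈ D})) := by
  have hm : MeasurableSet {ω | T ω ∈ D} := hT hDc.measurableSet
  have h1 : μ.real {ω | T ω ∈ D} = ∫ ω, ({ω | T ω ∈ D}).indicator (fun _ => (1:ℝ)) ω ∂μ := by
    rw [integral_indicator_const (1:ℝ) hm]
    simp
  rw [h1]
  have hmeas : Measurable fun ω => Metric.infDist (T ω) D :=
    (Metric.continuous_infDist_pt D).measurable.comp hT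
  refine tendsto_integral_of_dominated_convergence (fun _ => (1:ℝ)) ?_ (integrable_const _) ?_ ?_
  · intro R
    exact (continuous_Phi.measurable.comp
      ((measurable_const.sub (hmeas.const_mul ((R:ℝ) ^ 2))).const_mul t)).aestronglyMeasurable
  · intro R
    refine Eventually.of_forall fun ω => ?_
    rw [Real.norm_of_nonneg (Phi_nonneg _)]
    exact (Phi_lt_one _).le
  · refine Eventually.of_forall fun ω => ?_
    by_cases hω : T ω ∈ D
    · rw [indicator_of_mem (show ω ∈ {ω | T ω ∈ D} from hω)]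
      refine tendsto_Phi_atTop.comp ?_
      have : Metric.infDist (T ω) D = 0 := Metric.infDist_zero_of_mem hω
      simp only [this, mul_zero, sub_zero]
      exact tendsto_natCast_atTop_atTop.const_mul_atTop ht
    · rw [indicator_of_notMem (show ω ∉ {ω | T ω ∈ D} from hω)]
      refine tendsto_Phi_atBot.comp ?_
      have hpos : 0 < Metric.infDist (T ω) D := (hDc.notMem_iff_infDist_pos hne).1 hω
      set d := Metric.infDist (T ω) D with hd
      have h2 : Tendsto (fun R : ℕ => (R:ℝ)) atTop atTop := tendsto_natCast_atTop_atTop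
      have h3 : Tendsto (fun x : ℝ => t * (x - x ^ 2 * d)) atTop atBot := by
        have e : (fun x : ℝ => t * (x - x ^ 2 * d)) = fun x => (t * x) * (1 + (-d) * x) := by
          funext x; ring
        rw [e]
        have u1 : Tendsto (fun x : ℝ => t * x) atTop atTop := tendsto_id.const_mul_atTop ht
        have u2 : Tendsto (fun x : ℝ => 1 + (-d) * x) atTop atBot :=
          tendsto_atBot_add_const_left _ _ (tendsto_id.const_mul_atTop_of_neg (by linarith))
        exact u1.atTop_mul_atBot₀ u2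
      exact h3.comp h2

/-- **Dilation of a closed convex set**: `γ(D) ≥ Φ(s)` implies `γ(t D) ≥ Φ(t s)` for `t ≥ 1`. -/
theorem dilate_set {D : Set E} (hD : Convex ℝ D) (hDc : IsClosed D) {t s : ℝ} (ht : 1 ≤ t)
    (hs : Phi s ≤ (stdGaussian E).real D) :
    Phi (t * s) ≤ (stdGaussian E).real {x | t⁻¹ • x ∈ D} := by
  have ht0 : 0 < t := by linarith
  have hne : D.Nonempty := by
    by_contra h
    rw [not_nonempty_iff_eq_empty] at h
    rw [h] at hs
    simp only [measureReal_empty] at hs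
    exact absurd (Phi_pos s) (not_lt.2 hs)
  -- enough for `s' < s`
  have key : ∀ s' < s, Phi (t * s') ≤ (stdGaussian E).real {x | t⁻¹ • x ∈ D} := by
    intro s' hs'
    have l1 := tendsto_Phi_infDist (stdGaussian E) hDc hne (T := fun x => x) measurable_id
      (t := 1) one_pos
    have l2 := tendsto_Phi_infDist (stdGaussian E) hDc hne (T := fun x => t⁻¹ • x)
      (measurable_id.const_smul t⁻¹) (t := t) ht0
    have hlt : Phi s' < (stdGaussian E).real {x | x ∈ D} := (strictMono_Phi hs').trans_le hs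
    have ev := l1.eventually (lt_mem_nhds hlt)
    refine ge_of_tendsto l2 ?_
    filter_upwards [ev] with R hR
    set V : E → ℝ := fun x => (R:ℝ) - (R:ℝ) ^ 2 * Metric.infDist x D with hVdef
    have hL : ∀ x y, |V x - V y| ≤ (R:ℝ) ^ 2 * ‖x - y‖ := by
      intro x y
      have e : V x - V y = (R:ℝ) ^ 2 * (Metric.infDist y D - Metric.infDist x D) := by
        simp only [hVdef]; ring
      rw [e, abs_mul, abs_of_nonneg (sq_nonneg _)]
      refine mul_le_mul_of_nonneg_left ?_ (sq_nonneg _)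
      have := (Metric.lipschitz_infDist_pt D).dist_le_mul y x
      rw [Real.dist_eq, NNReal.coe_one, one_mul, dist_comm, dist_eq_norm] at this
      exact this
    have hV : ∀ x y, (V x + V y) / 2 ≤ V ((2:ℝ)⁻¹ • (x + y)) := by
      intro x y
      have h1 := mul_le_mul_of_nonneg_left (concave_infDist hD hne x y) (sq_nonneg (R:ℝ))
      simp only [hVdef]
      linarith
    have cV := cont_of_lip' hL
    have h1 : s' ≤ gm (stdGaussian E) V := by
      rw [← strictMono_Phi.le_iff_le, Phi_gm _ cV.aemeasurable]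
      simpa [hVdef] using hR.le
    have h2 := dilate hL hV ht
    have h3 : t * s' ≤ gm (stdGaussian E) (fun x => t * V (t⁻¹ • x)) :=
      (mul_le_mul_of_nonneg_left h1 ht0.le).trans h2
    have c2 : Continuous fun x : E => t * V (t⁻¹ • x) := by fun_prop
    have h4 := strictMono_Phi.monotone h3
    rw [Phi_gm _ c2.aemeasurable] at h4
    exact h4
  have hc : Tendsto (fun s' => Phi (t * s')) (𝓝[<] s) (𝓝 (Phi (t * s))) :=
    ((continuous_Phi.comp (continuous_const.mul continuous_id)).tendsto s).mono_left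
      nhdsWithin_le_nhds
  exact le_of_tendsto hc (eventually_nhdsWithin_of_forall fun s' hs' => key s' hs')

/-- `Psi` form of `dilate_set`. -/
theorem dilate_set_Psi {D : Set E} (hD : Convex ℝ D) (hDc : IsClosed D) {t : ℝ} (ht : 1 ≤ t)
    (h0 : 0 < (stdGaussian E).real D) (h1 : (stdGaussian E).real D < 1) :
    Phi (t * Psi ((stdGaussian E).real D)) ≤ (stdGaussian E).real {x | t⁻¹ • x ∈ D} :=
  dilate_set hD hDc ht (Phi_Psi h0 h1).le

/-- **`N(0, r²)` against `N(0, 1)` for complements of closed convex sets** (`r ≥ 1`):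
if `N(0,r²)(Dᶜ) ≤ Φ(-x)` then `N(0,1)(Dᶜ) ≤ Φ(-r x)`. -/
theorem compl_le {D : Set E} (hD : Convex ℝ D) (hDc : IsClosed D) {r x : ℝ} (hr : 1 ≤ r)
    (hx : ((stdGaussian E).map (fun y => r • y)).real Dᶜ ≤ Phi (-x)) :
    (stdGaussian E).real Dᶜ ≤ Phi (-(r * x)) := by
  have hr0 : 0 < r := by linarith
  have hmap : Measurable fun y : E => r • y := measurable_id.const_smul r
  set D' : Set E := {y | r • y ∈ D} with hD'
  have hD'conv : Convex ℝ D' := by
    have : D' = (LinearMap.lsmul ℝ E r) ⁻¹' D := rfl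
    rw [this]; exact hD.linear_preimage _
  have hD'c : IsClosed D' := hDc.preimage (continuous_const_smul r)
  have e1 : ((stdGaussian E).map (fun y => r • y)).real Dᶜ = 1 - (stdGaussian E).real D' := by
    rw [map_measureReal_apply hmap hDc.measurableSet.compl]
    have : (fun y : E => r • y) ⁻¹' Dᶜ = D'ᶜ := rfl
    rw [this, measureReal_compl hD'c.measurableSet]
    simp
  have e2 : (stdGaussian E).real Dᶜ = 1 - (stdGaussian E).real D := by
    rw [measureReal_compl hDc.measurableSet]; simp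
  have h1 : Phi x ≤ (stdGaussian E).real D' := by
    rw [e1, Phi_neg] at hx; linarith
  have h2 := dilate_set hD'conv hD'c hr h1
  have e3 : {y : E | r⁻¹ • y ∈ D'} = D := by
    ext y
    simp only [hD', mem_ofPred_eq, smul_smul, mul_inv_cancel₀ hr0.ne', one_smul]
  rw [e3] at h2
  rw [e2, Phi_neg]
  linarith

end sets

end Crest.Agent.R239.Borell842
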