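import Crest.Agent.R239.TraceSplit245

/-!
# R239: the contraction product

`stp c v = 1 - c v vᵀ`, `AP c u` = ordered product over the word `u` (first vector acts first),
`DD c u = n - ‖AP c u‖²_HS`.  Exact identities, splitting lemma, structure of unsplittable words,
backward martingale frame, reset of the fast part.
-/

set_option autoImplicit false
set_option linter.unusedSectionVars false

open Matrix

namespace Crest.Agent.R239

variable {ι κ : Type*} [Fintype ι] [DecidableEq ι] [Fintype κ] [DecidableEq κ]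

/-! ### traces of products of positive matrices -/

lemma trace_mul_nonneg {P Q : Matrix ι ι ℝ} (hP : P.PosSemidef) (hQ : Q.PosSemidef) :
    0 ≤ (P * Q).trace := by
  rw [trace_eq_sum_dot (P * Q) hQ.1.eigenvectorBasis]
  refine Finset.sum_nonneg fun i _ => ?_
  rw [← mulVec_mulVec, hQ.1.mulVec_eigenvectorBasis, mulVec_smul, dotProduct_smul]
  exact mul_nonneg (hQ.eigenvalues_nonneg i) (dot_nonneg hP _)

/-- squared Hilbert–Schmidt norm -/
noncomputable def hs (A : Matrix κ ι ℝ) : ℝ := (Aᵀ * A).trace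

lemma hs_eq_sum (A : Matrix κ ι ℝ) : hs A = ∑ i, ∑ j, A j i ^ 2 := by
  simp only [hs, trace, diag, mul_apply, transpose_apply]
  exact Finset.sum_congr rfl fun i _ => Finset.sum_congr rfl fun j _ => by ring

lemma hs_nonneg (A : Matrix κ ι ℝ) : 0 ≤ hs A := by
  rw [hs_eq_sum]
  exact Finset.sum_nonneg fun i _ => Finset.sum_nonneg fun j _ => sq_nonneg _

lemma hs_transpose (A : Matrix κ ι ℝ) : hs Aᵀ = hs A := by
  rw [hs, hs, transpose_transpose, trace_mul_comm]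

lemma hs_one : hs (1 : Matrix ι ι ℝ) = Fintype.card ι := by simp [hs]

lemma psd_transpose_mul_self (A : Matrix κ ι ℝ) : (Aᵀ * A).PosSemidef := by
  have := posSemidef_conjTranspose_mul_self A
  rwa [conjTranspose_eq_transpose_of_trivial] at this

lemma psd_mul_transpose_self (A : Matrix ι κ ℝ) : (A * Aᵀ).PosSemidef := by
  have := posSemidef_self_mul_conjTranspose A
  rwa [conjTranspose_eq_transpose_of_trivial] at this

lemma psd_conj {P : Matrix ι ι ℝ} (hP : P.PosSemidef) (B : Matrix ι κ ℝ) :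
    (Bᵀ * P * B).PosSemidef := by
  have := hP.conjTranspose_mul_mul_same B
  rwa [conjTranspose_eq_transpose_of_trivial] at this

/-! ### one step -/

/-- `1 - c v vᵀ` -/
noncomputable def stp (c : ℝ) (v : EuclideanSpace ℝ ι) : Matrix ι ι ℝ :=
  1 - c • vecMulVec v.ofLp v.ofLp

lemma dot_self_eq (v : EuclideanSpace ℝ ι) : v.ofLp ⬝ᵥ v.ofLp = ‖v‖ ^ 2 := by
  rw [EuclideanSpace.real_norm_sq_eq, dotProduct]
  exact Finset.sum_congr rfl fun j _ => by ring

lemma stp_transpose (c : ℝ) (v : EuclideanSpace ℝ ι) : (stp c v)ᵀ = stp c v := by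
  rw [stp, transpose_sub, transpose_one, transpose_smul, transpose_vecMulVec]

lemma psd_vecMulVec (w : ι → ℝ) : (vecMulVec w w).PosSemidef := by
  have := posSemidef_vecMulVec_self_star (R := ℝ) w
  simpa using this

lemma stp_mul_stp (c : ℝ) (v : EuclideanSpace ℝ ι) :
    stp c v * stp c v = 1 - (2 * c - c ^ 2 * ‖v‖ ^ 2) • vecMulVec v.ofLp v.ofLp := by
  have h : vecMulVec v.ofLp v.ofLp * vecMulVec v.ofLp v.ofLp
      = ‖v‖ ^ 2 • vecMulVec v.ofLp v.ofLp := by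
    rw [vecMulVec_mul_vecMulVec, dot_self_eq, vecMulVec_smul]
  rw [stp, sub_mul, mul_sub, mul_sub, one_mul, mul_one, one_mul, smul_mul_smul_comm, h, smul_smul]
  module

/-- the coefficient `2c - c²|v|²` of the noise of one step -/
noncomputable def nc (c : ℝ) (v : EuclideanSpace ℝ ι) : ℝ := 2 * c - c ^ 2 * ‖v‖ ^ 2

lemma nc_le {c : ℝ} (v : EuclideanSpace ℝ ι) : nc c v ≤ 2 * c := by
  unfold nc
  have := mul_nonneg (sq_nonneg c) (sq_nonneg ‖v‖)
  linarith

lemma le_nc {c : ℝ} (hc : 0 ≤ c) {v : EuclideanSpace ℝ ι} (hv : c * ‖v‖ ^ 2 ≤ 1) : c ≤ nc c v := by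
  unfold nc
  have := mul_le_mul_of_nonneg_left hv hc
  nlinarith

lemma one_sub_stp_sq (c : ℝ) (v : EuclideanSpace ℝ ι) :
    1 - stp c v * stp c v = nc c v • vecMulVec v.ofLp v.ofLp := by
  rw [stp_mul_stp, nc]; abel

lemma psd_one_sub_stp_sq {c : ℝ} (hc : 0 ≤ c) {v : EuclideanSpace ℝ ι} (hv : c * ‖v‖ ^ 2 ≤ 1) :
    (1 - stp c v * stp c v).PosSemidef := by
  rw [one_sub_stp_sq]
  exact (psd_vecMulVec _).smul (hc.trans (le_nc hc hv))

/-! ### the product -/

/-- admissible words -/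
def Adm (c : ℝ) (u : List (EuclideanSpace ℝ ι)) : Prop := ∀ v ∈ u, c * ‖v‖ ^ 2 ≤ 1

lemma Adm.cons {c : ℝ} {v : EuclideanSpace ℝ ι} {u : List (EuclideanSpace ℝ ι)}
    (h : Adm c (v :: u)) : c * ‖v‖ ^ 2 ≤ 1 ∧ Adm c u :=
  ⟨h v (by simp), fun w hw => h w (by simp [hw])⟩

lemma adm_append {c : ℝ} {u w : List (EuclideanSpace ℝ ι)} :
    Adm c (u ++ w) ↔ Adm c u ∧ Adm c w := by
  simp only [Adm, List.mem_append]
  exact ⟨fun h => ⟨fun v hv => h v (Or.inl hv), fun v hv => h v (Or.inr hv)⟩,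
    fun h v hv => hv.elim (h.1 v) (h.2 v)⟩

lemma adm_nil (c : ℝ) : Adm c ([] : List (EuclideanSpace ℝ ι)) := by simp [Adm]

/-- ordered product, the first vector acts first -/
noncomputable def AP (c : ℝ) : List (EuclideanSpace ℝ ι) → Matrix ι ι ℝ
  | [] => 1
  | v :: u => AP c u * stp c v

@[simp] lemma AP_nil (c : ℝ) : AP c ([] : List (EuclideanSpace ℝ ι)) = 1 := rfl

@[simp] lemma AP_cons (c : ℝ) (v : EuclideanSpace ℝ ι) (u : List (EuclideanSpace ℝ ι)) :
    AP c (v :: u) = AP c u * stp c v := rfl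

lemma AP_append (c : ℝ) (u w : List (EuclideanSpace ℝ ι)) : AP c (u ++ w) = AP c w * AP c u := by
  induction u with
  | nil => simp
  | cons v u ih => simp [ih, Matrix.mul_assoc]

lemma AP_concat (c : ℝ) (u : List (EuclideanSpace ℝ ι)) (v : EuclideanSpace ℝ ι) :
    AP c (u ++ [v]) = stp c v * AP c u := by
  rw [AP_append]; simp

/-- `G = A Aᵀ` -/
noncomputable def GA (c : ℝ) (u : List (EuclideanSpace ℝ ι)) : Matrix ι ι ℝ := AP c u * (AP c u)ᵀ

/-- `H = Aᵀ A` -/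
noncomputable def HA (c : ℝ) (u : List (EuclideanSpace ℝ ι)) : Matrix ι ι ℝ := (AP c u)ᵀ * AP c u

lemma psd_GA (c : ℝ) (u : List (EuclideanSpace ℝ ι)) : (GA c u).PosSemidef :=
  psd_mul_transpose_self _

lemma psd_HA (c : ℝ) (u : List (EuclideanSpace ℝ ι)) : (HA c u).PosSemidef :=
  psd_transpose_mul_self _

lemma trace_GA (c : ℝ) (u : List (EuclideanSpace ℝ ι)) : (GA c u).trace = hs (AP c u) := by
  rw [GA, hs, trace_mul_comm]

lemma trace_HA (c : ℝ) (u : List (EuclideanSpace ℝ ι)) : (HA c u).trace = hs (AP c u) := rfl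

lemma psd_one_sub_HA {c : ℝ} (hc : 0 ≤ c) :
    ∀ {u : List (EuclideanSpace ℝ ι)}, Adm c u → (1 - HA c u).PosSemidef := by
  intro u
  induction u with
  | nil => intro _; simpa [HA] using PosSemidef.zero
  | cons v u ih =>
    intro h
    have h1 := psd_conj (ih h.cons.2) (stp c v)
    have h2 := (psd_one_sub_stp_sq hc h.cons.1).add h1
    have e : 1 - stp c v * stp c v + (stp c v)ᵀ * (1 - HA c u) * stp c v = 1 - HA c (v :: u) := by
      rw [stp_transpose, mul_sub, sub_mul, mul_one, HA, HA, AP_cons, transpose_mul, stp_transpose]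
      simp only [Matrix.mul_assoc]
      abel
    rwa [e] at h2

lemma psd_one_sub_GA {c : ℝ} (hc : 0 ≤ c) :
    ∀ {u : List (EuclideanSpace ℝ ι)}, Adm c u → (1 - GA c u).PosSemidef := by
  intro u
  induction u with
  | nil => intro _; simpa [GA] using PosSemidef.zero
  | cons v u ih =>
    intro h
    have h1 := psd_conj (psd_one_sub_stp_sq hc h.cons.1) (AP c u)ᵀ
    have h2 := (ih h.cons.2).add h1
    have e : 1 - GA c u + ((AP c u)ᵀ)ᵀ * (1 - stp c v * stp c v) * (AP c u)ᵀ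
        = 1 - GA c (v :: u) := by
      rw [transpose_transpose, mul_sub, sub_mul, mul_one, GA, GA, AP_cons, transpose_mul,
        stp_transpose]
      simp only [Matrix.mul_assoc]
      abel
    rwa [e] at h2

/-! ### the potential -/

/-- `D(u) = n - ‖A_u‖²_HS` -/
noncomputable def DD (c : ℝ) (u : List (EuclideanSpace ℝ ι)) : ℝ :=
  Fintype.card ι - hs (AP c u)

lemma hs_AP_append (c : ℝ) (u w : List (EuclideanSpace ℝ ι)) :
    hs (AP c (u ++ w)) = (GA c u * HA c w).trace := by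
  rw [AP_append, hs, transpose_mul, GA, HA]
  calc ((AP c u)ᵀ * (AP c w)ᵀ * (AP c w * AP c u)).trace
      = ((AP c u)ᵀ * ((AP c w)ᵀ * AP c w * AP c u)).trace := by simp only [Matrix.mul_assoc]
    _ = ((AP c w)ᵀ * AP c w * AP c u * (AP c u)ᵀ).trace := by rw [trace_mul_comm]
    _ = ((AP c w)ᵀ * AP c w * (AP c u * (AP c u)ᵀ)).trace := by simp only [Matrix.mul_assoc]
    _ = _ := by rw [trace_mul_comm]

lemma DD_nil (c : ℝ) : DD c ([] : List (EuclideanSpace ℝ ι)) = 0 := by simp [DD, hs_one]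

lemma DD_le (c : ℝ) (u : List (EuclideanSpace ℝ ι)) : DD c u ≤ Fintype.card ι := by
  have := hs_nonneg (AP c u)
  unfold DD
  linarith

/-- exact identity: `D(u w) = D(u) + tr G_u (1 - H_w)` -/
lemma DD_append_left (c : ℝ) (u w : List (EuclideanSpace ℝ ι)) :
    DD c (u ++ w) = DD c u + (GA c u * (1 - HA c w)).trace := by
  rw [DD, DD, hs_AP_append, mul_sub, mul_one, trace_sub, trace_GA]
  ring

/-- exact identity: `D(u w) = D(w) + tr H_w (1 - G_u)` -/
lemma DD_append_right (c : ℝ) (u w : List (EuclideanSpace ℝ ι)) :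
    DD c (u ++ w) = DD c w + (HA c w * (1 - GA c u)).trace := by
  rw [DD, DD, hs_AP_append, mul_sub, mul_one, trace_sub, trace_HA, trace_mul_comm (HA c w)]
  ring

lemma DD_mono_left {c : ℝ} (hc : 0 ≤ c) (u : List (EuclideanSpace ℝ ι))
    {w : List (EuclideanSpace ℝ ι)} (hw : Adm c w) : DD c u ≤ DD c (u ++ w) := by
  rw [DD_append_left]
  linarith [trace_mul_nonneg (psd_GA c u) (psd_one_sub_HA hc hw)]

lemma DD_mono_right {c : ℝ} (hc : 0 ≤ c) {u : List (EuclideanSpace ℝ ι)} (hu : Adm c u)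
    (w : List (EuclideanSpace ℝ ι)) : DD c w ≤ DD c (u ++ w) := by
  rw [DD_append_right]
  linarith [trace_mul_nonneg (psd_HA c w) (psd_one_sub_GA hc hu)]

lemma DD_nonneg {c : ℝ} (hc : 0 ≤ c) {u : List (EuclideanSpace ℝ ι)} (hu : Adm c u) :
    0 ≤ DD c u := by
  have := DD_mono_left hc ([] : List (EuclideanSpace ℝ ι)) hu
  rwa [DD_nil, List.nil_append] at this

lemma DD_infix {c : ℝ} (hc : 0 ≤ c) {x p y : List (EuclideanSpace ℝ ι)} (hx : Adm c x)
    (hy : Adm c y) : DD c p ≤ DD c (x ++ p ++ y) :=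
  (DD_mono_right hc hx p).trans (DD_mono_left hc _ hy)

/-- subadditivity -/
lemma DD_subadd {c : ℝ} (hc : 0 ≤ c) {u w : List (EuclideanSpace ℝ ι)} (hu : Adm c u)
    (hw : Adm c w) : DD c (u ++ w) ≤ DD c u + DD c w := by
  rw [DD_append_left]
  have h := trace_mul_nonneg (psd_one_sub_GA hc hu) (psd_one_sub_HA hc hw)
  rw [sub_mul, one_mul, trace_sub, trace_sub, trace_HA, trace_one] at h
  have : DD c w = Fintype.card ι - hs (AP c w) := rfl
  linarith

lemma DD_single {c : ℝ} (v : EuclideanSpace ℝ ι) : DD c [v] = nc c v * ‖v‖ ^ 2 := by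
  have h : hs (AP c [v]) = (Fintype.card ι : ℝ) - nc c v * ‖v‖ ^ 2 := by
    rw [AP_cons, AP_nil, one_mul, hs, stp_transpose]
    have h1 := one_sub_stp_sq c v
    have h2 : stp c v * stp c v = 1 - nc c v • vecMulVec v.ofLp v.ofLp := by rw [← h1]; abel
    rw [h2, trace_sub, trace_one, trace_smul, trace_vecMulVec, dot_self_eq]
    simp
  rw [DD, h]; ring

/-- one more vector adds at most `2 c |v|²` -/
lemma DD_concat_le {c : ℝ} (hc : 0 ≤ c) {u : List (EuclideanSpace ℝ ι)} (hu : Adm c u)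
    {v : EuclideanSpace ℝ ι} (hv : c * ‖v‖ ^ 2 ≤ 1) : DD c (u ++ [v]) ≤ DD c u + 2 * c * ‖v‖ ^ 2 := by
  refine (DD_subadd hc hu (w := [v]) (by intro w hw; simp at hw; rwa [hw])).trans ?_
  rw [DD_single]
  have := mul_le_mul_of_nonneg_right (nc_le (c := c) v) (sq_nonneg ‖v‖)
  linarith

/-! ### splitting -/

/-- the unsplittable case: a cut `u = a ++ b` where both halves have almost full potential -/
def Gap (c δ : ℝ) (u : List (EuclideanSpace ℝ ι)) : Prop :=
  ∃ a b, u = a ++ b ∧ DD c u - δ ≤ DD c a ∧ DD c u - δ ≤ DD c b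

/-- **splitting lemma** -/
theorem cp_split {c δ : ℝ} (hδ : 0 < δ) (u : List (EuclideanSpace ℝ ι)) (hu : δ ≤ DD c u) :
    (∃ u₁ v u₂, u = u₁ ++ v :: u₂ ∧ DD c u₁ ≤ DD c u - δ ∧ DD c u₂ ≤ DD c u - δ) ∨ Gap c δ u := by
  obtain ⟨u₁, v, u₂, e, h1, h2⟩ := exists_first_prefix (fun w => DD c u - δ < DD c w) u
    (by rw [DD_nil]; linarith) (by linarith)
  by_cases h3 : DD c u₂ ≤ DD c u - δ
  · exact Or.inl ⟨u₁, v, u₂, e, not_lt.1 h1, h3⟩
  · exact Or.inr ⟨u₁ ++ [v], u₂, by rw [e]; simp, h2.le, (not_le.1 h3).le⟩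

/-- cutting into minimal pieces -/
theorem exists_cp_pieces {c d : ℝ} (hd : 0 < d) (u : List (EuclideanSpace ℝ ι)) :
    ∃ (ps : List (List (EuclideanSpace ℝ ι))) (r : List (EuclideanSpace ℝ ι)),
      u = ps.flatten ++ r ∧ DD c r < d ∧
      ∀ p ∈ ps, d ≤ DD c p ∧ ∃ q v, p = q ++ [v] ∧ DD c q < d := by
  induction hn : u.length using Nat.strong_induction_on generalizing u with
  | _ n ih =>
    by_cases hu : DD c u < d
    · exact ⟨[], u, by simp, hu, by simp⟩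
    · obtain ⟨u₁, v, u₂, e, h1, h2⟩ := exists_first_prefix (fun w => d ≤ DD c w) u
        (by rw [DD_nil]; linarith) (not_lt.1 hu)
      obtain ⟨ps, r, e2, h3, h4⟩ := ih u₂.length (by
        rw [← hn, e]; simp; omega) u₂ rfl
      refine ⟨(u₁ ++ [v]) :: ps, r, ?_, h3, ?_⟩
      · rw [e, e2]; simp
      · intro p hp
        rcases List.mem_cons.1 hp with rfl | hp
        · exact ⟨h2, u₁, v, rfl, not_le.1 h1⟩
        · exact h4 p hp

/-! ### `tr X(1-X)` -/

/-- `tr X (1 - X)` -/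
noncomputable def rr (X : Matrix ι ι ℝ) : ℝ := X.trace - (X * X).trace

lemma rr_eq (X : Matrix ι ι ℝ) : rr X = (X * (1 - X)).trace := by
  rw [rr, mul_sub, mul_one, trace_sub]

lemma rr_nonneg {X : Matrix ι ι ℝ} (h0 : X.PosSemidef) (h1 : (1 - X).PosSemidef) : 0 ≤ rr X := by
  rw [rr_eq]; exact trace_mul_nonneg h0 h1

lemma rr_le_of_le {X Y : Matrix ι ι ℝ} (hX : (1 - X).PosSemidef) (hY : (1 - Y).PosSemidef)
    (h : (Y - X).PosSemidef) : rr X ≤ rr Y + (Y.trace - X.trace) := by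
  have h1 := trace_mul_nonneg h hY
  have h2 := trace_mul_nonneg hX h
  simp only [mul_sub, sub_mul, mul_one, one_mul, trace_sub] at h1 h2
  rw [rr, rr]
  have h3 := trace_mul_comm X Y
  linarith

lemma rr_le_of_ge {X Y : Matrix ι ι ℝ} (hX0 : X.PosSemidef) (hY0 : Y.PosSemidef)
    (h : (Y - X).PosSemidef) : rr Y ≤ rr X + (Y.trace - X.trace) := by
  have h1 := trace_mul_nonneg hX0 h
  have h2 := trace_mul_nonneg h hY0
  simp only [mul_sub, sub_mul, trace_sub] at h1 h2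
  rw [rr, rr]
  linarith

/-- `tr (AᵀA)² = tr (AAᵀ)²` -/
lemma rr_GA_eq (c : ℝ) (u : List (EuclideanSpace ℝ ι)) : rr (GA c u) = rr (HA c u) := by
  rw [rr, rr, trace_GA, trace_HA]
  congr 1
  rw [GA, HA]
  calc (AP c u * (AP c u)ᵀ * (AP c u * (AP c u)ᵀ)).trace
      = (AP c u * ((AP c u)ᵀ * AP c u * (AP c u)ᵀ)).trace := by simp only [Matrix.mul_assoc]
    _ = ((AP c u)ᵀ * AP c u * (AP c u)ᵀ * AP c u).trace := by rw [trace_mul_comm]
    _ = _ := by simp only [Matrix.mul_assoc]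

/-- at the cut: exact identity and the three small quantities -/
theorem cut_identity (c : ℝ) (a b : List (EuclideanSpace ℝ ι)) :
    rr (GA c a) + rr (HA c b) + ((GA c a - HA c b) * (GA c a - HA c b)).trace
      = (DD c (a ++ b) - DD c a) + (DD c (a ++ b) - DD c b) := by
  have h1 := DD_append_left c a b
  have h2 := DD_append_right c a b
  rw [mul_sub, mul_one, trace_sub] at h1 h2
  rw [rr, rr]
  simp only [mul_sub, sub_mul, trace_sub]
  have h3 := trace_mul_comm (GA c a) (HA c b)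
  linarith

lemma trace_sq_nonneg {X : Matrix ι ι ℝ} (h : Xᵀ = X) : 0 ≤ (X * X).trace := by
  have := hs_nonneg X
  rwa [hs, h] at this

lemma GA_transpose (c : ℝ) (u : List (EuclideanSpace ℝ ι)) : (GA c u)ᵀ = GA c u := by
  simp [GA, transpose_mul]

lemma HA_transpose (c : ℝ) (u : List (EuclideanSpace ℝ ι)) : (HA c u)ᵀ = HA c u := by
  simp [HA, transpose_mul]

/-- `H_{u w} ≤ H_u` -/
lemma HA_append_le {c : ℝ} (hc : 0 ≤ c) (u : List (EuclideanSpace ℝ ι))
    {w : List (EuclideanSpace ℝ ι)} (hw : Adm c w) : (HA c u - HA c (u ++ w)).PosSemidef := by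
  have h := psd_conj (psd_one_sub_HA hc hw) (AP c u)
  have e : (AP c u)ᵀ * (1 - HA c w) * AP c u = HA c u - HA c (u ++ w) := by
    rw [mul_sub, sub_mul, mul_one, HA, HA, HA, AP_append, transpose_mul]
    simp only [Matrix.mul_assoc]
  rwa [e] at h

/-- `G_{u w} ≤ G_w` -/
lemma GA_append_le {c : ℝ} (hc : 0 ≤ c) {u : List (EuclideanSpace ℝ ι)} (hu : Adm c u)
    (w : List (EuclideanSpace ℝ ι)) : (GA c w - GA c (u ++ w)).PosSemidef := by
  have h := psd_conj (psd_one_sub_GA hc hu) (AP c w)ᵀ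
  have e : ((AP c w)ᵀ)ᵀ * (1 - GA c u) * (AP c w)ᵀ = GA c w - GA c (u ++ w) := by
    rw [transpose_transpose, mul_sub, sub_mul, mul_one, GA, GA, GA, AP_append, transpose_mul]
    simp only [Matrix.mul_assoc]
  rwa [e] at h

lemma rr_append_left {c : ℝ} (hc : 0 ≤ c) {u w : List (EuclideanSpace ℝ ι)} (hu : Adm c u)
    (hw : Adm c w) : rr (HA c (u ++ w)) ≤ rr (HA c u) + (DD c (u ++ w) - DD c u) := by
  have := rr_le_of_le (psd_one_sub_HA hc (adm_append.2 ⟨hu, hw⟩)) (psd_one_sub_HA hc hu)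
    (HA_append_le hc u hw)
  rw [trace_HA, trace_HA] at this
  rw [DD, DD]
  linarith

lemma rr_le_append_left {c : ℝ} (hc : 0 ≤ c) {u w : List (EuclideanSpace ℝ ι)}
    (hw : Adm c w) : rr (HA c u) ≤ rr (HA c (u ++ w)) + (DD c (u ++ w) - DD c u) := by
  have := rr_le_of_ge (psd_HA c (u ++ w)) (psd_HA c u) (HA_append_le hc u hw)
  rw [trace_HA, trace_HA] at this
  rw [DD, DD]
  linarith

lemma rr_append_right {c : ℝ} (hc : 0 ≤ c) {u w : List (EuclideanSpace ℝ ι)} (hu : Adm c u)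
    (hw : Adm c w) : rr (HA c (u ++ w)) ≤ rr (HA c w) + (DD c (u ++ w) - DD c w) := by
  have := rr_le_of_le (psd_one_sub_GA hc (adm_append.2 ⟨hu, hw⟩)) (psd_one_sub_GA hc hw)
    (GA_append_le hc hu w)
  rw [trace_GA, trace_GA, rr_GA_eq, rr_GA_eq] at this
  rw [DD, DD]
  linarith

lemma rr_le_append_right {c : ℝ} (hc : 0 ≤ c) {u : List (EuclideanSpace ℝ ι)} (hu : Adm c u)
    (w : List (EuclideanSpace ℝ ι)) : rr (HA c w) ≤ rr (HA c (u ++ w)) + (DD c (u ++ w) - DD c w) := by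
  have := rr_le_of_ge (psd_GA c (u ++ w)) (psd_GA c w) (GA_append_le hc hu w)
  rw [trace_GA, trace_GA, rr_GA_eq, rr_GA_eq] at this
  rw [DD, DD]
  linarith

/-- **unsplittable words are almost projections**: `tr G(1-G) ≤ 3δ` for `G = A_u A_uᵀ` -/
theorem Gap.rr_le {c δ : ℝ} (hc : 0 ≤ c) {u : List (EuclideanSpace ℝ ι)} (hu : Adm c u)
    (h : Gap c δ u) : rr (GA c u) ≤ 3 * δ := by
  obtain ⟨a, b, rfl, h1, h2⟩ := h
  obtain ⟨ha, hb⟩ := adm_append.1 hu
  have h3 := cut_identity c a b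
  have h4 : 0 ≤ ((GA c a - HA c b) * (GA c a - HA c b)).trace :=
    trace_sq_nonneg (by rw [transpose_sub, GA_transpose, HA_transpose])
  have h5 : 0 ≤ rr (HA c b) := rr_nonneg (psd_HA c b) (psd_one_sub_HA hc hb)
  have h6 := rr_append_left hc ha hb
  rw [← rr_GA_eq c a] at h6
  rw [rr_GA_eq]
  linarith

/-- every sub-word `p` with `D(p) ≥ D(u) - δ` of an unsplittable word is almost a projection -/
theorem Gap.rr_piece {c δ : ℝ} (hc : 0 ≤ c) {x p y : List (EuclideanSpace ℝ ι)}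
    (hu : Adm c (x ++ p ++ y)) (h : Gap c δ (x ++ p ++ y))
    (hp : DD c (x ++ p ++ y) - δ ≤ DD c p) : rr (GA c p) ≤ 4 * δ := by
  have h1 := h.rr_le hc hu
  obtain ⟨hxp, hy⟩ := adm_append.1 hu
  obtain ⟨hx, hp'⟩ := adm_append.1 hxp
  have h2 := rr_le_append_left (u := x ++ p) hc hy
  have h3 := rr_le_append_right hc hx p
  rw [rr_GA_eq] at h1 ⊢
  linarith

/-! ### eigenframe of `A_u A_uᵀ` -/

/-- eigenvalues of `A_u A_uᵀ` -/
noncomputable def gl (c : ℝ) (u : List (EuclideanSpace ℝ ι)) : ι → ℝ := (psd_GA c u).1.eigenvalues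

/-- eigenbasis of `A_u A_uᵀ` -/
noncomputable def gb (c : ℝ) (u : List (EuclideanSpace ℝ ι)) :
    OrthonormalBasis ι ℝ (EuclideanSpace ℝ ι) := (psd_GA c u).1.eigenvectorBasis

lemma gl_nonneg (c : ℝ) (u : List (EuclideanSpace ℝ ι)) (i : ι) : 0 ≤ gl c u i :=
  (psd_GA c u).eigenvalues_nonneg i

lemma GA_mulVec_gb (c : ℝ) (u : List (EuclideanSpace ℝ ι)) (i : ι) :
    GA c u *ᵥ (gb c u i).ofLp = gl c u i • (gb c u i).ofLp :=
  (psd_GA c u).1.mulVec_eigenvectorBasis i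

lemma dot_gb (c : ℝ) (u : List (EuclideanSpace ℝ ι)) (i j : ι) :
    (gb c u i).ofLp ⬝ᵥ (gb c u j).ofLp = if i = j then 1 else 0 := by
  have h := orthonormal_iff_ite.1 (gb c u).orthonormal i j
  rw [EuclideanSpace.inner_eq_star_dotProduct, dotProduct_comm] at h
  simpa using h

lemma gl_le_one {c : ℝ} (hc : 0 ≤ c) {u : List (EuclideanSpace ℝ ι)} (hu : Adm c u) (i : ι) :
    gl c u i ≤ 1 := by
  have h := dot_nonneg (psd_one_sub_GA hc hu) (gb c u i).ofLp
  rw [sub_mulVec, one_mulVec, GA_mulVec_gb, dotProduct_sub, dotProduct_smul, dot_gb] at h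
  simp at h
  linarith

lemma sum_gl (c : ℝ) (u : List (EuclideanSpace ℝ ι)) : ∑ i, gl c u i = hs (AP c u) := by
  rw [← trace_GA, trace_eq_sum_dot (GA c u) (gb c u)]
  refine Finset.sum_congr rfl fun i _ => ?_
  rw [GA_mulVec_gb, dotProduct_smul, dot_gb]
  simp

lemma rr_GA_sum (c : ℝ) (u : List (EuclideanSpace ℝ ι)) :
    rr (GA c u) = ∑ i, gl c u i * (1 - gl c u i) := by
  rw [rr_eq, trace_eq_sum_dot _ (gb c u)]
  refine Finset.sum_congr rfl fun i _ => ?_
  rw [← mulVec_mulVec, sub_mulVec, one_mulVec, GA_mulVec_gb, mulVec_sub, mulVec_smul, GA_mulVec_gb,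
    dotProduct_sub, dotProduct_smul, dotProduct_smul, dotProduct_smul, dot_gb]
  simp
  ring

/-- slow indices -/
noncomputable def sl (c : ℝ) (u : List (EuclideanSpace ℝ ι)) : Finset ι :=
  Finset.univ.filter fun i => 1 / 2 < gl c u i

lemma Gap.sum_slow {c δ : ℝ} (hc : 0 ≤ c) {u : List (EuclideanSpace ℝ ι)} (hu : Adm c u)
    (h : Gap c δ u) : ∑ i ∈ sl c u, (1 - gl c u i) ≤ 6 * δ := by
  have h1 := h.rr_le hc hu
  rw [rr_GA_sum] at h1
  have h2 : ∑ i ∈ sl c u, (1 - gl c u i) / 2 ≤ ∑ i, gl c u i * (1 - gl c u i) := by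
    refine (Finset.sum_le_sum (g := fun i => gl c u i * (1 - gl c u i)) ?_).trans
      (Finset.sum_le_sum_of_subset_of_nonneg (Finset.subset_univ _) ?_)
    · intro i hi
      have hi : 1 / 2 < gl c u i := by simpa [sl] using hi
      have := gl_le_one hc hu i
      nlinarith
    · intro i _ _
      exact mul_nonneg (gl_nonneg c u i) (by linarith [gl_le_one hc hu i])
  rw [← Finset.sum_div] at h2
  linarith

lemma Gap.sum_fast {c δ : ℝ} (hc : 0 ≤ c) {u : List (EuclideanSpace ℝ ι)} (hu : Adm c u)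
    (h : Gap c δ u) : ∑ i ∈ (sl c u)ᶜ, gl c u i ≤ 6 * δ := by
  have h1 := h.rr_le hc hu
  rw [rr_GA_sum] at h1
  have h2 : ∑ i ∈ (sl c u)ᶜ, gl c u i / 2 ≤ ∑ i, gl c u i * (1 - gl c u i) := by
    refine (Finset.sum_le_sum (g := fun i => gl c u i * (1 - gl c u i)) ?_).trans
      (Finset.sum_le_sum_of_subset_of_nonneg (Finset.subset_univ _) ?_)
    · intro i hi
      have hi : gl c u i ≤ 1 / 2 := by simpa [sl] using hi
      have := gl_nonneg c u i
      nlinarith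
    · intro i _ _
      exact mul_nonneg (gl_nonneg c u i) (by linarith [gl_le_one hc hu i])
  rw [← Finset.sum_div] at h2
  linarith

/-! ### backward frame -/

/-- `W_t = A_{(t,T]}ᵀ W_T` for the suffix `s` -/
noncomputable def Wf (c : ℝ) (W : Matrix ι κ ℝ) (s : List (EuclideanSpace ℝ ι)) : Matrix ι κ ℝ :=
  (AP c s)ᵀ * W

/-- `Θ_t = W_tᵀ W_t` -/
noncomputable def Th (c : ℝ) (W : Matrix ι κ ℝ) (s : List (EuclideanSpace ℝ ι)) : Matrix κ κ ℝ :=
  (Wf c W s)ᵀ * Wf c W s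

lemma Wf_nil (c : ℝ) (W : Matrix ι κ ℝ) : Wf c W [] = W := by simp [Wf]

lemma Wf_cons (c : ℝ) (W : Matrix ι κ ℝ) (v : EuclideanSpace ℝ ι)
    (s : List (EuclideanSpace ℝ ι)) : Wf c W (v :: s) = stp c v * Wf c W s := by
  simp only [Wf, AP_cons, transpose_mul, stp_transpose, Matrix.mul_assoc]

lemma Wf_append (c : ℝ) (W : Matrix ι κ ℝ) (p s : List (EuclideanSpace ℝ ι)) :
    Wf c W (p ++ s) = (AP c p)ᵀ * Wf c W s := by
  simp only [Wf, AP_append, transpose_mul, Matrix.mul_assoc]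

/-- the slow coordinate `y = W_tᵀ x` is a martingale of the closed loop:
`W_tᵀ (A_p x) = W_sᵀ x` -/
lemma Wf_martingale (c : ℝ) (W : Matrix ι κ ℝ) (p s : List (EuclideanSpace ℝ ι)) (x : ι → ℝ) :
    (Wf c W s)ᵀ *ᵥ (AP c p *ᵥ x) = (Wf c W (p ++ s))ᵀ *ᵥ x := by
  rw [Wf_append, transpose_mul, transpose_transpose, mulVec_mulVec]

/-- one step: `Θ_{v :: s} = Θ_s - nc(v) f fᵀ` with `f = W_sᵀ v` -/
lemma Th_cons (c : ℝ) (W : Matrix ι κ ℝ) (v : EuclideanSpace ℝ ι)
    (s : List (EuclideanSpace ℝ ι)) :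
    Th c W (v :: s) = Th c W s - nc c v • vecMulVec ((Wf c W s)ᵀ *ᵥ v.ofLp) ((Wf c W s)ᵀ *ᵥ v.ofLp) := by
  have h2 : stp c v * stp c v = 1 - nc c v • vecMulVec v.ofLp v.ofLp := by
    rw [← one_sub_stp_sq c v]; abel
  rw [Th, Th, Wf_cons, transpose_mul, stp_transpose]
  calc (Wf c W s)ᵀ * stp c v * (stp c v * Wf c W s)
      = (Wf c W s)ᵀ * (stp c v * stp c v) * Wf c W s := by simp only [Matrix.mul_assoc]
    _ = (Wf c W s)ᵀ * Wf c W s -
        nc c v • ((Wf c W s)ᵀ * vecMulVec v.ofLp v.ofLp * Wf c W s) := by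
      rw [h2, Matrix.mul_sub, Matrix.sub_mul, Matrix.mul_one, Matrix.mul_smul, Matrix.smul_mul]
    _ = _ := by
      congr 2
      rw [mul_vecMulVec, vecMulVec_mul, ← mulVec_transpose]

lemma psd_Th (c : ℝ) (W : Matrix ι κ ℝ) (s : List (EuclideanSpace ℝ ι)) : (Th c W s).PosSemidef :=
  psd_transpose_mul_self _

/-- `Θ` decreases when the suffix grows -/
lemma Th_append_le {c : ℝ} (hc : 0 ≤ c) (W : Matrix ι κ ℝ) {p : List (EuclideanSpace ℝ ι)}
    (hp : Adm c p) (s : List (EuclideanSpace ℝ ι)) :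
    (Th c W s - Th c W (p ++ s)).PosSemidef := by
  have h := psd_conj (psd_one_sub_GA hc hp) (Wf c W s)
  have e : (Wf c W s)ᵀ * (1 - GA c p) * Wf c W s = Th c W s - Th c W (p ++ s) := by
    rw [Matrix.mul_sub, Matrix.sub_mul, Matrix.mul_one, Th, Th, Wf_append, transpose_mul,
      transpose_transpose, GA]
    simp only [Matrix.mul_assoc]
  rwa [e] at h

lemma trace_Th_append_le {c : ℝ} (hc : 0 ≤ c) (W : Matrix ι κ ℝ) {p : List (EuclideanSpace ℝ ι)}
    (hp : Adm c p) (s : List (EuclideanSpace ℝ ι)) :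
    (Th c W (p ++ s)).trace ≤ (Th c W s).trace := by
  have := (Th_append_le hc W hp s).trace_nonneg
  rw [trace_sub] at this
  linarith

/-- `W_t W_tᵀ ≤ 1` when `WᵀW = 1` -/
lemma psd_one_sub_WW {c : ℝ} (hc : 0 ≤ c) {W : Matrix ι κ ℝ} (hW : Wᵀ * W = 1)
    {s : List (EuclideanSpace ℝ ι)} (hs : Adm c s) : (1 - Wf c W s * (Wf c W s)ᵀ).PosSemidef := by
  have h1 : (1 - W * Wᵀ).PosSemidef := by
    have h := psd_transpose_mul_self (1 - W * Wᵀ)
    have e : (1 - W * Wᵀ)ᵀ * (1 - W * Wᵀ) = 1 - W * Wᵀ := by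
      have h2 : W * Wᵀ * (W * Wᵀ) = W * Wᵀ := by
        calc W * Wᵀ * (W * Wᵀ) = W * (Wᵀ * W) * Wᵀ := by simp only [Matrix.mul_assoc]
          _ = _ := by rw [hW, Matrix.mul_one]
      rw [transpose_sub, transpose_one, transpose_mul, transpose_transpose, Matrix.sub_mul,
        Matrix.mul_sub, Matrix.mul_sub, Matrix.one_mul, Matrix.mul_one, Matrix.one_mul, h2]
      abel
    rwa [e] at h
  have h2 := (psd_one_sub_HA hc hs).add (psd_conj h1 (AP c s))
  have e : 1 - HA c s + (AP c s)ᵀ * (1 - W * Wᵀ) * AP c s = 1 - Wf c W s * (Wf c W s)ᵀ := by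
    rw [mul_sub, sub_mul, mul_one, Wf, transpose_mul, transpose_transpose, HA]
    simp only [Matrix.mul_assoc]
    abel
  rwa [e] at h2

/-- **reset of the fast part**: if `Π` is an orthogonal projection fixing the columns of `W_s`,
then `‖A_p (1 - Π)‖² ≤ ‖A_p‖² - tr Θ_{p ++ y}`. -/
theorem fast_reset {c : ℝ} (hc : 0 ≤ c) {W : Matrix ι κ ℝ} (hW : Wᵀ * W = 1)
    {p y : List (EuclideanSpace ℝ ι)} (hy : Adm c y) {P : Matrix ι ι ℝ} (hP : Pᵀ = P)
    (hPP : P * P = P) (hPW : P * Wf c W (p ++ y) = Wf c W (p ++ y)) :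
    hs (AP c p * (1 - P)) ≤ hs (AP c p) - (Th c W (p ++ y)).trace := by
  have h1 : hs (AP c p * (1 - P)) = hs (AP c p) - hs (AP c p * P) := by
    have e1 : hs (AP c p * P) = (HA c p * P).trace := by
      rw [hs, transpose_mul, hP]
      calc (P * (AP c p)ᵀ * (AP c p * P)).trace = (P * ((AP c p)ᵀ * AP c p * P)).trace := by
            simp only [Matrix.mul_assoc]
        _ = ((AP c p)ᵀ * AP c p * P * P).trace := by rw [trace_mul_comm]
        _ = ((AP c p)ᵀ * AP c p * (P * P)).trace := by simp only [Matrix.mul_assoc]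
        _ = _ := by rw [hPP, HA]
    have hQ : (1 - P) * (1 - P) = 1 - P := by
      rw [Matrix.sub_mul, Matrix.mul_sub, Matrix.mul_sub, Matrix.one_mul, Matrix.mul_one,
        Matrix.one_mul, hPP]; abel
    have e2 : hs (AP c p * (1 - P)) = (HA c p * (1 - P)).trace := by
      rw [hs, transpose_mul, transpose_sub, transpose_one, hP]
      calc ((1 - P) * (AP c p)ᵀ * (AP c p * (1 - P))).trace
          = ((1 - P) * ((AP c p)ᵀ * AP c p * (1 - P))).trace := by simp only [Matrix.mul_assoc]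
        _ = ((AP c p)ᵀ * AP c p * (1 - P) * (1 - P)).trace := by rw [trace_mul_comm]
        _ = ((AP c p)ᵀ * AP c p * ((1 - P) * (1 - P))).trace := by simp only [Matrix.mul_assoc]
        _ = _ := by rw [hQ, HA]
    rw [e1, e2, mul_sub, mul_one, trace_sub, trace_HA]
  have h2 : (Th c W (p ++ y)).trace ≤ hs (AP c p * P) := by
    have h3 := (psd_conj (psd_one_sub_WW hc hW hy) (AP c p * P)).trace_nonneg
    have e : (AP c p * P)ᵀ * (1 - Wf c W y * (Wf c W y)ᵀ) * (AP c p * P)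
        = (AP c p * P)ᵀ * (AP c p * P)
          - (P * Wf c W (p ++ y)) * (P * Wf c W (p ++ y))ᵀ := by
      rw [mul_sub, sub_mul, mul_one, Wf_append]
      congr 1
      simp only [transpose_mul, transpose_transpose, hP, Matrix.mul_assoc]
    rw [e, trace_sub, hPW, trace_mul_comm (Wf c W (p ++ y))] at h3
    have : hs (AP c p * P) = ((AP c p * P)ᵀ * (AP c p * P)).trace := rfl
    rw [this]
    have h4 : Th c W (p ++ y) = (Wf c W (p ++ y))ᵀ * Wf c W (p ++ y) := rfl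
    rw [h4]
    linarith
  linarith

/-! ### the slow eigenframe -/

/-- the matrix of the slow eigenvectors of `A_u A_uᵀ` -/
noncomputable def W0 (c : ℝ) (u : List (EuclideanSpace ℝ ι)) : Matrix ι (sl c u) ℝ :=
  Matrix.of fun i j => (gb c u j).ofLp i

lemma W0_col (c : ℝ) (u : List (EuclideanSpace ℝ ι)) (j : sl c u) :
    (fun i => W0 c u i j) = (gb c u j).ofLp := rfl

lemma W0_transpose_mul (c : ℝ) (u : List (EuclideanSpace ℝ ι)) : (W0 c u)ᵀ * W0 c u = 1 := by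
  ext i j
  rw [mul_apply]
  have := dot_gb c u i j
  rw [dotProduct] at this
  simp only [transpose_apply, W0, of_apply]
  rw [this, Matrix.one_apply]
  simp only [Subtype.ext_iff]

/-- `Θ_0` for the slow eigenframe is diagonal -/
lemma Th_W0 (c : ℝ) (u : List (EuclideanSpace ℝ ι)) :
    Th c (W0 c u) u = Matrix.diagonal fun j : sl c u => gl c u j := by
  have e : Th c (W0 c u) u = (W0 c u)ᵀ * (GA c u * W0 c u) := by
    rw [Th, Wf, transpose_mul, transpose_transpose, GA]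
    simp only [Matrix.mul_assoc]
  have e2 : GA c u * W0 c u = Matrix.of fun i (j : sl c u) => gl c u j * (gb c u j).ofLp i := by
    ext i j
    have := congrFun (GA_mulVec_gb c u j) i
    rw [mulVec, dotProduct] at this
    rw [mul_apply]
    simpa [W0] using this
  rw [e, e2]
  ext i j
  rw [mul_apply]
  have := dot_gb c u i j
  rw [dotProduct] at this
  simp only [transpose_apply, W0, of_apply, Matrix.diagonal_apply, Subtype.ext_iff]
  calc ∑ x, (gb c u i).ofLp x * (gl c u j * (gb c u j).ofLp x)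
      = gl c u j * ∑ x, (gb c u i).ofLp x * (gb c u j).ofLp x := by
        rw [Finset.mul_sum]; exact Finset.sum_congr rfl fun x _ => by ring
    _ = _ := by
      rw [this]
      split_ifs with h
      · rw [h, mul_one]
      · rw [mul_zero]

lemma trace_Th_W0 (c : ℝ) (u : List (EuclideanSpace ℝ ι)) :
    (Th c (W0 c u) u).trace = ∑ i ∈ sl c u, gl c u i := by
  rw [Th_W0, trace_diagonal, Finset.sum_coe_sort (sl c u) (fun i => gl c u i)]

/-- **total slow noise**: `tr (1 - Θ_0) ≤ 6 δ` -/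
theorem Gap.trace_one_sub_Th {c δ : ℝ} (hc : 0 ≤ c) {u : List (EuclideanSpace ℝ ι)}
    (hu : Adm c u) (h : Gap c δ u) : (1 - Th c (W0 c u) u).trace ≤ 6 * δ := by
  have h1 := h.sum_slow hc hu
  rw [Finset.sum_sub_distrib] at h1
  rw [trace_sub, trace_one, trace_Th_W0]
  simpa using h1

/-- `Θ_0 ≥ 1/2`, hence `Θ_t ≥ 1/2` for all `t` -/
theorem half_le_Th {c : ℝ} (hc : 0 ≤ c) {x s : List (EuclideanSpace ℝ ι)} (hu : Adm c (x ++ s)) :
    (Th c (W0 c (x ++ s)) s - (1 / 2 : ℝ) • 1).PosSemidef := by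
  have h1 := Th_append_le hc (W0 c (x ++ s)) (adm_append.1 hu).1 s
  have h2 : (Th c (W0 c (x ++ s)) (x ++ s) - (1 / 2 : ℝ) • 1).PosSemidef := by
    rw [Th_W0]
    have e : (Matrix.diagonal fun j : sl c (x ++ s) => gl c (x ++ s) j) - (1 / 2 : ℝ) • 1
        = Matrix.diagonal fun j : sl c (x ++ s) => gl c (x ++ s) j - 1 / 2 := by
      ext i j
      simp only [Matrix.sub_apply, Matrix.smul_apply, Matrix.one_apply, Matrix.diagonal_apply]
      split_ifs <;> simp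
    rw [e]
    refine PosSemidef.diagonal fun j => ?_
    have : 1 / 2 < gl c (x ++ s) j := by simpa [sl] using j.2
    simp only [Pi.zero_apply]
    linarith
  have e : Th c (W0 c (x ++ s)) s - (1 / 2 : ℝ) • 1 =
      (Th c (W0 c (x ++ s)) s - Th c (W0 c (x ++ s)) (x ++ s)) +
      (Th c (W0 c (x ++ s)) (x ++ s) - (1 / 2 : ℝ) • 1) := by abel
  rw [e]
  exact h1.add h2

/-- **E-reset**: for a sub-word `p` with `D(p) ≥ D(u) - δ` of an unsplittable word
`u = x ++ p ++ y`, and an orthogonal projection `P` which fixes the slow frame before `p`,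
`‖A_p (1 - P)‖²_HS ≤ 7 δ`. -/
theorem Gap.reset {c δ : ℝ} (hc : 0 ≤ c) {x p y : List (EuclideanSpace ℝ ι)}
    (hu : Adm c (x ++ p ++ y)) (h : Gap c δ (x ++ p ++ y))
    (hp : DD c (x ++ p ++ y) - δ ≤ DD c p) {P : Matrix ι ι ℝ} (hP : Pᵀ = P) (hPP : P * P = P)
    (hPW : P * Wf c (W0 c (x ++ p ++ y)) (p ++ y) = Wf c (W0 c (x ++ p ++ y)) (p ++ y)) :
    hs (AP c p * (1 - P)) ≤ 7 * δ := by
  obtain ⟨hxp, hy⟩ := adm_append.1 hu
  obtain ⟨hx, hp'⟩ := adm_append.1 hxp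
  have h1 := fast_reset hc (W0_transpose_mul c (x ++ p ++ y)) hy hP hPP hPW
  have h2 := trace_Th_append_le hc (W0 c (x ++ p ++ y)) hx (p ++ y)
  have h3 := trace_Th_W0 c (x ++ p ++ y)
  rw [← List.append_assoc] at h2
  rw [h3] at h2
  have h4 := h.sum_fast hc hu
  have h5 := sum_gl c (x ++ p ++ y)
  rw [← Finset.sum_add_sum_compl (sl c (x ++ p ++ y))] at h5
  rw [DD, DD] at hp
  linarith

/-! ### closed loop paths -/

section path

variable {E : Type*} [NormedAddCommGroup E] [InnerProductSpace ℝ E]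

open scoped RealInnerProductSpace

/-- one closed loop step with steering `a` -/
lemma norm_sq_step (x v : E) (b : ℝ) :
    ‖x + b • v‖ ^ 2 = ‖x‖ ^ 2 + 2 * b * ⟪v, x⟫ + b ^ 2 * ‖v‖ ^ 2 := by
  rw [norm_add_sq_real, inner_smul_right, norm_smul, real_inner_comm, mul_pow, Real.norm_eq_abs,
    sq_abs]
  ring

/-- feedback only: the norm does not increase, and the decrease pays for the control -/
lemma norm_sq_feedback {c : ℝ} (hc : 0 ≤ c) {v : E} (hv : c * ‖v‖ ^ 2 ≤ 1) (x : E) :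
    ‖x + (-(c * ⟪v, x⟫)) • v‖ ^ 2 ≤ ‖x‖ ^ 2 - c * ⟪v, x⟫ ^ 2 := by
  rw [norm_sq_step]
  have h := mul_le_mul_of_nonneg_left hv (mul_nonneg hc (sq_nonneg ⟪v, x⟫))
  nlinarith

/-- partial (clipped) feedback: any control between `0` and the full feedback -/
lemma norm_sq_clipped {c : ℝ} {v : E} (hv : c * ‖v‖ ^ 2 ≤ 1) (x : E) {θ : ℝ}
    (hθ0 : 0 ≤ θ) (hθc : θ ≤ c) :
    ‖x + (-(θ * ⟪v, x⟫)) • v‖ ^ 2 ≤ ‖x‖ ^ 2 - θ * ⟪v, x⟫ ^ 2 := by
  have h0 : θ * ‖v‖ ^ 2 ≤ 1 := (mul_le_mul_of_nonneg_right hθc (sq_nonneg _)).trans hv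
  exact norm_sq_feedback hθ0 h0 x

/-- feedback and steering: `|x'|² ≤ |x|² - (c/4)⟨v,x⟩² + (5/(2c)) a²` -/
lemma norm_sq_steer {c : ℝ} (hc : 0 < c) {v : E} (hv : c * ‖v‖ ^ 2 ≤ 1 / 2) (x : E) (a : ℝ) :
    ‖x + (a - c * ⟪v, x⟫) • v‖ ^ 2 ≤ ‖x‖ ^ 2 - c / 4 * ⟪v, x⟫ ^ 2 + 5 / (2 * c) * a ^ 2 := by
  rw [norm_sq_step]
  set s := ⟪v, x⟫ with hs
  set q := ‖v‖ ^ 2 with hq
  have hq0 : 0 ≤ q := sq_nonneg _
  have h1 : (a - c * s) ^ 2 * q ≤ (a - c * s) ^ 2 * (1 / (2 * c)) := by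
    refine mul_le_mul_of_nonneg_left ?_ (sq_nonneg _)
    rw [le_div_iff₀ (by positivity)]
    linarith
  have h2 : (a - c * s) ^ 2 * (1 / (2 * c)) = a ^ 2 / (2 * c) - a * s + c / 2 * s ^ 2 := by
    field_simp
    ring
  have h3 : a * s ≤ c / 4 * s ^ 2 + a ^ 2 / c := by
    have : 0 ≤ (c / 2 * s - a) ^ 2 / c := by positivity
    have e : (c / 2 * s - a) ^ 2 / c = c / 4 * s ^ 2 - a * s + a ^ 2 / c := by
      field_simp
      ring
    linarith
  have h4 : 5 / (2 * c) * a ^ 2 = a ^ 2 / (2 * c) + 2 * (a ^ 2 / c) := by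
    field_simp
    ring
  have h5 : (0:ℝ) ≤ c * s ^ 2 := by positivity
  have h6 : 0 ≤ a ^ 2 / c := by positivity
  nlinarith

end path

end Crest.Agent.R239
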