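import Mathlib

/-!
# R239: the operation `K * v`, the recursion of bodies, and signs

`starG K v A B` = all `x` such that the chord of `K` through `x` in direction `v` contains a piece
`[x + (s - A) v, x + (s + A) v]` with `|s| ≤ B`.  For `B = A + θ` these are the chords of length
`≥ 2A |v|` extended by `θ |v|` at both ends.  `star K v = starG K v 1 2` is Banaszczyk's `K * v`.
-/

set_option autoImplicit false

open Set Filter Topology MeasureTheory

namespace Crest.Agent.R239

section vec

variable {E : Type*} [AddCommGroup E] [Module ℝ E]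

/-- chords of length at least `2 A |v|`, extended by `(B - A) |v|` at both ends -/
def starG (K : Set E) (v : E) (A B : ℝ) : Set E :=
  {x | ∃ s : ℝ, |s| ≤ B ∧ x + (s - A) • v ∈ K ∧ x + (s + A) • v ∈ K}

/-- Banaszczyk's `K * v` -/
def star (K : Set E) (v : E) : Set E := starG K v 1 2

lemma mem_starG {K : Set E} {v : E} {A B : ℝ} {x : E} :
    x ∈ starG K v A B ↔ ∃ s : ℝ, |s| ≤ B ∧ x + (s - A) • v ∈ K ∧ x + (s + A) • v ∈ K := Iff.rfl

lemma mem_star {K : Set E} {v : E} {x : E} :
    x ∈ star K v ↔ ∃ s : ℝ, |s| ≤ 2 ∧ x + (s - 1) • v ∈ K ∧ x + (s + 1) • v ∈ K := Iff.rfl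

lemma starG_mono {K L : Set E} (h : K ⊆ L) (v : E) (A B : ℝ) : starG K v A B ⊆ starG L v A B := by
  rintro x ⟨s, hs, h1, h2⟩
  exact ⟨s, hs, h h1, h h2⟩

lemma star_mono {K L : Set E} (h : K ⊆ L) (v : E) : star K v ⊆ star L v := starG_mono h v 1 2

lemma starG_mono_B (K : Set E) (v : E) (A : ℝ) {B B' : ℝ} (h : B ≤ B') :
    starG K v A B ⊆ starG K v A B' := by
  rintro x ⟨s, hs, h1, h2⟩
  exact ⟨s, hs.trans h, h1, h2⟩

lemma convex_starG {K : Set E} (hK : Convex ℝ K) (v : E) (A B : ℝ) : Convex ℝ (starG K v A B) := by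
  rintro x ⟨s, hs, h1, h2⟩ y ⟨t, ht, h3, h4⟩ a b ha hb hab
  refine ⟨a * s + b * t, ?_, ?_, ?_⟩
  · calc |a * s + b * t| ≤ |a * s| + |b * t| := abs_add_le _ _
      _ = a * |s| + b * |t| := by rw [abs_mul, abs_mul, abs_of_nonneg ha, abs_of_nonneg hb]
      _ ≤ a * B + b * B := by gcongr
      _ = B := by rw [← add_mul, hab, one_mul]
  · have := hK h1 h3 ha hb hab
    have e : a • x + b • y + (a * s + b * t - A) • v =
        a • (x + (s - A) • v) + b • (y + (t - A) • v) := by
      have : A = a * A + b * A := by rw [← add_mul, hab, one_mul]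
      rw [show a * s + b * t - A = a * (s - A) + b * (t - A) by linarith]
      module
    rwa [e]
  · have := hK h2 h4 ha hb hab
    have e : a • x + b • y + (a * s + b * t + A) • v =
        a • (x + (s + A) • v) + b • (y + (t + A) • v) := by
      have : A = a * A + b * A := by rw [← add_mul, hab, one_mul]
      rw [show a * s + b * t + A = a * (s + A) + b * (t + A) by linarith]
      module
    rwa [e]

lemma convex_star {K : Set E} (hK : Convex ℝ K) (v : E) : Convex ℝ (star K v) :=
  convex_starG hK v 1 2

/-- points of a chord of a convex set -/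
lemma mem_chord {K : Set E} (hK : Convex ℝ K) {x v : E} {p q r : ℝ} (hp : x + p • v ∈ K)
    (hr : x + r • v ∈ K) (h1 : p ≤ q) (h2 : q ≤ r) : x + q • v ∈ K := by
  rcases eq_or_lt_of_le (h1.trans h2) with h | h
  · have : q = p := le_antisymm (by linarith) h1
    rwa [this]
  have h0 : 0 < r - p := by linarith
  have := hK hp hr (a := (r - q) / (r - p)) (b := (q - p) / (r - p))
    (div_nonneg (by linarith) h0.le) (div_nonneg (by linarith) h0.le)
    (by field_simp; ring)
  have e : x + q • v = ((r - q) / (r - p)) • (x + p • v) + ((q - p) / (r - p)) • (x + r • v) := by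
    have h3 : (r - q) / (r - p) + (q - p) / (r - p) = 1 := by field_simp; ring
    have h4 : q = (r - q) / (r - p) * p + (q - p) / (r - p) * r := by field_simp; ring
    calc x + q • v = (1:ℝ) • x + q • v := by rw [one_smul]
      _ = ((r - q) / (r - p) + (q - p) / (r - p)) • x
          + ((r - q) / (r - p) * p + (q - p) / (r - p) * r) • v := by rw [h3, ← h4]
      _ = _ := by module
  rwa [e]

/-- larger chords, smaller set: all `starG K v A B` with `1 ≤ A`, `B ≤ A + 1` lie in `K * v`. -/
lemma starG_subset_star {K : Set E} (hK : Convex ℝ K) (v : E) {A B : ℝ} (hA : 1 ≤ A)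
    (hB : B ≤ A + 1) : starG K v A B ⊆ star K v := by
  rintro x ⟨s, hs, h1, h2⟩
  obtain ⟨hs1, hs2⟩ := abs_le.1 hs
  rcases le_total s 2 with h | h
  · rcases le_total (-2) s with h' | h'
    · exact ⟨s, abs_le.2 ⟨h', h⟩, mem_chord hK h1 h2 (by linarith) (by linarith),
        mem_chord hK h1 h2 (by linarith) (by linarith)⟩
    · exact ⟨-2, by norm_num, mem_chord hK h1 h2 (by linarith) (by linarith),
        mem_chord hK h1 h2 (by linarith) (by linarith)⟩
  · exact ⟨2, by norm_num, mem_chord hK h1 h2 (by linarith) (by linarith),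
      mem_chord hK h1 h2 (by linarith) (by linarith)⟩

/-- `K * v ⊆ (K - v) ∪ (K + v)` -/
lemma star_subset {K : Set E} (hK : Convex ℝ K) {v x : E} (hx : x ∈ star K v) :
    x + v ∈ K ∨ x - v ∈ K := by
  obtain ⟨s, hs, h1, h2⟩ := hx
  obtain ⟨hs1, hs2⟩ := abs_le.1 hs
  rcases le_total 0 s with h | h
  · left
    have := mem_chord hK h1 h2 (q := 1) (by linarith) (by linarith)
    simpa using this
  · right
    have := mem_chord hK h1 h2 (q := -1) (by linarith) (by linarith)
    simpa [sub_eq_add_neg] using this

lemma star_neg (K : Set E) (v : E) : star K (-v) = star K v := by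
  ext x
  constructor
  · rintro ⟨s, hs, h1, h2⟩
    refine ⟨-s, by rwa [abs_neg], ?_, ?_⟩
    · have e : x + (-s - 1) • v = x + (s + 1) • (-v) := by module
      rwa [e]
    · have e : x + (-s + 1) • v = x + (s - 1) • (-v) := by module
      rwa [e]
  · rintro ⟨s, hs, h1, h2⟩
    refine ⟨-s, by rwa [abs_neg], ?_, ?_⟩
    · have e : x + (-s - 1) • (-v) = x + (s + 1) • v := by module
      rwa [e]
    · have e : x + (-s + 1) • (-v) = x + (s - 1) • v := by module
      rwa [e]

lemma star_zero (K : Set E) : star K (0 : E) = K := by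
  ext x
  constructor
  · rintro ⟨s, -, h1, -⟩
    simpa using h1
  · intro h
    exact ⟨0, by norm_num, by simpa using h, by simpa using h⟩

lemma starG_empty (v : E) (A B : ℝ) : starG (∅ : Set E) v A B = ∅ := by
  ext x
  simp [starG]

/-- `*` is super-distributive over intersections is false; but `⊆` holds. -/
lemma star_inter_subset (K L : Set E) (v : E) : star (K ∩ L) v ⊆ star K v ∩ star L v :=
  subset_inter (star_mono inter_subset_left v) (star_mono inter_subset_right v)

/-- affine preimages commute with `*` -/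
lemma starG_preimage {F : Type*} [AddCommGroup F] [Module ℝ F] (K : Set F) (q : F) (T : E →ₗ[ℝ] F)
    (w : E) (A B : ℝ) :
    starG ((fun x => q + T x) ⁻¹' K) w A B = (fun x => q + T x) ⁻¹' starG K (T w) A B := by
  ext x
  simp only [starG, mem_preimage, mem_ofPred_eq, map_add, map_smul, add_assoc]

lemma star_preimage {F : Type*} [AddCommGroup F] [Module ℝ F] (K : Set F) (q : F) (T : E →ₗ[ℝ] F)
    (w : E) : star ((fun x => q + T x) ⁻¹' K) w = (fun x => q + T x) ⁻¹' star K (T w) :=
  starG_preimage K q T w 1 2

/-- a shift by `b v` costs `|b|` of the extension -/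
lemma starG_shift {K : Set E} {v x : E} {A B b : ℝ}
    (hx : x ∈ starG ((fun y => y + b • v) ⁻¹' K) v A B) : x ∈ starG K v A (B + |b|) := by
  obtain ⟨s, hs, h1, h2⟩ := hx
  refine ⟨s + b, (abs_add_le _ _).trans (by linarith), ?_, ?_⟩
  · have e : x + (s + b - A) • v = x + (s - A) • v + b • v := by module
    rw [e]; exact h1
  · have e : x + (s + b + A) • v = x + (s + A) • v + b • v := by module
    rw [e]; exact h2

end vec

section top

variable {E : Type*} [AddCommGroup E] [Module ℝ E] [TopologicalSpace E] [IsTopologicalAddGroup E]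
  [ContinuousSMul ℝ E]

lemma isClosed_starG {K : Set E} (hK : IsClosed K) (v : E) (A B : ℝ) : IsClosed (starG K v A B) := by
  have e : starG K v A B = Prod.fst '' ({p : E × ↥(Icc (-B) B) | p.1 + ((p.2:ℝ) - A) • v ∈ K ∧
      p.1 + ((p.2:ℝ) + A) • v ∈ K}) := by
    ext x
    constructor
    · rintro ⟨s, hs, h1, h2⟩
      exact ⟨(x, ⟨s, abs_le.1 hs⟩), ⟨h1, h2⟩, rfl⟩
    · rintro ⟨⟨y, s⟩, ⟨h1, h2⟩, rfl⟩
      exact ⟨s, abs_le.2 s.2, h1, h2⟩
  rw [e]
  refine isClosedMap_fst_of_compactSpace _ ?_
  refine IsClosed.inter ?_ ?_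
  · exact hK.preimage (by fun_prop)
  · exact hK.preimage (by fun_prop)

lemma isClosed_star {K : Set E} (hK : IsClosed K) (v : E) : IsClosed (star K v) :=
  isClosed_starG hK v 1 2

end top

section pre

variable {E : Type*} [AddCommGroup E] [Module ℝ E]

/-- The bodies of the recursion: `pre W [] K = K`, `pre W (v :: u) K = (pre W u K * v) ∩ W`. -/
def pre (W : Set E) : List E → Set E → Set E
  | [], K => K
  | v :: u, K => star (pre W u K) v ∩ W

@[simp] lemma pre_nil (W K : Set E) : pre W [] K = K := rfl

@[simp] lemma pre_cons (W K : Set E) (v : E) (u : List E) :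
    pre W (v :: u) K = star (pre W u K) v ∩ W := rfl

lemma pre_append (W K : Set E) (u w : List E) : pre W (u ++ w) K = pre W u (pre W w K) := by
  induction u with
  | nil => rfl
  | cons v u ih => simp [ih]

lemma pre_mono {W W' K K' : Set E} (hW : W ⊆ W') (hK : K ⊆ K') (u : List E) :
    pre W u K ⊆ pre W' u K' := by
  induction u with
  | nil => exact hK
  | cons v u ih => exact inter_subset_inter (star_mono ih v) hW

lemma convex_pre {W K : Set E} (hW : Convex ℝ W) (hK : Convex ℝ K) (u : List E) :
    Convex ℝ (pre W u K) := by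
  induction u with
  | nil => exact hK
  | cons v u ih => exact (convex_star ih v).inter hW

lemma pre_subset_wall {W K : Set E} (hK : K ⊆ W) (u : List E) : pre W u K ⊆ W := by
  cases u with
  | nil => exact hK
  | cons v u => exact inter_subset_right

lemma isClosed_pre [TopologicalSpace E] [IsTopologicalAddGroup E] [ContinuousSMul ℝ E]
    {W K : Set E} (hW : IsClosed W) (hK : IsClosed K) (u : List E) : IsClosed (pre W u K) := by
  induction u with
  | nil => exact hK
  | cons v u ih => exact (isClosed_star ih v).inter hW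

/-- partial sums with signs, as a list of positions -/
def path (x : E) : List E → List ℤ → List E
  | [], _ => []
  | _ :: _, [] => []
  | v :: u, e :: es => (x + (e : ℝ) • v) :: path (x + (e : ℝ) • v) u es

/-- The paths which start in `pre W u K` can be kept in `W` and end in `K`. -/
lemma exists_signs {W K : Set E} (hW : Convex ℝ W) (hK : Convex ℝ K) (hKW : K ⊆ W) :
    ∀ (u : List E) (x : E), x ∈ pre W u K →
      ∃ es : List ℤ, es.length = u.length ∧ (∀ e ∈ es, e = 1 ∨ e = -1) ∧
        ∀ k ≤ u.length, x + ((es.zip u).take k |>.map fun p => (p.1 : ℝ) • p.2).sum ∈ W := by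
  intro u
  induction u with
  | nil =>
    intro x hx
    refine ⟨[], rfl, by simp, ?_⟩
    intro k _
    simpa using hKW hx
  | cons v u ih =>
    intro x hx
    have hxW : x ∈ W := hx.2
    obtain h | h := star_subset (convex_pre hW hK u) hx.1
    · obtain ⟨es, h1, h2, h3⟩ := ih _ h
      refine ⟨1 :: es, by simp [h1], ?_, ?_⟩
      · intro e he
        rcases List.mem_cons.1 he with rfl | he
        · exact Or.inl rfl
        · exact h2 e he
      · intro k hk
        cases k with
        | zero => simpa using hxW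
        | succ k =>
          have := h3 k (by simpa using hk)
          simpa [add_assoc] using this
    · obtain ⟨es, h1, h2, h3⟩ := ih _ h
      refine ⟨-1 :: es, by simp [h1], ?_, ?_⟩
      · intro e he
        rcases List.mem_cons.1 he with rfl | he
        · exact Or.inr rfl
        · exact h2 e he
      · intro k hk
        cases k with
        | zero => simpa using hxW
        | succ k =>
          have := h3 k (by simpa using hk)
          simpa [add_assoc, sub_eq_add_neg] using this

end pre

section final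

/-- If every word of vectors of norm `≤ 1` has a nonempty body `pre (ball R) u (ball R)`, all prefix
sums of some signing have norm at most `2 R`. -/
theorem signs_of_pre {E : Type*} [NormedAddCommGroup E] [NormedSpace ℝ E] {R : ℝ} {N : ℕ}
    (v : Fin N → E)
    (h : (pre (Metric.closedBall (0 : E) R) (List.ofFn v) (Metric.closedBall 0 R)).Nonempty) :
    ∃ ε : Fin N → ℤ, (∀ i, ε i = 1 ∨ ε i = -1) ∧
      ∀ k : ℕ, k ≤ N →
        ‖∑ i ∈ Finset.univ.filter (fun i : Fin N => (i : ℕ) < k), (ε i : ℝ) • v i‖ ≤ 2 * R := by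
  obtain ⟨x, hx⟩ := h
  obtain ⟨es, h1, h2, h3⟩ := exists_signs (convex_closedBall (0:E) R) (convex_closedBall (0:E) R)
    subset_rfl _ x hx
  rw [List.length_ofFn] at h1
  refine ⟨fun i => es[(i : ℕ)]'(by rw [h1]; exact i.2), fun i => h2 _ (List.getElem_mem _), ?_⟩
  intro k hk
  have h0 := h3 0 (Nat.zero_le _)
  have hk' := h3 k (by rwa [List.length_ofFn])
  have key : ∀ k ≤ N, (((es.zip (List.ofFn v)).take k).map fun p => (p.1 : ℝ) • p.2).sum
      = ∑ i ∈ Finset.univ.filter (fun i : Fin N => (i : ℕ) < k),
        ((es[(i : ℕ)]'(by rw [h1]; exact i.2) : ℤ) : ℝ) • v i := by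
    intro k
    induction k with
    | zero => intro _; simp
    | succ k ih =>
      intro hk
      have hk2 : k < (es.zip (List.ofFn v)).length := by simp [h1]; omega
      rw [List.take_succ_eq_append_getElem hk2, List.map_append, List.sum_append, ih (by omega)]
      have e : Finset.univ.filter (fun i : Fin N => (i : ℕ) < k + 1) =
          insert (⟨k, hk⟩ : Fin N) (Finset.univ.filter (fun i : Fin N => (i : ℕ) < k)) := by
        ext i
        simp only [Finset.mem_filter, Finset.mem_univ, true_and, Finset.mem_insert, Fin.ext_iff]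
        omega
      rw [e, Finset.sum_insert (by simp), add_comm]
      simp
  rw [key k hk] at hk'
  rw [key 0 (Nat.zero_le _)] at h0
  simp only [Metric.mem_closedBall, dist_zero_right] at h0 hk'
  have h0' : ‖x‖ ≤ R := by simpa using h0
  set S := ∑ i ∈ Finset.univ.filter (fun i : Fin N => (i : ℕ) < k),
        ((es[(i : ℕ)]'(by rw [h1]; exact i.2) : ℤ) : ℝ) • v i with hS
  calc ‖S‖ = ‖(x + S) - x‖ := by congr 1; abel
    _ ≤ ‖x + S‖ + ‖x‖ := norm_sub_le _ _
    _ ≤ 2 * R := by linarith

end final

end Crest.Agent.R239
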