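import Crest.Agent.R239.Red189
import Crest.Agent.R239.Star245

/-!
# R239, abstract assembly of the chain #12415 (helper201)

`ChainData V R δ₀ δ C₀ w` : everything the chain has to provide in dimension `n = dim V`:
claims `Cl E ℓ u` (active space `E`, loss constant `ℓ`, word `u`), a potential `Psi E u`, letters,
composition, **the block lemma** (`block`), and the conclusion for the full space.

`final` : `ChainData` for all `n` with absolute constants implies S0370 verbatim.
-/

set_option autoImplicit false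
set_option linter.unusedSectionVars false
open Set

namespace Crest.Agent.R239

namespace Chain

/-- words with short letters (of comparable norms) -/
def Short {V : Type*} [Norm V] (δ₀ : ℝ) (u : List V) : Prop := ∀ v ∈ u, δ₀ / 2 < ‖v‖ ∧ ‖v‖ ≤ δ₀

/-- `u` cannot be cut into two words whose potentials are both smaller by `δ` -/
def Unsplit {V : Type*} (Psi : List V → ℝ) (δ : ℝ) (u : List V) : Prop :=
  ∀ p q : List V, u = p ++ q → ¬ (Psi p ≤ Psi u - δ ∧ Psi q ≤ Psi u - δ)

/-- All the inputs of the chain, for one space `V`. -/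
structure ChainData (V : Type*) [NormedAddCommGroup V] [InnerProductSpace ℝ V]
    [FiniteDimensional ℝ V] (R δ₀ δ C₀ w : ℝ) where
  /-- the claim: active space `E`, loss constant `ℓ`, word `u` -/
  Cl : Submodule ℝ V → ℝ → List V → Prop
  /-- the potential -/
  Psi : Submodule ℝ V → List V → ℝ
  /-- a larger loss is a weaker claim -/
  cl_mono : ∀ {E ℓ ℓ' u}, 1 ≤ ℓ → ℓ ≤ ℓ' → Cl E ℓ u → Cl E ℓ' u
  /-- composition -/
  cl_append : ∀ {E a b p q}, 1 ≤ a → 1 ≤ b → Short δ₀ p → Short δ₀ q →
    Cl E a p → Cl E b q → Cl E (a + b) (p ++ q)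
  psi_nonneg : ∀ {E u}, Short δ₀ u → 0 ≤ Psi E u
  psi_le : ∀ {u}, Short δ₀ u → Psi ⊤ u ≤ Module.finrank ℝ V
  /-- **the block lemma** (leaf included: take `ℓ = 1` and `Psi E u < δ`). -/
  block : ∀ {E ℓ u}, 1 ≤ ℓ → Short δ₀ u → Unsplit (Psi E) δ u →
    (∀ E' ≤ E, ∀ p, p <:+: u → Psi E' p ≤ Psi E u - δ → Cl E' ℓ p) → Cl E (C₀ * ℓ) u
  /-- conclusion for the full space -/
  concl : ∀ {ℓ u}, 1 ≤ ℓ → Short δ₀ u → Cl ⊤ ℓ u → ℓ * w ≤ 1 / 4 →
    (pre (Metric.closedBall (0 : V) R) u (Metric.closedBall 0 R)).Nonempty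

section

variable {V : Type*} [NormedAddCommGroup V] [InnerProductSpace ℝ V] [FiniteDimensional ℝ V]
  {R δ₀ δ C₀ w : ℝ}

lemma Short.left {p q : List V} (h : Short δ₀ (p ++ q)) : Short δ₀ p :=
  fun v hv => h v (List.mem_append_left _ hv)

lemma Short.right {p q : List V} (h : Short δ₀ (p ++ q)) : Short δ₀ q :=
  fun v hv => h v (List.mem_append_right _ hv)

lemma Short.infix {p u : List V} (h : Short δ₀ u) (hp : p <:+: u) : Short δ₀ p :=
  fun v hv => h v (hp.subset hv)

/-- the induction: words of potential at most `k δ` have loss at most `C₀ (2 C₀) ^ k`. -/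
theorem claim_of_psi (D : ChainData V R δ₀ δ C₀ w) (hδ : 0 < δ) (hC : 1 ≤ C₀) (k : ℕ) :
    ∀ (E : Submodule ℝ V) (u : List V), Short δ₀ u → D.Psi E u ≤ k * δ →
      D.Cl E (C₀ * (2 * C₀) ^ k) u := by
  induction k with
  | zero =>
    intro E u hu h
    rw [Nat.cast_zero, zero_mul] at h
    rw [pow_zero]
    refine D.block le_rfl hu ?_ ?_
    · intro p q hpq hh
      have := D.psi_nonneg (E := E) (u := p) (by rw [hpq] at hu; exact hu.left)
      linarith [hh.1]
    · intro E' _ p hp hh
      have := D.psi_nonneg (E := E') (u := p) (hu.infix hp)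
      linarith
  | succ k ih =>
    intro E u hu h
    have hpow : 1 ≤ (2 * C₀) ^ k := one_le_pow₀ (by linarith)
    have hL : 1 ≤ C₀ * (2 * C₀) ^ k := by nlinarith
    by_cases hs : Unsplit (D.Psi E) δ u
    · have h1 : D.Cl E (C₀ * (C₀ * (2 * C₀) ^ k)) u := by
        refine D.block hL hu hs ?_
        intro E' _ p hp hh
        refine ih E' p (hu.infix hp) (hh.trans ?_)
        push_cast at h
        linarith
      refine D.cl_mono (by nlinarith) ?_ h1
      rw [pow_succ]
      nlinarith
    · unfold Unsplit at hs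
      push Not at hs
      obtain ⟨p, q, hpq, hp, hq⟩ := hs
      have sp : Short δ₀ p := by rw [hpq] at hu; exact hu.left
      have sq : Short δ₀ q := by rw [hpq] at hu; exact hu.right
      push_cast at h
      have c1 := ih E p sp (by linarith)
      have c2 := ih E q sq (by linarith)
      have c3 := D.cl_append hL hL sp sq c1 c2
      rw [← hpq] at c3
      refine D.cl_mono (by linarith) ?_ c3
      rw [pow_succ]
      nlinarith

/-- the body of the full word is nonempty -/
theorem nonempty_of_chain (D : ChainData V R δ₀ δ C₀ w) (hδ : 0 < δ) (hC : 1 ≤ C₀) {k : ℕ}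
    (hk : (Module.finrank ℝ V : ℝ) ≤ k * δ) (hw : C₀ * (2 * C₀) ^ k * w ≤ 1 / 4) {u : List V}
    (hu : Short δ₀ u) :
    (pre (Metric.closedBall (0 : V) R) u (Metric.closedBall 0 R)).Nonempty := by
  have hpow : 1 ≤ (2 * C₀) ^ k := one_le_pow₀ (by linarith)
  have hL : 1 ≤ C₀ * (2 * C₀) ^ k := by nlinarith
  exact D.concl hL hu (claim_of_psi D hδ hC k ⊤ u hu ((D.psi_le hu).trans hk)) hw

end

/-- the constants of the chain work in every dimension -/
def ChainProp : Prop :=
  ∃ C δ₀ δ C₀ : ℝ, 0 < δ₀ ∧ 0 < δ ∧ 1 ≤ C₀ ∧ ∀ n : ℕ, ∃ (k : ℕ) (w : ℝ), (n : ℝ) ≤ k * δ ∧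
    C₀ * (2 * C₀) ^ k * w ≤ 1 / 4 ∧
    Nonempty (ChainData (EuclideanSpace ℝ (Fin n)) (C * Real.sqrt n) δ₀ δ C₀ w)

/-- signs from a point of the body, in the format of `Red189` -/
lemma good_of_pre {V : Type*} [NormedAddCommGroup V] [NormedSpace ℝ V] {R : ℝ} {u : List V}
    (h : (pre (Metric.closedBall (0 : V) R) u (Metric.closedBall 0 R)).Nonempty) :
    ∃ s, Red.Good u 0 (2 * R) s := by
  obtain ⟨x, hx⟩ := h
  obtain ⟨es, h1, h2, h3⟩ := exists_signs (convex_closedBall (0 : V) R)
    (convex_closedBall (0 : V) R) subset_rfl _ x hx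
  refine ⟨List.map (fun e : ℤ => (e : ℝ)) es, by simp [h1], ?_, ?_⟩
  · intro e he
    obtain ⟨a, ha, rfl⟩ := List.mem_map.1 he
    rcases h2 a ha with rfl | rfl
    · left; simp
    · right; simp
  · intro k
    have key : ∀ (es : List ℤ) (u : List V),
        List.zipWith (fun (x : ℝ) (y : V) => x • y) (List.map (fun e : ℤ => (e : ℝ)) es) u
          = (es.zip u).map fun p => (p.1 : ℝ) • p.2 := by
      intro es
      induction es with
      | nil => intro u; simp
      | cons e es ih =>
        intro u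
        cases u with
        | nil => simp
        | cons v u => simp [ih]
    rw [key, ← List.map_take, zero_add]
    have h0 := h3 0 (Nat.zero_le _)
    have hk : x + ((es.zip u).take k |>.map fun p => (p.1 : ℝ) • p.2).sum
        ∈ Metric.closedBall (0 : V) R := by
      by_cases hk : k ≤ u.length
      · exact h3 k hk
      · have e1 : (es.zip u).take k = (es.zip u).take u.length := by
          rw [List.take_of_length_le, List.take_of_length_le]
          · simp
          · simp only [List.length_zip]; omega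
        rw [e1]
        exact h3 _ le_rfl
    simp only [List.take_zero, List.map_nil, List.sum_nil, add_zero, Metric.mem_closedBall,
      dist_zero_right] at h0 hk
    set S := ((es.zip u).take k |>.map fun p => (p.1 : ℝ) • p.2).sum with hS
    calc ‖S‖ = ‖(x + S) - x‖ := by congr 1; abel
      _ ≤ ‖x + S‖ + ‖x‖ := norm_sub_le _ _
      _ ≤ 2 * R := by linarith

/-- **S0370 from the chain** -/
theorem final (H : ChainProp) :
    ∃ C : ℝ, ∀ (d N : ℕ) (v : Fin N → EuclideanSpace ℝ (Fin d)),
      (∀ i, ‖v i‖ ≤ 1) →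
      ∃ ε : Fin N → ℤ, (∀ i, ε i = 1 ∨ ε i = -1) ∧
        ∀ k : ℕ, k ≤ N →
          ‖∑ i ∈ Finset.univ.filter (fun i : Fin N => (i : ℕ) < k), (ε i : ℝ) • v i‖
            ≤ C * Real.sqrt d := by
  obtain ⟨C, δ₀, δ, C₀, h0, hδ, hC, H⟩ := H
  refine Red.red' h0 ⟨2 * C, fun n u hu => ?_⟩
  obtain ⟨k, w, hk, hw, ⟨D⟩⟩ := H n
  have hne : (pre (Metric.closedBall (0 : EuclideanSpace ℝ (Fin n)) (C * Real.sqrt n))
      u (Metric.closedBall 0 (C * Real.sqrt n))).Nonempty :=
    nonempty_of_chain D hδ hC (k := k) (by simpa using hk) hw hu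
  obtain ⟨s, hs⟩ := good_of_pre hne
  exact ⟨s, by rwa [← mul_assoc] at hs⟩

end Chain

end Crest.Agent.R239
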