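import Crest.Agent.R239.Chain201
import Mathlib

/-!
# R239, concrete laws of the chain #12415 L4/L5 (helper201)

* `mE E` : reference measure `exp (-|P_E x|²/2) dx` (active directions Gaussian, passengers
  Lebesgue; NOT normalised: everything is linear in the law).
* `A κ E v` : letter operator, `(A f) x = 𝔼 f (x + (-κ ⟪v, P_E x⟫ + τ g) v)`,
  `τ² = 2κ - κ²|P_E v|²`; reversible for `mE E` (`A_selfAdj`).
* `evol κ E u W` : density of `x_T` if `x_0 ~ W · mE`; `trans κ E u f` : `x ↦ 𝔼 (f x_T | x_0 = x)`.
* `cross`, `AdmW`, `Claim`, `Claim.append`.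
-/

set_option autoImplicit false
set_option linter.unusedSectionVars false
open MeasureTheory ProbabilityTheory Set
open scoped RealInnerProductSpace ENNReal NNReal

namespace Crest.Agent.R239

namespace Chain

variable {V : Type*} [NormedAddCommGroup V] [InnerProductSpace ℝ V] [FiniteDimensional ℝ V]
  [MeasurableSpace V] [BorelSpace V]

/-- density of the reference measure -/
noncomputable def dE (E : Submodule ℝ V) (x : V) : ℝ≥0∞ :=
  ENNReal.ofReal (Real.exp (-‖E.starProjection x‖ ^ 2 / 2))

lemma measurable_dE (E : Submodule ℝ V) : Measurable (dE E) := by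
  unfold dE; fun_prop

/-- reference measure: Gaussian (not normalised) on `E`, Lebesgue on `Eᗮ` -/
noncomputable def mE (E : Submodule ℝ V) : Measure V := volume.withDensity (dE E)

/-- noise size of a letter -/
noncomputable def tau (κ : ℝ) (E : Submodule ℝ V) (v : V) : ℝ :=
  Real.sqrt (κ * (2 - κ * ‖E.starProjection v‖ ^ 2))

/-- displacement along `v` -/
noncomputable def disp (κ : ℝ) (E : Submodule ℝ V) (v x : V) (g : ℝ) : ℝ :=
  -(κ * ⟪E.starProjection v, x⟫) + tau κ E v * g

/-- letter operator -/
noncomputable def A (κ : ℝ) (E : Submodule ℝ V) (v : V) (f : V → ℝ≥0∞) (x : V) : ℝ≥0∞ :=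
  ∫⁻ g, f (x + disp κ E v x g • v) ∂(gaussianReal 0 1)

/-- the linear involution of `V × ℝ` behind reversibility -/
noncomputable def Tinv (κ : ℝ) (E : Submodule ℝ V) (v : V) : (V × ℝ) →ₗ[ℝ] (V × ℝ) where
  toFun p := (p.1 + disp κ E v p.1 p.2 • v,
    tau κ E v * ⟪E.starProjection v, p.1⟫ - (1 - κ * ‖E.starProjection v‖ ^ 2) * p.2)
  map_add' p q := by
    ext
    · simp only [disp, Prod.fst_add, Prod.snd_add, inner_add_right]
      module
    · simp only [Prod.fst_add, Prod.snd_add, inner_add_right]
      ring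
  map_smul' c p := by
    ext
    · simp only [disp, Prod.smul_fst, Prod.smul_snd, inner_smul_right, RingHom.id_apply, smul_eq_mul]
      module
    · simp only [Prod.smul_fst, Prod.smul_snd, inner_smul_right, RingHom.id_apply, smul_eq_mul]
      ring

lemma Tinv_apply (κ : ℝ) (E : Submodule ℝ V) (v : V) (x : V) (g : ℝ) :
    Tinv κ E v (x, g) = (x + disp κ E v x g • v,
      tau κ E v * ⟪E.starProjection v, x⟫ - (1 - κ * ‖E.starProjection v‖ ^ 2) * g) := rfl

lemma inner_proj_self (E : Submodule ℝ V) (v : V) :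
    ⟪E.starProjection v, v⟫ = ‖E.starProjection v‖ ^ 2 := by
  have h : ⟪E.starProjection (E.starProjection v), v⟫ = ⟪E.starProjection v, E.starProjection v⟫ :=
    Submodule.inner_starProjection_left_eq_right E _ _
  have h2 : E.starProjection (E.starProjection v) = E.starProjection v :=
    Submodule.starProjection_eq_self_iff.2 (Submodule.starProjection_apply_mem E v)
  rw [h2] at h
  rw [h, real_inner_self_eq_norm_sq]

lemma inner_proj_proj (E : Submodule ℝ V) (v x : V) :
    ⟪E.starProjection v, E.starProjection x⟫ = ⟪E.starProjection v, x⟫ := by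
  have h : ⟪E.starProjection (E.starProjection v), x⟫ = ⟪E.starProjection v, E.starProjection x⟫ :=
    Submodule.inner_starProjection_left_eq_right E _ _
  have h2 : E.starProjection (E.starProjection v) = E.starProjection v :=
    Submodule.starProjection_eq_self_iff.2 (Submodule.starProjection_apply_mem E v)
  rw [h2] at h
  rw [h]

/-- letters admissible for the kernel -/
def OK (κ : ℝ) (E : Submodule ℝ V) (v : V) : Prop := κ * ‖E.starProjection v‖ ^ 2 ≤ 2

lemma tau_sq {κ : ℝ} (hκ : 0 ≤ κ) {E : Submodule ℝ V} {v : V} (h : OK κ E v) :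
    tau κ E v ^ 2 = κ * (2 - κ * ‖E.starProjection v‖ ^ 2) := by
  unfold tau
  rw [Real.sq_sqrt]
  unfold OK at h
  exact mul_nonneg hκ (by linarith)

lemma disp_inner {κ : ℝ} {E : Submodule ℝ V} {v : V} (x : V) (g : ℝ) :
    ⟪E.starProjection v, x + disp κ E v x g • v⟫ =
      (1 - κ * ‖E.starProjection v‖ ^ 2) * ⟪E.starProjection v, x⟫
        + tau κ E v * ‖E.starProjection v‖ ^ 2 * g := by
  rw [inner_add_right, inner_smul_right, inner_proj_self]
  unfold disp
  ring

lemma Tinv_Tinv {κ : ℝ} (hκ : 0 ≤ κ) {E : Submodule ℝ V} {v : V} (h : OK κ E v) (p : V × ℝ) :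
    Tinv κ E v (Tinv κ E v p) = p := by
  obtain ⟨x, g⟩ := p
  have ht := tau_sq hκ h
  set a := ‖E.starProjection v‖ ^ 2 with ha
  set y := ⟪E.starProjection v, x⟫ with hy
  set t := tau κ E v with htt
  rw [Tinv_apply, Tinv_apply, disp_inner, ← ha, ← hy, ← htt]
  ext
  · simp only
    have h1 : disp κ E v (x + disp κ E v x g • v) (t * y - (1 - κ * a) * g) = -disp κ E v x g := by
      unfold disp
      have h2 := disp_inner (κ := κ) (E := E) (v := v) x g
      rw [← ha, ← hy, ← htt] at h2
      unfold disp at h2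
      rw [← hy, ← htt] at h2
      rw [← hy, ← htt, h2]
      have : t * t = κ * (2 - κ * a) := by rw [← sq]; exact ht
      linear_combination (y) * this
    rw [h1]
    module
  · simp only
    have : t * t = κ * (2 - κ * a) := by rw [← sq]; exact ht
    linear_combination (a * g) * this

lemma abs_det_Tinv {κ : ℝ} (hκ : 0 ≤ κ) {E : Submodule ℝ V} {v : V} (h : OK κ E v) :
    |LinearMap.det (Tinv κ E v)| = 1 := by
  have h1 : Tinv κ E v * Tinv κ E v = 1 := by
    ext : 1
    · ext x
      · simpa using congrArg Prod.fst (Tinv_Tinv hκ h (x, 0))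
      · simpa using congrArg Prod.snd (Tinv_Tinv hκ h (x, 0))
    · ext
      · simpa using congrArg Prod.fst (Tinv_Tinv hκ h (0, 1))
      · simpa using congrArg Prod.snd (Tinv_Tinv hκ h (0, 1))
  have h2 : LinearMap.det (Tinv κ E v) * LinearMap.det (Tinv κ E v) = 1 := by
    rw [← map_mul, h1, map_one]
  have h3 : |LinearMap.det (Tinv κ E v)| * |LinearMap.det (Tinv κ E v)| = 1 := by
    rw [← abs_mul, h2, abs_one]
  nlinarith [abs_nonneg (LinearMap.det (Tinv κ E v))]

lemma measurePreserving_Tinv {κ : ℝ} (hκ : 0 ≤ κ) {E : Submodule ℝ V} {v : V} (h : OK κ E v) :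
    MeasurePreserving (Tinv κ E v) ((volume : Measure V).prod (volume : Measure ℝ))
      ((volume : Measure V).prod (volume : Measure ℝ)) := by
  have hd := abs_det_Tinv hκ h
  have hd0 : LinearMap.det (Tinv κ E v) ≠ 0 := by
    intro h0
    rw [h0] at hd
    simp at hd
  refine ⟨(LinearMap.continuous_of_finiteDimensional _).measurable, ?_⟩
  have := Measure.map_linearMap_addHaar_eq_smul_addHaar
    ((volume : Measure V).prod (volume : Measure ℝ)) hd0
  rw [this, abs_inv, hd]
  simp

/-- the invariant density on `V × ℝ` -/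
noncomputable def rho (E : Submodule ℝ V) (p : V × ℝ) : ℝ≥0∞ := dE E p.1 * gaussianPDF 0 1 p.2

lemma rho_Tinv {κ : ℝ} (hκ : 0 ≤ κ) {E : Submodule ℝ V} {v : V} (h : OK κ E v) (p : V × ℝ) :
    rho E (Tinv κ E v p) = rho E p := by
  obtain ⟨x, g⟩ := p
  have ht := tau_sq hκ h
  rw [Tinv_apply]
  unfold rho dE gaussianPDF gaussianPDFReal
  simp only
  rw [← ENNReal.ofReal_mul (by positivity), ← ENNReal.ofReal_mul (by positivity)]
  congr 1
  have key : ‖E.starProjection (x + disp κ E v x g • v)‖ ^ 2 +
      (tau κ E v * ⟪E.starProjection v, x⟫ - (1 - κ * ‖E.starProjection v‖ ^ 2) * g) ^ 2 =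
      ‖E.starProjection x‖ ^ 2 + g ^ 2 := by
    rw [map_add, map_smul, norm_add_sq_real, norm_smul, inner_smul_right, real_inner_comm,
      inner_proj_proj, mul_pow, Real.norm_eq_abs, sq_abs]
    set a := ‖E.starProjection v‖ ^ 2 with ha
    set y := ⟪E.starProjection v, x⟫ with hy
    unfold disp
    rw [← hy]
    set t := tau κ E v with htt
    linear_combination (y ^ 2 + g ^ 2 * a) * ht
  have e1 : ∀ a b c d e : ℝ, Real.exp a * (e * Real.exp b) = Real.exp c * (e * Real.exp d) ↔
      e * Real.exp (a + b) = e * Real.exp (c + d) := by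
    intro a b c d e
    rw [Real.exp_add, Real.exp_add]
    constructor
    · intro h; linarith
    · intro h; linarith
  rw [e1]
  congr 2
  simp only [sub_zero, NNReal.coe_one, mul_one]
  linarith [key]

lemma measurable_disp (κ : ℝ) (E : Submodule ℝ V) (v : V) :
    Measurable (fun p : V × ℝ => p.1 + disp κ E v p.1 p.2 • v) := by
  unfold disp; fun_prop

lemma measurable_A {κ : ℝ} {E : Submodule ℝ V} {v : V} {f : V → ℝ≥0∞} (hf : Measurable f) :
    Measurable (A κ E v f) := by
  unfold A
  exact (hf.comp (measurable_disp κ E v)).lintegral_prod_right'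

lemma lintegral_mE {E : Submodule ℝ V} {f : V → ℝ≥0∞} (hf : Measurable f) :
    ∫⁻ x, f x ∂(mE E) = ∫⁻ x, dE E x * f x := by
  unfold mE
  rw [lintegral_withDensity_eq_lintegral_mul _ (measurable_dE E) hf]
  rfl

lemma lintegral_A_mul {κ : ℝ} {E : Submodule ℝ V} {v : V} {f h : V → ℝ≥0∞} (hf : Measurable f)
    (hh : Measurable h) :
    ∫⁻ x, A κ E v f x * h x ∂(mE E) =
      ∫⁻ p : V × ℝ, rho E p * (f (Tinv κ E v p).1 * h p.1) ∂(volume.prod volume) := by
  have hmf := hf.comp (measurable_disp κ E v)
  rw [lintegral_mE (f := fun x => A κ E v f x * h x) ((measurable_A hf).mul hh), lintegral_prod]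
  · refine lintegral_congr fun x => ?_
    unfold A
    have hm : Measurable fun g : ℝ => f (x + disp κ E v x g • v) := hmf.comp measurable_prodMk_left
    rw [gaussianReal_of_var_ne_zero 0 one_ne_zero,
      lintegral_withDensity_eq_lintegral_mul _ (measurable_gaussianPDF 0 1) hm,
      ← lintegral_mul_const, ← lintegral_const_mul]
    · refine lintegral_congr fun g => ?_
      simp only [rho, Tinv_apply, Pi.mul_apply]
      ring
    · exact ((measurable_gaussianPDF 0 1).mul hm).mul_const _
    · exact (measurable_gaussianPDF 0 1).mul hm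
  · refine Measurable.aemeasurable ?_
    unfold rho
    have h1 : Measurable (Tinv κ E v) := (LinearMap.continuous_of_finiteDimensional _).measurable
    exact (((measurable_dE E).comp measurable_fst).mul
      ((measurable_gaussianPDF 0 1).comp measurable_snd)).mul
        ((hf.comp (measurable_fst.comp h1)).mul (hh.comp measurable_fst))

/-- **reversibility** of the letter operator -/
theorem A_selfAdj {κ : ℝ} (hκ : 0 ≤ κ) {E : Submodule ℝ V} {v : V} (hv : OK κ E v)
    {f h : V → ℝ≥0∞} (hf : Measurable f) (hh : Measurable h) :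
    ∫⁻ x, A κ E v f x * h x ∂(mE E) = ∫⁻ x, f x * A κ E v h x ∂(mE E) := by
  have h1 : Measurable (Tinv κ E v) := (LinearMap.continuous_of_finiteDimensional _).measurable
  have e2 : ∫⁻ x, f x * A κ E v h x ∂(mE E) = ∫⁻ x, A κ E v h x * f x ∂(mE E) :=
    lintegral_congr fun x => mul_comm _ _
  rw [e2, lintegral_A_mul hf hh, lintegral_A_mul hh hf,
    ← (measurePreserving_Tinv hκ hv).lintegral_comp]
  · refine lintegral_congr fun p => ?_
    rw [rho_Tinv hκ hv, Tinv_Tinv hκ hv]
    ring
  · unfold rho
    exact (((measurable_dE E).comp measurable_fst).mul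
      ((measurable_gaussianPDF 0 1).comp measurable_snd)).mul
        ((hf.comp (measurable_fst.comp h1)).mul (hh.comp measurable_fst))

end Chain

end Crest.Agent.R239
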