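import Crest.Agent.R239.Chain201b

/-!
# R239, chain #12415 L5: evolution, crossing mass, admissible laws, the claim, composition,
leaf from (SL_W), conclusion for the full space.  (helper201)
-/

set_option autoImplicit false
set_option linter.unusedSectionVars false
open MeasureTheory ProbabilityTheory Set
open scoped RealInnerProductSpace ENNReal NNReal

namespace Crest.Agent.R239

namespace Chain

variable {V : Type*} [NormedAddCommGroup V] [InnerProductSpace ℝ V] [FiniteDimensional ℝ V]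
  [MeasurableSpace V] [BorelSpace V]

section basic

variable {κ : ℝ} {E : Submodule ℝ V} {v : V}

lemma A_one : A κ E v (fun _ => (1 : ℝ≥0∞)) = fun _ => 1 := by
  funext x; unfold A; simp

lemma A_mono {f g : V → ℝ≥0∞} (h : ∀ x, f x ≤ g x) (x : V) : A κ E v f x ≤ A κ E v g x :=
  lintegral_mono fun _ => h _

lemma A_le_one {f : V → ℝ≥0∞} (h : ∀ x, f x ≤ 1) (x : V) : A κ E v f x ≤ 1 := by
  have := A_mono (κ := κ) (E := E) (v := v) h x
  rwa [A_one] at this

lemma A_add {f g : V → ℝ≥0∞} (hf : Measurable f) (x : V) :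
    A κ E v (fun y => f y + g y) x = A κ E v f x + A κ E v g x := by
  unfold A
  have hm : Measurable fun t : ℝ => f (x + disp κ E v x t • v) :=
    hf.comp ((measurable_disp κ E v).comp measurable_prodMk_left)
  exact lintegral_add_left hm _

lemma lintegral_A (hκ : 0 ≤ κ) (hv : OK κ E v) {f : V → ℝ≥0∞} (hf : Measurable f) :
    ∫⁻ x, A κ E v f x ∂(mE E) = ∫⁻ x, f x ∂(mE E) := by
  have h := A_selfAdj hκ hv hf (h := fun _ => 1) measurable_const
  rw [A_one] at h
  simpa using h

end basic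

/-- density at the end -/
noncomputable def evol (κ : ℝ) (E : Submodule ℝ V) : List V → (V → ℝ≥0∞) → V → ℝ≥0∞
  | [], W => W
  | v :: u, W => evol κ E u (A κ E v W)

/-- transition operator -/
noncomputable def trans (κ : ℝ) (E : Submodule ℝ V) : List V → (V → ℝ≥0∞) → V → ℝ≥0∞
  | [], f => f
  | v :: u, f => A κ E v (trans κ E u f)

@[simp] lemma evol_nil (κ : ℝ) (E : Submodule ℝ V) (W : V → ℝ≥0∞) : evol κ E [] W = W := rfl
@[simp] lemma evol_cons (κ : ℝ) (E : Submodule ℝ V) (v : V) (u : List V) (W : V → ℝ≥0∞) :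
    evol κ E (v :: u) W = evol κ E u (A κ E v W) := rfl
@[simp] lemma trans_nil (κ : ℝ) (E : Submodule ℝ V) (f : V → ℝ≥0∞) : trans κ E [] f = f := rfl
@[simp] lemma trans_cons (κ : ℝ) (E : Submodule ℝ V) (v : V) (u : List V) (f : V → ℝ≥0∞) :
    trans κ E (v :: u) f = A κ E v (trans κ E u f) := rfl

/-- words admissible for the kernel -/
def OKw (κ : ℝ) (E : Submodule ℝ V) (u : List V) : Prop := ∀ v ∈ u, OK κ E v

section evo

variable {κ : ℝ} {E : Submodule ℝ V}

lemma evol_append (p q : List V) (W : V → ℝ≥0∞) :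
    evol κ E (p ++ q) W = evol κ E q (evol κ E p W) := by
  induction p generalizing W with
  | nil => rfl
  | cons v p ih => simp [ih]

lemma trans_append (p q : List V) (f : V → ℝ≥0∞) :
    trans κ E (p ++ q) f = trans κ E p (trans κ E q f) := by
  induction p with
  | nil => rfl
  | cons v p ih => simp [ih]

lemma measurable_evol {u : List V} {W : V → ℝ≥0∞} (hW : Measurable W) :
    Measurable (evol κ E u W) := by
  induction u generalizing W with
  | nil => exact hW
  | cons v u ih => exact ih (measurable_A hW)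

lemma measurable_trans {u : List V} {f : V → ℝ≥0∞} (hf : Measurable f) :
    Measurable (trans κ E u f) := by
  induction u with
  | nil => exact hf
  | cons v u ih => exact measurable_A ih

lemma trans_mono {u : List V} {f g : V → ℝ≥0∞} (h : ∀ x, f x ≤ g x) (x : V) :
    trans κ E u f x ≤ trans κ E u g x := by
  induction u generalizing x with
  | nil => exact h x
  | cons v u ih => exact A_mono ih x

lemma trans_one (u : List V) : trans κ E u (fun _ => (1 : ℝ≥0∞)) = fun _ => 1 := by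
  induction u with
  | nil => rfl
  | cons v u ih => rw [trans_cons, ih, A_one]

lemma trans_le_one {u : List V} {f : V → ℝ≥0∞} (h : ∀ x, f x ≤ 1) (x : V) :
    trans κ E u f x ≤ 1 := by
  have := trans_mono (κ := κ) (E := E) (u := u) h x
  rwa [trans_one] at this

lemma trans_add {u : List V} {f g : V → ℝ≥0∞} (hf : Measurable f) (x : V) :
    trans κ E u (fun y => f y + g y) x = trans κ E u f x + trans κ E u g x := by
  induction u generalizing x with
  | nil => rfl
  | cons v u ih =>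
    rw [trans_cons, trans_cons, trans_cons, ← A_add (measurable_trans hf)]
    congr 1
    funext y
    exact ih y

/-- reversibility of words -/
theorem lintegral_evol_mul (hκ : 0 ≤ κ) {u : List V} (hu : OKw κ E u) {W f : V → ℝ≥0∞}
    (hW : Measurable W) (hf : Measurable f) :
    ∫⁻ x, evol κ E u W x * f x ∂(mE E) = ∫⁻ x, W x * trans κ E u f x ∂(mE E) := by
  induction u generalizing W with
  | nil => rfl
  | cons v u ih =>
    rw [evol_cons, trans_cons, ih (fun w hw => hu w (List.mem_cons_of_mem _ hw)) (measurable_A hW),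
      A_selfAdj hκ (hu v List.mem_cons_self) hW (measurable_trans hf)]

lemma lintegral_evol (hκ : 0 ≤ κ) {u : List V} (hu : OKw κ E u) {W : V → ℝ≥0∞}
    (hW : Measurable W) : ∫⁻ x, evol κ E u W x ∂(mE E) = ∫⁻ x, W x ∂(mE E) := by
  have h := lintegral_evol_mul hκ hu hW (f := fun _ => 1) measurable_const
  rw [trans_one] at h
  simpa using h

/-- mass of a law in a set -/
noncomputable def mass (E : Submodule ℝ V) (W : V → ℝ≥0∞) (K : Set V) : ℝ≥0∞ :=
  ∫⁻ x in K, W x ∂(mE E)

lemma mass_mono {W : V → ℝ≥0∞} {K L : Set V} (h : K ⊆ L) : mass E W K ≤ mass E W L :=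
  lintegral_mono_set h

lemma mass_univ (W : V → ℝ≥0∞) : mass E W univ = ∫⁻ x, W x ∂(mE E) := by
  unfold mass; rw [Measure.restrict_univ]

lemma mass_le_univ (W : V → ℝ≥0∞) (K : Set V) : mass E W K ≤ mass E W univ :=
  mass_mono (subset_univ _)

lemma mass_eq {W : V → ℝ≥0∞} {K : Set V} (hK : MeasurableSet K) :
    mass E W K = ∫⁻ x, W x * K.indicator 1 x ∂(mE E) := by
  unfold mass
  rw [← lintegral_indicator hK]
  refine lintegral_congr fun x => ?_
  by_cases hx : x ∈ K <;> simp [hx]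

lemma mass_add_compl (W : V → ℝ≥0∞) {K : Set V} (hK : MeasurableSet K) :
    mass E W K + mass E W Kᶜ = mass E W univ := by
  rw [mass_univ]; exact lintegral_add_compl _ hK

lemma mass_evol_univ (hκ : 0 ≤ κ) {u : List V} (hu : OKw κ E u) {W : V → ℝ≥0∞}
    (hW : Measurable W) : mass E (evol κ E u W) univ = mass E W univ := by
  rw [mass_univ, mass_univ, lintegral_evol hκ hu hW]

/-- crossing mass `P_ν (x_0 ∈ U, x_T ∈ K)` -/
noncomputable def cross (κ : ℝ) (E : Submodule ℝ V) (u : List V) (W : V → ℝ≥0∞) (U K : Set V) :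
    ℝ≥0∞ := ∫⁻ x in U, W x * trans κ E u (K.indicator 1) x ∂(mE E)

lemma cross_le_mass (u : List V) {W : V → ℝ≥0∞} (U K : Set V) :
    cross κ E u W U K ≤ mass E W U := by
  refine lintegral_mono fun x => ?_
  calc W x * trans κ E u (K.indicator 1) x ≤ W x * 1 := by
        gcongr
        exact trans_le_one (fun y => indicator_le_self' (fun _ _ => zero_le) y) x
    _ = W x := mul_one _

lemma cross_mono (u : List V) {W : V → ℝ≥0∞} {U U' K K' : Set V} (hU : U ⊆ U') (hK : K ⊆ K') :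
    cross κ E u W U K ≤ cross κ E u W U' K' := by
  refine (lintegral_mono_set hU).trans (lintegral_mono fun x => ?_)
  gcongr
  exact trans_mono (fun y => indicator_le_indicator_of_subset hK (fun _ => zero_le) y) x

lemma cross_univ_left (hκ : 0 ≤ κ) {u : List V} (hu : OKw κ E u) {W : V → ℝ≥0∞}
    (hW : Measurable W) {K : Set V} (hK : MeasurableSet K) :
    cross κ E u W univ K = mass E (evol κ E u W) K := by
  rw [mass_eq hK, lintegral_evol_mul hκ hu hW (measurable_one.indicator hK)]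
  unfold cross
  rw [Measure.restrict_univ]

lemma cross_univ_right (u : List V) (W : V → ℝ≥0∞) (U : Set V) :
    cross κ E u W U univ = mass E W U := by
  unfold cross mass
  refine lintegral_congr fun x => ?_
  have : (univ : Set V).indicator (1 : V → ℝ≥0∞) = fun _ => 1 := by
    funext y; simp
  rw [this, trans_one, mul_one]

/-- crossings of a composed word -/
theorem cross_append_le (hκ : 0 ≤ κ) {p q : List V} (hp : OKw κ E p) {W : V → ℝ≥0∞}
    (hW : Measurable W) {U K₁ K : Set V} (h₁ : MeasurableSet K₁) (hK : MeasurableSet K) :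
    cross κ E (p ++ q) W U K ≤ cross κ E p W U K₁ + cross κ E q (evol κ E p W) K₁ᶜ K := by
  have m1 : Measurable (K₁.indicator (1 : V → ℝ≥0∞)) := measurable_one.indicator h₁
  have mq : Measurable (trans κ E q (K.indicator (1 : V → ℝ≥0∞))) :=
    measurable_trans (measurable_one.indicator hK)
  have m2 : Measurable (K₁ᶜ.indicator (trans κ E q (K.indicator (1 : V → ℝ≥0∞)))) :=
    mq.indicator h₁.compl
  have pt : ∀ x, trans κ E (p ++ q) (K.indicator 1) x ≤
      trans κ E p (K₁.indicator 1) x +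
        trans κ E p (K₁ᶜ.indicator (trans κ E q (K.indicator (1 : V → ℝ≥0∞)))) x := by
    intro x
    rw [trans_append, ← trans_add m1]
    refine trans_mono (fun y => ?_) x
    by_cases hy : y ∈ K₁
    · have : trans κ E q (K.indicator (1 : V → ℝ≥0∞)) y ≤ 1 :=
        trans_le_one (fun y => indicator_le_self' (fun _ _ => zero_le) y) y
      simpa [hy] using this
    · simp [hy]
  have e2 : cross κ E q (evol κ E p W) K₁ᶜ K =
      ∫⁻ x, W x * trans κ E p (K₁ᶜ.indicator (trans κ E q (K.indicator (1 : V → ℝ≥0∞)))) x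
        ∂(mE E) := by
    rw [← lintegral_evol_mul hκ hp hW m2]
    unfold cross
    rw [← lintegral_indicator h₁.compl]
    refine lintegral_congr fun x => ?_
    by_cases hx : x ∈ K₁ᶜ
    · simp [hx]
    · simp [hx]
  rw [e2]
  unfold cross
  calc ∫⁻ x in U, W x * trans κ E (p ++ q) (K.indicator 1) x ∂(mE E)
      ≤ ∫⁻ x in U, (W x * trans κ E p (K₁.indicator 1) x +
        W x * trans κ E p (K₁ᶜ.indicator (trans κ E q (K.indicator (1 : V → ℝ≥0∞)))) x)
          ∂(mE E) := by
        refine lintegral_mono fun x => ?_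
        rw [← mul_add]
        gcongr
        exact pt x
    _ = ∫⁻ x in U, W x * trans κ E p (K₁.indicator 1) x ∂(mE E) +
        ∫⁻ x in U, W x * trans κ E p (K₁ᶜ.indicator (trans κ E q (K.indicator (1 : V → ℝ≥0∞)))) x
          ∂(mE E) := lintegral_add_left (hW.mul (measurable_trans m1)) _
    _ ≤ _ := by
        gcongr
        exact Measure.restrict_le_self

end evo

/-! ### admissible laws and the claim -/

/-- log-concave densities -/
def LC (W : V → ℝ≥0∞) : Prop :=
  ∀ (x y : V) (a b : ℝ), 0 ≤ a → 0 ≤ b → a + b = 1 → W x ^ a * W y ^ b ≤ W (a • x + b • y)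

/-- log-Lipschitz along `v` -/
def LogLip (ρ : ℝ) (v : V) (W : V → ℝ≥0∞) : Prop :=
  ∀ (x : V) (s : ℝ), W (x + s • v) ≤ ENNReal.ofReal (Real.exp (ρ * |s|)) * W x

/-- a single law: measurable, log-concave, finite mass -/
def Law (E : Submodule ℝ V) (W : V → ℝ≥0∞) : Prop :=
  Measurable W ∧ LC W ∧ ∫⁻ x, W x ∂(mE E) ≠ ∞

/-- admissible laws of a word -/
def AdmW (κ ρ : ℝ) (E : Submodule ℝ V) : List V → (V → ℝ≥0∞) → Prop
  | [], W => Law E W
  | v :: u, W => (Law E W ∧ LogLip ρ v W) ∧ AdmW κ ρ E u (A κ E v W)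

lemma AdmW.law {κ ρ : ℝ} {E : Submodule ℝ V} {u : List V} {W : V → ℝ≥0∞} (h : AdmW κ ρ E u W) :
    Law E W := by
  cases u with
  | nil => exact h
  | cons v u => exact h.1.1

lemma AdmW.left {κ ρ : ℝ} {E : Submodule ℝ V} {p q : List V} {W : V → ℝ≥0∞}
    (h : AdmW κ ρ E (p ++ q) W) : AdmW κ ρ E p W := by
  induction p generalizing W with
  | nil => exact AdmW.law (u := q) h
  | cons v p ih => exact ⟨h.1, ih h.2⟩

lemma AdmW.right {κ ρ : ℝ} {E : Submodule ℝ V} {p q : List V} {W : V → ℝ≥0∞}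
    (h : AdmW κ ρ E (p ++ q) W) : AdmW κ ρ E q (evol κ E p W) := by
  induction p generalizing W with
  | nil => exact h
  | cons v p ih => exact ih h.2

/-- **the claim** (crossing form, validity `τ₀ ν(1) + ℓ w(ν)`, loss `ℓ w(ν)`) -/
def Claim (κ ρ c τ₀ : ℝ) (B : Set V) (w : Submodule ℝ V → (V → ℝ≥0∞) → ℝ≥0∞)
    (E : Submodule ℝ V) (ℓ : ℝ) (u : List V) : Prop :=
  ∀ W, AdmW κ ρ E u W → ∀ K : Set V, IsClosed K → Convex ℝ K → K ⊆ B →
    ENNReal.ofReal τ₀ * mass E W univ + ENNReal.ofReal ℓ * w E W ≤ mass E (evol κ E u W) K →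
    mass E (evol κ E u W) K + ENNReal.ofReal c * cross κ E u W (pre B u K)ᶜ K ≤
      mass E W (pre B u K) + ENNReal.ofReal ℓ * w E W

section claim

variable {κ ρ c τ₀ : ℝ} {B : Set V} {w : Submodule ℝ V → (V → ℝ≥0∞) → ℝ≥0∞} {E : Submodule ℝ V}

lemma Claim.mono {ℓ ℓ' : ℝ} {u : List V} (h : Claim κ ρ c τ₀ B w E ℓ u) (hℓ : ℓ ≤ ℓ') : Claim κ ρ c τ₀ B w E ℓ' u := by
  intro W hW K hK cK hKB hval
  have h1 : ENNReal.ofReal ℓ * w E W ≤ ENNReal.ofReal ℓ' * w E W := by
    gcongr
  have h2 := h W hW K hK cK hKB ((by gcongr : _ ≤ _).trans hval)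
  exact h2.trans (by gcongr)

/-- the empty word -/
lemma Claim.nil (ℓ : ℝ) : Claim κ ρ c τ₀ B w E ℓ ([] : List V) := by
  intro W hW K hK cK hKB _
  rw [evol_nil, pre_nil]
  have h0 : cross κ E [] W Kᶜ K = 0 := by
    unfold cross
    rw [trans_nil, ← lintegral_indicator hK.measurableSet.compl]
    rw [lintegral_eq_zero_iff' ?_]
    · refine Filter.Eventually.of_forall fun x => ?_
      by_cases hx : x ∈ K <;> simp [hx]
    · exact ((hW.law.1.mul (measurable_one.indicator hK.measurableSet)).indicator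
        hK.measurableSet.compl).aemeasurable
  rw [h0, mul_zero, add_zero]
  exact le_self_add

/-- **composition** -/
theorem Claim.append (hκ : 0 ≤ κ) (hB : IsClosed B) (cB : Convex ℝ B)
    {a b : ℝ} (ha : 0 ≤ a) (hb : 0 ≤ b) {p q : List V} (hp : OKw κ E p) (hq : OKw κ E q)
    (hw : ∀ W, AdmW κ ρ E (p ++ q) W → w E (evol κ E p W) ≤ w E W)
    (h₁ : Claim κ ρ c τ₀ B w E a p) (h₂ : Claim κ ρ c τ₀ B w E b q) :
    Claim κ ρ c τ₀ B w E (a + b) (p ++ q) := by
  intro W hW K hK cK hKB hval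
  have hWm : Measurable W := hW.law.1
  have hfin : mass E W univ ≠ ∞ := by rw [mass_univ]; exact hW.law.2.2
  have hw1 := hw W hW
  rw [evol_append] at hval ⊢
  rw [pre_append]
  set W₁ := evol κ E p W with hW₁
  set K₁ := pre B q K with hK₁
  have cl₁ : IsClosed K₁ := isClosed_pre hB hK q
  have cc₁ : Convex ℝ K₁ := convex_pre cB cK q
  have hK₁B : K₁ ⊆ B := pre_subset_wall hKB q
  have hM : mass E W₁ univ = mass E W univ := mass_evol_univ hκ hp hWm
  rw [ENNReal.ofReal_add ha hb, add_mul] at hval ⊢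
  have hfin2 : mass E (evol κ E q W₁) K ≠ ∞ := by
    refine ne_top_of_le_ne_top hfin ?_
    rw [← hM, ← mass_evol_univ hκ hq (measurable_evol hWm)]
    exact mass_le_univ _ _
  have e2 := h₂ W₁ hW.right K hK cK hKB (by
    rw [hM]
    refine le_trans ?_ hval
    calc _ ≤ ENNReal.ofReal τ₀ * mass E W univ + ENNReal.ofReal b * w E W := by gcongr
      _ ≤ _ := by gcongr; exact le_add_self)
  have hbw : ENNReal.ofReal b * w E W ≠ ∞ := by
    refine ne_top_of_le_ne_top hfin2 ?_
    calc ENNReal.ofReal b * w E W ≤ ENNReal.ofReal τ₀ * mass E W univ +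
          (ENNReal.ofReal a * w E W + ENNReal.ofReal b * w E W) := by
            rw [← add_assoc]; exact le_add_self
      _ ≤ _ := hval
  have e2' : mass E (evol κ E q W₁) K +
      ENNReal.ofReal c * cross κ E q W₁ K₁ᶜ K ≤ mass E W₁ K₁ + ENNReal.ofReal b * w E W :=
    e2.trans (by gcongr)
  have hval1 : ENNReal.ofReal τ₀ * mass E W univ + ENNReal.ofReal a * w E W ≤ mass E W₁ K₁ := by
    have h3 : (ENNReal.ofReal τ₀ * mass E W univ + ENNReal.ofReal a * w E W) +
        ENNReal.ofReal b * w E W ≤ mass E W₁ K₁ + ENNReal.ofReal b * w E W := by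
      rw [add_assoc]
      exact hval.trans ((le_add_right le_rfl).trans e2')
    exact (ENNReal.add_le_add_iff_right hbw).1 h3
  have e1 := h₁ W hW.left K₁ cl₁ cc₁ hK₁B hval1
  have e3 := cross_append_le hκ hp (q := q) hWm (U := (pre B p K₁)ᶜ) (K₁ := K₁) (K := K)
    cl₁.measurableSet hK.measurableSet
  calc mass E (evol κ E q W₁) K + ENNReal.ofReal c * cross κ E (p ++ q) W (pre B p K₁)ᶜ K
      ≤ mass E (evol κ E q W₁) K + ENNReal.ofReal c *
        (cross κ E p W (pre B p K₁)ᶜ K₁ + cross κ E q W₁ K₁ᶜ K) := by gcongr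
    _ = (mass E (evol κ E q W₁) K + ENNReal.ofReal c * cross κ E q W₁ K₁ᶜ K) +
        ENNReal.ofReal c * cross κ E p W (pre B p K₁)ᶜ K₁ := by ring
    _ ≤ (mass E W₁ K₁ + ENNReal.ofReal b * w E W) +
        ENNReal.ofReal c * cross κ E p W (pre B p K₁)ᶜ K₁ := by gcongr
    _ = (mass E W₁ K₁ + ENNReal.ofReal c * cross κ E p W (pre B p K₁)ᶜ K₁) +
        ENNReal.ofReal b * w E W := by ring
    _ ≤ (mass E W (pre B p K₁) + ENNReal.ofReal a * w E W) + ENNReal.ofReal b * w E W := by gcongr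
    _ = _ := by ring

/-- **(SL_W)**, helper346 #11659 (1), without walls -/
def SL (κ ρ c τ₀ : ℝ) (E : Submodule ℝ V) (v : V) : Prop :=
  ∀ W, AdmW κ ρ E [v] W → ∀ K : Set V, IsClosed K → Convex ℝ K →
    ENNReal.ofReal τ₀ * mass E W univ ≤ mass E (A κ E v W) K →
    mass E (A κ E v W) K + ENNReal.ofReal c * cross κ E [v] W (star K v)ᶜ K ≤ mass E W (star K v)

lemma mass_union_le (W : V → ℝ≥0∞) (K L : Set V) :
    mass E W (K ∪ L) ≤ mass E W K + mass E W L := lintegral_union_le _ _ _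

lemma cross_union_le (u : List V) (W : V → ℝ≥0∞) (U U' K : Set V) :
    cross κ E u W (U ∪ U') K ≤ cross κ E u W U K + cross κ E u W U' K :=
  lintegral_union_le _ _ _

/-- the leaf from (SL_W) and the wall bound -/
theorem Claim.leaf {v : V} (hc1 : c ≤ 1) (h : SL κ ρ c τ₀ E v)
    (hw : ∀ W, AdmW κ ρ E [v] W → mass E W Bᶜ ≤ w E W) : Claim κ ρ c τ₀ B w E 2 [v] := by
  intro W hW K hK cK hKB hval
  rw [evol_cons, evol_nil] at hval ⊢
  rw [pre_cons, pre_nil]
  have h1 := h W hW K hK cK ((le_add_right le_rfl).trans hval)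
  have h2 := hw W hW
  have h3 : mass E W (star K v) ≤ mass E W (star K v ∩ B) + mass E W Bᶜ := by
    refine (mass_mono ?_).trans (mass_union_le _ _ _)
    intro x hx
    by_cases hxB : x ∈ B
    · exact Or.inl ⟨hx, hxB⟩
    · exact Or.inr hxB
  have h4 : cross κ E [v] W (star K v ∩ B)ᶜ K ≤
      cross κ E [v] W (star K v)ᶜ K + mass E W Bᶜ := by
    rw [compl_inter]
    exact (cross_union_le _ _ _ _ _).trans (by gcongr; exact cross_le_mass _ _ _)
  have hc2 : ENNReal.ofReal c ≤ 1 := by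
    rw [← ENNReal.ofReal_one]; exact ENNReal.ofReal_le_ofReal hc1
  calc mass E (A κ E v W) K + ENNReal.ofReal c * cross κ E [v] W (star K v ∩ B)ᶜ K
      ≤ mass E (A κ E v W) K + ENNReal.ofReal c *
        (cross κ E [v] W (star K v)ᶜ K + mass E W Bᶜ) := by gcongr
    _ = (mass E (A κ E v W) K + ENNReal.ofReal c * cross κ E [v] W (star K v)ᶜ K) +
        ENNReal.ofReal c * mass E W Bᶜ := by ring
    _ ≤ (mass E W (star K v ∩ B) + mass E W Bᶜ) + 1 * mass E W Bᶜ :=
        add_le_add (h1.trans h3) (by gcongr)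
    _ = mass E W (star K v ∩ B) + 2 * mass E W Bᶜ := by ring
    _ ≤ mass E W (star K v ∩ B) + 2 * w E W := by gcongr
    _ = _ := by norm_num

end claim

section top

/-- the constant law is admissible for the full space -/
lemma LC_one : LC (fun _ : V => (1 : ℝ≥0∞)) := by
  intro x y a b _ _ _
  simp

lemma LogLip_one {ρ : ℝ} (hρ : 0 ≤ ρ) (v : V) : LogLip ρ v (fun _ : V => (1 : ℝ≥0∞)) := by
  intro x s
  rw [mul_one, ENNReal.one_le_ofReal]
  exact Real.one_le_exp (by positivity)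

lemma admW_one {κ ρ : ℝ} (hρ : 0 ≤ ρ) {E : Submodule ℝ V}
    (hfin : ∫⁻ _, (1 : ℝ≥0∞) ∂(mE E) ≠ ∞) (u : List V) :
    AdmW κ ρ E u (fun _ : V => (1 : ℝ≥0∞)) := by
  induction u with
  | nil => exact ⟨measurable_const, LC_one, hfin⟩
  | cons v u ih =>
    refine ⟨⟨⟨measurable_const, LC_one, hfin⟩, LogLip_one hρ v⟩, ?_⟩
    rw [A_one]
    exact ih

lemma evol_one {κ : ℝ} {E : Submodule ℝ V} (u : List V) :
    evol κ E u (fun _ : V => (1 : ℝ≥0∞)) = fun _ => 1 := by
  induction u with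
  | nil => rfl
  | cons v u ih => rw [evol_cons, A_one, ih]

/-- **conclusion for the full space** -/
theorem Claim.concl {κ ρ c τ₀ : ℝ} {B : Set V} {w : Submodule ℝ V → (V → ℝ≥0∞) → ℝ≥0∞}
    (hρ : 0 ≤ ρ) (hτ : τ₀ ≤ 1 / 2) {ℓ : ℝ} {u : List V} (h : Claim κ ρ c τ₀ B w ⊤ ℓ u)
    (hB : IsClosed B) (cB : Convex ℝ B)
    (hfin : mass (⊤ : Submodule ℝ V) (fun _ => 1) univ ≠ ∞)
    (hpos : mass (⊤ : Submodule ℝ V) (fun _ => 1) univ ≠ 0)
    (hmB : ENNReal.ofReal (3 / 4) * mass (⊤ : Submodule ℝ V) (fun _ => 1) univ ≤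
      mass (⊤ : Submodule ℝ V) (fun _ => 1) B)
    (hw : ENNReal.ofReal ℓ * w ⊤ (fun _ => 1) ≤
      ENNReal.ofReal (1 / 4) * mass (⊤ : Submodule ℝ V) (fun _ => 1) univ) :
    (pre B u B).Nonempty := by
  rw [nonempty_iff_ne_empty]
  intro hemp
  have hadm := admW_one (κ := κ) hρ (E := (⊤ : Submodule ℝ V)) (by rwa [mass_univ] at hfin) u
  have h1 := h _ hadm B hB cB subset_rfl (by
    rw [evol_one]
    refine le_trans ?_ hmB
    calc _ ≤ ENNReal.ofReal (1 / 2) * mass (⊤ : Submodule ℝ V) (fun _ => 1) univ +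
        ENNReal.ofReal (1 / 4) * mass (⊤ : Submodule ℝ V) (fun _ => 1) univ := by
          gcongr
      _ = _ := by
        rw [← add_mul, ← ENNReal.ofReal_add (by norm_num) (by norm_num)]
        norm_num)
  rw [evol_one, hemp] at h1
  have h2 : mass (⊤ : Submodule ℝ V) (fun _ => 1) B ≤
      ENNReal.ofReal (1 / 4) * mass (⊤ : Submodule ℝ V) (fun _ => 1) univ := by
    calc mass (⊤ : Submodule ℝ V) (fun _ => 1) B ≤ _ := le_self_add
      _ ≤ mass (⊤ : Submodule ℝ V) (fun _ => 1) ∅ + ENNReal.ofReal ℓ * w ⊤ (fun _ => 1) := h1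
      _ = ENNReal.ofReal ℓ * w ⊤ (fun _ => 1) := by simp [mass]
      _ ≤ _ := hw
  have h3 := hmB.trans h2
  rw [ENNReal.mul_le_mul_iff_left hpos hfin, ENNReal.ofReal_le_ofReal_iff (by norm_num)] at h3
  norm_num at h3

end top

end Chain

end Crest.Agent.R239
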