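import Crest.Agent.R239.Chain201c

/-!
# R239 (S3): the reference measure of the full space: total mass, mass of balls (helper201)
-/

set_option autoImplicit false
set_option linter.unusedSectionVars false
open MeasureTheory ProbabilityTheory Set
open scoped RealInnerProductSpace ENNReal NNReal

namespace Crest.Agent.R239

namespace Chain

variable {V : Type*} [NormedAddCommGroup V] [InnerProductSpace ℝ V] [FiniteDimensional ℝ V]
  [MeasurableSpace V] [BorelSpace V]

lemma integrable_gauss {b : ℝ} (hb : 0 < b) :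
    Integrable (fun x : V => Real.exp (-b * ‖x‖ ^ 2)) volume := by
  by_contra h
  have h1 := GaussianFourier.integral_rexp_neg_mul_sq_norm (V := V) hb
  rw [integral_undef h] at h1
  have : 0 < (Real.pi / b) ^ ((Module.finrank ℝ V : ℝ) / 2) := by positivity
  linarith

lemma lintegral_gauss {b : ℝ} (hb : 0 < b) :
    ∫⁻ x : V, ENNReal.ofReal (Real.exp (-b * ‖x‖ ^ 2)) =
      ENNReal.ofReal ((Real.pi / b) ^ ((Module.finrank ℝ V : ℝ) / 2)) := by
  rw [← ofReal_integral_eq_lintegral_ofReal (integrable_gauss hb)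
    (Filter.Eventually.of_forall fun x => (Real.exp_pos _).le),
    GaussianFourier.integral_rexp_neg_mul_sq_norm hb]

lemma dE_top (x : V) : dE (⊤ : Submodule ℝ V) x = ENNReal.ofReal (Real.exp (-(1 / 2) * ‖x‖ ^ 2)) := by
  unfold dE
  rw [Submodule.starProjection_top]
  simp only [ContinuousLinearMap.id_apply]
  congr 2
  ring

lemma mass_top_eq {K : Set V} (hK : MeasurableSet K) :
    mass (⊤ : Submodule ℝ V) (fun _ => 1) K =
      ∫⁻ x in K, ENNReal.ofReal (Real.exp (-(1 / 2) * ‖x‖ ^ 2)) := by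
  unfold mass mE
  rw [lintegral_one, Measure.restrict_apply_univ, withDensity_apply _ hK]
  exact lintegral_congr fun x => dE_top x

theorem mass_top_univ :
    mass (⊤ : Submodule ℝ V) (fun _ => 1) univ =
      ENNReal.ofReal ((2 * Real.pi) ^ ((Module.finrank ℝ V : ℝ) / 2)) := by
  rw [mass_top_eq MeasurableSet.univ, Measure.restrict_univ, lintegral_gauss (by norm_num)]
  congr 2
  ring

lemma mass_top_ne_top : mass (⊤ : Submodule ℝ V) (fun _ => 1) univ ≠ ∞ := by
  rw [mass_top_univ]; exact ENNReal.ofReal_ne_top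

lemma mass_top_ne_zero : mass (⊤ : Submodule ℝ V) (fun _ => 1) univ ≠ 0 := by
  rw [mass_top_univ]
  have : 0 < (2 * Real.pi) ^ ((Module.finrank ℝ V : ℝ) / 2) := by positivity
  simpa using this

/-- tail bound -/
theorem mass_top_compl_ball {R : ℝ} (hR : 0 ≤ R) :
    mass (⊤ : Submodule ℝ V) (fun _ => 1) (Metric.closedBall 0 R)ᶜ ≤
      ENNReal.ofReal (Real.exp (-(R ^ 2 / 4)) * 2 ^ ((Module.finrank ℝ V : ℝ) / 2)) *
        mass (⊤ : Submodule ℝ V) (fun _ => 1) univ := by
  rw [mass_top_eq Metric.isClosed_closedBall.measurableSet.compl, mass_top_univ]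
  calc ∫⁻ x in (Metric.closedBall (0 : V) R)ᶜ, ENNReal.ofReal (Real.exp (-(1 / 2) * ‖x‖ ^ 2))
      ≤ ∫⁻ x in (Metric.closedBall (0 : V) R)ᶜ, ENNReal.ofReal (Real.exp (-(R ^ 2 / 4))) *
          ENNReal.ofReal (Real.exp (-(1 / 4) * ‖x‖ ^ 2)) := by
        refine setLIntegral_mono' Metric.isClosed_closedBall.measurableSet.compl fun x hx => ?_
        rw [← ENNReal.ofReal_mul (Real.exp_pos _).le, ← Real.exp_add]
        refine ENNReal.ofReal_le_ofReal (Real.exp_le_exp.2 ?_)
        simp only [mem_compl_iff, Metric.mem_closedBall, dist_zero_right, not_le] at hx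
        nlinarith [norm_nonneg x]
    _ ≤ ∫⁻ x : V, ENNReal.ofReal (Real.exp (-(R ^ 2 / 4))) *
          ENNReal.ofReal (Real.exp (-(1 / 4) * ‖x‖ ^ 2)) := setLIntegral_le_lintegral _ _
    _ = ENNReal.ofReal (Real.exp (-(R ^ 2 / 4))) *
          ENNReal.ofReal ((Real.pi / (1 / 4)) ^ ((Module.finrank ℝ V : ℝ) / 2)) := by
        rw [lintegral_const_mul _ (by fun_prop), lintegral_gauss (by norm_num)]
    _ = _ := by
        rw [← ENNReal.ofReal_mul (Real.exp_pos _).le, ← ENNReal.ofReal_mul (by positivity),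
          mul_assoc, ← Real.mul_rpow (by norm_num) (by positivity)]
        congr 3
        ring

/-- the ball of radius `C √n` carries `3/4` of the mass -/
theorem mass_top_ball {C : ℝ} (hC : 3 ≤ C) :
    ENNReal.ofReal (3 / 4) * mass (⊤ : Submodule ℝ V) (fun _ => 1) univ ≤
      mass (⊤ : Submodule ℝ V) (fun _ => 1)
        (Metric.closedBall (0 : V) (C * Real.sqrt (Module.finrank ℝ V))) := by
  set n := Module.finrank ℝ V with hn
  set M := mass (⊤ : Submodule ℝ V) (fun _ => 1) univ with hM
  set B := Metric.closedBall (0 : V) (C * Real.sqrt n) with hB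
  have hBm : MeasurableSet B := Metric.isClosed_closedBall.measurableSet
  have hsum := mass_add_compl (E := (⊤ : Submodule ℝ V)) (fun _ => 1) hBm
  rcases Nat.eq_zero_or_pos n with h0 | hpos
  · have hBu : B = univ := by
      have hs : Subsingleton V := Module.finrank_zero_iff.1 (by rw [← hn]; exact h0)
      refine eq_univ_of_forall fun x => ?_
      rw [Subsingleton.elim x 0]
      exact Metric.mem_closedBall_self (by positivity)
    rw [hBu, ← hM]
    calc ENNReal.ofReal (3 / 4) * M ≤ 1 * M := by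
          gcongr
          rw [← ENNReal.ofReal_one]
          exact ENNReal.ofReal_le_ofReal (by norm_num)
      _ = M := one_mul _
  · have h1 := mass_top_compl_ball (V := V) (R := C * Real.sqrt n) (by positivity)
    rw [← hM, ← hB, ← hn] at h1
    have hnum : Real.exp (-((C * Real.sqrt n) ^ 2 / 4)) * 2 ^ ((n : ℝ) / 2) ≤ 1 / 4 := by
      have e1 : (2 : ℝ) ^ ((n : ℝ) / 2) = Real.exp (Real.log 2 * (n / 2)) := by
        rw [Real.rpow_def_of_pos (by norm_num)]
      have hn1 : (1 : ℝ) ≤ n := by exact_mod_cast hpos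
      have hl := Real.log_two_lt_d9
      rw [e1, ← Real.exp_add, mul_pow, Real.sq_sqrt (by positivity)]
      have h4 : Real.exp (-(2 * Real.log 2)) = 1 / 4 := by
        rw [Real.exp_neg, mul_comm, Real.exp_mul, Real.exp_log (by norm_num)]
        norm_num
      rw [← h4]
      refine Real.exp_le_exp.2 ?_
      have hC2 : 9 ≤ C ^ 2 := by nlinarith
      have : (9 / 4 - Real.log 2 / 2) * n ≤ (C ^ 2 / 4 - Real.log 2 / 2) * n := by
        gcongr
      nlinarith
    have h2 : mass (⊤ : Submodule ℝ V) (fun _ => 1) Bᶜ ≤ ENNReal.ofReal (1 / 4) * M :=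
      h1.trans (by gcongr)
    have h3 : ENNReal.ofReal (3 / 4) * M + ENNReal.ofReal (1 / 4) * M ≤
        mass (⊤ : Submodule ℝ V) (fun _ => 1) B + ENNReal.ofReal (1 / 4) * M := by
      calc _ = M := by
            rw [← add_mul, ← ENNReal.ofReal_add (by norm_num) (by norm_num)]; norm_num
        _ = mass (⊤ : Submodule ℝ V) (fun _ => 1) B +
            mass (⊤ : Submodule ℝ V) (fun _ => 1) Bᶜ := hsum.symm
        _ ≤ _ := by gcongr
    have hfin : ENNReal.ofReal (1 / 4) * M ≠ ∞ :=
      ENNReal.mul_ne_top ENNReal.ofReal_ne_top mass_top_ne_top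
    exact (ENNReal.add_le_add_iff_right hfin).1 h3

end Chain

end Crest.Agent.R239
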