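import Crest.Agent.R239.Chain201d

/-!
# R239: `ChainData` from the concrete claims (helper201)

`mkChain` : wall functional `w` + potential `Psi` + the block lemma for `Claim` give `ChainData`.
`ConcreteChain` : one Prop, with absolute constants; `final_of_concrete : ConcreteChain → S0370`.
-/

set_option autoImplicit false
set_option linter.unusedSectionVars false
open MeasureTheory ProbabilityTheory Set
open scoped RealInnerProductSpace ENNReal NNReal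

namespace Crest.Agent.R239

namespace Chain

section

variable {V : Type} [NormedAddCommGroup V] [InnerProductSpace ℝ V] [FiniteDimensional ℝ V]
  [MeasurableSpace V] [BorelSpace V]

lemma norm_proj_le (E : Submodule ℝ V) (v : V) : ‖E.starProjection v‖ ≤ ‖v‖ :=
  E.norm_starProjection_apply_le v

lemma okw_of_short {κ δ₀ : ℝ} (hκ : 0 ≤ κ) (hd : κ * δ₀ ^ 2 ≤ 2) (E : Submodule ℝ V) {u : List V}
    (hu : Short δ₀ u) : OKw κ E u := by
  intro v hv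
  unfold OK
  have h1 := norm_proj_le E v
  have h2 := (hu v hv).2
  have h3 : ‖E.starProjection v‖ ^ 2 ≤ δ₀ ^ 2 :=
    pow_le_pow_left₀ (norm_nonneg _) (h1.trans h2) 2
  nlinarith

/-- everything which remains to be proved about one space `V` -/
structure Inputs (V : Type) [NormedAddCommGroup V] [InnerProductSpace ℝ V]
    [FiniteDimensional ℝ V] [MeasurableSpace V] [BorelSpace V]
    (κ ρ c τ₀ R δ₀ δ C₀ w₀ : ℝ) where
  /-- wall functional -/
  w : Submodule ℝ V → (V → ℝ≥0∞) → ℝ≥0∞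
  /-- potential -/
  Psi : Submodule ℝ V → List V → ℝ
  w_evol : ∀ {E p q W}, Short δ₀ (p ++ q) → AdmW κ ρ E (p ++ q) W → w E (evol κ E p W) ≤ w E W
  w_top : w ⊤ (fun _ => 1) ≤ ENNReal.ofReal w₀ * mass (⊤ : Submodule ℝ V) (fun _ => 1) univ
  psi_nonneg : ∀ {E u}, Short δ₀ u → 0 ≤ Psi E u
  psi_le : ∀ {u}, Short δ₀ u → Psi ⊤ u ≤ Module.finrank ℝ V
  /-- **block lemma** -/
  block : ∀ {E ℓ u}, 1 ≤ ℓ → Short δ₀ u → Unsplit (Psi E) δ u →
    (∀ E' ≤ E, ∀ p, p <:+: u → Psi E' p ≤ Psi E u - δ →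
      Claim κ ρ c τ₀ (Metric.closedBall (0 : V) R) w E' ℓ p) →
    Claim κ ρ c τ₀ (Metric.closedBall (0 : V) R) w E (C₀ * ℓ) u

/-- the abstract data -/
def mkChain {κ ρ c τ₀ δ₀ δ C₀ w₀ C : ℝ} (hκ : 0 ≤ κ) (hκδ : κ * δ₀ ^ 2 ≤ 2) (hρ : 0 ≤ ρ)
    (hτ : τ₀ ≤ 1 / 2) (hC : 3 ≤ C)
    (D : Inputs V κ ρ c τ₀ (C * Real.sqrt (Module.finrank ℝ V)) δ₀ δ C₀ w₀) :
    ChainData V (C * Real.sqrt (Module.finrank ℝ V)) δ₀ δ C₀ w₀ where
  Cl E ℓ u := Claim κ ρ c τ₀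
    (Metric.closedBall (0 : V) (C * Real.sqrt (Module.finrank ℝ V))) D.w E ℓ u
  Psi := D.Psi
  cl_mono := fun _ h hc => hc.mono h
  cl_append := fun {E a b p q} ha hb hp hq h₁ h₂ =>
    Claim.append hκ Metric.isClosed_closedBall (convex_closedBall _ _) (by linarith) (by linarith)
      (okw_of_short hκ hκδ E hp) (okw_of_short hκ hκδ E hq)
      (fun W hW => D.w_evol (fun v hv => by
        rcases List.mem_append.1 hv with h | h
        · exact hp v h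
        · exact hq v h) hW) h₁ h₂
  psi_nonneg := D.psi_nonneg
  psi_le := D.psi_le
  block := D.block
  concl := fun {ℓ u} hℓ _ h hw => by
    refine Claim.concl (V := V) hρ hτ h Metric.isClosed_closedBall (convex_closedBall _ _)
      mass_top_ne_top mass_top_ne_zero (mass_top_ball hC) ?_
    calc ENNReal.ofReal ℓ * D.w ⊤ (fun _ => 1)
        ≤ ENNReal.ofReal ℓ *
          (ENNReal.ofReal w₀ * mass (⊤ : Submodule ℝ V) (fun _ => 1) univ) := by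
          gcongr
          exact D.w_top
      _ = ENNReal.ofReal (ℓ * w₀) * mass (⊤ : Submodule ℝ V) (fun _ => 1) univ := by
          rw [ENNReal.ofReal_mul (by linarith), mul_assoc]
      _ ≤ _ := by gcongr

end

/-- **what remains to be proved** for S0370: absolute constants such that in every dimension the
wall functional, the potential and the block lemma exist, and the numbers fit. -/
def ConcreteChain : Prop :=
  ∃ κ ρ c τ₀ δ₀ δ C₀ C : ℝ, 0 < κ ∧ 0 < ρ ∧ 0 < c ∧ c ≤ 1 ∧ 0 < τ₀ ∧ τ₀ ≤ 1 / 2 ∧ 0 < δ₀ ∧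
    κ * δ₀ ^ 2 ≤ 2 ∧ 0 < δ ∧ 1 ≤ C₀ ∧ 3 ≤ C ∧
    ∀ n : ℕ, ∃ (k : ℕ) (w₀ : ℝ), (n : ℝ) ≤ k * δ ∧ C₀ * (2 * C₀) ^ k * w₀ ≤ 1 / 4 ∧
      Nonempty (Inputs (EuclideanSpace ℝ (Fin n)) κ ρ c τ₀ (C * Real.sqrt n) δ₀ δ C₀ w₀)

/-- **S0370 from the concrete chain** -/
theorem final_of_concrete (H : ConcreteChain) :
    ∃ C : ℝ, ∀ (d N : ℕ) (v : Fin N → EuclideanSpace ℝ (Fin d)),
      (∀ i, ‖v i‖ ≤ 1) →
      ∃ ε : Fin N → ℤ, (∀ i, ε i = 1 ∨ ε i = -1) ∧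
        ∀ k : ℕ, k ≤ N →
          ‖∑ i ∈ Finset.univ.filter (fun i : Fin N => (i : ℕ) < k), (ε i : ℝ) • v i‖
            ≤ C * Real.sqrt d := by
  obtain ⟨κ, ρ, c, τ₀, δ₀, δ, C₀, C, hκ, hρ, -, -, -, hτ1, hδ₀, hκδ, hδ, hC₀, hC, H⟩ := H
  refine final ⟨C, δ₀, δ, C₀, hδ₀, hδ, hC₀, fun n => ?_⟩
  obtain ⟨k, w₀, hk, hw, ⟨D⟩⟩ := H n
  refine ⟨k, w₀, hk, hw, ⟨?_⟩⟩
  have hn : Module.finrank ℝ (EuclideanSpace ℝ (Fin n)) = n := finrank_euclideanSpace_fin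
  have D' : Inputs (EuclideanSpace ℝ (Fin n)) κ ρ c τ₀
      (C * Real.sqrt (Module.finrank ℝ (EuclideanSpace ℝ (Fin n)))) δ₀ δ C₀ w₀ := by
    rw [hn]; exact D
  have := mkChain hκ.le hκδ hρ.le hτ1 hC D'
  rwa [hn] at this

end Chain

end Crest.Agent.R239
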