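import Crest.Agent.R239.Chain201d

/-!
# R239: generic assembly (helper201)

Everything which may still change in the chain is a parameter: index `ι` of contexts (active space,
frames, flags, labels, ...), class of laws `Adm`, wall weight `w` (depends on the word), gain
functional `G` (crossing, weighted crossing, visible crossing, ...), potential `Psi`.

`Plan.final : PlanProp → S0370`.
-/

set_option autoImplicit false
set_option linter.unusedSectionVars false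
open MeasureTheory ProbabilityTheory Set
open scoped RealInnerProductSpace ENNReal NNReal

namespace Crest.Agent.R239

namespace ChainG

open Chain

section

variable {V : Type} [NormedAddCommGroup V] [InnerProductSpace ℝ V] [FiniteDimensional ℝ V]
  [MeasurableSpace V] [BorelSpace V]

/-- the claim for a class `Adm` of laws, wall weight `w`, gain functional `G` -/
def Cl (κ τ₀ : ℝ) (B : Set V) (E : Submodule ℝ V) (Adm : List V → (V → ℝ≥0∞) → Prop)
    (w : List V → (V → ℝ≥0∞) → ℝ≥0∞) (G : List V → (V → ℝ≥0∞) → Set V → Set V → ℝ≥0∞)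
    (ℓ : ℝ) (u : List V) : Prop :=
  ∀ W, Adm u W → ∀ K : Set V, IsClosed K → Convex ℝ K → K ⊆ B →
    ENNReal.ofReal τ₀ * mass E W univ + ENNReal.ofReal ℓ * w u W ≤ mass E (evol κ E u W) K →
    mass E (evol κ E u W) K + G u W (pre B u K) K ≤
      mass E W (pre B u K) + ENNReal.ofReal ℓ * w u W

variable {κ τ₀ : ℝ} {B : Set V} {E : Submodule ℝ V} {Adm : List V → (V → ℝ≥0∞) → Prop}
  {w : List V → (V → ℝ≥0∞) → ℝ≥0∞} {G : List V → (V → ℝ≥0∞) → Set V → Set V → ℝ≥0∞}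

lemma Cl.mono {ℓ ℓ' : ℝ} {u : List V} (h : Cl κ τ₀ B E Adm w G ℓ u) (hℓ : ℓ ≤ ℓ') :
    Cl κ τ₀ B E Adm w G ℓ' u := by
  intro W hW K hK cK hKB hval
  have h1 : ENNReal.ofReal ℓ * w u W ≤ ENNReal.ofReal ℓ' * w u W := by
    gcongr
  have h2 := h W hW K hK cK hKB ((by gcongr : _ ≤ _).trans hval)
  exact h2.trans (by gcongr)

/-- **composition** -/
theorem Cl.append (hκ : 0 ≤ κ) (hB : IsClosed B) (cB : Convex ℝ B)
    {a b : ℝ} (ha : 0 ≤ a) (hb : 0 ≤ b) {p q : List V} (hp : OKw κ E p) (hq : OKw κ E q)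
    (hWm : ∀ W, Adm (p ++ q) W → Measurable W)
    (hfin : ∀ W, Adm (p ++ q) W → mass E W univ ≠ ∞)
    (hl : ∀ W, Adm (p ++ q) W → Adm p W) (hr : ∀ W, Adm (p ++ q) W → Adm q (evol κ E p W))
    (wl : ∀ W, Adm (p ++ q) W → w p W ≤ w (p ++ q) W)
    (wr : ∀ W, Adm (p ++ q) W → w q (evol κ E p W) ≤ w (p ++ q) W)
    (hG : ∀ W K, Adm (p ++ q) W → IsClosed K → Convex ℝ K → K ⊆ B →
      G (p ++ q) W (pre B p (pre B q K)) K ≤
        G p W (pre B p (pre B q K)) (pre B q K) + G q (evol κ E p W) (pre B q K) K)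
    (h₁ : Cl κ τ₀ B E Adm w G a p) (h₂ : Cl κ τ₀ B E Adm w G b q) :
    Cl κ τ₀ B E Adm w G (a + b) (p ++ q) := by
  intro W hW K hK cK hKB hval
  have hWm := hWm W hW
  have hfin := hfin W hW
  have hwl := wl W hW
  have hwr := wr W hW
  have hGG := hG W K hW hK cK hKB
  rw [evol_append] at hval ⊢
  rw [pre_append]
  set W₁ := evol κ E p W with hW₁
  set K₁ := pre B q K with hK₁
  have cl₁ : IsClosed K₁ := isClosed_pre hB hK q
  have cc₁ : Convex ℝ K₁ := convex_pre cB cK q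
  have hK₁B : K₁ ⊆ B := pre_subset_wall hKB q
  have hM : mass E W₁ univ = mass E W univ := mass_evol_univ hκ hp hWm
  rw [ENNReal.ofReal_add ha hb, add_mul] at hval ⊢
  have hfin2 : mass E (evol κ E q W₁) K ≠ ∞ := by
    refine ne_top_of_le_ne_top hfin ?_
    rw [← hM, ← mass_evol_univ hκ hq (measurable_evol hWm)]
    exact mass_le_univ _ _
  have e2 := h₂ W₁ (hr W hW) K hK cK hKB (by
    rw [hM]
    refine le_trans ?_ hval
    calc _ ≤ ENNReal.ofReal τ₀ * mass E W univ + ENNReal.ofReal b * w (p ++ q) W := by gcongr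
      _ ≤ _ := by gcongr; exact le_add_self)
  have hbw : ENNReal.ofReal b * w (p ++ q) W ≠ ∞ := by
    refine ne_top_of_le_ne_top hfin2 ?_
    calc ENNReal.ofReal b * w (p ++ q) W ≤ ENNReal.ofReal τ₀ * mass E W univ +
          (ENNReal.ofReal a * w (p ++ q) W + ENNReal.ofReal b * w (p ++ q) W) := by
            rw [← add_assoc]; exact le_add_self
      _ ≤ _ := hval
  have e2' : mass E (evol κ E q W₁) K + G q W₁ K₁ K ≤
      mass E W₁ K₁ + ENNReal.ofReal b * w (p ++ q) W :=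
    e2.trans (by gcongr)
  have hval1 : ENNReal.ofReal τ₀ * mass E W univ + ENNReal.ofReal a * w (p ++ q) W ≤
      mass E W₁ K₁ := by
    have h3 : (ENNReal.ofReal τ₀ * mass E W univ + ENNReal.ofReal a * w (p ++ q) W) +
        ENNReal.ofReal b * w (p ++ q) W ≤ mass E W₁ K₁ + ENNReal.ofReal b * w (p ++ q) W := by
      rw [add_assoc]
      exact hval.trans ((le_add_right le_rfl).trans e2')
    exact (ENNReal.add_le_add_iff_right hbw).1 h3
  have e1 := h₁ W (hl W hW) K₁ cl₁ cc₁ hK₁B (le_trans (by gcongr) hval1)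
  calc mass E (evol κ E q W₁) K + G (p ++ q) W (pre B p K₁) K
      ≤ mass E (evol κ E q W₁) K + (G p W (pre B p K₁) K₁ + G q W₁ K₁ K) := by gcongr
    _ = (mass E (evol κ E q W₁) K + G q W₁ K₁ K) + G p W (pre B p K₁) K₁ := by ring
    _ ≤ (mass E W₁ K₁ + ENNReal.ofReal b * w (p ++ q) W) + G p W (pre B p K₁) K₁ := by gcongr
    _ = (mass E W₁ K₁ + G p W (pre B p K₁) K₁) + ENNReal.ofReal b * w (p ++ q) W := by ring
    _ ≤ (mass E W (pre B p K₁) + ENNReal.ofReal a * w p W) +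
        ENNReal.ofReal b * w (p ++ q) W := by gcongr
    _ ≤ (mass E W (pre B p K₁) + ENNReal.ofReal a * w (p ++ q) W) +
        ENNReal.ofReal b * w (p ++ q) W := by gcongr
    _ = _ := by ring

/-- **conclusion for the full space** -/
theorem Cl.concl (hτ : τ₀ ≤ 1 / 2) {ℓ : ℝ} {u : List V} (h : Cl κ τ₀ B ⊤ Adm w G ℓ u)
    (hadm : Adm u (fun _ => 1))
    (hB : IsClosed B) (cB : Convex ℝ B)
    (hfin : mass (⊤ : Submodule ℝ V) (fun _ => 1) univ ≠ ∞)
    (hpos : mass (⊤ : Submodule ℝ V) (fun _ => 1) univ ≠ 0)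
    (hmB : ENNReal.ofReal (3 / 4) * mass (⊤ : Submodule ℝ V) (fun _ => 1) univ ≤
      mass (⊤ : Submodule ℝ V) (fun _ => 1) B)
    (hw : ENNReal.ofReal ℓ * w u (fun _ => 1) ≤
      ENNReal.ofReal (1 / 4) * mass (⊤ : Submodule ℝ V) (fun _ => 1) univ) :
    (pre B u B).Nonempty := by
  rw [nonempty_iff_ne_empty]
  intro hemp
  have h1 := h _ hadm B hB cB subset_rfl (by
    rw [evol_one]
    refine le_trans ?_ hmB
    calc _ ≤ ENNReal.ofReal (1 / 2) * mass (⊤ : Submodule ℝ V) (fun _ => 1) univ +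
        ENNReal.ofReal (1 / 4) * mass (⊤ : Submodule ℝ V) (fun _ => 1) univ := by
          gcongr
      _ = ENNReal.ofReal (3 / 4) * mass (⊤ : Submodule ℝ V) (fun _ => 1) univ := by
          rw [← add_mul, ← ENNReal.ofReal_add (by norm_num) (by norm_num)]
          norm_num)
  rw [evol_one, hemp] at h1
  have h0 : mass (⊤ : Submodule ℝ V) (fun _ => (1 : ℝ≥0∞)) (∅ : Set V) = 0 := by
    simp [mass]
  rw [h0, zero_add] at h1
  have h2 : ENNReal.ofReal (3 / 4) * mass (⊤ : Submodule ℝ V) (fun _ => 1) univ ≤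
      ENNReal.ofReal (1 / 4) * mass (⊤ : Submodule ℝ V) (fun _ => 1) univ :=
    (hmB.trans (le_add_right le_rfl)).trans (h1.trans hw)
  rw [ENNReal.mul_le_mul_iff_left hpos hfin] at h2
  rw [ENNReal.ofReal_le_ofReal_iff (by norm_num)] at h2
  norm_num at h2

/-- everything a chain has to provide for one space `V` -/
structure Plan (V : Type) [NormedAddCommGroup V] [InnerProductSpace ℝ V]
    [FiniteDimensional ℝ V] [MeasurableSpace V] [BorelSpace V]
    (κ τ₀ R δ₀ δ C₀ w₀ : ℝ) where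
  /-- contexts -/
  ι : Type
  top : ι
  /-- active space (= drifted directions) of a context; `⊤` for all contexts is allowed -/
  E : ι → Submodule ℝ V
  E_top : E top = ⊤
  Adm : ι → List V → (V → ℝ≥0∞) → Prop
  w : ι → List V → (V → ℝ≥0∞) → ℝ≥0∞
  G : ι → List V → (V → ℝ≥0∞) → Set V → Set V → ℝ≥0∞
  Psi : ι → List V → ℝ
  adm_meas : ∀ {i u W}, Adm i u W → Measurable W
  adm_fin : ∀ {i u W}, Adm i u W → mass (E i) W univ ≠ ∞
  adm_left : ∀ {i p q W}, Short δ₀ (p ++ q) → Adm i (p ++ q) W → Adm i p W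
  adm_right : ∀ {i p q W}, Short δ₀ (p ++ q) → Adm i (p ++ q) W → Adm i q (evol κ (E i) p W)
  w_left : ∀ {i p q W}, Short δ₀ (p ++ q) → Adm i (p ++ q) W → w i p W ≤ w i (p ++ q) W
  w_right : ∀ {i p q W}, Short δ₀ (p ++ q) → Adm i (p ++ q) W →
    w i q (evol κ (E i) p W) ≤ w i (p ++ q) W
  G_append : ∀ {i p q W K}, Short δ₀ (p ++ q) → Adm i (p ++ q) W → IsClosed K → Convex ℝ K →
    K ⊆ Metric.closedBall (0 : V) R →
    G i (p ++ q) W (pre (Metric.closedBall 0 R) p (pre (Metric.closedBall 0 R) q K)) K ≤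
      G i p W (pre (Metric.closedBall 0 R) p (pre (Metric.closedBall 0 R) q K))
        (pre (Metric.closedBall 0 R) q K) +
      G i q (evol κ (E i) p W) (pre (Metric.closedBall 0 R) q K) K
  adm_one : ∀ {u}, Short δ₀ u → Adm top u (fun _ => 1)
  w_one : ∀ {u}, Short δ₀ u → w top u (fun _ => 1) ≤
    ENNReal.ofReal w₀ * mass (⊤ : Submodule ℝ V) (fun _ => 1) univ
  psi_nonneg : ∀ {i u}, Short δ₀ u → 0 ≤ Psi i u
  psi_le : ∀ {u}, Short δ₀ u → Psi top u ≤ Module.finrank ℝ V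
  /-- **block lemma** (leaf included: `ℓ = 1`, `Psi i u < δ`) -/
  block : ∀ {i ℓ u}, 1 ≤ ℓ → Short δ₀ u → Unsplit (Psi i) δ u →
    (∀ j p, p <:+: u → Psi j p ≤ Psi i u - δ →
      Cl κ τ₀ (Metric.closedBall (0 : V) R) (E j) (Adm j) (w j) (G j) ℓ p) →
    Cl κ τ₀ (Metric.closedBall (0 : V) R) (E i) (Adm i) (w i) (G i) (C₀ * ℓ) u

section plan

variable {R δ₀ δ C₀ w₀ : ℝ}

/-- the induction -/
theorem Plan.claim (D : Plan V κ τ₀ R δ₀ δ C₀ w₀) (hκ : 0 ≤ κ) (hκδ : κ * δ₀ ^ 2 ≤ 2)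
    (hδ : 0 < δ) (hC : 1 ≤ C₀) (k : ℕ) :
    ∀ (i : D.ι) (u : List V), Short δ₀ u → D.Psi i u ≤ k * δ →
      Cl κ τ₀ (Metric.closedBall (0 : V) R) (D.E i) (D.Adm i) (D.w i) (D.G i)
        (C₀ * (2 * C₀) ^ k) u := by
  have okw : ∀ (E : Submodule ℝ V) {u : List V}, Short δ₀ u → OKw κ E u := by
    intro E u hu v hv
    unfold OK
    have h1 : ‖E.starProjection v‖ ≤ ‖v‖ := E.norm_starProjection_apply_le v
    have h2 := (hu v hv).2
    have h3 : ‖E.starProjection v‖ ^ 2 ≤ δ₀ ^ 2 :=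
      pow_le_pow_left₀ (norm_nonneg _) (h1.trans h2) 2
    nlinarith
  induction k with
  | zero =>
    intro i u hu h
    rw [Nat.cast_zero, zero_mul] at h
    rw [pow_zero]
    refine D.block le_rfl hu ?_ ?_
    · intro p q hpq hh
      have := D.psi_nonneg (i := i) (u := p) (by rw [hpq] at hu; exact hu.left)
      linarith [hh.1]
    · intro j p hp hh
      have := D.psi_nonneg (i := j) (u := p) (hu.infix hp)
      linarith
  | succ k ih =>
    intro i u hu h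
    have hpow : 1 ≤ (2 * C₀) ^ k := one_le_pow₀ (by linarith)
    have hL : 1 ≤ C₀ * (2 * C₀) ^ k := by nlinarith
    by_cases hs : Unsplit (D.Psi i) δ u
    · have h1 := D.block (i := i) hL hu hs (by
        intro j p hp hh
        refine ih j p (hu.infix hp) (hh.trans ?_)
        push_cast at h
        linarith)
      refine h1.mono ?_
      rw [pow_succ]
      nlinarith
    · unfold Unsplit at hs
      push Not at hs
      obtain ⟨p, q, hpq, hp, hq⟩ := hs
      have sp : Short δ₀ p := by rw [hpq] at hu; exact hu.left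
      have sq : Short δ₀ q := by rw [hpq] at hu; exact hu.right
      push_cast at h
      have c1 := ih i p sp (by linarith)
      have c2 := ih i q sq (by linarith)
      rw [hpq] at hu
      have c3 := Cl.append hκ Metric.isClosed_closedBall (convex_closedBall _ _) (by linarith)
        (by linarith) (okw _ sp) (okw _ sq) (fun _ => D.adm_meas) (fun _ => D.adm_fin)
        (fun _ => D.adm_left hu) (fun _ => D.adm_right hu) (fun _ => D.w_left hu)
        (fun _ => D.w_right hu) (fun _ _ => D.G_append hu) c1 c2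
      rw [← hpq] at c3
      refine c3.mono ?_
      rw [pow_succ]
      nlinarith

/-- the body of the full word is nonempty -/
theorem Plan.nonempty {C : ℝ} (hC3 : 3 ≤ C)
    (D : Plan V κ τ₀ (C * Real.sqrt (Module.finrank ℝ V)) δ₀ δ C₀ w₀)
    (hκ : 0 ≤ κ) (hκδ : κ * δ₀ ^ 2 ≤ 2) (hτ : τ₀ ≤ 1 / 2)
    (hδ : 0 < δ) (hC : 1 ≤ C₀) {k : ℕ}
    (hk : (Module.finrank ℝ V : ℝ) ≤ k * δ) (hw : C₀ * (2 * C₀) ^ k * w₀ ≤ 1 / 4) {u : List V}
    (hu : Short δ₀ u) :
    (pre (Metric.closedBall (0 : V) (C * Real.sqrt (Module.finrank ℝ V))) u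
      (Metric.closedBall 0 (C * Real.sqrt (Module.finrank ℝ V)))).Nonempty := by
  have hpow : 1 ≤ (2 * C₀) ^ k := one_le_pow₀ (by linarith)
  have hL : 1 ≤ C₀ * (2 * C₀) ^ k := by nlinarith
  have h := D.claim hκ hκδ hδ hC k D.top u hu ((D.psi_le hu).trans hk)
  rw [D.E_top] at h
  refine Cl.concl hτ h (D.adm_one hu) Metric.isClosed_closedBall (convex_closedBall _ _)
    mass_top_ne_top mass_top_ne_zero (mass_top_ball hC3) ?_
  calc ENNReal.ofReal (C₀ * (2 * C₀) ^ k) * D.w D.top u (fun _ => 1)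
      ≤ ENNReal.ofReal (C₀ * (2 * C₀) ^ k) *
        (ENNReal.ofReal w₀ * mass (⊤ : Submodule ℝ V) (fun _ => 1) univ) := by
        gcongr
        exact D.w_one hu
    _ = ENNReal.ofReal (C₀ * (2 * C₀) ^ k * w₀) *
        mass (⊤ : Submodule ℝ V) (fun _ => 1) univ := by
        rw [ENNReal.ofReal_mul (p := C₀ * (2 * C₀) ^ k) (by linarith), mul_assoc]
    _ ≤ _ := by gcongr

end plan

end

/-- **what remains to be proved** for S0370 (any classes of laws, any gain functional) -/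
def PlanProp : Prop :=
  ∃ κ τ₀ δ₀ δ C₀ C : ℝ, 0 ≤ κ ∧ τ₀ ≤ 1 / 2 ∧ 0 < δ₀ ∧ κ * δ₀ ^ 2 ≤ 2 ∧ 0 < δ ∧ 1 ≤ C₀ ∧ 3 ≤ C ∧
    ∀ n : ℕ, ∃ (k : ℕ) (w₀ : ℝ), (n : ℝ) ≤ k * δ ∧ C₀ * (2 * C₀) ^ k * w₀ ≤ 1 / 4 ∧
      Nonempty (Plan (EuclideanSpace ℝ (Fin n)) κ τ₀ (C * Real.sqrt n) δ₀ δ C₀ w₀)

/-- **S0370 from a plan** -/
theorem final_of_plan (H : PlanProp) :
    ∃ C : ℝ, ∀ (d N : ℕ) (v : Fin N → EuclideanSpace ℝ (Fin d)),
      (∀ i, ‖v i‖ ≤ 1) →
      ∃ ε : Fin N → ℤ, (∀ i, ε i = 1 ∨ ε i = -1) ∧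
        ∀ k : ℕ, k ≤ N →
          ‖∑ i ∈ Finset.univ.filter (fun i : Fin N => (i : ℕ) < k), (ε i : ℝ) • v i‖
            ≤ C * Real.sqrt d := by
  obtain ⟨κ, τ₀, δ₀, δ, C₀, C, hκ, hτ, h0, hκδ, hδ, hC₀, hC, H⟩ := H
  refine Red.red' h0 ⟨2 * C, fun n u hu => ?_⟩
  obtain ⟨k, w₀, hk, hw, ⟨D⟩⟩ := H n
  have hn : Module.finrank ℝ (EuclideanSpace ℝ (Fin n)) = n := finrank_euclideanSpace_fin
  have D' : Plan (EuclideanSpace ℝ (Fin n)) κ τ₀
      (C * Real.sqrt (Module.finrank ℝ (EuclideanSpace ℝ (Fin n)))) δ₀ δ C₀ w₀ := by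
    rw [hn]; exact D
  have hne := D'.nonempty hC hκ hκδ hτ hδ hC₀ (k := k) (by rw [hn]; exact hk) hw hu
  rw [hn] at hne
  obtain ⟨s, hs⟩ := good_of_pre hne
  exact ⟨s, by rwa [← mul_assoc] at hs⟩

end ChainG

end Crest.Agent.R239
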