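import Crest.Agent.R239.Gau6
import Crest.Agent.R239.Star245

/-!
# R239, crossing form, part a (helper201): transition probabilities of a Gaussian chain

For a contraction `A` let `z' = A z + B w` (`B` a complement: `A A† + B B† = 1`).
* `tr A V x = P(z' ∈ V | z = x)`, `out A U V = P(z ∈ U, z' ∈ V)` for `z ~ γ` (then `z' ~ γ`).
* `tr_comp` (Markov property), `lintegral_tr` (stationarity), `out_comp_le` (composition of crossings).
-/

set_option autoImplicit false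
set_option linter.unusedSectionVars false
open MeasureTheory ProbabilityTheory Set Filter Topology Metric
open scoped RealInnerProductSpace ENNReal NNReal InnerProduct Pointwise

namespace Crest.Agent.R239

namespace Cross

variable {E : Type*} [NormedAddCommGroup E] [InnerProductSpace ℝ E] [FiniteDimensional ℝ E]
  [MeasurableSpace E] [BorelSpace E]
variable {G : Type*} [NormedAddCommGroup G] [InnerProductSpace ℝ G] [FiniteDimensional ℝ G]
  [MeasurableSpace G] [BorelSpace G]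

lemma adjoint_id_apply (t : E) : (ContinuousLinearMap.id ℝ E).adjoint t = t := by
  apply ext_inner_right ℝ
  intro s
  rw [ContinuousLinearMap.adjoint_inner_left]
  rfl

lemma norm_adjoint_le {A : E →L[ℝ] E} (hA : ‖A‖ ≤ 1) (t : E) : ‖A.adjoint t‖ ≤ ‖t‖ := by
  have h1 : ‖A.adjoint t‖ ≤ ‖A.adjoint‖ * ‖t‖ := ContinuousLinearMap.le_opNorm _ _
  have h2 : ‖ContinuousLinearMap.adjoint A‖ = ‖A‖ := LinearIsometryEquiv.norm_map _ _
  rw [h2] at h1
  calc _ ≤ ‖A‖ * ‖t‖ := h1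
    _ ≤ 1 * ‖t‖ := by gcongr
    _ = ‖t‖ := one_mul _

lemma exists_cpl {A : E →L[ℝ] E} (hA : ‖A‖ ≤ 1) :
    ∃ B : E →L[ℝ] E, ∀ t, ‖A.adjoint t‖ ^ 2 + ‖B.adjoint t‖ ^ 2 = ‖t‖ ^ 2 := by
  obtain ⟨B, hB⟩ := exists_complement A (ContinuousLinearMap.id ℝ E) (fun t => by
    rw [adjoint_id_apply]; exact norm_adjoint_le hA t)
  refine ⟨B, fun t => ?_⟩
  rw [hB, adjoint_id_apply]

open Classical in
/-- a complement of the contraction `A`: `A A† + B B† = 1` -/
noncomputable def cpl (A : E →L[ℝ] E) : E →L[ℝ] E :=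
  if h : ‖A‖ ≤ 1 then (exists_cpl h).choose else 0

lemma cpl_spec {A : E →L[ℝ] E} (hA : ‖A‖ ≤ 1) (t : E) :
    ‖A.adjoint t‖ ^ 2 + ‖(cpl A).adjoint t‖ ^ 2 = ‖t‖ ^ 2 := by
  unfold cpl
  rw [dif_pos hA]
  exact (exists_cpl hA).choose_spec t

/-- every complement has the same law -/
lemma gau_cpl {A : E →L[ℝ] E} (hA : ‖A‖ ≤ 1) {B : G →L[ℝ] E}
    (hB : ∀ t, ‖A.adjoint t‖ ^ 2 + ‖B.adjoint t‖ ^ 2 = ‖t‖ ^ 2) : gau (cpl A) = gau B := by
  apply gau_ext
  intro t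
  have h1 := cpl_spec hA t
  have h2 := hB t
  have h3 : ‖(cpl A).adjoint t‖ ^ 2 = ‖B.adjoint t‖ ^ 2 := by linarith
  exact (pow_left_inj₀ (norm_nonneg _) (norm_nonneg _) two_ne_zero).1 h3

/-- `P(z' ∈ V | z = x)` -/
noncomputable def tr (A : E →L[ℝ] E) (V : Set E) (x : E) : ℝ≥0∞ := gau (cpl A) {z | A x + z ∈ V}

lemma tr_le_one (A : E →L[ℝ] E) (V : Set E) (x : E) : tr A V x ≤ 1 := prob_le_one

lemma measurable_tr (A : E →L[ℝ] E) {V : Set E} (hV : MeasurableSet V) : Measurable (tr A V) :=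
  (measurable_gau_shift (cpl A) hV).comp A.continuous.measurable

lemma tr_eq {A : E →L[ℝ] E} (hA : ‖A‖ ≤ 1) {B : G →L[ℝ] E}
    (hB : ∀ t, ‖A.adjoint t‖ ^ 2 + ‖B.adjoint t‖ ^ 2 = ‖t‖ ^ 2) {V : Set E}
    (hV : MeasurableSet V) (x : E) : tr A V x = stdGaussian G {w | A x + B w ∈ V} := by
  unfold tr
  rw [gau_cpl hA hB, gau_apply]
  · rfl
  · exact (by fun_prop : Measurable fun z : E => A x + z) hV

lemma tr_mono (A : E →L[ℝ] E) {V V' : Set E} (h : V ⊆ V') (x : E) : tr A V x ≤ tr A V' x :=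
  measure_mono fun _ hz => h hz

lemma tr_union_le (A : E →L[ℝ] E) (V V' : Set E) (x : E) :
    tr A (V ∪ V') x ≤ tr A V x + tr A V' x := measure_union_le _ _

lemma tr_compl (A : E →L[ℝ] E) {V : Set E} (hV : MeasurableSet V) (x : E) :
    tr A V x + tr A Vᶜ x = 1 := by
  unfold tr
  have hm : MeasurableSet {z | A x + z ∈ V} := (by fun_prop : Measurable fun z : E => A x + z) hV
  have e : {z | A x + z ∈ Vᶜ} = {z | A x + z ∈ V}ᶜ := rfl
  rw [e, measure_add_measure_compl hm, measure_univ]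

/-- stationarity -/
lemma lintegral_tr {A : E →L[ℝ] E} (hA : ‖A‖ ≤ 1) {V : Set E} (hV : MeasurableSet V) :
    ∫⁻ x, tr A V x ∂(stdGaussian E) = stdGaussian E V := by
  have h := gau_mix (A := A) (B := cpl A) (C := ContinuousLinearMap.id ℝ E) (fun t => by
    rw [adjoint_id_apply]; exact cpl_spec hA t) hV
  rw [gau_id] at h
  exact h.symm

/-- Markov property -/
lemma tr_comp {A₁ A₂ : E →L[ℝ] E} (h₁ : ‖A₁‖ ≤ 1) (h₂ : ‖A₂‖ ≤ 1) {V : Set E}
    (hV : MeasurableSet V) (x : E) :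
    tr (A₂ ∘L A₁) V x = ∫⁻ w, tr A₂ V (A₁ x + cpl A₁ w) ∂(stdGaussian E) := by
  have h₃ : ‖A₂ ∘L A₁‖ ≤ 1 := by
    calc _ ≤ ‖A₂‖ * ‖A₁‖ := ContinuousLinearMap.opNorm_comp_le _ _
      _ ≤ 1 * 1 := by gcongr
      _ = 1 := one_mul _
  have hc : ∀ t, ‖(A₂ ∘L cpl A₁).adjoint t‖ ^ 2 + ‖(cpl A₂).adjoint t‖ ^ 2
      = ‖(cpl (A₂ ∘L A₁)).adjoint t‖ ^ 2 := by
    intro t
    have e1 := cpl_spec h₃ t
    have e2 := cpl_spec h₂ t
    have e3 := cpl_spec h₁ (A₂.adjoint t)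
    have e4 : (A₂ ∘L A₁).adjoint t = A₁.adjoint (A₂.adjoint t) := by
      rw [ContinuousLinearMap.adjoint_comp]; rfl
    have e5 : (A₂ ∘L cpl A₁).adjoint t = (cpl A₁).adjoint (A₂.adjoint t) := by
      rw [ContinuousLinearMap.adjoint_comp]; rfl
    rw [e4] at e1
    rw [e5]
    linarith
  have h4 := map_add_prod hc
  unfold tr
  have hm : MeasurableSet {z | (A₂ ∘L A₁) x + z ∈ V} :=
    (by fun_prop : Measurable fun z : E => (A₂ ∘L A₁) x + z) hV
  rw [← h4, Measure.map_apply (by fun_prop) hm, Measure.prod_apply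
    ((by fun_prop : Measurable fun p : E × E => (A₂ ∘L cpl A₁) p.1 + cpl A₂ p.2) hm)]
  refine lintegral_congr fun w => ?_
  rw [gau_apply]
  · congr 1
    ext w'
    simp only [mem_preimage, mem_ofPred_eq, ContinuousLinearMap.comp_apply, map_add]
    rw [add_assoc]
  · exact (by fun_prop : Measurable fun z : E => A₂ (A₁ x + cpl A₁ w) + z) hV

/-- `P(z ∈ U, z' ∈ V)` -/
noncomputable def outE (A : E →L[ℝ] E) (U V : Set E) : ℝ≥0∞ :=
  ∫⁻ x in U, tr A V x ∂(stdGaussian E)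

lemma outE_le_left (A : E →L[ℝ] E) (U V : Set E) : outE A U V ≤ stdGaussian E U := by
  unfold outE
  calc ∫⁻ x in U, tr A V x ∂(stdGaussian E) ≤ ∫⁻ _ in U, 1 ∂(stdGaussian E) :=
        lintegral_mono fun x => tr_le_one A V x
    _ = stdGaussian E U := by simp

lemma outE_le_right {A : E →L[ℝ] E} (hA : ‖A‖ ≤ 1) (U : Set E) {V : Set E}
    (hV : MeasurableSet V) : outE A U V ≤ stdGaussian E V :=
  (setLIntegral_le_lintegral _ _).trans (lintegral_tr hA hV).le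

lemma outE_mono (A : E →L[ℝ] E) {U U' V V' : Set E} (hU : U ⊆ U') (hV : V ⊆ V') :
    outE A U V ≤ outE A U' V' :=
  lintegral_mono' (Measure.restrict_mono hU le_rfl) fun x => tr_mono A hV x

lemma outE_add_compl_left (A : E →L[ℝ] E) {U : Set E} (hU : MeasurableSet U) (V : Set E) :
    outE A U V + outE A Uᶜ V = ∫⁻ x, tr A V x ∂(stdGaussian E) :=
  lintegral_add_compl _ hU

lemma outE_add_compl_right (A : E →L[ℝ] E) (U : Set E) {V : Set E} (hV : MeasurableSet V) :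
    outE A U V + outE A U Vᶜ = stdGaussian E U := by
  unfold outE
  rw [← lintegral_add_left (measurable_tr A hV)]
  simp_rw [tr_compl A hV]
  simp

/-- composition of crossings -/
lemma outE_comp_le {A₁ A₂ : E →L[ℝ] E} (h₁ : ‖A₁‖ ≤ 1) (h₂ : ‖A₂‖ ≤ 1) {U₀ U₁ U₂ : Set E}
    (hU₁ : MeasurableSet U₁) (hU₂ : MeasurableSet U₂) :
    outE (A₂ ∘L A₁) U₀ U₂ ≤ outE A₁ U₀ U₁ + outE A₂ U₁ᶜ U₂ := by
  unfold outE
  have hm2 : Measurable (tr A₂ U₂) := measurable_tr A₂ hU₂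
  have h3 : ∀ x, tr (A₂ ∘L A₁) U₂ x ≤ tr A₁ U₁ x +
      ∫⁻ w, U₁ᶜ.indicator (tr A₂ U₂) (A₁ x + cpl A₁ w) ∂(stdGaussian E) := by
    intro x
    rw [tr_comp h₁ h₂ hU₂]
    have e1 : tr A₁ U₁ x = ∫⁻ w, U₁.indicator 1 (A₁ x + cpl A₁ w) ∂(stdGaussian E) := by
      unfold tr
      have hm : MeasurableSet {z | A₁ x + z ∈ U₁} :=
        (by fun_prop : Measurable fun z : E => A₁ x + z) hU₁
      rw [gau_apply _ hm, ← lintegral_indicator_one ((cpl A₁).continuous.measurable hm)]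
      rfl
    have hm1 : Measurable fun w : E => U₁.indicator (1 : E → ℝ≥0∞) (A₁ x + cpl A₁ w) :=
      (measurable_one.indicator hU₁).comp (by fun_prop : Measurable fun w : E => A₁ x + cpl A₁ w)
    rw [e1, ← lintegral_add_left hm1]
    refine lintegral_mono fun w => ?_
    by_cases hw : A₁ x + cpl A₁ w ∈ U₁
    · simp only [indicator_of_mem hw, Pi.one_apply]
      exact (tr_le_one _ _ _).trans le_self_add
    · have hw' : A₁ x + cpl A₁ w ∈ U₁ᶜ := hw
      simp only [indicator_of_mem hw']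
      exact le_add_self
  calc ∫⁻ x in U₀, tr (A₂ ∘L A₁) U₂ x ∂(stdGaussian E)
      ≤ ∫⁻ x in U₀, (tr A₁ U₁ x +
        ∫⁻ w, U₁ᶜ.indicator (tr A₂ U₂) (A₁ x + cpl A₁ w) ∂(stdGaussian E)) ∂(stdGaussian E) :=
        lintegral_mono h3
    _ = ∫⁻ x in U₀, tr A₁ U₁ x ∂(stdGaussian E) + ∫⁻ x in U₀,
        ∫⁻ w, U₁ᶜ.indicator (tr A₂ U₂) (A₁ x + cpl A₁ w) ∂(stdGaussian E) ∂(stdGaussian E) :=
        lintegral_add_left (measurable_tr A₁ hU₁) _
    _ ≤ ∫⁻ x in U₀, tr A₁ U₁ x ∂(stdGaussian E) + ∫⁻ x in U₁ᶜ, tr A₂ U₂ x ∂(stdGaussian E) := by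
        refine add_le_add le_rfl ((setLIntegral_le_lintegral _ _).trans ?_)
        have hst := map_add_prod (A := A₁) (B := cpl A₁) (C := ContinuousLinearMap.id ℝ E)
          (fun t => by rw [adjoint_id_apply]; exact cpl_spec h₁ t)
        rw [gau_id] at hst
        have hmi : Measurable (U₁ᶜ.indicator (tr A₂ U₂)) := hm2.indicator hU₁.compl
        have h5 : ∫⁻ z, U₁ᶜ.indicator (tr A₂ U₂) z ∂(stdGaussian E) =
            ∫⁻ x, ∫⁻ w, U₁ᶜ.indicator (tr A₂ U₂) (A₁ x + cpl A₁ w) ∂(stdGaussian E)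
              ∂(stdGaussian E) := by
          conv_lhs => rw [← hst]
          rw [lintegral_map hmi (by fun_prop), lintegral_prod]
          exact (hmi.comp (by fun_prop)).aemeasurable
        rw [← h5, lintegral_indicator hU₁.compl]

/-! ### Real-valued version -/

/-- `P(z ∈ U, z' ∈ V)` -/
noncomputable def out (A : E →L[ℝ] E) (U V : Set E) : ℝ := (outE A U V).toReal

lemma outE_ne_top (A : E →L[ℝ] E) (U V : Set E) : outE A U V ≠ ∞ :=
  ne_top_of_le_ne_top (measure_ne_top _ U) (outE_le_left A U V)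

lemma out_nonneg (A : E →L[ℝ] E) (U V : Set E) : 0 ≤ out A U V := ENNReal.toReal_nonneg

lemma out_le_left (A : E →L[ℝ] E) (U V : Set E) : out A U V ≤ (stdGaussian E).real U :=
  ENNReal.toReal_mono (measure_ne_top _ _) (outE_le_left A U V)

lemma out_le_right {A : E →L[ℝ] E} (hA : ‖A‖ ≤ 1) (U : Set E) {V : Set E}
    (hV : MeasurableSet V) : out A U V ≤ (stdGaussian E).real V :=
  ENNReal.toReal_mono (measure_ne_top _ _) (outE_le_right hA U hV)

lemma out_mono (A : E →L[ℝ] E) {U U' V V' : Set E} (hU : U ⊆ U') (hV : V ⊆ V') :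
    out A U V ≤ out A U' V' := ENNReal.toReal_mono (outE_ne_top _ _ _) (outE_mono A hU hV)

lemma out_comp_le {A₁ A₂ : E →L[ℝ] E} (h₁ : ‖A₁‖ ≤ 1) (h₂ : ‖A₂‖ ≤ 1) {U₀ U₁ U₂ : Set E}
    (hU₁ : MeasurableSet U₁) (hU₂ : MeasurableSet U₂) :
    out (A₂ ∘L A₁) U₀ U₂ ≤ out A₁ U₀ U₁ + out A₂ U₁ᶜ U₂ := by
  have := ENNReal.toReal_mono (ENNReal.add_ne_top.2 ⟨outE_ne_top A₁ U₀ U₁, outE_ne_top A₂ U₁ᶜ U₂⟩)
    (outE_comp_le h₁ h₂ (U₀ := U₀) hU₁ hU₂)
  rwa [ENNReal.toReal_add (outE_ne_top _ _ _) (outE_ne_top _ _ _)] at this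

lemma out_add_compl_left {A : E →L[ℝ] E} (hA : ‖A‖ ≤ 1) {U V : Set E} (hU : MeasurableSet U)
    (hV : MeasurableSet V) : out A U V + out A Uᶜ V = (stdGaussian E).real V := by
  unfold out
  rw [← ENNReal.toReal_add (outE_ne_top _ _ _) (outE_ne_top _ _ _), outE_add_compl_left A hU,
    lintegral_tr hA hV]
  rfl

lemma out_add_compl_right (A : E →L[ℝ] E) (U : Set E) {V : Set E} (hV : MeasurableSet V) :
    out A U V + out A U Vᶜ = (stdGaussian E).real U := by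
  unfold out
  rw [← ENNReal.toReal_add (outE_ne_top _ _ _) (outE_ne_top _ _ _), outE_add_compl_right A U hV]
  rfl

/-- `out` in terms of any complement -/
lemma out_eq {A : E →L[ℝ] E} (hA : ‖A‖ ≤ 1) {B : G →L[ℝ] E}
    (hB : ∀ t, ‖A.adjoint t‖ ^ 2 + ‖B.adjoint t‖ ^ 2 = ‖t‖ ^ 2) {U V : Set E}
    (hU : MeasurableSet U) (hV : MeasurableSet V) :
    out A U V = ((stdGaussian E).prod (stdGaussian G)).real {p | p.1 ∈ U ∧ A p.1 + B p.2 ∈ V} := by
  unfold out outE Measure.real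
  congr 1
  have hm : MeasurableSet {p : E × G | p.1 ∈ U ∧ A p.1 + B p.2 ∈ V} :=
    (hU.preimage measurable_fst).inter
      ((by fun_prop : Measurable fun p : E × G => A p.1 + B p.2) hV)
  rw [Measure.prod_apply hm, ← lintegral_indicator hU]
  refine lintegral_congr fun x => ?_
  by_cases hx : x ∈ U
  · rw [indicator_of_mem hx, tr_eq hA hB hV]
    congr 1
    ext w
    simp [hx]
  · rw [indicator_of_notMem hx]
    have : Prod.mk x ⁻¹' {p : E × G | p.1 ∈ U ∧ A p.1 + B p.2 ∈ V} = ∅ := by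
      ext w; simp [hx]
    rw [this, measure_empty]

end Cross

end Crest.Agent.R239
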