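import Crest.Agent.R239.Cross201a

/-!
# R239, crossing form, part b (helper201): words, the hypothesis `Hp`, composition, gap lemma `F = 0`

* `step κ v = 1 - κ v vᵀ`, `mat κ u` = the transfer matrix of the word `u`.
* `Hp κ c a W u` : for every closed convex `K` with `γ K ≥ 1/2 + a`
  `c * P(z₀ ∈ K₀, z_T ∉ K) ≤ γ K₀ - γ K + a`, `K₀ = pre W u K` (crossing form, helper531 #10944 /
  helper201 #10980).
* `Hp.append` : composition, with the same `c`.
* `Hp.gap` : a word `p₁ … p_M` of pieces with maximal correlation `≤ 1/4`, `M` arbitrary.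
-/

set_option autoImplicit false
set_option linter.unusedSectionVars false
open MeasureTheory ProbabilityTheory Set Filter Topology Metric
open scoped RealInnerProductSpace ENNReal NNReal InnerProduct Pointwise

namespace Crest.Agent.R239

namespace Cross

variable {E : Type*} [NormedAddCommGroup E] [InnerProductSpace ℝ E] [FiniteDimensional ℝ E]
  [MeasurableSpace E] [BorelSpace E]

/-- `1 - κ v vᵀ` -/
noncomputable def step (κ : ℝ) (v : E) : E →L[ℝ] E :=
  ContinuousLinearMap.id ℝ E - κ • (innerSL ℝ v : E →L[ℝ] ℝ).smulRight v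

lemma step_apply (κ : ℝ) (v x : E) : step κ v x = x - (κ * ⟪v, x⟫) • v := by
  simp [step, smul_smul]

lemma adjoint_step (κ : ℝ) (v t : E) : (step κ v).adjoint t = step κ v t := by
  apply ext_inner_right ℝ
  intro x
  rw [ContinuousLinearMap.adjoint_inner_left, step_apply, step_apply, inner_sub_right,
    inner_sub_left, inner_smul_right, inner_smul_left, real_inner_comm v t]
  simp
  ring

lemma norm_step_sq (κ : ℝ) (v x : E) :
    ‖step κ v x‖ ^ 2 = ‖x‖ ^ 2 - κ * (2 - κ * ‖v‖ ^ 2) * ⟪v, x⟫ ^ 2 := by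
  rw [step_apply, norm_sub_sq_real, norm_smul, inner_smul_right, mul_pow, Real.norm_eq_abs, sq_abs,
    real_inner_comm]
  ring

lemma norm_step_le {κ : ℝ} (hκ : 0 ≤ κ) {v : E} (hv : κ * ‖v‖ ^ 2 ≤ 2) : ‖step κ v‖ ≤ 1 := by
  refine ContinuousLinearMap.opNorm_le_bound _ zero_le_one fun x => ?_
  rw [one_mul]
  have h := norm_step_sq κ v x
  have h1 : 0 ≤ κ * (2 - κ * ‖v‖ ^ 2) * ⟪v, x⟫ ^ 2 :=
    mul_nonneg (mul_nonneg hκ (by linarith)) (sq_nonneg _)
  have h2 : ‖step κ v x‖ ^ 2 ≤ ‖x‖ ^ 2 := by linarith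
  exact (pow_le_pow_iff_left₀ (norm_nonneg _) (norm_nonneg _) two_ne_zero).1 h2

/-- the transfer matrix `A_T ⋯ A_1` of the word `v_1 ⋯ v_T` -/
noncomputable def mat (κ : ℝ) : List E → (E →L[ℝ] E)
  | [] => ContinuousLinearMap.id ℝ E
  | v :: u => mat κ u ∘L step κ v

@[simp] lemma mat_nil (κ : ℝ) : mat κ ([] : List E) = ContinuousLinearMap.id ℝ E := rfl

@[simp] lemma mat_cons (κ : ℝ) (v : E) (u : List E) : mat κ (v :: u) = mat κ u ∘L step κ v := rfl

lemma mat_append (κ : ℝ) (u w : List E) : mat κ (u ++ w) = mat κ w ∘L mat κ u := by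
  induction u with
  | nil => simp
  | cons v u ih => simp [ih, ContinuousLinearMap.comp_assoc]

/-- admissible words -/
def Adm (κ : ℝ) (u : List E) : Prop := ∀ v ∈ u, κ * ‖v‖ ^ 2 ≤ 2

lemma Adm.append {κ : ℝ} {u w : List E} (hu : Adm κ u) (hw : Adm κ w) : Adm κ (u ++ w) := by
  intro v hv
  rcases List.mem_append.1 hv with h | h
  · exact hu v h
  · exact hw v h

lemma norm_mat_le {κ : ℝ} (hκ : 0 ≤ κ) {u : List E} (hu : Adm κ u) : ‖mat κ u‖ ≤ 1 := by
  induction u with
  | nil =>
    rw [mat_nil]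
    exact ContinuousLinearMap.norm_id_le
  | cons v u ih =>
    rw [mat_cons]
    have h1 := ih fun w hw => hu w (List.mem_cons_of_mem _ hw)
    have h2 := norm_step_le hκ (hu v List.mem_cons_self)
    calc _ ≤ ‖mat κ u‖ * ‖step κ v‖ := ContinuousLinearMap.opNorm_comp_le _ _
      _ ≤ 1 * 1 := by gcongr
      _ = 1 := one_mul _

/-- **crossing form** of the hypothesis: `c * P(z₀ ∈ K₀, z_T ∉ K) ≤ γ K₀ - γ K + a` -/
def Hp (κ c a : ℝ) (W : Set E) (u : List E) : Prop :=
  ∀ K : Set E, IsClosed K → Convex ℝ K → 1 / 2 + a ≤ (stdGaussian E).real K →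
    c * out (mat κ u) (pre W u K) Kᶜ ≤
      (stdGaussian E).real (pre W u K) - (stdGaussian E).real K + a

lemma Hp.mono {κ c a b : ℝ} {W : Set E} {u : List E} (h : Hp κ c a W u) (hab : a ≤ b) :
    Hp κ c b W u := by
  intro K hK cK hh
  have := h K hK cK (by linarith)
  linarith

lemma Hp.mono_c {κ c c' a : ℝ} {W : Set E} {u : List E} (h : Hp κ c a W u) (hc : c' ≤ c) :
    Hp κ c' a W u := by
  intro K hK cK hh
  have h1 := h K hK cK hh
  have h2 := mul_le_mul_of_nonneg_right hc (out_nonneg (mat κ u) (pre W u K) Kᶜ)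
  linarith

/-- the empty word -/
lemma Hp.nil (κ c : ℝ) (W : Set E) : Hp κ c 0 W ([] : List E) := by
  intro K hK _ _
  rw [pre_nil, mat_nil]
  have h0 : out (ContinuousLinearMap.id ℝ E) K Kᶜ = 0 := by
    have hid : ‖ContinuousLinearMap.id ℝ E‖ ≤ 1 := ContinuousLinearMap.norm_id_le
    rw [out_eq (G := E) hid (B := 0) (fun t => by simp [adjoint_id_apply]) hK.measurableSet
      hK.measurableSet.compl]
    have : {p : E × E | p.1 ∈ K ∧ (ContinuousLinearMap.id ℝ E) p.1 + (0 : E →L[ℝ] E) p.2 ∈ Kᶜ}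
        = ∅ := by
      ext p; simp
    rw [this, measureReal_empty]
  rw [h0]; simp

/-- **composition** -/
theorem Hp.append {κ c a b : ℝ} (hκ : 0 ≤ κ) (hc : 0 ≤ c) {W : Set E} (hW : IsClosed W)
    (cW : Convex ℝ W) {u w : List E} (hu : Adm κ u) (hw : Adm κ w)
    (h₁ : Hp κ c a W u) (h₂ : Hp κ c b W w) : Hp κ c (a + b) W (u ++ w) := by
  intro K hK cK hh
  -- `a, b ≥ 0` is not needed: levels
  rw [pre_append, mat_append]
  set K₁ := pre W w K with hK₁
  have cl₁ : IsClosed K₁ := isClosed_pre hW hK w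
  have cc₁ : Convex ℝ K₁ := convex_pre cW cK w
  by_cases ha : 0 ≤ a
  · have e2 := h₂ K hK cK (by linarith)
    have hlev : 1 / 2 + a ≤ (stdGaussian E).real K₁ := by
      have := mul_nonneg hc (out_nonneg (mat κ w) K₁ Kᶜ)
      linarith
    have e1 := h₁ K₁ cl₁ cc₁ hlev
    have e3 := out_comp_le (norm_mat_le hκ hu) (norm_mat_le hκ hw) (U₀ := pre W u K₁)
      (U₁ := K₁ᶜ) (U₂ := Kᶜ) cl₁.measurableSet.compl hK.measurableSet.compl
    rw [compl_compl] at e3
    have e4 := mul_le_mul_of_nonneg_left e3 hc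
    rw [mul_add] at e4
    linarith
  · -- `a < 0` is impossible (full space)
    exfalso
    have hclu : IsClosed (univ : Set E) := isClosed_univ
    have h := h₁ univ hclu convex_univ (by
      rw [measureReal_def, measure_univ]; push Not at ha; simp; linarith)
    have h2 : (stdGaussian E).real (pre W u univ) ≤ 1 := measureReal_le_one
    have h3 := mul_nonneg hc (out_nonneg (mat κ u) (pre W u univ) univᶜ)
    have h4 : (stdGaussian E).real univ = 1 := by
      rw [measureReal_def, measure_univ]; simp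
    rw [h4] at h
    push Not at ha
    linarith

/-- maximal correlation at most `ρ` (consequence of Gebelein's inequality) -/
def Cor (A : E →L[ℝ] E) (ρ : ℝ) : Prop :=
  ∀ U V : Set E, MeasurableSet U → MeasurableSet V →
    out A U V ≤ (stdGaussian E).real U * (stdGaussian E).real V +
      ρ * Real.sqrt ((stdGaussian E).real U * (stdGaussian E).real V)

/-- the two complements -/
lemma real_compl {K : Set E} (hK : MeasurableSet K) :
    (stdGaussian E).real Kᶜ = 1 - (stdGaussian E).real K := by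
  rw [measureReal_compl hK, measureReal_def, measure_univ]; simp

/-- one E-complete piece: the deficit contracts, and half of the crossing term survives -/
lemma piece_contract {κ c a : ℝ} (hκ : 0 ≤ κ) (hc : 0 < c) (hc2 : c ≤ 1 / 2) (ha : 0 ≤ a)
    {W : Set E} (hW : IsClosed W) (cW : Convex ℝ W) {p : List E} (hp : Adm κ p)
    (h : Hp κ c a W p) (hcor : Cor (mat κ p) (1 / 4)) {K : Set E} (hK : IsClosed K)
    (cK : Convex ℝ K) (hlev : 1 / 2 + a ≤ (stdGaussian E).real K) :
    (stdGaussian E).real (pre W p K)ᶜ ≤ (stdGaussian E).real Kᶜ + a ∧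
    (8 * a / c ≤ (stdGaussian E).real Kᶜ →
      (stdGaussian E).real (pre W p K)ᶜ ≤ (1 - c / 8) * (stdGaussian E).real Kᶜ) := by
  set K₀ := pre W p K with hK₀
  have cl₀ : IsClosed K₀ := isClosed_pre hW hK p
  have hA : ‖mat κ p‖ ≤ 1 := norm_mat_le hκ hp
  have h1 := h K hK cK hlev
  have hout0 := out_nonneg (mat κ p) K₀ Kᶜ
  have d1 := real_compl hK.measurableSet
  have d0 := real_compl cl₀.measurableSet
  set d := (stdGaussian E).real Kᶜ with hd
  set x := (stdGaussian E).real K₀ᶜ with hx
  set o := out (mat κ p) K₀ Kᶜ with ho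
  have hdn : 0 ≤ d := measureReal_nonneg
  have hxn : 0 ≤ x := measureReal_nonneg
  have hco : 0 ≤ c * o := mul_nonneg hc.le hout0
  -- `c o ≤ d - x + a`
  have h2 : c * o ≤ d - x + a := by linarith
  refine ⟨by linarith, fun hda => ?_⟩
  -- lower bound of `o`
  have h3 := out_add_compl_left hA cl₀.measurableSet hK.measurableSet.compl
  have h4 := hcor K₀ᶜ Kᶜ cl₀.measurableSet.compl hK.measurableSet.compl
  rw [← hd, ← hx] at h4
  rw [← hd] at h3
  have h5 : d - x * d - 1 / 4 * Real.sqrt (x * d) ≤ o := by linarith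
  have hdle : d ≤ 1 / 2 - a := by linarith
  have ha8 : 8 * a ≤ c * d := by rwa [div_le_iff₀ hc, mul_comm d c] at hda
  rcases le_or_gt x d with hxd | hxd
  · have hs : Real.sqrt (x * d) ≤ d := by
      rw [show d = Real.sqrt (d * d) by rw [Real.sqrt_mul_self hdn]]
      apply Real.sqrt_le_sqrt
      rw [Real.sqrt_mul_self hdn]
      exact mul_le_mul_of_nonneg_right hxd hdn
    have h6 : d / 4 ≤ o := by
      have : x * d ≤ d / 2 := by nlinarith
      linarith
    have h7 : c * (d / 4) ≤ c * o := mul_le_mul_of_nonneg_left h6 hc.le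
    nlinarith
  · exfalso
    have hxle : x ≤ d + a := by linarith
    have hs : Real.sqrt (x * d) ≤ x := by
      rw [show x = Real.sqrt (x * x) by rw [Real.sqrt_mul_self hxn]]
      apply Real.sqrt_le_sqrt
      rw [Real.sqrt_mul_self hxn]
      exact mul_le_mul_of_nonneg_left hxd.le hxn
    have had : a ≤ d / 16 := by nlinarith
    have h6 : x * d ≤ d / 2 := by
      have : x ≤ 1 / 2 := by linarith
      nlinarith
    have h7 : 7 / 32 * d ≤ o := by linarith
    have h8 : c * (7 / 32 * d) ≤ c * o := mul_le_mul_of_nonneg_left h7 hc.le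
    have h9 : c * o < a := by linarith
    have h10 : 0 ≤ c * d := mul_nonneg hc.le hdn
    nlinarith

/-- **Gap lemma, `F = 0`.**  `M` pieces with maximal correlation `≤ 1/4`, `M` arbitrary. -/
theorem Hp.gap {κ c a : ℝ} (hκ : 0 ≤ κ) (hc : 0 < c) (hc2 : c ≤ 1 / 2) (ha : 0 ≤ a)
    {W : Set E} (hW : IsClosed W) (cW : Convex ℝ W) (ps : List (List E))
    (hp : ∀ p ∈ ps, Adm κ p ∧ Hp κ c a W p ∧ Cor (mat κ p) (1 / 4)) :
    Hp κ c ((16 + 8 / c) * a) W ps.flatten := by
  -- the dichotomy
  have key : ∀ (ps : List (List E)), (∀ p ∈ ps, Adm κ p ∧ Hp κ c a W p ∧ Cor (mat κ p) (1 / 4)) →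
      ∀ K : Set E, IsClosed K → Convex ℝ K →
      1 / 2 + (16 + 8 / c) * a ≤ (stdGaussian E).real K →
      (stdGaussian E).real (pre W ps.flatten K)ᶜ ≤ 8 * a / c + a ∨
      (stdGaussian E).real (pre W ps.flatten K)ᶜ ≤
        (1 - c / 8) ^ ps.length * (stdGaussian E).real Kᶜ := by
    intro ps
    induction ps with
    | nil => intro _ K _ _ _; right; simp
    | cons p ps ih =>
      intro hps K hK cK hlev
      have h1 := ih (fun q hq => hps q (List.mem_cons_of_mem _ hq)) K hK cK hlev
      obtain ⟨hp1, hp2, hp3⟩ := hps p List.mem_cons_self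
      rw [List.flatten_cons, pre_append, List.length_cons]
      set K₁ := pre W ps.flatten K with hK₁
      have cl₁ : IsClosed K₁ := isClosed_pre hW hK _
      have cc₁ : Convex ℝ K₁ := convex_pre cW cK _
      have dK := real_compl hK.measurableSet
      have dK₁ := real_compl cl₁.measurableSet
      have h8c : 8 / c * a = 8 * a / c := by ring
      have hKle : (stdGaussian E).real K ≤ 1 := measureReal_le_one
      have hq0 : 0 ≤ 1 - c / 8 := by linarith
      have hq1 : 1 - c / 8 ≤ 1 := by linarith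
      have h8 : 0 ≤ 8 * a / c := by positivity
      have hlev₁ : 1 / 2 + a ≤ (stdGaussian E).real K₁ := by
        rcases h1 with h1 | h1
        · -- `8a/c + a ≤ 1/2 - a`
          have : (16 + 8 / c) * a ≤ 1 / 2 := by linarith
          rw [add_mul, h8c] at this
          linarith
        · have h2 : (1 - c / 8) ^ ps.length * (stdGaussian E).real Kᶜ ≤ (stdGaussian E).real Kᶜ :=
            mul_le_of_le_one_left measureReal_nonneg (pow_le_one₀ hq0 hq1)
          rw [add_mul, h8c] at hlev
          linarith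
      obtain ⟨g1, g2⟩ := piece_contract hκ hc hc2 ha hW cW hp1 hp2 hp3 cl₁ cc₁ hlev₁
      have hd1 : 0 ≤ (stdGaussian E).real K₁ᶜ := measureReal_nonneg
      rcases le_or_gt (8 * a / c) ((stdGaussian E).real K₁ᶜ) with h3 | h3
      · have g3 := g2 h3
        rcases h1 with h1 | h1
        · left
          have : (1 - c / 8) * (stdGaussian E).real K₁ᶜ ≤ (stdGaussian E).real K₁ᶜ :=
            mul_le_of_le_one_left hd1 hq1
          linarith
        · right
          rw [pow_succ]
          calc _ ≤ (1 - c / 8) * (stdGaussian E).real K₁ᶜ := g3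
            _ ≤ (1 - c / 8) * ((1 - c / 8) ^ ps.length * (stdGaussian E).real Kᶜ) :=
                mul_le_mul_of_nonneg_left h1 hq0
            _ = _ := by ring
      · left; linarith
  have hadm : Adm κ ps.flatten := by
    intro v hv
    obtain ⟨p, hp1, hp2⟩ := List.mem_flatten.1 hv
    exact (hp p hp1).1 v hp2
  intro K hK cK hlev
  have h8c : 8 / c * a = 8 * a / c := by ring
  have h8 : 0 ≤ 8 * a / c := by positivity
  have cl₀ : IsClosed (pre W ps.flatten K) := isClosed_pre hW hK _
  have dK := real_compl hK.measurableSet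
  have dK₀ := real_compl cl₀.measurableSet
  have ho := out_le_right (norm_mat_le hκ hadm) (pre W ps.flatten K) hK.measurableSet.compl
  have ho0 := out_nonneg (mat κ ps.flatten) (pre W ps.flatten K) Kᶜ
  have hd0 : 0 ≤ (stdGaussian E).real Kᶜ := measureReal_nonneg
  rcases le_or_gt 16 ps.length with hM | hM
  · rcases key ps hp K hK cK hlev with h1 | h1
    · rw [add_mul, h8c]
      nlinarith
    · have hq0 : 0 ≤ 1 - c / 8 := by linarith
      have hq1 : 1 - c / 8 ≤ 1 := by linarith
      have h2 : (1 - c / 8) ^ ps.length ≤ (1 - c / 8) ^ 16 := pow_le_pow_of_le_one hq0 hq1 hM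
      have h3 : (1 - c / 8) ^ 16 ≤ 1 - c := by
        have b : 1 + 16 * (c / 8) ≤ (1 + c / 8) ^ 16 := by
          have := one_add_mul_le_pow (a := c / 8) (by linarith) 16
          simpa using this
        have b2 : (1 - c / 8) ^ 16 * (1 + c / 8) ^ 16 ≤ 1 := by
          rw [← mul_pow]
          refine pow_le_one₀ ?_ ?_
          · exact mul_nonneg hq0 (by linarith)
          · nlinarith
        have b3 : (1 - c / 8) ^ 16 * (1 + 2 * c) ≤ 1 := by
          refine le_trans (mul_le_mul_of_nonneg_left ?_ (pow_nonneg hq0 16)) b2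
          linarith
        have b4 : 1 ≤ (1 - c) * (1 + 2 * c) := by nlinarith
        have b5 : 0 < 1 + 2 * c := by linarith
        exact le_of_mul_le_mul_right (b3.trans b4) b5
      have h4 : (stdGaussian E).real (pre W ps.flatten K)ᶜ ≤ (1 - c) * (stdGaussian E).real Kᶜ :=
        h1.trans (mul_le_mul_of_nonneg_right (h2.trans h3) hd0)
      have h5 : c * out (mat κ ps.flatten) (pre W ps.flatten K) Kᶜ ≤
          c * (stdGaussian E).real Kᶜ := mul_le_mul_of_nonneg_left ho hc.le
      have h6 : 0 ≤ (16 + 8 / c) * a := by positivity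
      linarith
  · -- at most 16 pieces: composition
    have key2 : ∀ (ps : List (List E)),
        (∀ p ∈ ps, Adm κ p ∧ Hp κ c a W p ∧ Cor (mat κ p) (1 / 4)) →
        Adm κ ps.flatten ∧ Hp κ c (ps.length * a) W ps.flatten := by
      intro ps
      induction ps with
      | nil => intro _; exact ⟨by intro v hv; simp at hv, by simpa using Hp.nil κ c W⟩
      | cons p ps ih =>
        intro hps
        obtain ⟨i1, i2⟩ := ih (fun q hq => hps q (List.mem_cons_of_mem _ hq))
        obtain ⟨hp1, hp2, -⟩ := hps p List.mem_cons_self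
        rw [List.flatten_cons]
        refine ⟨hp1.append i1, ?_⟩
        have := Hp.append hκ hc.le hW cW hp1 i1 hp2 i2
        refine this.mono (le_of_eq ?_)
        rw [List.length_cons]; push_cast; ring
    have h1 := (key2 ps hp).2
    have h2 : (ps.length : ℝ) * a ≤ (16 + 8 / c) * a := by
      apply mul_le_mul_of_nonneg_right _ ha
      have : (ps.length : ℝ) ≤ 16 := by exact_mod_cast hM.le
      have : 0 ≤ 8 / c := by positivity
      linarith
    exact h1.mono h2 K hK cK hlev

end Cross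

end Crest.Agent.R239
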