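import Mathlib
import Crest.Agent.Lib.PrekopaLeindler

/-!
# R239 : Gaussian measures along lines, and Prekopa–Leindler for Gaussian measures

* `PL_g1`, `PL_gp`, `PL_std` : the Prekopa–Leindler property of `gaussianReal 0 1`, of its powers,
  and of `stdGaussian E`.
* `exists_line` : for a unit vector `e`, `stdGaussian E` is the image of
  `gaussianReal 0 1 × (gaussianReal 0 1)^m` under a continuous linear map `Φ` with
  `Φ (s, z) = s • e + Φ (0, z)`.
-/

set_option autoImplicit false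

open MeasureTheory ProbabilityTheory Set
open scoped ENNReal NNReal

namespace Crest.Agent.R239

open Crest.Agent.Lib.PrekopaLeindler

/-- the standard normal law on `ℝ` -/
noncomputable abbrev g1 : Measure ℝ := gaussianReal 0 1

/-- the standard normal law on `Fin m → ℝ` -/
noncomputable abbrev gp (m : ℕ) : Measure (Fin m → ℝ) := Measure.pi fun _ => gaussianReal 0 1

theorem PL.withDensity {E : Type*} [AddCommGroup E] [Module ℝ E] [MeasurableSpace E]
    {μ : Measure E} (hE : PL E μ) (w : E → ℝ≥0∞) (hw : Measurable w)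
    (hlog : ∀ t : ℝ, 0 < t → t < 1 → ∀ x y, w x ^ (1 - t) * w y ^ t ≤ w ((1 - t) • x + t • y)) :
    PL E (μ.withDensity w) := by
  intro t ht0 ht1 f g h hf hg hh H
  rw [lintegral_withDensity_eq_lintegral_mul _ hw hf, lintegral_withDensity_eq_lintegral_mul _ hw hg,
    lintegral_withDensity_eq_lintegral_mul _ hw hh]
  refine hE t ht0 ht1 _ _ _ (hw.mul hf) (hw.mul hg) (hw.mul hh) ?_
  intro x y
  simp only [Pi.mul_apply]
  rw [ENNReal.mul_rpow_of_nonneg _ _ (by linarith), ENNReal.mul_rpow_of_nonneg _ _ ht0.le]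
  calc w x ^ (1 - t) * f x ^ (1 - t) * (w y ^ t * g y ^ t)
      = (w x ^ (1 - t) * w y ^ t) * (f x ^ (1 - t) * g y ^ t) := by ring
    _ ≤ _ := mul_le_mul' (hlog t ht0 ht1 x y) (H x y)

lemma exp_sq_logconcave {t : ℝ} (ht0 : 0 < t) (ht1 : t < 1) (x y : ℝ) :
    Real.exp (-x ^ 2 / 2) ^ (1 - t) * Real.exp (-y ^ 2 / 2) ^ t ≤
      Real.exp (-((1 - t) * x + t * y) ^ 2 / 2) := by
  rw [← Real.exp_mul, ← Real.exp_mul, ← Real.exp_add]
  apply Real.exp_le_exp.2
  nlinarith [mul_nonneg (mul_nonneg ht0.le (sub_nonneg.2 ht1.le)) (sq_nonneg (x - y))]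

theorem PL_g1 : PL ℝ g1 := by
  have h : g1 = volume.withDensity (gaussianPDF 0 1) := gaussianReal_of_var_ne_zero 0 one_ne_zero
  rw [h]
  refine PL.withDensity PL_real _ (measurable_gaussianPDF 0 1) ?_
  intro t ht0 ht1 x y
  simp only [gaussianPDF]
  rw [ENNReal.ofReal_rpow_of_nonneg (gaussianPDFReal_nonneg _ _ _) (by linarith),
    ENNReal.ofReal_rpow_of_nonneg (gaussianPDFReal_nonneg _ _ _) ht0.le,
    ← ENNReal.ofReal_mul (Real.rpow_nonneg (gaussianPDFReal_nonneg _ _ _) _)]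
  apply ENNReal.ofReal_le_ofReal
  simp only [gaussianPDFReal, NNReal.coe_one, mul_one, sub_zero, smul_eq_mul]
  have hc : (0:ℝ) < (Real.sqrt (2 * Real.pi))⁻¹ := by positivity
  rw [Real.mul_rpow hc.le (Real.exp_pos _).le, Real.mul_rpow hc.le (Real.exp_pos _).le]
  have h2 := exp_sq_logconcave ht0 ht1 x y
  have h3 : (Real.sqrt (2 * Real.pi))⁻¹ ^ (1 - t) * (Real.sqrt (2 * Real.pi))⁻¹ ^ t
      = (Real.sqrt (2 * Real.pi))⁻¹ := by
    rw [← Real.rpow_add hc]; simp
  calc _ = ((Real.sqrt (2 * Real.pi))⁻¹ ^ (1 - t) * (Real.sqrt (2 * Real.pi))⁻¹ ^ t) *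
        (Real.exp (-x ^ 2 / 2) ^ (1 - t) * Real.exp (-y ^ 2 / 2) ^ t) := by ring
    _ ≤ _ := by rw [h3]; exact mul_le_mul_of_nonneg_left h2 hc.le

theorem PL_gp (m : ℕ) : PL (Fin m → ℝ) (gp m) := by
  induction m with
  | zero =>
    intro t ht0 ht1 f g h hf hg hh H
    have : gp 0 = Measure.dirac (fun i => 0) := Measure.pi_of_empty _ _
    rw [this, lintegral_dirac, lintegral_dirac, lintegral_dirac]
    have := H (fun i => 0) (fun i => 0)
    have h0 : ((1 - t) • (fun i => 0) + t • (fun i => 0) : Fin 0 → ℝ) = fun i => 0 := by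
      ext i; exact i.elim0
    rwa [h0] at this
  | succ n ih =>
    refine PL.of_measurePreserving
      (MeasurableEquiv.piFinSuccAbove (fun _ : Fin (n+1) => ℝ) 0).symm
      ((measurePreserving_piFinSuccAbove (fun _ : Fin (n+1) => gaussianReal 0 1) 0).symm) ?_
        (PL_g1.prod ih)
    intro a b x y
    ext i
    refine Fin.cases ?_ (fun j => ?_) i
    · simp [MeasurableEquiv.piFinSuccAbove]
    · simp [MeasurableEquiv.piFinSuccAbove]

section std

variable {E : Type*} [NormedAddCommGroup E] [InnerProductSpace ℝ E] [FiniteDimensional ℝ E]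
  [MeasurableSpace E] [BorelSpace E]

theorem PL_std : PL E (stdGaussian E) := by
  refine PL.of_measurePreserving
    (fun x : Fin (Module.finrank ℝ E) → ℝ => ∑ i, x i • stdOrthonormalBasis ℝ E i)
    ⟨by fun_prop, rfl⟩ ?_ (PL_gp _)
  intro a b x y
  simp [add_smul, Finset.sum_add_distrib, Finset.smul_sum, mul_smul]

/-- **Line decomposition of the standard Gaussian measure.** -/
theorem exists_line (e : E) (he : ‖e‖ = 1) :
    ∃ (m : ℕ) (Φ : (ℝ × (Fin m → ℝ)) →L[ℝ] E),
      MeasurePreserving Φ (g1.prod (gp m)) (stdGaussian E) ∧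
      ∀ s z, Φ (s, z) = s • e + Φ (0, z) := by
  have he0 : e ≠ 0 := by intro h; simp [h] at he
  have hnt : Nontrivial E := ⟨e, 0, he0⟩
  have hpos : 0 < Module.finrank ℝ E := Module.finrank_pos
  obtain ⟨m, hm⟩ : ∃ m, Module.finrank ℝ E = m + 1 := ⟨Module.finrank ℝ E - 1, by omega⟩
  have hv : Orthonormal ℝ (({0} : Set (Fin (m+1))).domRestrict (fun _ => e)) := by
    rw [orthonormal_iff_ite]
    rintro ⟨i, hi⟩ ⟨j, hj⟩
    simp only [mem_singleton_iff] at hi hj
    subst hi; subst hj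
    simp [Set.domRestrict, he]
  obtain ⟨b, hb⟩ := hv.exists_orthonormalBasis_extension_of_card_eq (by simpa using hm)
  have hb0 : b 0 = e := hb 0 rfl
  let Φ : (ℝ × (Fin m → ℝ)) →L[ℝ] E :=
    (ContinuousLinearMap.fst ℝ ℝ (Fin m → ℝ)).smulRight e +
      ∑ i : Fin m, ((ContinuousLinearMap.proj i).comp
        (ContinuousLinearMap.snd ℝ ℝ (Fin m → ℝ))).smulRight (b i.succ)
  have hΦ : ∀ s z, Φ (s, z) = s • e + ∑ i : Fin m, z i • b i.succ := by
    intro s z
    simp [Φ]
  refine ⟨m, Φ, ?_, fun s z => by simp [hΦ]⟩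
  have h1 := (measurePreserving_piFinSuccAbove (fun _ : Fin (m+1) => gaussianReal 0 1) 0).symm
  have h2 : MeasurePreserving (fun x : Fin (m+1) → ℝ => ∑ i, x i • b i)
      (Measure.pi fun _ => gaussianReal 0 1) (stdGaussian E) :=
    ⟨by fun_prop, (stdGaussian_eq_map_pi_orthonormalBasis b).symm⟩
  have h3 := h2.comp h1
  have h4 : (fun x : Fin (m+1) → ℝ => ∑ i, x i • b i) ∘
      (MeasurableEquiv.piFinSuccAbove (fun _ : Fin (m+1) => ℝ) 0).symm = Φ := by
    ext ⟨s, z⟩
    rw [hΦ]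
    simp [MeasurableEquiv.piFinSuccAbove, Fin.sum_univ_succ, hb0]
  rw [h4] at h3
  exact h3

end std

end Crest.Agent.R239
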