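import Mathlib
import Crest.Agent.R239.LineGauss

/-!
# R239 : the rank one step (short chords lose at most `O(k)` times what the long chords gain)

* `short_chord` : the short chord lemma `ν{L < t} ≤ 3.2 t ν{L < 1/2}` on `ℝ × (Fin m → ℝ)`.
* `rank_one` : `Y` closed convex with `γ(Y) ≥ 1/2` in a Euclidean space `E`, `e` a unit vector,
  `0 < l ≤ .14`, `0 < k ≤ .07`: `γ(shortSet Y e l) ≤ 7.1 (l²/k) γ(extSet Y e l k)`.
* `rank_one_pm` : `γ{y ∈ Y : y ± s ∉ Y} ≤ 28.4 |s| γ{y ∉ Y : y + s ∈ Y or y - s ∈ Y}`,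
  `|s| ≤ .07`.
-/

set_option autoImplicit false

open MeasureTheory ProbabilityTheory Set
open scoped ENNReal NNReal

namespace Crest.Agent.R239

open Crest.Agent.Lib.PrekopaLeindler

namespace Rank1

/-! ### One dimensional facts -/

/-- `φ(0)` -/
noncomputable def c0 : ℝ := (Real.sqrt (2 * Real.pi))⁻¹

lemma c0_pos : 0 < c0 := by unfold c0; positivity

lemma c0_le : c0 ≤ 2 / 5 := by
  unfold c0
  rw [inv_le_comm₀ (by positivity) (by norm_num)]
  apply Real.le_sqrt_of_sq_le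
  have := Real.pi_gt_d2
  norm_num
  linarith

lemma pdf_eq (x : ℝ) : gaussianPDFReal 0 1 x = c0 * Real.exp (-x ^ 2 / 2) := by
  simp [gaussianPDFReal, c0]

lemma g1_apply_le {I : Set ℝ} (hI : MeasurableSet I) {p : ℝ} (h : ∀ s ∈ I, |p| ≤ |s|) :
    g1 I ≤ ENNReal.ofReal (c0 * Real.exp (-p ^ 2 / 2)) * volume I := by
  rw [gaussianReal_apply _ one_ne_zero, ← setLIntegral_const]
  refine setLIntegral_mono' hI fun s hs => ?_
  rw [gaussianPDF, pdf_eq]
  apply ENNReal.ofReal_le_ofReal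
  apply mul_le_mul_of_nonneg_left _ c0_pos.le
  apply Real.exp_le_exp.2
  have := sq_le_sq.2 (h s hs)
  linarith

lemma le_g1_apply {I : Set ℝ} (hI : MeasurableSet I) {q : ℝ} (h : ∀ s ∈ I, s ^ 2 ≤ q) :
    ENNReal.ofReal (c0 * Real.exp (-q / 2)) * volume I ≤ g1 I := by
  rw [gaussianReal_apply _ one_ne_zero, ← setLIntegral_const]
  refine setLIntegral_mono' hI fun s hs => ?_
  rw [gaussianPDF, pdf_eq]
  apply ENNReal.ofReal_le_ofReal
  apply mul_le_mul_of_nonneg_left _ c0_pos.le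
  apply Real.exp_le_exp.2
  have := h s hs
  linarith

lemma g1_Ici_le {p : ℝ} (hp : 0 ≤ p) : g1 (Ici p) ≤ ENNReal.ofReal (Real.exp (-p ^ 2 / 2)) := by
  have h1 := measure_ge_le_exp_mul_mgf (μ := g1) (X := id) p hp
    (by simpa using integrable_exp_mul_gaussianReal (μ := 0) (v := 1) p)
  have h2 : mgf id g1 p = Real.exp (p ^ 2 / 2) := by
    have := congrFun (mgf_id_gaussianReal (μ := 0) (v := 1)) p
    rw [this]; simp
  rw [h2, ← Real.exp_add] at h1
  have h3 : {ω : ℝ | p ≤ id ω} = Ici p := by ext; simp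
  rw [h3] at h1
  rw [← ENNReal.ofReal_toReal (measure_ne_top g1 (Ici p))]
  apply ENNReal.ofReal_le_ofReal
  refine h1.trans (le_of_eq ?_)
  congr 1
  ring

lemma g1_Iic_le {p : ℝ} (hp : p ≤ 0) : g1 (Iic p) ≤ ENNReal.ofReal (Real.exp (-p ^ 2 / 2)) := by
  have h1 := measure_le_le_exp_mul_mgf (μ := g1) (X := id) p hp
    (by simpa using integrable_exp_mul_gaussianReal (μ := 0) (v := 1) p)
  have h2 : mgf id g1 p = Real.exp (p ^ 2 / 2) := by
    have := congrFun (mgf_id_gaussianReal (μ := 0) (v := 1)) p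
    rw [this]; simp
  rw [h2, ← Real.exp_add] at h1
  have h3 : {ω : ℝ | id ω ≤ p} = Iic p := by ext; simp
  rw [h3] at h1
  rw [← ENNReal.ofReal_toReal (measure_ne_top g1 (Iic p))]
  apply ENNReal.ofReal_le_ofReal
  refine h1.trans (le_of_eq ?_)
  congr 1
  ring

/-- the nearest point to `0` of a closed nonempty set -/
lemma exists_nearest {I : Set ℝ} (hI : IsClosed I) (hne : I.Nonempty) :
    ∃ p ∈ I, ∀ s ∈ I, |p| ≤ |s| := by
  obtain ⟨p, hp, h⟩ := hI.exists_infDist_eq_dist hne 0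
  refine ⟨p, hp, fun s hs => ?_⟩
  have h1 := Metric.infDist_le_dist_of_mem (x := (0:ℝ)) hs
  rw [h] at h1
  simpa [Real.dist_eq] using h1

/-- a convex set is on one side of its nearest point -/
lemma nearest_pos {I : Set ℝ} (hc : Convex ℝ I) {p : ℝ} (hp : p ∈ I) (h : ∀ s ∈ I, |p| ≤ |s|)
    (h0 : 0 < p) : I ⊆ Ici p := by
  intro s hs
  by_contra hlt
  simp only [mem_Ici, not_le] at hlt
  rcases le_or_gt 0 s with h1 | h1
  · have := h s hs
    rw [abs_of_pos h0, abs_of_nonneg h1] at this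
    linarith
  · have : (0:ℝ) ∈ I := hc.ordConnected.out hs hp ⟨h1.le, h0.le⟩
    have := h 0 this
    rw [abs_of_pos h0, abs_zero] at this
    linarith

lemma nearest_neg {I : Set ℝ} (hc : Convex ℝ I) {p : ℝ} (hp : p ∈ I) (h : ∀ s ∈ I, |p| ≤ |s|)
    (h0 : p < 0) : I ⊆ Iic p := by
  intro s hs
  by_contra hlt
  simp only [mem_Iic, not_le] at hlt
  rcases le_or_gt s 0 with h1 | h1
  · have := h s hs
    rw [abs_of_neg h0, abs_of_nonpos h1] at this
    linarith
  · have : (0:ℝ) ∈ I := hc.ordConnected.out hp hs ⟨h0.le, h1.le⟩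
    have := h 0 this
    rw [abs_of_neg h0, abs_zero] at this
    linarith

/-- (D1) the Gaussian measure of a chord is at most `exp (-d²/2)` -/
lemma g1_chord_le {I : Set ℝ} (hc : Convex ℝ I) {p : ℝ} (hp : p ∈ I)
    (h : ∀ s ∈ I, |p| ≤ |s|) : g1 I ≤ ENNReal.ofReal (Real.exp (-p ^ 2 / 2)) := by
  rcases lt_trichotomy p 0 with h0 | h0 | h0
  · exact (measure_mono (nearest_neg hc hp h h0)).trans (g1_Iic_le h0.le)
  · subst h0
    simpa using prob_le_one
  · exact (measure_mono (nearest_pos hc hp h h0)).trans (g1_Ici_le h0.le)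

/-- a closed convex nonempty set without chord of length `t` is a short compact interval -/
lemma exists_Icc {I : Set ℝ} (hcl : IsClosed I) (hc : Convex ℝ I) (hne : I.Nonempty) {t : ℝ}
    (hno : ¬ ∃ s, s ∈ I ∧ s + t ∈ I) (ht : 0 < t) : ∃ a b, a ≤ b ∧ b < a + t ∧ I = Icc a b := by
  obtain ⟨p, hp⟩ := hne
  have hsub : I ⊆ Icc (p - t) (p + t) := by
    intro s hs
    constructor
    · by_contra hlt
      push Not at hlt
      exact hno ⟨p - t, hc.ordConnected.out hs hp ⟨hlt.le, by linarith⟩, by simpa using hp⟩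
    · by_contra hlt
      push Not at hlt
      exact hno ⟨p, hp, hc.ordConnected.out hp hs ⟨by linarith, hlt.le⟩⟩
  have hcomp : IsCompact I := isCompact_Icc.of_isClosed_subset hcl hsub
  have ha := hcomp.sInf_mem ⟨p, hp⟩
  have hb := hcomp.sSup_mem ⟨p, hp⟩
  have hI : I = Icc (sInf I) (sSup I) := by
    apply Subset.antisymm
    · intro s hs
      exact ⟨csInf_le hcomp.bddBelow hs, le_csSup hcomp.bddAbove hs⟩
    · intro s hs
      exact hc.ordConnected.out ha hb hs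
  refine ⟨sInf I, sSup I, csInf_le_csSup ⟨p, hp⟩ hcomp.bddBelow hcomp.bddAbove, ?_, hI⟩
  by_contra hlt
  push Not at hlt
  exact hno ⟨sInf I, ha, hc.ordConnected.out ha hb ⟨by linarith, hlt⟩⟩

/-- (D2) a chord of length `< t` has measure at most `φ(0) t exp (-d²/2)` -/
lemma g1_chord_le_length {I : Set ℝ} (hcl : IsClosed I) (hc : Convex ℝ I) {p : ℝ} (hp : p ∈ I)
    (h : ∀ s ∈ I, |p| ≤ |s|) {t : ℝ} (ht : 0 < t) (hno : ¬ ∃ s, s ∈ I ∧ s + t ∈ I) :
    g1 I ≤ ENNReal.ofReal (c0 * t) * ENNReal.ofReal (Real.exp (-p ^ 2 / 2)) := by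
  obtain ⟨a, b, hab, hbt, hI⟩ := exists_Icc hcl hc ⟨p, hp⟩ hno ht
  refine (g1_apply_le hcl.measurableSet h).trans ?_
  rw [hI, Real.volume_Icc, ← ENNReal.ofReal_mul (by have := c0_pos; positivity),
    ← ENNReal.ofReal_mul (by have := c0_pos; positivity)]
  apply ENNReal.ofReal_le_ofReal
  have := c0_pos
  have h1 : c0 * Real.exp (-p ^ 2 / 2) * (b - a) ≤ c0 * Real.exp (-p ^ 2 / 2) * t :=
    mul_le_mul_of_nonneg_left (by linarith) (by positivity)
  linarith

/-- (D3) the extension of a chord of length `< 1/2` by `k` gains `.94 k φ(0) exp (-d²/2)` -/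
lemma gain_chord {I : Set ℝ} (hcl : IsClosed I) (hc : Convex ℝ I) {p : ℝ} (hp : p ∈ I)
    (h : ∀ s ∈ I, |p| ≤ |s|) (hno : ¬ ∃ s, s ∈ I ∧ s + 1 / 2 ∈ I) {k : ℝ} (hk : 0 < k)
    (hk7 : k ≤ 7 / 100) :
    ENNReal.ofReal (94 / 100 * c0 * k) * ENNReal.ofReal (Real.exp (-p ^ 2 / 2)) ≤
      g1 {s | s ∉ I ∧ ∃ u, |u| ≤ k ∧ s + u ∈ I} := by
  obtain ⟨a, b, hab, hbt, hI⟩ := exists_Icc hcl hc ⟨p, hp⟩ hno (by norm_num)
  have hpI := hp
  rw [hI] at hpI
  have hc0 := c0_pos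
  -- a general estimate
  have key : ∀ J : Set ℝ, MeasurableSet J → volume J = ENNReal.ofReal k →
      (∀ s ∈ J, s ^ 2 ≤ p ^ 2 + 1024 / 10000) →
      ENNReal.ofReal (94 / 100 * c0 * k) * ENNReal.ofReal (Real.exp (-p ^ 2 / 2)) ≤ g1 J := by
    intro J hJ hv hJ2
    refine le_trans ?_ (le_g1_apply hJ hJ2)
    rw [hv, ← ENNReal.ofReal_mul (by positivity), ← ENNReal.ofReal_mul (by positivity)]
    apply ENNReal.ofReal_le_ofReal
    have h1 : Real.exp (-(p ^ 2 + 1024 / 10000) / 2) =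
        Real.exp (-p ^ 2 / 2) * Real.exp (-(512 / 10000)) := by
      rw [← Real.exp_add]; ring_nf
    have h2 : (94 / 100 : ℝ) ≤ Real.exp (-(512 / 10000)) := by
      have := Real.add_one_le_exp (-(512 / 10000) : ℝ)
      linarith
    rw [h1]
    have h3 : (0:ℝ) < c0 * k * Real.exp (-p ^ 2 / 2) := by positivity
    nlinarith
  have hleft : Ico (a - k) a ⊆ {s | s ∉ I ∧ ∃ u, |u| ≤ k ∧ s + u ∈ I} := by
    intro s hs
    refine ⟨?_, a - s, ?_, ?_⟩
    · rw [hI]; intro h'; exact absurd h'.1 (not_le.2 hs.2)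
    · rw [abs_le]; constructor <;> linarith [hs.1, hs.2]
    · rw [hI]; constructor <;> simp [hab]
  have hright : Ioc b (b + k) ⊆ {s | s ∉ I ∧ ∃ u, |u| ≤ k ∧ s + u ∈ I} := by
    intro s hs
    refine ⟨?_, b - s, ?_, ?_⟩
    · rw [hI]; intro h'; exact absurd h'.2 (not_le.2 hs.1)
    · rw [abs_le]; constructor <;> linarith [hs.1, hs.2]
    · rw [hI]; constructor <;> simp [hab]
  have hvl : volume (Ico (a - k) a) = ENNReal.ofReal k := by rw [Real.volume_Ico]; congr 1; ring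
  have hvr : volume (Ioc b (b + k)) = ENNReal.ofReal k := by rw [Real.volume_Ioc]; congr 1; ring
  rcases lt_or_ge 0 a with ha | ha
  · -- all of `I` is to the right of `0`
    have hpa : p = a := by
      have h1 := h a (by rw [hI]; exact ⟨le_rfl, hab⟩)
      rw [abs_of_pos ha, abs_of_pos (lt_of_lt_of_le ha hpI.1)] at h1
      exact le_antisymm h1 hpI.1
    refine (key _ measurableSet_Ico hvl fun s hs => ?_).trans (measure_mono hleft)
    rw [hpa]
    rcases le_or_gt 0 s with h0 | h0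
    · nlinarith [hs.1, hs.2]
    · nlinarith [hs.1, hs.2]
  rcases lt_or_ge b 0 with hb | hb
  · have hpb : p = b := by
      have h1 := h b (by rw [hI]; exact ⟨hab, le_rfl⟩)
      rw [abs_of_neg hb, abs_of_neg (lt_of_le_of_lt hpI.2 hb)] at h1
      exact le_antisymm hpI.2 (by linarith)
    refine (key _ measurableSet_Ioc hvr fun s hs => ?_).trans (measure_mono hright)
    rw [hpb]
    rcases le_or_gt s 0 with h0 | h0
    · nlinarith [hs.1, hs.2]
    · nlinarith [hs.1, hs.2]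
  have hp0 : p = 0 := by
    have h1 := h 0 (by rw [hI]; exact ⟨ha, hb⟩)
    simpa using h1
  rcases le_or_gt (-a) b with h4 | h4
  · refine (key _ measurableSet_Ico hvl fun s hs => ?_).trans (measure_mono hleft)
    rw [hp0]
    nlinarith [hs.1, hs.2]
  · refine (key _ measurableSet_Ioc hvr fun s hs => ?_).trans (measure_mono hright)
    rw [hp0]
    nlinarith [hs.1, hs.2]

/-! ### The fibration `ℝ × (Fin m → ℝ)` -/

section fib

variable {m : ℕ} {Y : Set (ℝ × (Fin m → ℝ))}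

/-- the section of `Y` over `z` -/
def sec (Y : Set (ℝ × (Fin m → ℝ))) (z : Fin m → ℝ) : Set ℝ := {s | (s, z) ∈ Y}

lemma isClosed_sec (hcl : IsClosed Y) (z : Fin m → ℝ) : IsClosed (sec Y z) :=
  hcl.preimage (by fun_prop : Continuous fun s : ℝ => (s, z))

lemma convex_sec (hc : Convex ℝ Y) (z : Fin m → ℝ) : Convex ℝ (sec Y z) := by
  intro s hs t ht a b ha hb hab
  have := hc hs ht ha hb hab
  simp only [sec, mem_ofPred_eq] at *
  have h2 : a • (s, z) + b • (t, z) = (a • s + b • t, z) := by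
    ext <;> simp [← add_mul, hab]
  rwa [h2] at this

/-- base points whose chord has length at least `t` -/
def Pr (Y : Set (ℝ × (Fin m → ℝ))) (t : ℝ) : Set (Fin m → ℝ) :=
  {z | ∃ s, (s, z) ∈ Y ∧ (s + t, z) ∈ Y}

lemma measurable_proj {α β : Type*} [PseudoMetricSpace α] [ProperSpace α] [MetricSpace β]
    [ProperSpace β] [MeasurableSpace β] [BorelSpace β] {A : Set (α × β)} (hA : IsClosed A) :
    MeasurableSet (Prod.snd '' A) := by
  rcases A.eq_empty_or_nonempty with h0 | ⟨x0, -⟩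
  · simp [h0]
  have h : A = ⋃ n : ℕ, A ∩ Metric.closedBall x0 n := by
    rw [← inter_iUnion, Metric.iUnion_closedBall_nat, inter_univ]
  rw [h, image_iUnion]
  refine MeasurableSet.iUnion fun n => ?_
  exact (((isCompact_closedBall x0 n).inter_left hA).image continuous_snd).isClosed.measurableSet

lemma measurable_proj' {A U : Set (ℝ × (Fin m → ℝ))} (hA : IsClosed A) (hU : IsOpen U) :
    MeasurableSet (Prod.snd '' (A ∩ U)) := by
  obtain ⟨F, hF, -, hFU, -⟩ := hU.exists_iUnion_isClosed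
  rw [← hFU, inter_iUnion, image_iUnion]
  exact MeasurableSet.iUnion fun n => measurable_proj (hA.inter (hF n))

lemma measurableSet_Pr (hcl : IsClosed Y) (t : ℝ) : MeasurableSet (Pr Y t) := by
  have h : Pr Y t = Prod.snd '' (Y ∩ (fun p : ℝ × (Fin m → ℝ) => (p.1 + t, p.2)) ⁻¹' Y) := by
    ext z
    constructor
    · rintro ⟨s, h1, h2⟩
      exact ⟨(s, z), ⟨h1, h2⟩, rfl⟩
    · rintro ⟨⟨s, z'⟩, ⟨h1, h2⟩, h3⟩
      simp only at h3
      subst h3
      exact ⟨s, h1, h2⟩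
  rw [h]
  exact measurable_proj (hcl.inter (hcl.preimage (by fun_prop)))

lemma Pr_anti (hc : Convex ℝ Y) {s t : ℝ} (hs : 0 ≤ s) (hst : s ≤ t) : Pr Y t ⊆ Pr Y s := by
  rintro z ⟨x, h1, h2⟩
  exact ⟨x, h1, (convex_sec hc z).ordConnected.out h1 h2 ⟨by linarith, by linarith⟩⟩

lemma Pr_convex (hc : Convex ℝ Y) {a b : ℝ} (ha : 0 ≤ a) (hb : 0 ≤ b) (hab : a + b = 1) {s t : ℝ}
    {x y : Fin m → ℝ} (hx : x ∈ Pr Y s) (hy : y ∈ Pr Y t) :
    a • x + b • y ∈ Pr Y (a * s + b * t) := by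
  obtain ⟨u, hu, hu'⟩ := hx
  obtain ⟨v, hv, hv'⟩ := hy
  refine ⟨a * u + b * v, ?_, ?_⟩
  · have := hc hu hv ha hb hab
    simpa using this
  · have := hc hu' hv' ha hb hab
    have h2 : a • (u + s, x) + b • (v + t, y) =
        (a * u + b * v + (a * s + b * t), a • x + b • y) := by
      ext <;> simp; ring
    rwa [h2] at this

/-- the weight `exp (-d(z)²/2)`, `0` outside the projection of `Y` -/
noncomputable def rho (Y : Set (ℝ × (Fin m → ℝ))) (z : Fin m → ℝ) : ℝ≥0∞ :=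
  ⨆ s : ℝ, Y.indicator (fun p => ENNReal.ofReal (Real.exp (-p.1 ^ 2 / 2))) (s, z)

lemma measurable_rho (hcl : IsClosed Y) : Measurable (rho Y) := by
  refine measurable_of_Ioi fun c => ?_
  have h : rho Y ⁻¹' Ioi c = Prod.snd '' (Y ∩ (fun p : ℝ × (Fin m → ℝ) =>
      ENNReal.ofReal (Real.exp (-p.1 ^ 2 / 2))) ⁻¹' Ioi c) := by
    ext z
    simp only [mem_preimage, mem_Ioi, rho, lt_iSup_iff]
    constructor
    · rintro ⟨s, hs⟩
      by_cases hsz : (s, z) ∈ Y
      · rw [indicator_of_mem hsz] at hs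
        exact ⟨(s, z), ⟨hsz, hs⟩, rfl⟩
      · rw [indicator_of_notMem hsz] at hs
        exact absurd hs not_lt_zero
    · rintro ⟨⟨s, z'⟩, ⟨h1, h2⟩, h3⟩
      simp only at h3
      subst h3
      refine ⟨s, ?_⟩
      rw [indicator_of_mem h1]
      exact h2
  rw [h]
  apply measurable_proj' hcl
  apply isOpen_Ioi.preimage
  exact ENNReal.continuous_ofReal.comp (by fun_prop)

lemma rho_of_notMem {z : Fin m → ℝ} (hz : z ∉ Pr Y 0) : rho Y z = 0 := by
  unfold rho
  rw [ENNReal.iSup_eq_zero]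
  intro s
  apply indicator_of_notMem
  intro h
  exact hz ⟨s, h, by simpa using h⟩

lemma rho_of_mem (hcl : IsClosed Y) {z : Fin m → ℝ} (hz : z ∈ Pr Y 0) :
    ∃ p, p ∈ sec Y z ∧ (∀ s ∈ sec Y z, |p| ≤ |s|) ∧
      rho Y z = ENNReal.ofReal (Real.exp (-p ^ 2 / 2)) := by
  obtain ⟨s, hs, -⟩ := hz
  obtain ⟨p, hp, hmin⟩ := exists_nearest (isClosed_sec hcl z) ⟨s, hs⟩
  refine ⟨p, hp, hmin, le_antisymm ?_ ?_⟩
  · refine iSup_le fun s => ?_
    by_cases hsz : (s, z) ∈ Y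
    · rw [indicator_of_mem hsz]
      apply ENNReal.ofReal_le_ofReal
      apply Real.exp_le_exp.2
      have := sq_le_sq.2 (hmin s hsz)
      simp only
      linarith
    · rw [indicator_of_notMem hsz]; exact bot_le
  · refine le_iSup_of_le p ?_
    rw [indicator_of_mem (show (p, z) ∈ Y from hp)]

lemma rho_le_one (z : Fin m → ℝ) : rho Y z ≤ 1 := by
  refine iSup_le fun s => ?_
  by_cases hsz : (s, z) ∈ Y
  · rw [indicator_of_mem hsz, ← ENNReal.ofReal_one]
    apply ENNReal.ofReal_le_ofReal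
    apply Real.exp_le_one_iff.2
    simp only
    nlinarith [sq_nonneg s]
  · rw [indicator_of_notMem hsz]; exact bot_le

lemma rho_logconcave (hcl : IsClosed Y) (hc : Convex ℝ Y) {t : ℝ} (ht0 : 0 < t) (ht1 : t < 1)
    (x y : Fin m → ℝ) :
    rho Y x ^ (1 - t) * rho Y y ^ t ≤ rho Y ((1 - t) • x + t • y) := by
  by_cases hx : x ∈ Pr Y 0
  swap
  · rw [rho_of_notMem hx, ENNReal.zero_rpow_of_pos (by linarith), zero_mul]; exact bot_le
  by_cases hy : y ∈ Pr Y 0
  swap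
  · rw [rho_of_notMem hy, ENNReal.zero_rpow_of_pos ht0, mul_zero]; exact bot_le
  obtain ⟨p, hp, -, hpe⟩ := rho_of_mem hcl hx
  obtain ⟨q, hq, -, hqe⟩ := rho_of_mem hcl hy
  have hmem : ((1 - t) * p + t * q, (1 - t) • x + t • y) ∈ Y := by
    have := hc (show (p, x) ∈ Y from hp) (show (q, y) ∈ Y from hq) (by linarith : 0 ≤ 1 - t)
      ht0.le (by ring)
    simpa using this
  rw [hpe, hqe, ENNReal.ofReal_rpow_of_nonneg (Real.exp_pos _).le (by linarith),
    ENNReal.ofReal_rpow_of_nonneg (Real.exp_pos _).le ht0.le,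
    ← ENNReal.ofReal_mul (Real.rpow_nonneg (Real.exp_pos _).le _)]
  refine (ENNReal.ofReal_le_ofReal (exp_sq_logconcave ht0 ht1 p q)).trans ?_
  refine le_trans ?_ (le_iSup _ ((1 - t) * p + t * q))
  rw [indicator_of_mem hmem]

/-- the `rho`-mass of a set of base points -/
noncomputable def nu (Y : Set (ℝ × (Fin m → ℝ))) (S : Set (Fin m → ℝ)) : ℝ≥0∞ :=
  ∫⁻ z in S, rho Y z ∂(gp m)

lemma nu_le_one (S : Set (Fin m → ℝ)) : nu Y S ≤ 1 := by
  unfold nu
  calc ∫⁻ z in S, rho Y z ∂(gp m) ≤ ∫⁻ _ in S, 1 ∂(gp m) := lintegral_mono fun z => rho_le_one z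
    _ ≤ 1 := by simpa using prob_le_one

lemma nu_ne_top (S : Set (Fin m → ℝ)) : nu Y S ≠ ∞ := ne_top_of_le_ne_top (by simp) (nu_le_one S)

lemma nu_mono {S T : Set (Fin m → ℝ)} (h : S ⊆ T) : nu Y S ≤ nu Y T :=
  lintegral_mono_set h

/-- Prekopa: `t ↦ nu (Pr t)` is log-concave between `0` and `1/2` -/
lemma nu_logconcave (hcl : IsClosed Y) (hc : Convex ℝ Y) {t : ℝ} (ht0 : 0 < t) (ht1 : t < 1 / 2) :
    nu Y (Pr Y 0) ^ (1 - 2 * t) * nu Y (Pr Y (1 / 2)) ^ (2 * t) ≤ nu Y (Pr Y t) := by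
  have hm := measurable_rho hcl
  have key := PL_gp m (2 * t) (by linarith) (by linarith) ((Pr Y 0).indicator (rho Y))
    ((Pr Y (1 / 2)).indicator (rho Y)) ((Pr Y t).indicator (rho Y))
    (hm.indicator (measurableSet_Pr hcl _)) (hm.indicator (measurableSet_Pr hcl _))
    (hm.indicator (measurableSet_Pr hcl _)) ?_
  · rw [lintegral_indicator (measurableSet_Pr hcl _), lintegral_indicator (measurableSet_Pr hcl _),
      lintegral_indicator (measurableSet_Pr hcl _)] at key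
    exact key
  · intro x y
    by_cases hx : x ∈ Pr Y 0
    swap
    · rw [indicator_of_notMem hx, ENNReal.zero_rpow_of_pos (by linarith), zero_mul]; exact bot_le
    by_cases hy : y ∈ Pr Y (1 / 2)
    swap
    · rw [indicator_of_notMem hy, ENNReal.zero_rpow_of_pos (by linarith), mul_zero]; exact bot_le
    have hxy := Pr_convex hc (by linarith : (0:ℝ) ≤ 1 - 2 * t) (by linarith : (0:ℝ) ≤ 2 * t)
      (by ring) hx hy
    have ht : (1 - 2 * t) * 0 + 2 * t * (1 / 2) = t := by ring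
    rw [ht] at hxy
    rw [indicator_of_mem hx, indicator_of_mem hy, indicator_of_mem hxy]
    exact rho_logconcave hcl hc (by linarith) (by linarith) x y

end fib


/-! ### The short chord lemma -/

lemma log_ge {r : ℝ} (h1 : 3 / 8 ≤ r) (h2 : r ≤ 1) : -(8 / 5 * (1 - r)) ≤ Real.log r := by
  have hconc := strictConcaveOn_log_Ioi.concaveOn
  have h38 : (3 / 8 : ℝ) ∈ Ioi (0:ℝ) := by norm_num
  have h11 : (1 : ℝ) ∈ Ioi (0:ℝ) := by norm_num
  have ha : (0:ℝ) ≤ (1 - r) / (5 / 8) := by apply div_nonneg <;> linarith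
  have hb : (0:ℝ) ≤ 1 - (1 - r) / (5 / 8) := by
    rw [sub_nonneg, div_le_one (by norm_num)]; linarith
  have key := hconc.2 h38 h11 ha hb (by ring)
  simp only [smul_eq_mul, Real.log_one, mul_zero, add_zero] at key
  have h3 : (1 - r) / (5 / 8) * (3 / 8) + (1 - (1 - r) / (5 / 8)) * 1 = r := by ring
  rw [h3] at key
  have h4 : -1 ≤ Real.log (3 / 8) := by
    rw [Real.le_log_iff_exp_le (by norm_num), Real.exp_neg]
    rw [inv_le_comm₀ (Real.exp_pos _) (by norm_num)]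
    have := Real.exp_one_gt_d9
    norm_num at this ⊢
    linarith
  nlinarith

lemma short_real {G0 Gh Gt t : ℝ} (h0 : 0 < G0) (h1 : 3 / 8 * G0 ≤ Gh) (h2 : Gh ≤ G0)
    (ht0 : 0 < t) (h : G0 ^ (1 - 2 * t) * Gh ^ (2 * t) ≤ Gt) :
    G0 - Gt ≤ 16 / 5 * t * (G0 - Gh) := by
  have hGh : 0 < Gh := by linarith
  have h3 : G0 ^ (1 - 2 * t) * Gh ^ (2 * t) = G0 * (Gh / G0) ^ (2 * t) := by
    rw [Real.div_rpow hGh.le h0.le, Real.rpow_sub h0, Real.rpow_one]
    field_simp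
  have hr1 : 3 / 8 ≤ Gh / G0 := by rw [le_div_iff₀ h0]; linarith
  have hr2 : Gh / G0 ≤ 1 := by rw [div_le_one h0]; exact h2
  have h4 : 1 - 16 / 5 * t * (1 - Gh / G0) ≤ (Gh / G0) ^ (2 * t) := by
    rw [Real.rpow_def_of_pos (by positivity)]
    have h5 := Real.add_one_le_exp (Real.log (Gh / G0) * (2 * t))
    have h6 := log_ge hr1 hr2
    have h7 : -(8 / 5 * (1 - Gh / G0)) * (2 * t) ≤ Real.log (Gh / G0) * (2 * t) :=
      mul_le_mul_of_nonneg_right h6 (by linarith)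
    linarith
  rw [h3] at h
  have h8 : G0 * (1 - 16 / 5 * t * (1 - Gh / G0)) ≤ G0 * (Gh / G0) ^ (2 * t) :=
    mul_le_mul_of_nonneg_left h4 h0.le
  have h9 : G0 * (1 - 16 / 5 * t * (1 - Gh / G0)) = G0 - 16 / 5 * t * (G0 - Gh) := by
    field_simp
  linarith

section fib2

variable {m : ℕ} {Y : Set (ℝ × (Fin m → ℝ))}

lemma nu_split (hcl : IsClosed Y) (hc : Convex ℝ Y) {s t : ℝ} (hs : 0 ≤ s) (hst : s ≤ t) :
    (nu Y (Pr Y s)).toReal = (nu Y (Pr Y t)).toReal + (nu Y (Pr Y s \ Pr Y t)).toReal := by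
  rw [← ENNReal.toReal_add (nu_ne_top _) (nu_ne_top _)]
  congr 1
  unfold nu
  rw [← lintegral_inter_add_sdiff (rho Y) (Pr Y s) (measurableSet_Pr hcl t),
    inter_eq_right.2 (Pr_anti hc hs hst)]

lemma measure_le (hcl : IsClosed Y) (hc : Convex ℝ Y) :
    (g1.prod (gp m)) Y ≤
      nu Y (Pr Y (1 / 2)) + ENNReal.ofReal (c0 / 2) * nu Y (Pr Y 0 \ Pr Y (1 / 2)) := by
  rw [Measure.prod_apply_symm hcl.measurableSet]
  unfold nu
  rw [← lintegral_const_mul' _ _ ENNReal.ofReal_ne_top,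
    ← lintegral_indicator (measurableSet_Pr hcl _),
    ← lintegral_indicator ((measurableSet_Pr hcl _).diff (measurableSet_Pr hcl _)),
    ← lintegral_add_left ((measurable_rho hcl).indicator (measurableSet_Pr hcl _))]
  refine lintegral_mono fun z => ?_
  have hsec : (fun x : ℝ => (x, z)) ⁻¹' Y = sec Y z := rfl
  rw [hsec]
  by_cases h0 : z ∈ Pr Y 0
  swap
  · have : sec Y z = ∅ := by
      rw [eq_empty_iff_forall_notMem]
      intro s hs
      exact h0 ⟨s, hs, by rw [add_zero]; exact hs⟩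
    rw [this, measure_empty]; exact bot_le
  obtain ⟨p, hp, hmin, hrho⟩ := rho_of_mem hcl h0
  by_cases hh : z ∈ Pr Y (1 / 2)
  · rw [indicator_of_mem hh]
    refine le_add_right ?_
    rw [hrho]
    exact g1_chord_le (convex_sec hc z) hp hmin
  · have hmem : z ∈ Pr Y 0 \ Pr Y (1/2) := ⟨h0, hh⟩
    rw [indicator_of_notMem hh, zero_add, indicator_of_mem hmem, hrho]
    refine (g1_chord_le_length (isClosed_sec hcl z) (convex_sec hc z) hp hmin
      (by norm_num : (0:ℝ) < 1 / 2) hh).trans ?_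
    rw [show c0 * (1 / 2) = c0 / 2 by ring]

/-- **short chord lemma**: `nu {L < t} ≤ 3.2 t nu {L < 1/2}` -/
theorem short_chord (hcl : IsClosed Y) (hc : Convex ℝ Y) (hY : 1 / 2 ≤ (g1.prod (gp m)) Y)
    {t : ℝ} (ht0 : 0 ≤ t) (ht1 : t < 1 / 2) :
    (nu Y (Pr Y 0 \ Pr Y t)).toReal ≤ 16 / 5 * t * (nu Y (Pr Y 0 \ Pr Y (1 / 2))).toReal := by
  rcases ht0.eq_or_lt with rfl | ht0
  · simp [nu]
  have hs1 := nu_split hcl hc le_rfl ht0.le
  have hs2 := nu_split hcl hc le_rfl (by norm_num : (0:ℝ) ≤ 1 / 2)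
  have hm : (1/2 : ℝ) ≤ (nu Y (Pr Y (1 / 2))).toReal +
      c0 / 2 * (nu Y (Pr Y 0 \ Pr Y (1 / 2))).toReal := by
    have h := hY.trans (measure_le hcl hc)
    have h2 := ENNReal.toReal_mono (ENNReal.add_ne_top.2 ⟨nu_ne_top _,
      ENNReal.mul_ne_top ENNReal.ofReal_ne_top (nu_ne_top _)⟩) h
    rw [ENNReal.toReal_add (nu_ne_top _) (ENNReal.mul_ne_top ENNReal.ofReal_ne_top (nu_ne_top _)),
      ENNReal.toReal_mul, ENNReal.toReal_ofReal (by have := c0_pos; positivity)] at h2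
    simpa using h2
  have hG0 : (nu Y (Pr Y 0)).toReal ≤ 1 := by
    have := ENNReal.toReal_mono (by simp) (nu_le_one (Y := Y) (Pr Y 0))
    simpa using this
  have hD : 0 ≤ (nu Y (Pr Y 0 \ Pr Y (1 / 2))).toReal := ENNReal.toReal_nonneg
  have hc0 := c0_le
  have hm2 : (1/2 : ℝ) ≤ (nu Y (Pr Y (1 / 2))).toReal +
      1 / 5 * (nu Y (Pr Y 0 \ Pr Y (1 / 2))).toReal := by nlinarith
  have hlog := ENNReal.toReal_mono (nu_ne_top _) (nu_logconcave hcl hc ht0 ht1)
  rw [ENNReal.toReal_mul, ← ENNReal.toReal_rpow, ← ENNReal.toReal_rpow] at hlog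
  have := short_real (by nlinarith) (by nlinarith) (by linarith) ht0 hlog
  have e1 : (nu Y (Pr Y 0)).toReal - (nu Y (Pr Y t)).toReal = (nu Y (Pr Y 0 \ Pr Y t)).toReal := by
    linarith
  have e2 : (nu Y (Pr Y 0)).toReal - (nu Y (Pr Y (1 / 2))).toReal =
      (nu Y (Pr Y 0 \ Pr Y (1 / 2))).toReal := by linarith
  rwa [e1, e2] at this

end fib2


/-! ### Loss and gain -/

section fib3

variable {m : ℕ} {Y : Set (ℝ × (Fin m → ℝ))}

/-- the part of `Y` on chords of length `< l` -/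
def lossSet (Y : Set (ℝ × (Fin m → ℝ))) (l : ℝ) : Set (ℝ × (Fin m → ℝ)) :=
  {p | p ∈ Y ∧ p.2 ∉ Pr Y l}

/-- the points outside `Y` at distance at most `k` from a chord of length at least `l` -/
def gainSet (Y : Set (ℝ × (Fin m → ℝ))) (l k : ℝ) : Set (ℝ × (Fin m → ℝ)) :=
  {p | p ∉ Y ∧ p.2 ∈ Pr Y l ∧ ∃ u, |u| ≤ k ∧ (p.1 + u, p.2) ∈ Y}

lemma measurableSet_lossSet (hcl : IsClosed Y) (l : ℝ) : MeasurableSet (lossSet Y l) :=
  hcl.measurableSet.inter ((measurableSet_Pr hcl l).preimage measurable_snd).compl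

lemma measurableSet_gainSet (hcl : IsClosed Y) (l k : ℝ) : MeasurableSet (gainSet Y l k) := by
  have h1 : MeasurableSet {p : ℝ × (Fin m → ℝ) | ∃ u, |u| ≤ k ∧ (p.1 + u, p.2) ∈ Y} := by
    have h2 : {p : ℝ × (Fin m → ℝ) | ∃ u, |u| ≤ k ∧ (p.1 + u, p.2) ∈ Y} =
        Prod.snd '' ({q : ℝ × (ℝ × (Fin m → ℝ)) | |q.1| ≤ k ∧ (q.2.1 + q.1, q.2.2) ∈ Y}) := by
      ext p
      constructor
      · rintro ⟨u, h1, h2⟩
        exact ⟨(u, p), ⟨h1, h2⟩, rfl⟩
      · rintro ⟨⟨u, p'⟩, ⟨h1, h2⟩, h3⟩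
        simp only at h3
        subst h3
        exact ⟨u, h1, h2⟩
    rw [h2]
    apply measurable_proj
    have hA : IsClosed {q : ℝ × (ℝ × (Fin m → ℝ)) | |q.1| ≤ k} :=
      isClosed_le (by fun_prop) continuous_const
    have hB : IsClosed ((fun q : ℝ × (ℝ × (Fin m → ℝ)) => (q.2.1 + q.1, q.2.2)) ⁻¹' Y) :=
      hcl.preimage (by fun_prop)
    exact hA.inter hB
  exact hcl.measurableSet.compl.inter (((measurableSet_Pr hcl l).preimage measurable_snd).inter h1)

lemma loss_le (hcl : IsClosed Y) (hc : Convex ℝ Y) {l : ℝ} (hl : 0 < l) :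
    (g1.prod (gp m)) (lossSet Y l) ≤ ENNReal.ofReal (c0 * l) * nu Y (Pr Y 0 \ Pr Y l) := by
  rw [Measure.prod_apply_symm (measurableSet_lossSet hcl l)]
  unfold nu
  rw [← lintegral_const_mul' _ _ ENNReal.ofReal_ne_top,
    ← lintegral_indicator ((measurableSet_Pr hcl _).diff (measurableSet_Pr hcl _))]
  refine lintegral_mono fun z => ?_
  by_cases h0 : z ∈ Pr Y 0 \ Pr Y l
  · obtain ⟨p, hp, hmin, hrho⟩ := rho_of_mem hcl h0.1
    rw [indicator_of_mem h0, hrho]
    refine le_trans (measure_mono ?_) (g1_chord_le_length (isClosed_sec hcl z) (convex_sec hc z)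
      hp hmin hl h0.2)
    intro s hs
    exact hs.1
  · have : (fun x : ℝ => (x, z)) ⁻¹' lossSet Y l = ∅ := by
      rw [eq_empty_iff_forall_notMem]
      rintro s ⟨hs1, hs2⟩
      exact h0 ⟨⟨s, hs1, by rw [add_zero]; exact hs1⟩, hs2⟩
    simp only [this, measure_empty]
    exact bot_le

lemma gain_ge (hcl : IsClosed Y) (hc : Convex ℝ Y) {l k : ℝ} (hl : 0 < l) (hk : 0 < k)
    (hk7 : k ≤ 7 / 100) :
    ENNReal.ofReal (94 / 100 * c0 * k) * nu Y (Pr Y l \ Pr Y (1 / 2)) ≤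
      (g1.prod (gp m)) (gainSet Y l k) := by
  rw [Measure.prod_apply_symm (measurableSet_gainSet hcl l k)]
  unfold nu
  rw [← lintegral_const_mul' _ _ ENNReal.ofReal_ne_top,
    ← lintegral_indicator ((measurableSet_Pr hcl _).diff (measurableSet_Pr hcl _))]
  refine lintegral_mono fun z => ?_
  by_cases h0 : z ∈ Pr Y l \ Pr Y (1 / 2)
  · have h00 : z ∈ Pr Y 0 := Pr_anti hc le_rfl hl.le h0.1
    obtain ⟨p, hp, hmin, hrho⟩ := rho_of_mem hcl h00
    rw [indicator_of_mem h0, hrho]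
    refine le_trans (gain_chord (isClosed_sec hcl z) (convex_sec hc z) hp hmin h0.2 hk hk7)
      (measure_mono ?_)
    rintro s ⟨hs1, u, hu, hs2⟩
    exact ⟨hs1, h0.1, u, hu, hs2⟩
  · rw [indicator_of_notMem h0]
    exact bot_le

/-- **rank one inequality** on `ℝ × (Fin m → ℝ)` -/
theorem rank_one_fib (hcl : IsClosed Y) (hc : Convex ℝ Y) (hY : 1 / 2 ≤ (g1.prod (gp m)) Y)
    {l k : ℝ} (hl : 0 < l) (hl14 : l ≤ 14 / 100) (hk : 0 < k) (hk7 : k ≤ 7 / 100) :
    ((g1.prod (gp m)) (lossSet Y l)).toReal ≤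
      71 / 10 * (l ^ 2 / k) * ((g1.prod (gp m)) (gainSet Y l k)).toReal := by
  have hc0 := c0_pos
  set D := (nu Y (Pr Y 0 \ Pr Y (1 / 2))).toReal with hD
  set A := (nu Y (Pr Y 0 \ Pr Y l)).toReal with hA
  set B := (nu Y (Pr Y l \ Pr Y (1 / 2))).toReal with hB
  have hD0 : 0 ≤ D := ENNReal.toReal_nonneg
  have h1 : ((g1.prod (gp m)) (lossSet Y l)).toReal ≤ c0 * l * A := by
    have := ENNReal.toReal_mono (ENNReal.mul_ne_top ENNReal.ofReal_ne_top (nu_ne_top _))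
      (loss_le hcl hc hl)
    rwa [ENNReal.toReal_mul, ENNReal.toReal_ofReal (by positivity)] at this
  have h2 : 94 / 100 * c0 * k * B ≤ ((g1.prod (gp m)) (gainSet Y l k)).toReal := by
    have := ENNReal.toReal_mono (measure_ne_top _ _) (gain_ge (m := m) hcl hc hl hk hk7)
    rwa [ENNReal.toReal_mul, ENNReal.toReal_ofReal (by positivity)] at this
  have h3 : A ≤ 16 / 5 * l * D := short_chord hcl hc hY hl.le (by linarith)
  have h4 : A + B = D := by
    have e1 := nu_split hcl hc le_rfl hl.le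
    have e2 := nu_split hcl hc hl.le (by linarith : l ≤ 1 / 2)
    have e3 := nu_split hcl hc le_rfl (by norm_num : (0:ℝ) ≤ 1 / 2)
    linarith
  have h5 : (552 / 1000) * D ≤ B := by nlinarith
  have h6 : c0 * l * A ≤ c0 * l * (16 / 5 * l * D) := mul_le_mul_of_nonneg_left h3 (by positivity)
  have h7 : 94 / 100 * c0 * k * ((552 / 1000) * D) ≤ 94 / 100 * c0 * k * B :=
    mul_le_mul_of_nonneg_left h5 (by positivity)
  have h8 : 71 / 10 * (l ^ 2 / k) * (94 / 100 * c0 * k * ((552 / 1000) * D)) ≤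
      71 / 10 * (l ^ 2 / k) * ((g1.prod (gp m)) (gainSet Y l k)).toReal :=
    mul_le_mul_of_nonneg_left (h7.trans h2) (by positivity)
  have h9 : 71 / 10 * (l ^ 2 / k) * (94 / 100 * c0 * k * ((552 / 1000) * D)) =
      (71 / 10 * (94 / 100) * (552 / 1000)) * (c0 * l ^ 2 * D) := by
    field_simp
  have h10 : c0 * l * (16 / 5 * l * D) = 16 / 5 * (c0 * l ^ 2 * D) := by ring
  have h11 : 0 ≤ c0 * l ^ 2 * D := by positivity
  rw [h9] at h8
  rw [h10] at h6
  nlinarith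

end fib3

end Rank1

/-! ### The statement on a Euclidean space -/

section euclid

open Rank1

variable {E : Type*} [NormedAddCommGroup E] [InnerProductSpace ℝ E] [FiniteDimensional ℝ E]
  [MeasurableSpace E] [BorelSpace E]

/-- the chord of `Y` through `y` in the direction `e` has length at least `l` -/
def chordGe (Y : Set E) (e : E) (l : ℝ) (y : E) : Prop :=
  ∃ t : ℝ, y + t • e ∈ Y ∧ y + (t + l) • e ∈ Y

omit [FiniteDimensional ℝ E] [MeasurableSpace E] [BorelSpace E] in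
lemma chordGe_add (Y : Set E) (e : E) (l : ℝ) (y : E) (s : ℝ) :
    chordGe Y e l (y + s • e) ↔ chordGe Y e l y := by
  constructor
  · rintro ⟨t, h1, h2⟩
    refine ⟨s + t, ?_, ?_⟩
    · rwa [add_smul, ← add_assoc]
    · rw [show s + t + l = s + (t + l) by ring, add_smul, ← add_assoc]; exact h2
  · rintro ⟨t, h1, h2⟩
    refine ⟨t - s, ?_, ?_⟩
    · rw [add_assoc, ← add_smul]
      rw [show s + (t - s) = t by ring]; exact h1
    · rw [add_assoc, ← add_smul]
      rw [show s + (t - s + l) = t + l by ring]; exact h2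

lemma measurableSet_chordGe {Y : Set E} (hcl : IsClosed Y) (e : E) (l : ℝ) :
    MeasurableSet {y | chordGe Y e l y} := by
  have h2 : {y | chordGe Y e l y} =
      Prod.snd '' ({q : ℝ × E | q.2 + q.1 • e ∈ Y ∧ q.2 + (q.1 + l) • e ∈ Y}) := by
    ext p
    constructor
    · rintro ⟨u, h1, h2⟩
      exact ⟨(u, p), ⟨h1, h2⟩, rfl⟩
    · rintro ⟨⟨u, p'⟩, ⟨h1, h2⟩, h3⟩
      simp only at h3
      subst h3
      exact ⟨u, h1, h2⟩
  rw [h2]
  have : ProperSpace E := FiniteDimensional.proper_real E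
  apply measurable_proj
  have hA : IsClosed ((fun q : ℝ × E => q.2 + q.1 • e) ⁻¹' Y) := hcl.preimage (by fun_prop)
  have hB : IsClosed ((fun q : ℝ × E => q.2 + (q.1 + l) • e) ⁻¹' Y) := hcl.preimage (by fun_prop)
  exact hA.inter hB

lemma measurableSet_near {Y : Set E} (hcl : IsClosed Y) (e : E) (k : ℝ) :
    MeasurableSet {y | ∃ s : ℝ, |s| ≤ k ∧ y + s • e ∈ Y} := by
  have h2 : {y | ∃ s : ℝ, |s| ≤ k ∧ y + s • e ∈ Y} =
      Prod.snd '' ({q : ℝ × E | |q.1| ≤ k ∧ q.2 + q.1 • e ∈ Y}) := by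
    ext p
    constructor
    · rintro ⟨u, h1, h2⟩
      exact ⟨(u, p), ⟨h1, h2⟩, rfl⟩
    · rintro ⟨⟨u, p'⟩, ⟨h1, h2⟩, h3⟩
      simp only at h3
      subst h3
      exact ⟨u, h1, h2⟩
  rw [h2]
  have : ProperSpace E := FiniteDimensional.proper_real E
  apply measurable_proj
  have hA : IsClosed {q : ℝ × E | |q.1| ≤ k} := isClosed_le (by fun_prop) continuous_const
  have hB : IsClosed ((fun q : ℝ × E => q.2 + q.1 • e) ⁻¹' Y) := hcl.preimage (by fun_prop)
  exact hA.inter hB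

/-- the part of `Y` on chords (direction `e`) of length `< l` -/
def shortSet (Y : Set E) (e : E) (l : ℝ) : Set E := {y | y ∈ Y ∧ ¬ chordGe Y e l y}

/-- the points outside `Y` at distance at most `k` (along `e`) from a chord of length `≥ l` -/
def extSet (Y : Set E) (e : E) (l k : ℝ) : Set E :=
  {y | y ∉ Y ∧ chordGe Y e l y ∧ ∃ s : ℝ, |s| ≤ k ∧ y + s • e ∈ Y}

lemma measurableSet_shortSet {Y : Set E} (hcl : IsClosed Y) (e : E) (l : ℝ) :
    MeasurableSet (shortSet Y e l) :=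
  hcl.measurableSet.inter (measurableSet_chordGe hcl e l).compl

lemma measurableSet_extSet {Y : Set E} (hcl : IsClosed Y) (e : E) (l k : ℝ) :
    MeasurableSet (extSet Y e l k) :=
  hcl.measurableSet.compl.inter ((measurableSet_chordGe hcl e l).inter (measurableSet_near hcl e k))

/-- **Rank one inequality.** `Y` closed convex, `γ(Y) ≥ 1/2`, `e` a unit vector: the part of `Y` on
chords of length `< l` is at most `7.1 l²/k` times the part gained by extending by `k` the chords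
of length `≥ l`. -/
theorem rank_one {Y : Set E} (hcl : IsClosed Y) (hc : Convex ℝ Y)
    (hY : 1 / 2 ≤ stdGaussian E Y) {e : E} (he : ‖e‖ = 1)
    {l k : ℝ} (hl : 0 < l) (hl14 : l ≤ 14 / 100) (hk : 0 < k) (hk7 : k ≤ 7 / 100) :
    (stdGaussian E).real (shortSet Y e l) ≤
      71 / 10 * (l ^ 2 / k) * (stdGaussian E).real (extSet Y e l k) := by
  obtain ⟨m, Φ, hΦ, hΦe⟩ := exists_line e he
  have hΦ2 : ∀ s t z, Φ (s + t, z) = Φ (s, z) + t • e := by
    intro s t z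
    rw [hΦe, hΦe s, add_smul]; abel
  have hcl' : IsClosed (Φ ⁻¹' Y) := hcl.preimage Φ.continuous
  have hc' : Convex ℝ (Φ ⁻¹' Y) := hc.linear_preimage Φ.toLinearMap
  have hY' : 1 / 2 ≤ (g1.prod (gp m)) (Φ ⁻¹' Y) := by
    rwa [hΦ.measure_preimage hcl.measurableSet.nullMeasurableSet]
  have hchord : ∀ l s z, chordGe Y e l (Φ (s, z)) ↔ z ∈ Pr (Φ ⁻¹' Y) l := by
    intro l s z
    constructor
    · rintro ⟨t, h1, h2⟩
      refine ⟨s + t, ?_, ?_⟩
      · rw [mem_preimage, hΦ2]; exact h1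
      · rw [mem_preimage, show s + t + l = s + (t + l) by ring, hΦ2]; exact h2
    · rintro ⟨t, h1, h2⟩
      rw [mem_preimage] at h1 h2
      refine ⟨t - s, ?_, ?_⟩
      · rw [← hΦ2, show s + (t - s) = t by ring]; exact h1
      · rw [← hΦ2, show s + (t - s + l) = t + l by ring]; exact h2
  have e1 : Φ ⁻¹' (shortSet Y e l) = lossSet (Φ ⁻¹' Y) l := by
    ext ⟨s, z⟩
    simp only [shortSet, lossSet, mem_preimage, mem_ofPred_eq, hchord]
  have e2 : Φ ⁻¹' (extSet Y e l k) = gainSet (Φ ⁻¹' Y) l k := by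
    ext ⟨s, z⟩
    simp only [extSet, gainSet, mem_preimage, mem_ofPred_eq, hchord, hΦ2]
  have h1 := rank_one_fib hcl' hc' hY' hl hl14 hk hk7
  rw [← e1, ← e2, hΦ.measure_preimage (measurableSet_shortSet hcl e l).nullMeasurableSet,
    hΦ.measure_preimage (measurableSet_extSet hcl e l k).nullMeasurableSet] at h1
  exact h1

omit [FiniteDimensional ℝ E] [MeasurableSpace E] [BorelSpace E] in
/-- in a convex set, the points between two parameters of a line are in the set -/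
lemma line_mem {Y : Set E} (hc : Convex ℝ Y) {y e : E} {a b c : ℝ} (ha : y + a • e ∈ Y)
    (hb : y + b • e ∈ Y) (hac : a ≤ c) (hcb : c ≤ b) : y + c • e ∈ Y := by
  have h1 : Convex ℝ ((fun t : ℝ => y + t • e) ⁻¹' Y) := by
    intro s hs t ht α β hα hβ hαβ
    have := hc hs ht hα hβ hαβ
    simp only [mem_preimage] at *
    have h2 : α • (y + s • e) + β • (y + t • e) = y + (α • s + β • t) • e := by
      have h3 : y = (α + β) • y := by rw [hαβ, one_smul]
      conv_rhs => rw [h3]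
      simp only [smul_add, add_smul, smul_smul, smul_eq_mul]
      abel
    rwa [h2] at this
  exact h1.ordConnected.out ha hb ⟨hac, hcb⟩

omit [FiniteDimensional ℝ E] [MeasurableSpace E] [BorelSpace E] in
lemma pm_subset_shortSet {Y : Set E} (hc : Convex ℝ Y) (e : E) {k : ℝ} (hk : 0 < k) :
    {y | y ∈ Y ∧ y + k • e ∉ Y ∧ y - k • e ∉ Y} ⊆ shortSet Y e (2 * k) := by
  rintro y ⟨hy, h1, h2⟩
  refine ⟨hy, ?_⟩
  rintro ⟨t, h3, h4⟩
  have hy0 : y + (0:ℝ) • e ∈ Y := by simpa using hy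
  rw [sub_eq_add_neg, ← neg_smul] at h2
  by_cases h5 : t ≤ -k
  · by_cases h6 : t + 2 * k ≤ -k
    · exact h2 (line_mem hc h4 hy0 h6 (by linarith))
    · push Not at h6
      exact h2 (line_mem hc h3 h4 h5 (by linarith))
  · push Not at h5
    by_cases h6 : t ≤ k
    · exact h1 (line_mem hc h3 h4 h6 (by linarith))
    · push Not at h6
      exact h1 (line_mem hc hy0 h3 hk.le h6.le)

omit [FiniteDimensional ℝ E] [MeasurableSpace E] [BorelSpace E] in
lemma extSet_subset_pm {Y : Set E} (hc : Convex ℝ Y) (e : E) {k : ℝ} (hk : 0 < k) :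
    extSet Y e (2 * k) k ⊆ {y | y ∉ Y ∧ (y + k • e ∈ Y ∨ y - k • e ∈ Y)} := by
  rintro y ⟨hy, ⟨t, h3, h4⟩, s, hs, h5⟩
  refine ⟨hy, ?_⟩
  rw [abs_le] at hs
  have hy0 : y + (0:ℝ) • e ∉ Y := by simpa using hy
  rw [sub_eq_add_neg, ← neg_smul]
  have hs0 : s ≠ 0 := by rintro rfl; exact hy0 h5
  rcases lt_or_gt_of_ne hs0 with h6 | h6
  · -- the chord is to the left of `y`
    right
    have h7 : t + 2 * k < 0 := by
      by_contra h; push Not at h
      exact hy0 (line_mem hc h5 h4 h6.le h)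
    exact line_mem hc h3 h5 (by linarith) hs.1
  · left
    have h7 : 0 < t := by
      by_contra h; push Not at h
      exact hy0 (line_mem hc h3 h5 h h6.le)
    exact line_mem hc h5 h4 hs.2 (by linarith)

/-- **Rank one inequality, two-sided form** (Step 1 of #10467 with constant `28.4`). -/
theorem rank_one_pm {Y : Set E} (hcl : IsClosed Y) (hc : Convex ℝ Y)
    (hY : 1 / 2 ≤ stdGaussian E Y) {s : E} (hs : ‖s‖ ≤ 7 / 100) :
    (stdGaussian E).real {y | y ∈ Y ∧ y + s ∉ Y ∧ y - s ∉ Y} ≤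
      142 / 5 * ‖s‖ * (stdGaussian E).real {y | y ∉ Y ∧ (y + s ∈ Y ∨ y - s ∈ Y)} := by
  rcases eq_or_ne s 0 with rfl | hs0
  · have : {y | y ∈ Y ∧ y + 0 ∉ Y ∧ y - 0 ∉ Y} = (∅ : Set E) := by
      rw [eq_empty_iff_forall_notMem]
      rintro y ⟨h1, h2, -⟩
      rw [add_zero] at h2
      exact h2 h1
    rw [this]; simp
  have hk : 0 < ‖s‖ := norm_pos_iff.2 hs0
  obtain ⟨e, he, hse⟩ : ∃ e : E, ‖e‖ = 1 ∧ s = ‖s‖ • e := by
    refine ⟨‖s‖⁻¹ • s, by rw [norm_smul, norm_inv, norm_norm, inv_mul_cancel₀ hk.ne'], ?_⟩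
    rw [smul_smul, mul_inv_cancel₀ hk.ne', one_smul]
  have h1 := rank_one hcl hc hY he (l := 2 * ‖s‖) (k := ‖s‖) (by linarith) (by linarith) hk hs
  have h2 : (stdGaussian E).real {y | y ∈ Y ∧ y + s ∉ Y ∧ y - s ∉ Y} ≤
      (stdGaussian E).real (shortSet Y e (2 * ‖s‖)) := by
    have := pm_subset_shortSet hc e hk
    rw [← hse] at this
    exact measureReal_mono this
  have h3 : (stdGaussian E).real (extSet Y e (2 * ‖s‖) ‖s‖) ≤
      (stdGaussian E).real {y | y ∉ Y ∧ (y + s ∈ Y ∨ y - s ∈ Y)} := by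
    have := extSet_subset_pm hc e hk
    rw [← hse] at this
    exact measureReal_mono this
  have h4 : 71 / 10 * ((2 * ‖s‖) ^ 2 / ‖s‖) = 142 / 5 * ‖s‖ := by field_simp; ring
  rw [h4] at h1
  exact h2.trans (h1.trans (mul_le_mul_of_nonneg_left h3 (by positivity)))

end euclid

end Crest.Agent.R239
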