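import Crest.Agent.R239.Cross201b
import Crest.Agent.R239.Rank1

/-!
# R239, crossing form, part c (helper201): the one step inequality

* `cross_end` : `P(s ≤ b < r s + τ g) ≤ (8 m + 2) γ₁(b, b + h]` for every real `b`, `τ ≤ m h`.
* `line_cross` : crossing of a chord of the line.
* `one_step` : `P(z ∈ (K * v) ∩ W, z' ∉ K) ≤ C (γ((K * v) ∩ W) - γ K + γ Wᶜ)`.
-/

set_option autoImplicit false
set_option linter.unusedSectionVars false
open MeasureTheory ProbabilityTheory Set Filter Topology Metric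
open scoped RealInnerProductSpace ENNReal NNReal InnerProduct Pointwise

namespace Crest.Agent.R239

namespace Cross

open Crest.Agent.Lib.Ehrhard Rank1

/-! ### one dimension -/

lemma crossing_top {b r τ : ℝ} (hb : 0 ≤ b) (hr : 0 ≤ r) (hτ : 0 < τ) (h1 : r ^ 2 + τ ^ 2 = 1) :
    (g1.prod g1) {q : ℝ × ℝ | q.1 ≤ b ∧ b ≤ r * q.1 + τ * q.2} ≤
      ENNReal.ofReal (τ * Real.exp (-b ^ 2 / 2)) := by
  have hm : MeasurableSet {q : ℝ × ℝ | q.1 ≤ b ∧ b ≤ r * q.1 + τ * q.2} := by
    have m1 : MeasurableSet {q : ℝ × ℝ | q.1 ≤ b} :=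
      (isClosed_le (by fun_prop) continuous_const).measurableSet
    have m2 : MeasurableSet {q : ℝ × ℝ | b ≤ r * q.1 + τ * q.2} :=
      (isClosed_le continuous_const (by fun_prop)).measurableSet
    exact m1.inter m2
  rw [Measure.prod_apply hm]
  have h2 : ∀ s : ℝ, g1 (Prod.mk s ⁻¹' {q : ℝ × ℝ | q.1 ≤ b ∧ b ≤ r * q.1 + τ * q.2}) ≤
      ENNReal.ofReal (Real.exp (-((b - r * s) / τ) ^ 2 / 2)) := by
    intro s
    by_cases hs : s ≤ b
    · have h3 : 0 ≤ (b - r * s) / τ := by
        apply div_nonneg _ hτ.le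
        have hr1 : r ≤ 1 := by nlinarith [sq_nonneg τ]
        rcases le_total 0 s with h0 | h0
        · have : r * s ≤ 1 * b := by gcongr
          linarith
        · have : r * s ≤ 0 := mul_nonpos_of_nonneg_of_nonpos hr h0
          linarith
      refine (measure_mono ?_).trans (g1_Ici_le h3)
      rintro g ⟨-, hg⟩
      simp only at hg
      rw [mem_Ici, div_le_iff₀ hτ]
      linarith
    · have : Prod.mk s ⁻¹' {q : ℝ × ℝ | q.1 ≤ b ∧ b ≤ r * q.1 + τ * q.2} = ∅ := by
        ext g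
        simp [hs]
      rw [this, measure_empty]
      exact bot_le
  refine (lintegral_mono h2).trans ?_
  have hg : g1 = volume.withDensity (gaussianPDF 0 1) := gaussianReal_of_var_ne_zero 0 one_ne_zero
  have hmf : Measurable fun s : ℝ => ENNReal.ofReal (Real.exp (-((b - r * s) / τ) ^ 2 / 2)) := by
    fun_prop
  rw [hg, lintegral_withDensity_eq_lintegral_mul _ (measurable_gaussianPDF 0 1) hmf]
  set v : ℝ≥0 := ⟨τ ^ 2, sq_nonneg τ⟩ with hv
  have hv0 : v ≠ 0 := by
    intro h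
    have : (v : ℝ) = 0 := by rw [h]; rfl
    have h2 : (v : ℝ) = τ ^ 2 := rfl
    rw [h2] at this
    have : 0 < τ ^ 2 := by positivity
    linarith
  have h3 : ∀ s : ℝ, (gaussianPDF 0 1 * fun s : ℝ => ENNReal.ofReal
      (Real.exp (-((b - r * s) / τ) ^ 2 / 2))) s =
      ENNReal.ofReal (τ * Real.exp (-b ^ 2 / 2)) * gaussianPDF (r * b) v s := by
    intro s
    simp only [Pi.mul_apply, gaussianPDF]
    rw [← ENNReal.ofReal_mul (gaussianPDFReal_nonneg _ _ _), ← ENNReal.ofReal_mul (by positivity)]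
    congr 1
    rw [pdf_eq]
    unfold gaussianPDFReal
    have e1 : (v : ℝ) = τ ^ 2 := rfl
    rw [e1]
    have e2 : Real.sqrt (2 * Real.pi * τ ^ 2) = Real.sqrt (2 * Real.pi) * τ := by
      rw [Real.sqrt_mul (by positivity), Real.sqrt_sq hτ.le]
    rw [e2]
    have e3 : -s ^ 2 / 2 + -((b - r * s) / τ) ^ 2 / 2 = -b ^ 2 / 2 + -(s - r * b) ^ 2 / (2 * τ ^ 2) := by
      have hτ2 : τ ^ 2 = 1 - r ^ 2 := by linarith
      field_simp
      rw [hτ2]
      ring
    have e4 : c0 * Real.exp (-s ^ 2 / 2) * Real.exp (-((b - r * s) / τ) ^ 2 / 2) =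
        c0 * (Real.exp (-b ^ 2 / 2) * Real.exp (-(s - r * b) ^ 2 / (2 * τ ^ 2))) := by
      rw [mul_assoc, ← Real.exp_add, e3, Real.exp_add]
    rw [e4]
    unfold c0
    field_simp
  simp_rw [h3]
  rw [lintegral_const_mul' _ _ ENNReal.ofReal_ne_top, lintegral_gaussianPDF_eq_one _ hv0, mul_one]

lemma adjoint_smul_id (c t : ℝ) : (c • ContinuousLinearMap.id ℝ ℝ).adjoint t = c * t := by
  apply ext_inner_right ℝ
  intro s
  rw [ContinuousLinearMap.adjoint_inner_left]
  simp
  ring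

lemma map_rot {r τ : ℝ} (h1 : r ^ 2 + τ ^ 2 = 1) :
    (g1.prod g1).map (fun q : ℝ × ℝ => r * q.1 + τ * q.2) = g1 := by
  have h := map_add_prod (A := r • ContinuousLinearMap.id ℝ ℝ) (B := τ • ContinuousLinearMap.id ℝ ℝ)
    (C := ContinuousLinearMap.id ℝ ℝ) (by
      intro t
      rw [adjoint_smul_id, adjoint_smul_id, adjoint_id_apply]
      simp only [Real.norm_eq_abs, sq_abs]
      rw [mul_pow, mul_pow, ← add_mul, h1, one_mul])
  rw [gau_id, stdGaussian_real] at h
  exact h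

lemma map_neg_prod : (g1.prod g1).map (fun q : ℝ × ℝ => -q) = g1.prod g1 := by
  have h1 : MeasurePreserving (fun x : ℝ => -x) g1 g1 :=
    ⟨measurable_neg, by
      have := gaussianReal_map_neg (μ := 0) (v := 1)
      rw [neg_zero] at this
      exact this⟩
  exact (h1.prod h1).map_eq

lemma crossing_any {b r τ : ℝ} (hr : 0 ≤ r) (hτ : 0 < τ) (h1 : r ^ 2 + τ ^ 2 = 1) :
    (g1.prod g1).real {q : ℝ × ℝ | q.1 ≤ b ∧ b < r * q.1 + τ * q.2} ≤
      τ * Real.exp (-b ^ 2 / 2) := by
  have hpos : 0 ≤ τ * Real.exp (-b ^ 2 / 2) := by positivity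
  rcases le_total 0 b with hb | hb
  · refine ENNReal.toReal_le_of_le_ofReal hpos ((measure_mono ?_).trans (crossing_top hb hr hτ h1))
    rintro q ⟨h, h'⟩
    exact ⟨h, h'.le⟩
  · have mA : MeasurableSet {q : ℝ × ℝ | q.1 ≤ b} :=
      (isClosed_le (by fun_prop) continuous_const).measurableSet
    have mB : MeasurableSet {q : ℝ × ℝ | r * q.1 + τ * q.2 ≤ b} :=
      (isClosed_le (by fun_prop) continuous_const).measurableSet
    have e1 : (g1.prod g1).real {q : ℝ × ℝ | q.1 ≤ b} = g1.real (Iic b) := by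
      have : {q : ℝ × ℝ | q.1 ≤ b} = Iic b ×ˢ univ := by ext q; simp
      rw [this, measureReal_prod_prod]; simp
    have e2 : (g1.prod g1).real {q : ℝ × ℝ | r * q.1 + τ * q.2 ≤ b} = g1.real (Iic b) := by
      have h := map_rot h1
      conv_rhs => rw [← h]
      rw [map_measureReal_apply (by fun_prop) measurableSet_Iic]
      rfl
    have s1 := measureReal_inter_add_sdiff (μ := g1.prod g1) (s := {q : ℝ × ℝ | q.1 ≤ b}) mB
    have s2 := measureReal_inter_add_sdiff (μ := g1.prod g1)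
      (s := {q : ℝ × ℝ | r * q.1 + τ * q.2 ≤ b}) mA
    rw [inter_comm] at s2
    have e3 : {q : ℝ × ℝ | q.1 ≤ b} \ {q : ℝ × ℝ | r * q.1 + τ * q.2 ≤ b} =
        {q : ℝ × ℝ | q.1 ≤ b ∧ b < r * q.1 + τ * q.2} := by
      ext q; simp
    have e4 : {q : ℝ × ℝ | r * q.1 + τ * q.2 ≤ b} \ {q : ℝ × ℝ | q.1 ≤ b} =
        {q : ℝ × ℝ | r * q.1 + τ * q.2 ≤ b ∧ b < q.1} := by
      ext q; simp
    rw [e3] at s1
    rw [e4] at s2
    have e5 : (g1.prod g1).real {q : ℝ × ℝ | q.1 ≤ b ∧ b < r * q.1 + τ * q.2} =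
        (g1.prod g1).real {q : ℝ × ℝ | r * q.1 + τ * q.2 ≤ b ∧ b < q.1} := by linarith
    rw [e5]
    have mC : MeasurableSet {q : ℝ × ℝ | r * q.1 + τ * q.2 ≤ b ∧ b < q.1} := by
      have m1 : MeasurableSet {q : ℝ × ℝ | b < q.1} :=
        (isOpen_lt continuous_const (by fun_prop)).measurableSet
      exact mB.inter m1
    have e6 : (g1.prod g1) {q : ℝ × ℝ | r * q.1 + τ * q.2 ≤ b ∧ b < q.1} ≤
        ENNReal.ofReal (τ * Real.exp (-b ^ 2 / 2)) := by
      conv_lhs => rw [← map_neg_prod]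
      rw [Measure.map_apply (by fun_prop) mC]
      have h2 := crossing_top (b := -b) (by linarith) hr hτ h1
      rw [neg_sq b] at h2
      refine (measure_mono ?_).trans h2
      rintro q ⟨h3, h4⟩
      simp only [Prod.fst_neg, Prod.snd_neg] at h3 h4
      refine ⟨by linarith, by linarith⟩
    exact ENNReal.toReal_le_of_le_ofReal hpos e6

lemma c0_ge : 39 / 100 ≤ c0 := by
  unfold c0
  have h1 : Real.sqrt (2 * Real.pi) ≤ 100 / 39 := by
    rw [Real.sqrt_le_left (by norm_num)]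
    have := Real.pi_lt_d2
    nlinarith
  have h2 : 0 < Real.sqrt (2 * Real.pi) := by positivity
  rw [le_inv_comm₀ (by norm_num) h2]
  linarith

lemma g1_Ioc (b h : ℝ) (hh : 0 ≤ h) : g1.real (Ioc b (b + h)) = Phi (b + h) - Phi b := by
  have h1 : Ioc b (b + h) = Iic (b + h) \ Iic b := by
    ext x; simp [and_comm]
  rw [h1, measureReal_sdiff (Iic_subset_Iic.2 (by linarith)) measurableSet_Iic,
    Phi_eq_gaussian, Phi_eq_gaussian]

/-- crossing of one end point versus the gain there -/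
lemma cross_end {b r τ h m : ℝ} (hr : 0 ≤ r) (hτ : 0 < τ) (h1 : r ^ 2 + τ ^ 2 = 1)
    (hh : 0 < h) (hh1 : h ≤ 1 / 100) (hm : τ ≤ m * h) :
    (g1.prod g1).real {q : ℝ × ℝ | q.1 ≤ b ∧ b < r * q.1 + τ * q.2} ≤
      (8 * m + 2) * g1.real (Ioc b (b + h)) := by
  have hm0 : 0 < m := by
    by_contra hcon
    push Not at hcon
    have : m * h ≤ 0 := mul_nonpos_of_nonpos_of_nonneg hcon hh.le
    linarith
  have hIoc := g1_Ioc b h hh.le
  have hIocn : 0 ≤ g1.real (Ioc b (b + h)) := measureReal_nonneg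
  have he1 := Real.exp_neg_one_gt_d9
  have he1' := Real.exp_neg_one_lt_d9
  by_cases hbh : |b| * h ≤ 1
  · -- near
    have hq : ∀ s ∈ Ioc b (b + h), s ^ 2 ≤ (|b| + h) ^ 2 := by
      intro s hs
      apply sq_le_sq.2
      rw [abs_of_nonneg (by positivity : 0 ≤ |b| + h), abs_le]
      have := abs_le.1 (le_refl |b|)
      constructor
      · linarith [hs.1]
      · linarith [hs.2]
    have h2 := le_g1_apply measurableSet_Ioc hq
    rw [Real.volume_Ioc, ← ENNReal.ofReal_mul (by have := c0_pos; positivity)] at h2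
    have h3 : c0 * Real.exp (-(|b| + h) ^ 2 / 2) * h ≤ g1.real (Ioc b (b + h)) := by
      have := ENNReal.toReal_mono (measure_ne_top _ _) h2
      rw [ENNReal.toReal_ofReal (by
        have := c0_pos
        have : 0 ≤ b + h - b := by linarith
        positivity)] at this
      rwa [add_sub_cancel_left] at this
    have h4 := crossing_any (b := b) hr hτ h1
    have h5 : Real.exp (-b ^ 2 / 2) ≤ 8 * c0 * Real.exp (-(|b| + h) ^ 2 / 2) := by
      have e1 : -(|b| + h) ^ 2 / 2 = -b ^ 2 / 2 + (-(|b| * h) + -(h ^ 2 / 2)) := by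
        rw [← sq_abs b]; ring
      rw [e1, Real.exp_add, Real.exp_add]
      have e2 : Real.exp (-1) ≤ Real.exp (-(|b| * h)) := Real.exp_le_exp.2 (by linarith)
      have e3 : 1 - h ^ 2 / 2 ≤ Real.exp (-(h ^ 2 / 2)) := by
        have := Real.add_one_le_exp (-(h ^ 2 / 2)); linarith
      have e4 : 99 / 100 ≤ Real.exp (-(h ^ 2 / 2)) := by nlinarith
      have e5 := c0_ge
      have e6 : (36 / 100 : ℝ) * (99 / 100) ≤ Real.exp (-(|b| * h)) * Real.exp (-(h ^ 2 / 2)) := by
        apply mul_le_mul (by linarith) e4 (by norm_num) (Real.exp_pos _).le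
      have e7 : 1 ≤ 8 * c0 * (Real.exp (-(|b| * h)) * Real.exp (-(h ^ 2 / 2))) := by
        have : (1:ℝ) ≤ 8 * (39 / 100) * (36 / 100 * (99 / 100)) := by norm_num
        refine this.trans ?_
        apply mul_le_mul (by linarith) e6 (by norm_num) (by linarith)
      calc Real.exp (-b ^ 2 / 2) = Real.exp (-b ^ 2 / 2) * 1 := by ring
        _ ≤ Real.exp (-b ^ 2 / 2) * (8 * c0 * (Real.exp (-(|b| * h)) * Real.exp (-(h ^ 2 / 2)))) :=
            mul_le_mul_of_nonneg_left e7 (Real.exp_pos _).le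
        _ = _ := by ring
    calc _ ≤ τ * Real.exp (-b ^ 2 / 2) := h4
      _ ≤ (m * h) * (8 * c0 * Real.exp (-(|b| + h) ^ 2 / 2)) := by
          apply mul_le_mul hm h5 (Real.exp_pos _).le (by positivity)
      _ = 8 * m * (c0 * Real.exp (-(|b| + h) ^ 2 / 2) * h) := by ring
      _ ≤ 8 * m * g1.real (Ioc b (b + h)) := mul_le_mul_of_nonneg_left h3 (by positivity)
      _ ≤ _ := by nlinarith
  · push Not at hbh
    have hfar : (g1.prod g1).real {q : ℝ × ℝ | q.1 ≤ b ∧ b < r * q.1 + τ * q.2} ≤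
        2 * g1.real (Ioc b (b + h)) := by
      rcases le_total 0 b with hb | hb
      · rw [abs_of_nonneg hb] at hbh
        have e2 : (g1.prod g1).real {q : ℝ × ℝ | b < r * q.1 + τ * q.2} = 1 - Phi b := by
          have h := map_rot h1
          have h3 : (g1.prod g1).real {q : ℝ × ℝ | b < r * q.1 + τ * q.2} = g1.real (Ioi b) := by
            conv_rhs => rw [← h]
            rw [map_measureReal_apply (by fun_prop) measurableSet_Ioi]
            rfl
          rw [h3, Phi_eq_gaussian, ← compl_Iic, measureReal_compl measurableSet_Iic]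
          simp
        have e3 : (g1.prod g1).real {q : ℝ × ℝ | q.1 ≤ b ∧ b < r * q.1 + τ * q.2} ≤ 1 - Phi b := by
          rw [← e2]
          exact measureReal_mono fun q hq => hq.2
        have e4 := Phi_neg_add_le (s := b) (h := h) hh.le
        have e5 : Real.exp (-(b * h)) ≤ Real.exp (-1) := Real.exp_le_exp.2 (by linarith)
        have e6 := Phi_neg b
        have e7 := Phi_neg (b + h)
        have e8 : 0 ≤ Phi (-b) := Phi_nonneg _
        rw [hIoc]
        nlinarith [mul_le_mul_of_nonneg_right e5 e8]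
      · rw [abs_of_nonpos hb] at hbh
        have e1 : (g1.prod g1).real {q : ℝ × ℝ | q.1 ≤ b} = Phi b := by
          have : {q : ℝ × ℝ | q.1 ≤ b} = Iic b ×ˢ univ := by ext q; simp
          rw [this, measureReal_prod_prod, Phi_eq_gaussian]; simp
        have e3 : (g1.prod g1).real {q : ℝ × ℝ | q.1 ≤ b ∧ b < r * q.1 + τ * q.2} ≤ Phi b := by
          rw [← e1]
          exact measureReal_mono fun q hq => hq.1
        have e4 := Phi_neg_add_le (s := -b - h) (h := h) hh.le
        have e5 : -(-b - h + h) = b := by ring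
        have e6 : -(-b - h) = b + h := by ring
        rw [e5, e6] at e4
        have e7 : Real.exp (-((-b - h) * h)) ≤ 1 / 2 := by
          have : -((-b - h) * h) = -((-b * h)) + h ^ 2 := by ring
          rw [this, Real.exp_add]
          have a1 : Real.exp (-(-b * h)) ≤ Real.exp (-1) := Real.exp_le_exp.2 (by linarith)
          have a2 : Real.exp (h ^ 2) ≤ 4 / 3 := by
            have : Real.exp (h ^ 2) ≤ 1 / (1 - h ^ 2) := by
              have h3 := Real.add_one_le_exp (-(h ^ 2))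
              have h4 : 0 < 1 - h ^ 2 := by nlinarith
              rw [Real.exp_neg] at h3
              rw [le_div_iff₀ h4]
              have h5 : 0 < Real.exp (h ^ 2) := Real.exp_pos _
              have : Real.exp (h ^ 2) * (1 - h ^ 2) ≤
                  Real.exp (h ^ 2) * (Real.exp (h ^ 2))⁻¹ := by
                apply mul_le_mul_of_nonneg_left (by linarith) h5.le
              rwa [mul_inv_cancel₀ h5.ne'] at this
            refine this.trans ?_
            rw [div_le_iff₀ (by nlinarith)]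
            nlinarith
          calc _ ≤ Real.exp (-1) * (4 / 3) :=
                mul_le_mul a1 a2 (Real.exp_pos _).le (Real.exp_pos _).le
            _ ≤ 1 / 2 := by linarith
        have e8 : 0 ≤ Phi (b + h) := Phi_nonneg _
        rw [hIoc]
        nlinarith [mul_le_mul_of_nonneg_right e7 e8]
    have : 0 ≤ 8 * m * g1.real (Ioc b (b + h)) := by positivity
    linarith

/-- the points outside `I` at distance at most `h` from `I` -/
def ext1 (I : Set ℝ) (h : ℝ) : Set ℝ := {s | s ∉ I ∧ ∃ u, |u| ≤ h ∧ s + u ∈ I}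

/-- the mirror image of `cross_end` -/
lemma cross_end' {a r τ h m : ℝ} (hr : 0 ≤ r) (hτ : 0 < τ) (h1 : r ^ 2 + τ ^ 2 = 1)
    (hh : 0 < h) (hh1 : h ≤ 1 / 100) (hm : τ ≤ m * h) :
    (g1.prod g1).real {q : ℝ × ℝ | a ≤ q.1 ∧ r * q.1 + τ * q.2 < a} ≤
      (8 * m + 2) * g1.real (Ico (a - h) a) := by
  have h2 := cross_end (b := -a) hr hτ h1 hh hh1 hm
  have m1 : MeasurableSet {q : ℝ × ℝ | q.1 ≤ -a} :=
    (isClosed_le (by fun_prop) continuous_const).measurableSet
  have m2 : MeasurableSet {q : ℝ × ℝ | -a < r * q.1 + τ * q.2} :=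
    (isOpen_lt continuous_const (by fun_prop)).measurableSet
  have m3 : MeasurableSet {q : ℝ × ℝ | q.1 ≤ -a ∧ -a < r * q.1 + τ * q.2} := m1.inter m2
  have e1 : (g1.prod g1).real {q : ℝ × ℝ | a ≤ q.1 ∧ r * q.1 + τ * q.2 < a} =
      (g1.prod g1).real {q : ℝ × ℝ | q.1 ≤ -a ∧ -a < r * q.1 + τ * q.2} := by
    conv_rhs => rw [← map_neg_prod]
    rw [map_measureReal_apply (by fun_prop) m3]
    congr 1
    ext q
    simp only [mem_preimage, mem_ofPred_eq, Prod.fst_neg, Prod.snd_neg]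
    constructor
    · rintro ⟨h3, h4⟩; exact ⟨by linarith, by linarith⟩
    · rintro ⟨h3, h4⟩; exact ⟨by linarith, by linarith⟩
  have e2 : g1.real (Ico (a - h) a) = g1.real (Ioc (-a) (-a + h)) := by
    have h3 : g1.map (fun x : ℝ => -x) = g1 := by
      have := gaussianReal_map_neg (μ := 0) (v := 1)
      rwa [neg_zero] at this
    conv_rhs => rw [← h3]
    rw [map_measureReal_apply measurable_neg measurableSet_Ioc]
    congr 1
    ext x
    simp only [mem_preimage, mem_Ico, mem_Ioc]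
    constructor
    · rintro ⟨h3, h4⟩; exact ⟨by linarith, by linarith⟩
    · rintro ⟨h3, h4⟩; exact ⟨by linarith, by linarith⟩
  rw [e1, e2]
  exact h2

/-- crossing of a closed interval -/
lemma line_cross {I : Set ℝ} (hI : IsClosed I) (cI : Convex ℝ I) {r τ h m : ℝ} (hr : 0 ≤ r)
    (hτ : 0 < τ) (h1 : r ^ 2 + τ ^ 2 = 1) (hh : 0 < h) (hh1 : h ≤ 1 / 100) (hm : τ ≤ m * h) :
    (g1.prod g1).real {q : ℝ × ℝ | (q.1 ∈ I ∨ q.1 ∈ ext1 I h) ∧ r * q.1 + τ * q.2 ∉ I} ≤
      (16 * m + 5) * g1.real (ext1 I h) := by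
  have hm0 : 0 < m := by
    by_contra hcon
    push Not at hcon
    have : m * h ≤ 0 := mul_nonpos_of_nonpos_of_nonneg hcon hh.le
    linarith
  have hoc : I.OrdConnected := cI.ordConnected
  have hen : 0 ≤ g1.real (ext1 I h) := measureReal_nonneg
  have hC : 0 ≤ 8 * m + 2 := by linarith
  have hsub : {q : ℝ × ℝ | (q.1 ∈ I ∨ q.1 ∈ ext1 I h) ∧ r * q.1 + τ * q.2 ∉ I} ⊆
      (ext1 I h ×ˢ univ) ∪
      ({q : ℝ × ℝ | q.1 ∈ I ∧ r * q.1 + τ * q.2 ∉ I ∧ q.1 < r * q.1 + τ * q.2} ∪
       {q : ℝ × ℝ | q.1 ∈ I ∧ r * q.1 + τ * q.2 ∉ I ∧ r * q.1 + τ * q.2 < q.1}) := by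
    rintro q ⟨h2 | h2, h3⟩
    · right
      rcases lt_trichotomy q.1 (r * q.1 + τ * q.2) with h4 | h4 | h4
      · left; exact ⟨h2, h3, h4⟩
      · exact absurd (h4 ▸ h2) h3
      · right; exact ⟨h2, h3, h4⟩
    · left; exact ⟨h2, mem_univ _⟩
  have b0 : (g1.prod g1).real (ext1 I h ×ˢ univ) = g1.real (ext1 I h) := by
    rw [measureReal_prod_prod]; simp
  have b1 : (g1.prod g1).real {q : ℝ × ℝ | q.1 ∈ I ∧ r * q.1 + τ * q.2 ∉ I ∧
      q.1 < r * q.1 + τ * q.2} ≤ (8 * m + 2) * g1.real (ext1 I h) := by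
    rcases eq_empty_or_nonempty {q : ℝ × ℝ | q.1 ∈ I ∧ r * q.1 + τ * q.2 ∉ I ∧
      q.1 < r * q.1 + τ * q.2} with he | ⟨q0, h2, h3, h4⟩
    · rw [he, measureReal_empty]; positivity
    · have hbdd : BddAbove I := ⟨r * q0.1 + τ * q0.2, fun x hx => by
        by_contra hcon
        push Not at hcon
        exact h3 (hoc.out h2 hx ⟨h4.le, hcon.le⟩)⟩
      have hne : I.Nonempty := ⟨_, h2⟩
      have hbI : sSup I ∈ I := hI.csSup_mem hne hbdd
      refine (measureReal_mono ?_).trans ((cross_end (b := sSup I) hr hτ h1 hh hh1 hm).trans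
        (mul_le_mul_of_nonneg_left (measureReal_mono ?_) hC))
      · rintro q ⟨h5, h6, h7⟩
        refine ⟨le_csSup hbdd h5, ?_⟩
        by_contra hcon
        push Not at hcon
        exact h6 (hoc.out h5 hbI ⟨h7.le, hcon⟩)
      · intro s hs
        refine ⟨fun hsI => ?_, sSup I - s, ?_, by simpa using hbI⟩
        · exact absurd (le_csSup hbdd hsI) (not_le.2 hs.1)
        · rw [abs_le]; constructor
          · linarith [hs.2]
          · linarith [hs.1]
  have b2 : (g1.prod g1).real {q : ℝ × ℝ | q.1 ∈ I ∧ r * q.1 + τ * q.2 ∉ I ∧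
      r * q.1 + τ * q.2 < q.1} ≤ (8 * m + 2) * g1.real (ext1 I h) := by
    rcases eq_empty_or_nonempty {q : ℝ × ℝ | q.1 ∈ I ∧ r * q.1 + τ * q.2 ∉ I ∧
      r * q.1 + τ * q.2 < q.1} with he | ⟨q0, h2, h3, h4⟩
    · rw [he, measureReal_empty]; positivity
    · have hbdd : BddBelow I := ⟨r * q0.1 + τ * q0.2, fun x hx => by
        by_contra hcon
        push Not at hcon
        exact h3 (hoc.out hx h2 ⟨hcon.le, h4.le⟩)⟩
      have hne : I.Nonempty := ⟨_, h2⟩
      have hbI : sInf I ∈ I := hI.csInf_mem hne hbdd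
      refine (measureReal_mono ?_).trans ((cross_end' (a := sInf I) hr hτ h1 hh hh1 hm).trans
        (mul_le_mul_of_nonneg_left (measureReal_mono ?_) hC))
      · rintro q ⟨h5, h6, h7⟩
        refine ⟨csInf_le hbdd h5, ?_⟩
        by_contra hcon
        push Not at hcon
        exact h6 (hoc.out hbI h5 ⟨hcon, h7.le⟩)
      · intro s hs
        refine ⟨fun hsI => ?_, sInf I - s, ?_, by simpa using hbI⟩
        · exact absurd (csInf_le hbdd hsI) (not_le.2 hs.2)
        · rw [abs_le]; constructor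
          · linarith [hs.2]
          · linarith [hs.1]
  have u1 := measureReal_mono (μ := g1.prod g1) hsub
  have u2 := measureReal_union_le (μ := g1.prod g1) (ext1 I h ×ˢ univ)
    ({q : ℝ × ℝ | q.1 ∈ I ∧ r * q.1 + τ * q.2 ∉ I ∧ q.1 < r * q.1 + τ * q.2} ∪
       {q : ℝ × ℝ | q.1 ∈ I ∧ r * q.1 + τ * q.2 ∉ I ∧ r * q.1 + τ * q.2 < q.1})
  have u3 := measureReal_union_le (μ := g1.prod g1)
    {q : ℝ × ℝ | q.1 ∈ I ∧ r * q.1 + τ * q.2 ∉ I ∧ q.1 < r * q.1 + τ * q.2}
    {q : ℝ × ℝ | q.1 ∈ I ∧ r * q.1 + τ * q.2 ∉ I ∧ r * q.1 + τ * q.2 < q.1}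
  linarith

/-! ### the one step inequality -/

variable {E : Type*} [NormedAddCommGroup E] [InnerProductSpace ℝ E] [FiniteDimensional ℝ E]
  [MeasurableSpace E] [BorelSpace E]

/-- `K * v` versus long chords -/
lemma star_mem_iff_aux {K : Set E} (cK : Convex ℝ K) {e : E} {h : ℝ} (hh : 0 < h) {x : E}
    (hx : x ∈ star K (h • e)) :
    chordGe K e (2 * h) x ∧ ∃ u : ℝ, |u| ≤ h ∧ x + u • e ∈ K := by
  constructor
  · obtain ⟨s, hs, h1, h2⟩ := hx
    refine ⟨(s - 1) * h, ?_, ?_⟩
    · rwa [smul_smul] at h1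
    · rw [smul_smul] at h2
      rwa [show (s - 1) * h + 2 * h = (s + 1) * h by ring]
  · rcases star_subset cK hx with h1 | h1
    · exact ⟨h, by rw [abs_of_pos hh], h1⟩
    · refine ⟨-h, by rw [abs_neg, abs_of_pos hh], ?_⟩
      rwa [neg_smul, ← sub_eq_add_neg]

lemma mem_star_of_chord {K : Set E} (cK : Convex ℝ K) {e : E} {h : ℝ} (hh : 0 < h) {x : E}
    (hc : chordGe K e (2 * h) x) (hn : ∃ u : ℝ, |u| ≤ h ∧ x + u • e ∈ K) :
    x ∈ star K (h • e) := by
  obtain ⟨t, h1, h2⟩ := hc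
  obtain ⟨u, hu, h3⟩ := hn
  rw [abs_le] at hu
  -- parameters in units of `e`
  have key : ∀ c : ℝ, -(2 * h) ≤ c → c ≤ 2 * h → x + (c - h) • e ∈ K → x + (c + h) • e ∈ K →
      x ∈ star K (h • e) := by
    intro c hc1 hc2 g1 g2
    refine ⟨c / h, ?_, ?_, ?_⟩
    · rw [abs_div, abs_of_pos hh, div_le_iff₀ hh, abs_le]
      exact ⟨by linarith, by linarith⟩
    · rw [smul_smul, show (c / h - 1) * h = c - h by field_simp]; exact g1
    · rw [smul_smul, show (c / h + 1) * h = c + h by field_simp]; exact g2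
  have lm : ∀ {a b c : ℝ}, x + a • e ∈ K → x + b • e ∈ K → a ≤ c → c ≤ b → x + c • e ∈ K :=
    fun ha hb hac hcb => line_mem cK ha hb hac hcb
  rcases le_total t h with h4 | h4
  · rcases le_total (-(3 * h)) t with h5 | h5
    · -- the chord `[t, t + 2h]` itself
      refine key (t + h) (by linarith) (by linarith) ?_ ?_
      · rwa [show t + h - h = t by ring]
      · rwa [show t + h + h = t + 2 * h by ring]
    · -- `t ≤ -3h` : use `[-3h, -h]`
      refine key (-(2 * h)) (by linarith) (by linarith) ?_ ?_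
      · exact lm h1 h3 (by linarith) (by linarith)
      · exact lm h1 h3 (by linarith) (by linarith)
  · -- `t ≥ h` : `[h, 3h]`
    refine key (2 * h) (by linarith) (by linarith) ?_ ?_
    · exact lm h3 h2 (by linarith) (by linarith)
    · exact lm h3 h2 (by linarith) (by linarith)

/-- measure of `K * v` : `γ(K * v) = γ K - γ(short) + γ(ext)` (as an inequality) -/
lemma measure_star_ge {K : Set E} (hK : IsClosed K) (cK : Convex ℝ K)
    (hh : 1 / 2 ≤ (stdGaussian E).real K) {e : E} (he : ‖e‖ = 1) {h : ℝ} (h0 : 0 < h)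
    (h1 : h ≤ 1 / 100) :
    (stdGaussian E).real K + 1 / 2 * (stdGaussian E).real (extSet K e (2 * h) h) ≤
      (stdGaussian E).real (star K (h • e)) := by
  have hr := rank_one hK cK (by
    rw [measureReal_def] at hh
    have h2 : (1 / 2 : ℝ≥0∞) = ENNReal.ofReal (1 / 2) := by
      rw [ENNReal.ofReal_div_of_pos (by norm_num)]; simp
    rw [h2]
    exact ENNReal.ofReal_le_of_le_toReal hh) he (l := 2 * h) (k := h) (by linarith)
    (by linarith) h0 (by linarith)
  have hmS := measurableSet_shortSet hK e (2 * h)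
  have hmE := measurableSet_extSet hK e (2 * h) h
  have hS : (stdGaussian E).real (K \ shortSet K e (2 * h)) =
      (stdGaussian E).real K - (stdGaussian E).real (shortSet K e (2 * h)) :=
    measureReal_sdiff (fun y hy => hy.1) hmS
  have hdisj : Disjoint (K \ shortSet K e (2 * h)) (extSet K e (2 * h) h) := by
    rw [Set.disjoint_left]
    rintro y ⟨h2, -⟩ h3
    exact h3.1 h2
  have hU : (stdGaussian E).real ((K \ shortSet K e (2 * h)) ∪ extSet K e (2 * h) h) =
      (stdGaussian E).real (K \ shortSet K e (2 * h)) +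
        (stdGaussian E).real (extSet K e (2 * h) h) := measureReal_union hdisj hmE
  have hsub : (K \ shortSet K e (2 * h)) ∪ extSet K e (2 * h) h ⊆ star K (h • e) := by
    rintro y (⟨h2, h3⟩ | ⟨h2, h3, h4⟩)
    · have h5 : chordGe K e (2 * h) y := by
        by_contra hcon
        exact h3 ⟨h2, hcon⟩
      exact mem_star_of_chord cK h0 h5 ⟨0, by simpa using h0.le, by simpa using h2⟩
    · exact mem_star_of_chord cK h0 h3 h4
  have hle := measureReal_mono (μ := stdGaussian E) hsub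
  have hen : 0 ≤ (stdGaussian E).real (extSet K e (2 * h) h) := measureReal_nonneg
  have h6 : 71 / 10 * ((2 * h) ^ 2 / h) * (stdGaussian E).real (extSet K e (2 * h) h) ≤
      1 / 2 * (stdGaussian E).real (extSet K e (2 * h) h) := by
    apply mul_le_mul_of_nonneg_right _ hen
    have : (2 * h) ^ 2 / h = 4 * h := by field_simp; ring
    rw [this]; linarith
  linarith

end Cross

end Crest.Agent.R239
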