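import Crest.Agent.R239.Cross201c

/-!
# R239, crossing form, part d (helper201): the one step inequality in `E`

* `out_step_le` : `P(z ∈ K * v, z' ∉ K) ≤ (16 m + 5) γ(ext)`.
* `one_step` : `1/(32 m + 10) * P(z ∈ (K * v) ∩ W, z' ∉ K) ≤ γ((K * v) ∩ W) - γ K + γ Wᶜ`.
* `Hp.letter`.
-/

set_option autoImplicit false
set_option linter.unusedSectionVars false
open MeasureTheory ProbabilityTheory Set Filter Topology Metric
open scoped RealInnerProductSpace ENNReal NNReal InnerProduct Pointwise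

namespace Crest.Agent.R239

namespace Cross

open Crest.Agent.Lib.Ehrhard Rank1

variable {E : Type*} [NormedAddCommGroup E] [InnerProductSpace ℝ E] [FiniteDimensional ℝ E]
  [MeasurableSpace E] [BorelSpace E]

/-- the standard deviation factor of the OU step: `σ² = κ (2 - κ |v|²)` -/
noncomputable def sg (κ : ℝ) (v : E) : ℝ := Real.sqrt (κ * (2 - κ * ‖v‖ ^ 2))

lemma sg_sq {κ : ℝ} (hκ : 0 ≤ κ) {v : E} (hv : κ * ‖v‖ ^ 2 ≤ 2) :
    sg κ v ^ 2 = κ * (2 - κ * ‖v‖ ^ 2) := Real.sq_sqrt (mul_nonneg hκ (by linarith))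

lemma step_cpl {κ : ℝ} (hκ : 0 ≤ κ) {v : E} (hv : κ * ‖v‖ ^ 2 ≤ 2) (t : E) :
    ‖(step κ v).adjoint t‖ ^ 2 +
      ‖(ContinuousLinearMap.toSpanSingleton ℝ (sg κ v • v)).adjoint t‖ ^ 2 = ‖t‖ ^ 2 := by
  rw [adjoint_step, adjoint_toSpanSingleton, norm_step_sq, inner_smul_left, Real.norm_eq_abs,
    sq_abs, mul_pow]
  simp only [conj_trivial]
  rw [sg_sq hκ hv]
  ring

lemma outE_eq {G : Type*} [NormedAddCommGroup G] [InnerProductSpace ℝ G] [FiniteDimensional ℝ G]
    [MeasurableSpace G] [BorelSpace G] {A : E →L[ℝ] E} (hA : ‖A‖ ≤ 1) {B : G →L[ℝ] E}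
    (hB : ∀ t, ‖A.adjoint t‖ ^ 2 + ‖B.adjoint t‖ ^ 2 = ‖t‖ ^ 2) (U : Set E) {V : Set E}
    (hV : MeasurableSet V) :
    outE A U V = ∫⁻ x in U, stdGaussian G {w | A x + B w ∈ V} ∂(stdGaussian E) := by
  unfold outE
  exact lintegral_congr fun x => tr_eq hA hB hV x

/-- crossing probability of one step versus the gain of the long chords -/
theorem out_step_le {K : Set E} (hK : IsClosed K) (cK : Convex ℝ K) {κ m : ℝ} (hκ : 0 ≤ κ)
    (hm0 : 0 < m) (hm : 2 * κ ≤ m ^ 2) {e : E} (he : ‖e‖ = 1) {h : ℝ} (h0 : 0 < h)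
    (h1 : h ≤ 1 / 100) (hκh : κ * h ^ 2 ≤ 1) :
    out (step κ (h • e)) (star K (h • e)) Kᶜ ≤
      (16 * m + 5) * (stdGaussian E).real (extSet K e (2 * h) h) := by
  rcases eq_or_lt_of_le hκ with rfl | hκ0
  · -- `κ = 0` : no motion
    have hs : step 0 (h • e) = ContinuousLinearMap.id ℝ E := by
      ext x; rw [step_apply]; simp
    rw [hs]
    have hid : ‖ContinuousLinearMap.id ℝ E‖ ≤ 1 := ContinuousLinearMap.norm_id_le
    rw [out_eq (G := E) hid (B := 0) (fun t => by simp) (isClosed_star hK _).measurableSet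
      hK.measurableSet.compl]
    have hsub : {p : E × E | p.1 ∈ star K (h • e) ∧ (ContinuousLinearMap.id ℝ E) p.1 +
        (0 : E →L[ℝ] E) p.2 ∈ Kᶜ} ⊆ extSet K e (2 * h) h ×ˢ univ := by
      rintro p ⟨h2, h3⟩
      simp at h3
      obtain ⟨h4, h5⟩ := star_mem_iff_aux cK h0 h2
      exact ⟨⟨h3, h4, h5⟩, mem_univ _⟩
    have h2 := measureReal_mono (μ := (stdGaussian E).prod (stdGaussian E)) hsub
    rw [measureReal_prod_prod] at h2
    simp only [probReal_univ, mul_one] at h2
    have h3 : 0 ≤ (stdGaussian E).real (extSet K e (2 * h) h) := measureReal_nonneg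
    nlinarith
  set v : E := h • e with hv
  have hvn : ‖v‖ = h := by rw [hv, norm_smul, he, mul_one, Real.norm_of_nonneg h0.le]
  have hv2 : κ * ‖v‖ ^ 2 ≤ 2 := by rw [hvn]; linarith
  have hA := norm_step_le hκ hv2
  set r : ℝ := 1 - κ * h ^ 2 with hr
  set τ : ℝ := sg κ v * h with hτ
  have hr0 : 0 ≤ r := by linarith
  have hsg : sg κ v ^ 2 = κ * (2 - κ * h ^ 2) := by rw [sg_sq hκ hv2, hvn]
  have hsgp : 0 < sg κ v := by
    unfold sg
    apply Real.sqrt_pos.2
    rw [hvn]
    exact mul_pos hκ0 (by linarith)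
  have hτ0 : 0 < τ := mul_pos hsgp h0
  have hrt : r ^ 2 + τ ^ 2 = 1 := by
    rw [hτ, mul_pow, hsg, hr]; ring
  have hτm : τ ≤ m * h := by
    rw [hτ]
    apply mul_le_mul_of_nonneg_right _ h0.le
    refine (pow_le_pow_iff_left₀ hsgp.le hm0.le two_ne_zero).1 ?_
    rw [hsg]
    have : 0 ≤ κ * (κ * h ^ 2) := by positivity
    nlinarith
  have hmE := measurableSet_extSet hK e (2 * h) h
  have hmS : MeasurableSet (star K v) := (isClosed_star hK v).measurableSet
  have hmKc : MeasurableSet Kᶜ := hK.measurableSet.compl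
  have hC : 0 ≤ 16 * m + 5 := by linarith
  -- the real statement from the `ENNReal` statement
  suffices hmain : outE (step κ v) (star K v) Kᶜ ≤
      ENNReal.ofReal (16 * m + 5) * stdGaussian E (extSet K e (2 * h) h) by
    have := ENNReal.toReal_mono (ENNReal.mul_ne_top ENNReal.ofReal_ne_top (measure_ne_top _ _)) hmain
    rwa [ENNReal.toReal_mul, ENNReal.toReal_ofReal hC] at this
  rw [outE_eq hA (step_cpl hκ hv2) _ hmKc, stdGaussian_real, ← lintegral_indicator hmS]
  have hmeas1 : Measurable fun x : E => g1 {w : ℝ | step κ v x +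
      ContinuousLinearMap.toSpanSingleton ℝ (sg κ v • v) w ∈ Kᶜ} := by
    have hmm : MeasurableSet {p : E × ℝ | step κ v p.1 +
        ContinuousLinearMap.toSpanSingleton ℝ (sg κ v • v) p.2 ∈ Kᶜ} :=
      (by fun_prop : Measurable fun p : E × ℝ => step κ v p.1 +
        ContinuousLinearMap.toSpanSingleton ℝ (sg κ v • v) p.2) hmKc
    exact measurable_measure_prodMk_left hmm
  rw [line_lintegral he (hmeas1.indicator hmS), line_measure he hmE,
    ← lintegral_const_mul' _ _ ENNReal.ofReal_ne_top]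
  refine lintegral_mono fun y => ?_
  -- the line through `proj e y`
  set I : Set ℝ := {s | s • e + proj e y ∈ K} with hI
  have hcont : Continuous fun s : ℝ => s • e + proj e y := by fun_prop
  have clI : IsClosed I := hK.preimage hcont
  have cI : Convex ℝ I := by
    intro s hs t ht a b ha hb hab
    have := cK hs ht ha hb hab
    simp only [hI, mem_ofPred_eq] at *
    convert this using 1
    have h2 : proj e y = a • proj e y + b • proj e y := by rw [← add_smul, hab, one_smul]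
    conv_lhs => rw [h2]
    simp only [smul_add, add_smul, smul_smul, smul_eq_mul]
    abel
  have hinner : ∀ s : ℝ, ⟪v, s • e + proj e y⟫ = h * s := by
    intro s
    rw [hv, inner_smul_left, inner_add_right, inner_smul_right, inner_proj he,
      real_inner_self_eq_norm_sq, he]
    simp
  have hstep : ∀ s w : ℝ, step κ v (s • e + proj e y) +
      ContinuousLinearMap.toSpanSingleton ℝ (sg κ v • v) w = (r * s + τ * w) • e + proj e y := by
    intro s w
    rw [step_apply, hinner, ContinuousLinearMap.toSpanSingleton_apply, hr, hτ, hv]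
    module
  have hLHS : ∫⁻ s, (star K v).indicator (fun x : E => g1 {w : ℝ | step κ v x +
      ContinuousLinearMap.toSpanSingleton ℝ (sg κ v • v) w ∈ Kᶜ}) (s • e + proj e y) ∂g1 =
      (g1.prod g1) {q : ℝ × ℝ | q.1 • e + proj e y ∈ star K v ∧ r * q.1 + τ * q.2 ∉ I} := by
    have hms : MeasurableSet {q : ℝ × ℝ | q.1 • e + proj e y ∈ star K v ∧
        r * q.1 + τ * q.2 ∉ I} := by
      have m1 : MeasurableSet {q : ℝ × ℝ | q.1 • e + proj e y ∈ star K v} :=
        (by fun_prop : Measurable fun q : ℝ × ℝ => q.1 • e + proj e y) hmS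
      have m2 : MeasurableSet {q : ℝ × ℝ | r * q.1 + τ * q.2 ∈ Iᶜ} :=
        (by fun_prop : Measurable fun q : ℝ × ℝ => r * q.1 + τ * q.2) clI.measurableSet.compl
      exact m1.inter m2
    rw [Measure.prod_apply hms]
    refine lintegral_congr fun s => ?_
    by_cases hs : s • e + proj e y ∈ star K v
    · rw [indicator_of_mem hs]
      congr 1
      ext w
      simp only [mem_ofPred_eq, mem_preimage, hs, true_and, hstep]
      rfl
    · rw [indicator_of_notMem hs]
      have : Prod.mk s ⁻¹' {q : ℝ × ℝ | q.1 • e + proj e y ∈ star K v ∧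
        r * q.1 + τ * q.2 ∉ I} = ∅ := by
        ext w; simp [hs]
      rw [this, measure_empty]
  rw [hLHS]
  by_cases hex : ∃ s : ℝ, s • e + proj e y ∈ star K v
  · obtain ⟨s0, hs0⟩ := hex
    have hch : ∀ s : ℝ, chordGe K e (2 * h) (s • e + proj e y) := by
      intro s
      have h2 := (star_mem_iff_aux cK h0 hs0).1
      rw [← chordGe_add K e (2 * h) _ (s - s0)] at h2
      have h3 : s0 • e + proj e y + (s - s0) • e = s • e + proj e y := by module
      rwa [h3] at h2
    have hshift : ∀ s u : ℝ, s • e + proj e y + u • e = (s + u) • e + proj e y := by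
      intro s u; module
    have hext : {s : ℝ | s • e + proj e y ∈ extSet K e (2 * h) h} = ext1 I h := by
      ext s
      simp only [extSet, ext1, mem_ofPred_eq, hI, hch s, true_and, hshift]
    rw [hext]
    have hsub : {q : ℝ × ℝ | q.1 • e + proj e y ∈ star K v ∧ r * q.1 + τ * q.2 ∉ I} ⊆
        {q : ℝ × ℝ | (q.1 ∈ I ∨ q.1 ∈ ext1 I h) ∧ r * q.1 + τ * q.2 ∉ I} := by
      rintro q ⟨h2, h3⟩
      refine ⟨?_, h3⟩
      by_cases h4 : q.1 ∈ I
      · exact Or.inl h4
      · right
        obtain ⟨u, hu, h5⟩ := (star_mem_iff_aux cK h0 h2).2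
        rw [hshift] at h5
        exact ⟨h4, u, hu, h5⟩
    have h2 := (measureReal_mono (μ := g1.prod g1) hsub).trans
      (line_cross clI cI hr0 hτ0 hrt h0 h1 hτm)
    rw [← ENNReal.ofReal_toReal (measure_ne_top (g1.prod g1) _),
      ← ENNReal.ofReal_toReal (measure_ne_top g1 (ext1 I h)), ← ENNReal.ofReal_mul hC]
    exact ENNReal.ofReal_le_ofReal h2
  · have : {q : ℝ × ℝ | q.1 • e + proj e y ∈ star K v ∧ r * q.1 + τ * q.2 ∉ I} = ∅ := by
      ext q
      simp only [mem_ofPred_eq, mem_empty_iff_false, iff_false, not_and]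
      intro h2
      exact absurd ⟨q.1, h2⟩ hex
    rw [this, measure_empty]
    exact bot_le

/-- **One step inequality in crossing form.** -/
theorem one_step {K W : Set E} (hK : IsClosed K) (cK : Convex ℝ K)
    (hh : 1 / 2 ≤ (stdGaussian E).real K) (hW : MeasurableSet W) {κ m : ℝ} (hκ : 0 ≤ κ)
    (hm0 : 0 < m) (hm : 2 * κ ≤ m ^ 2) {v : E} (hv : ‖v‖ ≤ 1 / 100) (hκv : κ * ‖v‖ ^ 2 ≤ 1) :
    1 / (32 * m + 10) * out (step κ v) (star K v ∩ W) Kᶜ ≤
      (stdGaussian E).real (star K v ∩ W) - (stdGaussian E).real K + (stdGaussian E).real Wᶜ := by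
  have hC : 0 < 32 * m + 10 := by linarith
  have hcut : (stdGaussian E).real (star K v) ≤
      (stdGaussian E).real (star K v ∩ W) + (stdGaussian E).real Wᶜ := by
    have h1 : star K v ⊆ (star K v ∩ W) ∪ Wᶜ := by
      intro x hx
      by_cases h : x ∈ W
      · exact Or.inl ⟨hx, h⟩
      · exact Or.inr h
    exact (measureReal_mono h1).trans (measureReal_union_le _ _)
  rcases eq_or_ne v 0 with rfl | hv0
  · rw [star_zero] at hcut ⊢
    have hs : step κ (0 : E) = ContinuousLinearMap.id ℝ E := by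
      ext x; rw [step_apply]; simp
    have h0 : out (step κ (0 : E)) (K ∩ W) Kᶜ = 0 := by
      rw [hs]
      have hid : ‖ContinuousLinearMap.id ℝ E‖ ≤ 1 := ContinuousLinearMap.norm_id_le
      rw [out_eq (G := E) hid (B := 0) (fun t => by simp) (hK.measurableSet.inter hW)
        hK.measurableSet.compl]
      have : {p : E × E | p.1 ∈ K ∩ W ∧ (ContinuousLinearMap.id ℝ E) p.1 +
          (0 : E →L[ℝ] E) p.2 ∈ Kᶜ} = ∅ := by
        ext p
        simp only [mem_ofPred_eq, mem_inter_iff, mem_compl_iff, mem_empty_iff_false, iff_false]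
        rintro ⟨⟨h1, -⟩, h2⟩
        apply h2
        simpa using h1
      rw [this, measureReal_empty]
    rw [h0, mul_zero]
    linarith
  set h := ‖v‖ with hh'
  have hpos : 0 < h := norm_pos_iff.2 hv0
  obtain ⟨e, he, hse⟩ : ∃ e : E, ‖e‖ = 1 ∧ v = h • e := by
    refine ⟨h⁻¹ • v, by rw [norm_smul, norm_inv, norm_norm, inv_mul_cancel₀ hpos.ne'], ?_⟩
    rw [smul_smul, mul_inv_cancel₀ hpos.ne', one_smul]
  have h1 := out_step_le hK cK hκ hm0 hm he hpos hv hκv
  have h2 := measure_star_ge hK cK hh he hpos hv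
  rw [← hse] at h1 h2
  have h3 : out (step κ v) (star K v ∩ W) Kᶜ ≤ out (step κ v) (star K v) Kᶜ :=
    out_mono _ inter_subset_left subset_rfl
  have h4 : 0 ≤ (stdGaussian E).real (extSet K e (2 * h) h) := measureReal_nonneg
  have h5 : 1 / (32 * m + 10) * out (step κ v) (star K v ∩ W) Kᶜ ≤
      1 / 2 * (stdGaussian E).real (extSet K e (2 * h) h) := by
    rw [one_div_mul_eq_div, div_le_iff₀ hC]
    nlinarith
  linarith

/-- **letters** -/
theorem Hp.letter {κ m : ℝ} (hκ : 0 ≤ κ) (hm0 : 0 < m) (hm : 2 * κ ≤ m ^ 2) {W : Set E}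
    (hW : MeasurableSet W) {v : E} (hv : ‖v‖ ≤ 1 / 100) (hκv : κ * ‖v‖ ^ 2 ≤ 1) :
    Hp κ (1 / (32 * m + 10)) ((stdGaussian E).real Wᶜ) W [v] := by
  intro K hK cK hh
  have hw : 0 ≤ (stdGaussian E).real Wᶜ := measureReal_nonneg
  have := one_step hK cK (by linarith) hW hκ hm0 hm hv hκv
  simpa using this

end Cross

end Crest.Agent.R239
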