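import Mathlib
import Crest.Agent.Lib.Ehrhard.Basic

/-!
# R239 : the far saddle, case (A) of helper861's #11481 (and of #11342)

Pointwise form: for `a = X(y₊)` large, on the window `τ ∈ [-1, -1 + 1/a²]` (tied case) resp.
`τ ∈ [-1/2, -1/2 + 1/a²]` (untied case) of the orbit through `y₊`, the integrand
`Φ(-V) ρ(t)/ρ(t₊)` is at least `4`.
-/

set_option autoImplicit false
set_option maxHeartbeats 2000000

open MeasureTheory Set

namespace Crest.Agent.R239.FarA

open Crest.Agent.Lib.Ehrhard (Phi phi phi_add phi_neg phi_pos Phi_nonneg Phi_pos strictMono_Phi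
  hasDerivAt_Phi continuous_Phi)

/-- Mills type lower bound. -/
lemma Phi_neg_ge {u : ℝ} (hu : 0 ≤ u) :
    Real.exp (-(3/2)) * phi u / (1 + u) ≤ Phi (-u) := by
  have h1 : (0:ℝ) < 1 + u := by linarith
  set δ : ℝ := 1 / (1 + u) with hδ
  have hδ0 : 0 < δ := by positivity
  have hδ1 : δ ≤ 1 := by rw [hδ, div_le_one h1]; linarith
  have hδu : δ * u ≤ 1 := by rw [hδ, div_mul_eq_mul_div, one_mul, div_le_one h1]; linarith
  obtain ⟨c, hc, h⟩ := exists_hasDerivAt_eq_slope Phi phi (a := -u - δ) (b := -u) (by linarith)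
    continuous_Phi.continuousOn (fun x _ => hasDerivAt_Phi x)
  have e : -u - (-u - δ) = δ := by ring
  rw [e] at h
  have h2 : Phi (-u) - Phi (-u - δ) = δ * phi c := by
    rw [h]; field_simp
  have h3 : phi u * Real.exp (-(3/2)) ≤ phi c := by
    have h4 : phi u * Real.exp (-(δ * u) - δ ^ 2 / 2) ≤ phi c := by
      rw [← phi_add]
      unfold phi
      apply mul_le_mul_of_nonneg_left _ (by positivity)
      apply Real.exp_le_exp.2
      have : c ^ 2 ≤ (u + δ) ^ 2 := by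
        apply sq_le_sq'
        · linarith [hc.1]
        · linarith [hc.2]
      linarith
    refine le_trans ?_ h4
    apply mul_le_mul_of_nonneg_left _ (phi_pos u).le
    apply Real.exp_le_exp.2
    nlinarith
  have h5 : 0 ≤ Phi (-u - δ) := Phi_nonneg _
  have h6 : δ * (phi u * Real.exp (-(3/2))) ≤ δ * phi c := mul_le_mul_of_nonneg_left h3 hδ0.le
  calc Real.exp (-(3/2)) * phi u / (1 + u) = δ * (phi u * Real.exp (-(3/2))) := by
        rw [hδ]; ring
    _ ≤ Phi (-u) := by linarith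

lemma exp_nine_half : Real.exp (9/2) ≤ 100 := by
  have h : Real.exp 1 < 2.7182818286 := Real.exp_one_lt_d9
  have h2 : Real.exp (9/2) ^ 2 = Real.exp 1 ^ 9 := by
    rw [← Real.exp_nat_mul, ← Real.exp_nat_mul]; norm_num
  have h3 : Real.exp 1 ^ 9 ≤ (2.7182818286:ℝ) ^ 9 :=
    pow_le_pow_left₀ (Real.exp_pos _).le h.le 9
  have h4 : (2.7182818286:ℝ) ^ 9 ≤ 100 ^ 2 := by norm_num
  nlinarith [Real.exp_pos (9/2)]

lemma sqrt_two_pi_le : Real.sqrt (2 * Real.pi) ≤ 3 := by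
  apply Real.sqrt_le_iff.2
  constructor
  · norm_num
  · nlinarith [Real.pi_lt_d2]

/-- the constant used in this file -/
noncomputable def CA (η : ℝ) : ℝ := 10 ^ 6 / η ^ 2

lemma key {η a w Q : ℝ} (h0 : 0 < η) (h1 : η ≤ 1/10) (ha : CA η ≤ a) (hw0 : 0 ≤ w)
    (hw : w ≤ 2 * a) (hQ : w ^ 2 / 2 + η * a / 10 ≤ Q) : 4 ≤ Phi (-w) * Real.exp (Q - 3) := by
  have hη2 : 0 < η ^ 2 := by positivity
  have ha' : 10 ^ 6 ≤ a * η ^ 2 := by
    unfold CA at ha
    rwa [div_le_iff₀ hη2] at ha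
  have ha1 : 1 ≤ a := by
    have : η ^ 2 ≤ 1 := by nlinarith
    have ha0 : 0 < a := by
      by_contra h; push Not at h
      nlinarith
    nlinarith
  have hP := Phi_neg_ge hw0
  have hc : (1:ℝ)/3 ≤ (Real.sqrt (2 * Real.pi))⁻¹ := by
    rw [one_div]
    apply inv_anti₀ (by positivity) sqrt_two_pi_le
  have h9 : (1:ℝ)/100 ≤ Real.exp (-(9/2)) := by
    rw [Real.exp_neg, one_div]
    exact inv_anti₀ (Real.exp_pos _) exp_nine_half
  have hE : (η * a / 10) ^ 2 / 2 ≤ Real.exp (η * a / 10) := by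
    have := Real.quadratic_le_exp_of_nonneg (x := η * a / 10) (by positivity)
    nlinarith [show 0 ≤ η * a / 10 by positivity]
  -- the product of exponentials
  have hprod : Real.exp (-(3/2)) * phi w / (1 + w) * Real.exp (Q - 3) ≥
      (1/100) * (1/3) * Real.exp (η * a / 10) / (1 + w) := by
    unfold phi
    have e1 : Real.exp (-(3/2)) * ((Real.sqrt (2 * Real.pi))⁻¹ * Real.exp (-w ^ 2 / 2)) / (1 + w) *
        Real.exp (Q - 3) = (Real.sqrt (2 * Real.pi))⁻¹ *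
          (Real.exp (-(9/2)) * Real.exp (Q - w ^ 2 / 2)) / (1 + w) := by
      have : Real.exp (-(9/2)) * Real.exp (Q - w ^ 2 / 2) =
          Real.exp (-(3/2)) * Real.exp (-w ^ 2 / 2) * Real.exp (Q - 3) := by
        rw [← Real.exp_add, ← Real.exp_add, ← Real.exp_add]; congr 1; ring
      rw [this]; ring
    rw [e1, ge_iff_le]
    apply div_le_div_of_nonneg_right _ (by linarith)
    have h3 : Real.exp (η * a / 10) ≤ Real.exp (Q - w ^ 2 / 2) := Real.exp_le_exp.2 (by linarith)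
    calc (1:ℝ)/100 * (1/3) * Real.exp (η * a / 10) = 1/3 * (1/100 * Real.exp (η * a / 10)) := by ring
      _ ≤ (Real.sqrt (2 * Real.pi))⁻¹ * (Real.exp (-(9/2)) * Real.exp (Q - w ^ 2 / 2)) := by
          apply mul_le_mul hc _ (by positivity) (by positivity)
          apply mul_le_mul h9 h3 (by positivity) (by positivity)
  have h10 : (4:ℝ) ≤ (1/100) * (1/3) * Real.exp (η * a / 10) / (1 + w) := by
    rw [le_div_iff₀ (by linarith)]
    have h11 : (η * a / 10) ^ 2 / 2 = (a * η ^ 2) * a / 200 := by ring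
    rw [h11] at hE
    nlinarith
  calc (4:ℝ) ≤ (1/100) * (1/3) * Real.exp (η * a / 10) / (1 + w) := h10
    _ ≤ Real.exp (-(3/2)) * phi w / (1 + w) * Real.exp (Q - 3) := hprod
    _ ≤ Phi (-w) * Real.exp (Q - 3) :=
        mul_le_mul_of_nonneg_right hP (Real.exp_pos _).le

lemma a_large {η a : ℝ} (h0 : 0 < η) (h1 : η ≤ 1/10) (ha : CA η ≤ a) :
    10 ^ 6 ≤ a * η ^ 2 ∧ 10 ^ 7 ≤ a * η ∧ 10 ^ 8 ≤ a := by
  have hη2 : 0 < η ^ 2 := by positivity
  have ha' : 10 ^ 6 ≤ a * η ^ 2 := by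
    unfold CA at ha
    rwa [div_le_iff₀ hη2] at ha
  have ha0 : 0 < a := by
    by_contra h; push Not at h
    nlinarith
  have h2 : 10 ^ 7 ≤ a * η := by nlinarith [mul_pos ha0 h0]
  refine ⟨ha', h2, ?_⟩
  nlinarith


/-- scalar form of the tied case (`c = 1/P`, `κ = |p|/P`; `c = 0` = vertical walls) -/
lemma scalar_tied {η a B κ c m Q : ℝ} (h0 : 0 < η) (h1 : η ≤ 1/10) (ha : CA η ≤ a)
    (hB0 : 0 ≤ B) (hB1 : 99/100 * a ^ 2 ≤ B ^ 2) (hB2 : B ^ 2 ≤ a ^ 2) (hκ : 0 ≤ κ)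
    (hc : 0 ≤ c) (hcκ : c ^ 2 + κ ^ 2 = 1) (hQ : (a ^ 2 + B ^ 2) / 2 - 3 ≤ Q)
    (hm : c * (η / 2) - κ * a - c * (B + 3/100 / a) ≤ m) :
    4 ≤ Phi m * Real.exp Q := by
  obtain ⟨ha6, ha7, ha8⟩ := a_large h0 h1 ha
  have ha0 : 0 < a := by linarith
  set B' : ℝ := B + 3/100 / a with hB'
  have hBa : B ≤ a := abs_le_of_sq_le_sq' hB2 ha0.le |>.2
  have hB99 : 99/100 * a ≤ B := by
    have : (99/100 * a) ^ 2 ≤ B ^ 2 := by nlinarith
    exact abs_le_of_sq_le_sq' this hB0 |>.2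
  have hsm : 3/100 / a ≤ 1/1000 := by
    rw [div_le_iff₀ ha0]; linarith
  have hsm0 : 0 < 3/100 / a := by positivity
  have hB'0 : 0 < B' := by rw [hB']; linarith
  have hB'a : B' ≤ 1001/1000 * a := by rw [hB']; linarith
  have hB'99 : 99/100 * a ≤ B' := by rw [hB']; linarith
  have hB'2 : B' ^ 2 ≤ B ^ 2 + 7/100 := by
    have e : B' ^ 2 = B ^ 2 + 2 * (B * (3/100/a)) + (3/100/a) ^ 2 := by rw [hB']; ring
    have e2 : B * (3/100/a) ≤ 3/100 := by
      calc B * (3/100/a) ≤ a * (3/100/a) := mul_le_mul_of_nonneg_right hBa hsm0.le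
        _ = 3/100 := by field_simp
    have e3 : (3/100/a) ^ 2 ≤ 1/100 := by nlinarith
    linarith
  have hc1 : c ≤ 1 := by nlinarith
  have hκ1 : κ ≤ 1 := by nlinarith
  clear_value B'
  set R : ℝ := κ * a + c * B' with hR
  have hR0 : 0 ≤ R := by positivity
  have hR2 : R ^ 2 ≤ a ^ 2 + B' ^ 2 := by
    have e : R ^ 2 = (c ^ 2 + κ ^ 2) * (a ^ 2 + B' ^ 2) - (κ * B' - c * a) ^ 2 := by
      rw [hR]; ring
    rw [e, hcκ]
    nlinarith [sq_nonneg (κ * B' - c * a)]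
  set w : ℝ := max 0 (R - c * η / 2) with hw
  have hw0 : 0 ≤ w := le_max_left _ _
  have hwm : -w ≤ m := by
    have h2 : R - c * η / 2 ≤ w := le_max_right _ _
    have : -(R - c * η / 2) ≤ m := by
      refine le_trans (le_of_eq ?_) hm
      rw [hR]; ring
    linarith
  have hcη : 0 ≤ c * η / 2 := by positivity
  have hwR : w ≤ R := by
    apply max_le hR0; linarith
  have hR2a : R ≤ 2 * a := by
    have h2 : B' ^ 2 ≤ (1001/1000 * a) ^ 2 := pow_le_pow_left₀ hB'0.le hB'a 2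
    have : R ^ 2 ≤ (2 * a) ^ 2 := by nlinarith
    exact abs_le_of_sq_le_sq' this (by positivity) |>.2
  have hfin : w ^ 2 / 2 + η * a / 10 ≤ (a ^ 2 + B ^ 2) / 2 := by
    rcases le_or_gt (1/10) (c ^ 2) with hc10 | hc10
    · rcases le_or_gt (R - c * η / 2) 0 with h | h
      · have : w = 0 := max_eq_left h
        rw [this]
        nlinarith
      · have hw' : w = R - c * η / 2 := max_eq_right h.le
        have hRlow : 98/100 * a ≤ R := by
          have h4 : (κ + c * (99/100)) * a ≤ R := by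
            rw [hR]; nlinarith
          have h6 : 98/100 ≤ κ + c * (99/100) := by
            have : (98/100) ^ 2 ≤ (κ + c * (99/100)) ^ 2 := by
              nlinarith [mul_nonneg hκ hc]
            exact abs_le_of_sq_le_sq' this (by positivity) |>.2
          nlinarith
        have hc3 : 316/1000 ≤ c := by
          have : (316/1000) ^ 2 ≤ c ^ 2 := by linarith
          exact abs_le_of_sq_le_sq' this hc |>.2
        have h7 : 98/100 * a * (316/1000 * η) ≤ R * (c * η) :=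
          mul_le_mul hRlow (mul_le_mul_of_nonneg_right hc3 h0.le) (by positivity) hR0
        have h8 : (c * η / 2) ^ 2 ≤ 1/100 := by
          have : c * η / 2 ≤ 1/10 := by nlinarith
          nlinarith
        have h6 : w ^ 2 = R ^ 2 - R * (c * η) + (c * η / 2) ^ 2 := by
          rw [hw']; ring
        have h9 : 98/100 * a * (316/1000 * η) = 30968/100000 * (η * a) := by ring
        rw [h6]
        nlinarith
    · have h4 : R ≤ (κ + c * (1001/1000)) * a := by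
        rw [hR]; nlinarith
      have h5 : c * κ ≤ 3/10 := by
        have : (c * κ) ^ 2 ≤ (3/10) ^ 2 := by
          have e : (c * κ) ^ 2 = c ^ 2 * (1 - c ^ 2) := by
            have : κ ^ 2 = 1 - c ^ 2 := by linarith
            rw [mul_pow, this]
          rw [e]; nlinarith
        exact abs_le_of_sq_le_sq' this (by norm_num) |>.2
      have h6 : (κ + c * (1001/1000)) ^ 2 ≤ 161/100 := by nlinarith
      have h7 : R ^ 2 ≤ 161/100 * a ^ 2 := by
        calc R ^ 2 ≤ ((κ + c * (1001/1000)) * a) ^ 2 := pow_le_pow_left₀ hR0 h4 2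
          _ = (κ + c * (1001/1000)) ^ 2 * a ^ 2 := by ring
          _ ≤ 161/100 * a ^ 2 := mul_le_mul_of_nonneg_right h6 (by positivity)
      have h8 : w ^ 2 ≤ R ^ 2 := pow_le_pow_left₀ hw0 hwR 2
      have h9 : η * a ≤ 1/10 * a ^ 2 := by nlinarith
      nlinarith
  have hk := key h0 h1 ha hw0 (hwR.trans hR2a) hfin
  refine hk.trans ?_
  apply mul_le_mul (strictMono_Phi.monotone hwm) (Real.exp_le_exp.2 hQ) (Real.exp_pos _).le
    (Phi_pos _).le

/-- scalar form of the untied case -/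
lemma scalar_untied {η a m : ℝ} (h0 : 0 < η) (h1 : η ≤ 1/10) (ha : CA η ≤ a)
    (hm : η / 2 - a ≤ m) : 4 ≤ Phi m * Real.exp (a ^ 2 / 2 - 3) := by
  obtain ⟨ha6, ha7, ha8⟩ := a_large h0 h1 ha
  have ha0 : 0 < a := by linarith
  have hk := key (w := a - η / 2) (Q := a ^ 2 / 2) h0 h1 ha (by linarith) (by linarith)
    (by nlinarith)
  refine hk.trans ?_
  apply mul_le_mul_of_nonneg_right (strictMono_Phi.monotone (by linarith)) (Real.exp_pos _).le

/-! ### coordinates -/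

section coord

variable {s q r : ℝ}

/-- bounds for `r = -log q`, `q = 1 - s ∈ [.99, 1]` -/
lemma r_bounds {s : ℝ} (hs0 : 0 ≤ s) (hs : s ≤ 1/100) :
    0 ≤ -Real.log (1 - s) ∧ -Real.log (1 - s) ≤ 102/100 * s := by
  have hq : 0 < 1 - s := by linarith
  constructor
  · have := Real.log_nonpos hq.le (by linarith)
    linarith
  · have h := Real.one_sub_inv_le_log_of_pos hq
    have h2 : (1 - s)⁻¹ ≤ 1 + 102/100 * s := by
      rw [inv_le_iff_one_le_mul₀ hq]
      nlinarith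
    linarith

lemma exp_small {x : ℝ} (h0 : 0 ≤ x) (h1 : x ≤ 1/100) : Real.exp x ≤ 1 + 103/100 * x := by
  have h := Real.abs_exp_sub_one_sub_id_le (x := x) (by rw [abs_of_nonneg h0]; linarith)
  have h2 := le_of_abs_le h
  have h3 : x ^ 2 ≤ 1/100 * x := by nlinarith
  linarith

end coord

/-- **Case (A) of #11481** in eigen-coordinates, pointwise on the window `τ = -1 + σ`,
`0 ≤ σ ≤ 1/X²`. `A i = a i` (square root of the eigenvalue), `y = y₊`. -/
theorem far_core {η : ℝ} (h0 : 0 < η) (h1 : η ≤ 1/10) {ι : Type*} [Fintype ι]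
    {a y α β : ι → ℝ} {c X : ℝ} (hs : ∑ i, a i ^ 2 ≤ 1/100) (hX0 : 0 ≤ X)
    (hX2 : X ^ 2 = ∑ i, a i ^ 2 * y i ^ 2) (hX : CA η ≤ X) (hc : 0 ≤ c)
    (hβ : ∑ i, (1 - a i ^ 2) * β i ^ 2 ≤ c ^ 2) (hα : c ^ 2 + ∑ i, a i ^ 2 * α i ^ 2 = 1)
    {σ m : ℝ} (hσ0 : 0 ≤ σ) (hσ : σ ≤ 1 / X ^ 2)
    (hm : c * (η / 2) + ∑ i, α i * ((Real.exp ((-1 + σ) * -Real.log (1 - a i ^ 2)) - 1) * y i) -
      ∑ i, β i * (a i * (Real.exp ((-1 + σ) * -Real.log (1 - a i ^ 2)) * y i)) ≤ m) :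
    4 ≤ Phi m * Real.exp (-(∑ i, (Real.exp ((-1 + σ) * -Real.log (1 - a i ^ 2)) ^ 2 - 1) *
      y i ^ 2) / 2 + (-1 + σ) * ∑ i, -Real.log (1 - a i ^ 2)) := by
  obtain ⟨hX6, hX7, hX8⟩ := a_large h0 h1 hX
  have hXpos : 0 < X := by linarith
  have hX2pos : 0 < X ^ 2 := by positivity
  have hσX : σ * X ^ 2 ≤ 1 := by
    calc σ * X ^ 2 ≤ 1 / X ^ 2 * X ^ 2 := mul_le_mul_of_nonneg_right hσ hX2pos.le
      _ = 1 := by field_simp
  have hσ1 : σ ≤ 1/1000 := by
    have : 1 / X ^ 2 ≤ 1/1000 := by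
      apply one_div_le_one_div_of_le (by norm_num)
      nlinarith
    linarith
  have hai : ∀ i, a i ^ 2 ≤ 1/100 := fun i =>
    (Finset.single_le_sum (fun j _ => sq_nonneg (a j)) (Finset.mem_univ i)).trans hs
  set r : ι → ℝ := fun i => -Real.log (1 - a i ^ 2) with hr
  have hr0 : ∀ i, 0 ≤ r i := fun i => (r_bounds (sq_nonneg (a i)) (hai i)).1
  have hr1 : ∀ i, r i ≤ 102/100 * a i ^ 2 := fun i => (r_bounds (sq_nonneg (a i)) (hai i)).2
  have hr2 : ∀ i, r i ≤ 1/50 := fun i => by nlinarith [hr1 i, hai i]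
  -- `θ i = exp (τ r i) = q i * u i`
  set θ : ι → ℝ := fun i => Real.exp ((-1 + σ) * r i) with hθ
  set u : ι → ℝ := fun i => Real.exp (σ * r i) with hu
  have hq : ∀ i, Real.exp (-r i) = 1 - a i ^ 2 := by
    intro i
    simp only [hr, neg_neg]
    exact Real.exp_log (by linarith [hai i])
  have hθu : ∀ i, θ i = (1 - a i ^ 2) * u i := by
    intro i
    rw [← hq i]
    simp only [hθ, hu]
    rw [← Real.exp_add]; congr 1; ring
  have hu1 : ∀ i, 1 ≤ u i := fun i => Real.one_le_exp (mul_nonneg hσ0 (hr0 i))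
  have hu2 : ∀ i, u i ≤ 1 + 11/10 * (σ * a i ^ 2) := by
    intro i
    have h := exp_small (x := σ * r i) (mul_nonneg hσ0 (hr0 i)) (by nlinarith [hr0 i, hr2 i])
    have h2 : σ * r i ≤ σ * (102/100 * a i ^ 2) := mul_le_mul_of_nonneg_left (hr1 i) hσ0
    have h3 : 0 ≤ σ * a i ^ 2 := mul_nonneg hσ0 (sq_nonneg _)
    calc u i ≤ 1 + 103/100 * (σ * r i) := h
      _ ≤ 1 + 11/10 * (σ * a i ^ 2) := by nlinarith
  have hu3 : ∀ i, u i ≤ 1 + 3/100 * (1 / X ^ 2) := by
    intro i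
    refine (hu2 i).trans ?_
    have : σ * a i ^ 2 ≤ 1 / X ^ 2 * (1/100) := mul_le_mul hσ (hai i) (sq_nonneg _) (by positivity)
    nlinarith [show 0 < 1 / X ^ 2 by positivity]
  have hθ1 : ∀ i, θ i ≤ 1 := by
    intro i
    apply Real.exp_le_one_iff.2
    nlinarith [hr0 i]
  have hθ0 : ∀ i, 0 < θ i := fun i => Real.exp_pos _
  -- the quantity B
  set B2 : ℝ := ∑ i, (1 - a i ^ 2) * (a i * y i) ^ 2 with hB2def
  have hX2' : X ^ 2 = ∑ i, (a i * y i) ^ 2 := by
    rw [hX2]; refine Finset.sum_congr rfl fun i _ => ?_; ring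
  have hB2le : B2 ≤ X ^ 2 := by
    rw [hX2']
    apply Finset.sum_le_sum; intro i _
    nlinarith [sq_nonneg (a i), sq_nonneg (a i * y i), mul_nonneg (sq_nonneg (a i)) (sq_nonneg (a i * y i))]
  have hB2ge : 99/100 * X ^ 2 ≤ B2 := by
    rw [hX2', Finset.mul_sum]
    apply Finset.sum_le_sum; intro i _
    apply mul_le_mul_of_nonneg_right _ (sq_nonneg _)
    linarith [hai i]
  have hB20 : 0 ≤ B2 := by nlinarith
  set B : ℝ := Real.sqrt B2 with hB
  have hBsq : B ^ 2 = B2 := Real.sq_sqrt hB20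
  have hB0 : 0 ≤ B := Real.sqrt_nonneg _
  have hBX : B ≤ X := by
    have : B ^ 2 ≤ X ^ 2 := by rw [hBsq]; exact hB2le
    exact abs_le_of_sq_le_sq' this hX0 |>.2
  -- κ
  set κ2 : ℝ := ∑ i, a i ^ 2 * α i ^ 2 with hκ2
  have hκ20 : 0 ≤ κ2 := Finset.sum_nonneg fun i _ => by positivity
  set κ : ℝ := Real.sqrt κ2 with hκ
  have hκsq : κ ^ 2 = κ2 := Real.sq_sqrt hκ20
  have hκ0 : 0 ≤ κ := Real.sqrt_nonneg _
  -- first sum
  have t1 : -(κ * X) ≤ ∑ i, α i * ((θ i - 1) * y i) := by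
    have cs := Finset.sum_mul_sq_le_sq_mul_sq Finset.univ (fun i => a i * α i)
      (fun i => a i * |y i|)
    have e1 : ∑ i, (a i * α i) ^ 2 = κ2 := by
      rw [hκ2]; refine Finset.sum_congr rfl fun i _ => ?_; ring
    have e2 : ∑ i, (a i * |y i|) ^ 2 = X ^ 2 := by
      rw [hX2]; refine Finset.sum_congr rfl fun i _ => ?_; rw [mul_pow, sq_abs]
    -- use absolute values of α too
    have cs' := Finset.sum_mul_sq_le_sq_mul_sq Finset.univ (fun i => |a i| * |α i|)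
      (fun i => |a i| * |y i|)
    have e1' : ∑ i, (|a i| * |α i|) ^ 2 = κ2 := by
      rw [hκ2]; refine Finset.sum_congr rfl fun i _ => ?_; rw [mul_pow, sq_abs, sq_abs]
    have e2' : ∑ i, (|a i| * |y i|) ^ 2 = X ^ 2 := by
      rw [hX2]; refine Finset.sum_congr rfl fun i _ => ?_; rw [mul_pow, sq_abs, sq_abs]
    rw [e1', e2', ← hκsq, ← mul_pow] at cs'
    have cs2 : ∑ i, |a i| * |α i| * (|a i| * |y i|) ≤ κ * X :=
      abs_le_of_sq_le_sq' cs' (by positivity) |>.2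
    have h3 : ∀ i, -(|a i| * |α i| * (|a i| * |y i|)) ≤ α i * ((θ i - 1) * y i) := by
      intro i
      have h4 : |α i * ((θ i - 1) * y i)| ≤ |a i| * |α i| * (|a i| * |y i|) := by
        rw [abs_mul, abs_mul]
        have h5 : |θ i - 1| ≤ |a i| * |a i| := by
          rw [abs_mul_abs_self, abs_le]
          constructor
          · rw [hθu i]; nlinarith [hu1 i, hai i]
          · nlinarith [hθ1 i, mul_self_nonneg (a i)]
        calc |α i| * (|θ i - 1| * |y i|) ≤ |α i| * ((|a i| * |a i|) * |y i|) := by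
              apply mul_le_mul_of_nonneg_left _ (abs_nonneg _)
              exact mul_le_mul_of_nonneg_right h5 (abs_nonneg _)
          _ = _ := by ring
      exact (abs_le.1 h4).1
    calc -(κ * X) ≤ -∑ i, |a i| * |α i| * (|a i| * |y i|) := by linarith
      _ = ∑ i, -(|a i| * |α i| * (|a i| * |y i|)) := by rw [Finset.sum_neg_distrib]
      _ ≤ _ := Finset.sum_le_sum fun i _ => h3 i
  -- second sum
  have t2 : ∑ i, β i * (a i * (θ i * y i)) ≤ c * (B + 3/100 / X) := by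
    have cs := Finset.sum_mul_sq_le_sq_mul_sq Finset.univ
      (fun i => Real.sqrt (1 - a i ^ 2) * |β i|)
      (fun i => Real.sqrt (1 - a i ^ 2) * |a i * y i|)
    have e1 : ∑ i, (Real.sqrt (1 - a i ^ 2) * |β i|) ^ 2 = ∑ i, (1 - a i ^ 2) * β i ^ 2 := by
      refine Finset.sum_congr rfl fun i _ => ?_
      rw [mul_pow, sq_abs, Real.sq_sqrt (by linarith [hai i])]
    have e2 : ∑ i, (Real.sqrt (1 - a i ^ 2) * |a i * y i|) ^ 2 = B ^ 2 := by
      rw [hBsq, hB2def]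
      refine Finset.sum_congr rfl fun i _ => ?_
      rw [mul_pow, sq_abs, Real.sq_sqrt (by linarith [hai i])]
    rw [e1, e2] at cs
    have cs2 : (∑ i, Real.sqrt (1 - a i ^ 2) * |β i| * (Real.sqrt (1 - a i ^ 2) * |a i * y i|)) ^ 2
        ≤ (c * B) ^ 2 := by
      rw [mul_pow]
      exact cs.trans (mul_le_mul_of_nonneg_right hβ (sq_nonneg _))
    have cs3 := abs_le_of_sq_le_sq' cs2 (by positivity) |>.2
    have h3 : ∀ i, β i * (a i * (θ i * y i)) ≤ (1 + 3/100 * (1 / X ^ 2)) *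
        (Real.sqrt (1 - a i ^ 2) * |β i| * (Real.sqrt (1 - a i ^ 2) * |a i * y i|)) := by
      intro i
      have hsq : Real.sqrt (1 - a i ^ 2) * Real.sqrt (1 - a i ^ 2) = 1 - a i ^ 2 :=
        Real.mul_self_sqrt (by linarith [hai i])
      have e : (1 + 3/100 * (1 / X ^ 2)) *
        (Real.sqrt (1 - a i ^ 2) * |β i| * (Real.sqrt (1 - a i ^ 2) * |a i * y i|)) =
          (1 + 3/100 * (1 / X ^ 2)) * (1 - a i ^ 2) * (|β i| * |a i * y i|) := by
        calc (1 + 3/100 * (1 / X ^ 2)) *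
          (Real.sqrt (1 - a i ^ 2) * |β i| * (Real.sqrt (1 - a i ^ 2) * |a i * y i|)) =
            (1 + 3/100 * (1 / X ^ 2)) * (Real.sqrt (1 - a i ^ 2) * Real.sqrt (1 - a i ^ 2)) *
              (|β i| * |a i * y i|) := by ring
          _ = _ := by rw [hsq]
      rw [e]
      calc β i * (a i * (θ i * y i)) = θ i * (β i * (a i * y i)) := by ring
        _ ≤ θ i * (|β i| * |a i * y i|) := by
            apply mul_le_mul_of_nonneg_left _ (hθ0 i).le
            rw [← abs_mul]; exact le_abs_self _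
        _ ≤ (1 + 3/100 * (1 / X ^ 2)) * (1 - a i ^ 2) * (|β i| * |a i * y i|) := by
            apply mul_le_mul_of_nonneg_right _ (by positivity)
            rw [hθu i, mul_comm]
            exact mul_le_mul_of_nonneg_right (hu3 i) (by linarith [hai i])
    have h4 : ∑ i, β i * (a i * (θ i * y i)) ≤ (1 + 3/100 * (1 / X ^ 2)) * (c * B) := by
      calc ∑ i, β i * (a i * (θ i * y i)) ≤ ∑ i, (1 + 3/100 * (1 / X ^ 2)) *
            (Real.sqrt (1 - a i ^ 2) * |β i| * (Real.sqrt (1 - a i ^ 2) * |a i * y i|)) :=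
            Finset.sum_le_sum fun i _ => h3 i
        _ = (1 + 3/100 * (1 / X ^ 2)) * ∑ i,
            (Real.sqrt (1 - a i ^ 2) * |β i| * (Real.sqrt (1 - a i ^ 2) * |a i * y i|)) := by
            rw [Finset.mul_sum]
        _ ≤ _ := mul_le_mul_of_nonneg_left cs3 (by positivity)
    refine h4.trans ?_
    have h5 : 3/100 * (1 / X ^ 2) * B ≤ 3/100 / X := by
      calc 3/100 * (1 / X ^ 2) * B ≤ 3/100 * (1 / X ^ 2) * X :=
            mul_le_mul_of_nonneg_left hBX (by positivity)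
        _ = 3/100 / X := by field_simp
    nlinarith
  -- the exponent
  have t3 : (X ^ 2 + B ^ 2) / 2 - 3 ≤
      -(∑ i, (θ i ^ 2 - 1) * y i ^ 2) / 2 + (-1 + σ) * ∑ i, r i := by
    have h3 : ∀ i, (2 - a i ^ 2) * (a i * y i) ^ 2 - 3 * σ * (a i * y i) ^ 2 ≤
        -((θ i ^ 2 - 1) * y i ^ 2) := by
      intro i
      have h4 : θ i ^ 2 ≤ (1 - a i ^ 2) ^ 2 + 3 * σ * a i ^ 2 := by
        rw [hθu i, mul_pow]
        have h5 : u i ^ 2 ≤ 1 + 3 * σ * a i ^ 2 := by
          have h6 := hu2 i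
          have h7 : 0 ≤ σ * a i ^ 2 := mul_nonneg hσ0 (sq_nonneg _)
          have h8 : σ * a i ^ 2 ≤ 1/1000 := by nlinarith [hai i, sq_nonneg (a i)]
          have h9 : u i ^ 2 ≤ (1 + 11/10 * (σ * a i ^ 2)) ^ 2 :=
            pow_le_pow_left₀ (by linarith [hu1 i]) h6 2
          nlinarith
        have h10 : (1 - a i ^ 2) ^ 2 ≤ 1 := by nlinarith [hai i, sq_nonneg (a i)]
        have h11 : 0 ≤ 3 * σ * a i ^ 2 := by positivity
        calc (1 - a i ^ 2) ^ 2 * u i ^ 2 ≤ (1 - a i ^ 2) ^ 2 * (1 + 3 * σ * a i ^ 2) :=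
              mul_le_mul_of_nonneg_left h5 (sq_nonneg _)
          _ = (1 - a i ^ 2) ^ 2 + (1 - a i ^ 2) ^ 2 * (3 * σ * a i ^ 2) := by ring
          _ ≤ (1 - a i ^ 2) ^ 2 + 1 * (3 * σ * a i ^ 2) := by
              have := mul_le_mul_of_nonneg_right h10 h11
              linarith
          _ = _ := by ring
      have h12 : θ i ^ 2 * y i ^ 2 ≤ ((1 - a i ^ 2) ^ 2 + 3 * σ * a i ^ 2) * y i ^ 2 :=
        mul_le_mul_of_nonneg_right h4 (sq_nonneg _)
      nlinarith
    have h4 : ∑ i, ((2 - a i ^ 2) * (a i * y i) ^ 2 - 3 * σ * (a i * y i) ^ 2) ≤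
        -∑ i, (θ i ^ 2 - 1) * y i ^ 2 := by
      rw [← Finset.sum_neg_distrib]
      exact Finset.sum_le_sum fun i _ => h3 i
    have h5 : ∑ i, ((2 - a i ^ 2) * (a i * y i) ^ 2 - 3 * σ * (a i * y i) ^ 2) =
        X ^ 2 + B ^ 2 - 3 * σ * X ^ 2 := by
      rw [hBsq, hB2def, hX2', Finset.mul_sum, ← Finset.sum_add_distrib, ← Finset.sum_sub_distrib]
      refine Finset.sum_congr rfl fun i _ => ?_; ring
    have h6 : ∑ i, r i ≤ 2/100 := by
      calc ∑ i, r i ≤ ∑ i, 102/100 * a i ^ 2 := Finset.sum_le_sum fun i _ => hr1 i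
        _ = 102/100 * ∑ i, a i ^ 2 := by rw [Finset.mul_sum]
        _ ≤ 2/100 := by linarith
    have h7 : 0 ≤ ∑ i, r i := Finset.sum_nonneg fun i _ => hr0 i
    rw [h5] at h4
    nlinarith
  refine scalar_tied h0 h1 hX hB0 (by rw [hBsq]; exact hB2ge) (by rw [hBsq]; exact hB2le) hκ0 hc
    (by rw [hκsq]; exact hα) t3 (le_trans ?_ hm)
  linarith

end Crest.Agent.R239.FarA
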