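import Mathlib
import Crest.Agent.R239.Gau1

/-! R239 (helper723): disintegration of the Gaussian measure along the orbits of a linear flow
`t ↦ exp(t R) y`, `R` symmetric, in the form of a Tonelli argument with a weight `θ`. -/

set_option autoImplicit false
set_option linter.unusedSectionVars false
open MeasureTheory ProbabilityTheory Set Filter Topology
open scoped RealInnerProductSpace ENNReal NNReal

namespace Crest.Agent.R239.Orb

variable {ι : Type*} [Fintype ι]

/-- one-dimensional change of variables -/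
lemma scale_real {c : ℝ} (hc : 0 < c) {h : ℝ → ℝ≥0∞} (hh : Measurable h) :
    ∫⁻ x, h (c * x) * ENNReal.ofReal (c * Real.exp (-(c ^ 2 - 1) * x ^ 2 / 2)) ∂(gaussianReal 0 1)
      = ∫⁻ x, h x ∂(gaussianReal 0 1) := by
  rw [gaussianReal_of_var_ne_zero _ one_ne_zero,
    lintegral_withDensity_eq_lintegral_mul _ (measurable_gaussianPDF _ _) (by fun_prop),
    lintegral_withDensity_eq_lintegral_mul _ (measurable_gaussianPDF _ _) (by fun_prop)]
  have h1 := Real.smul_map_volume_mul_left hc.ne'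
  rw [abs_of_pos hc] at h1
  conv_rhs => rw [← h1]
  rw [lintegral_smul_measure, lintegral_map (by fun_prop) (by fun_prop), smul_eq_mul,
    ← lintegral_const_mul _ (by fun_prop)]
  refine lintegral_congr fun x => ?_
  simp only [Pi.mul_apply]
  have e : gaussianPDF 0 1 x * ENNReal.ofReal (c * Real.exp (-(c ^ 2 - 1) * x ^ 2 / 2))
      = ENNReal.ofReal c * gaussianPDF 0 1 (c * x) := by
    unfold gaussianPDF
    rw [← ENNReal.ofReal_mul (by unfold gaussianPDFReal; positivity), ← ENNReal.ofReal_mul hc.le]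
    congr 1
    unfold gaussianPDFReal
    have : Real.exp (-(c * x - 0) ^ 2 / (2 * ((1:ℝ≥0):ℝ)))
        = Real.exp (-(x - 0) ^ 2 / (2 * ((1:ℝ≥0):ℝ))) * Real.exp (-(c ^ 2 - 1) * x ^ 2 / 2) := by
      rw [← Real.exp_add]
      congr 1
      simp
      ring
    rw [this]
    ring
  calc gaussianPDF 0 1 x * (h (c * x) * ENNReal.ofReal (c * Real.exp (-(c ^ 2 - 1) * x ^ 2 / 2)))
      = (gaussianPDF 0 1 x * ENNReal.ofReal (c * Real.exp (-(c ^ 2 - 1) * x ^ 2 / 2))) * h (c * x) := by
        ring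
    _ = _ := by rw [e]; ring

/-- coordinatewise change of variables -/
lemma scale_pi {c : ι → ℝ} (hc : ∀ i, 0 < c i) {h : (ι → ℝ) → ℝ≥0∞} (hh : Measurable h) :
    ∫⁻ x, h (fun i => c i * x i) *
        ∏ i, ENNReal.ofReal (c i * Real.exp (-(c i ^ 2 - 1) * x i ^ 2 / 2))
        ∂(Measure.pi fun _ : ι => gaussianReal 0 1)
      = ∫⁻ x, h x ∂(Measure.pi fun _ : ι => gaussianReal 0 1) := by
  set P : Measure (ι → ℝ) := Measure.pi fun _ : ι => gaussianReal 0 1 with hP
  set J : (ι → ℝ) → ℝ≥0∞ := fun x =>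
    ∏ i, ENNReal.ofReal (c i * Real.exp (-(c i ^ 2 - 1) * x i ^ 2 / 2)) with hJ
  have mJ : Measurable J := by fun_prop
  have mc : Measurable (fun (x : ι → ℝ) i => c i * x i) := by fun_prop
  have key : P = (P.withDensity J).map (fun x i => c i * x i) := by
    refine Measure.pi_eq fun s hs => ?_
    rw [Measure.map_apply mc (MeasurableSet.univ_pi hs),
      withDensity_apply _ (mc (MeasurableSet.univ_pi hs)),
      ← lintegral_indicator (mc (MeasurableSet.univ_pi hs))]
    have e1 : ∀ x : ι → ℝ, ((fun (x : ι → ℝ) i => c i * x i) ⁻¹' (Set.univ.pi s)).indicator J x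
        = ∏ i, ((s i).indicator 1 (c i * x i) *
            ENNReal.ofReal (c i * Real.exp (-(c i ^ 2 - 1) * x i ^ 2 / 2))) := by
      intro x
      by_cases hx : x ∈ (fun (x : ι → ℝ) i => c i * x i) ⁻¹' (Set.univ.pi s)
      · rw [indicator_of_mem hx]
        refine Finset.prod_congr rfl fun i _ => ?_
        have : c i * x i ∈ s i := hx i (mem_univ i)
        rw [indicator_of_mem this]
        simp
      · rw [indicator_of_notMem hx]
        simp only [mem_preimage, Set.mem_pi, mem_univ, true_imp_iff, not_forall] at hx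
        obtain ⟨i, hi⟩ := hx
        refine (Finset.prod_eq_zero (Finset.mem_univ i) ?_).symm
        rw [indicator_of_notMem hi, zero_mul]
    rw [lintegral_congr e1]
    have hind := iIndepFun_pi (μ := fun _ : ι => gaussianReal 0 1)
      (X := fun i (y : ℝ) => (s i).indicator (1 : ℝ → ℝ≥0∞) (c i * y) *
            ENNReal.ofReal (c i * Real.exp (-(c i ^ 2 - 1) * y ^ 2 / 2)))
      (fun i => (((measurable_one.indicator (hs i)).comp (measurable_const_mul (c i))).mul
        (by fun_prop : Measurable fun y : ℝ => ENNReal.ofReal (c i * Real.exp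
          (-(c i ^ 2 - 1) * y ^ 2 / 2)))).aemeasurable)
    rw [lintegral_prod_eq_prod_lintegral_of_indepFun _ _ hind (fun i =>
      ((((measurable_one.indicator (hs i)).comp (measurable_const_mul (c i))).mul
        (by fun_prop : Measurable fun y : ℝ => ENNReal.ofReal (c i * Real.exp
          (-(c i ^ 2 - 1) * y ^ 2 / 2)))).comp (measurable_pi_apply i)))]
    refine Finset.prod_congr rfl fun i _ => ?_
    have m2 : Measurable (fun y : ℝ => (s i).indicator (1 : ℝ → ℝ≥0∞) (c i * y) *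
            ENNReal.ofReal (c i * Real.exp (-(c i ^ 2 - 1) * y ^ 2 / 2))) :=
      (((measurable_one.indicator (hs i)).comp (measurable_const_mul (c i))).mul (by fun_prop))
    have e2 := (measurePreserving_eval (fun _ : ι => gaussianReal 0 1) i).lintegral_comp m2
    rw [e2, scale_real (hc i) (measurable_one.indicator (hs i)), lintegral_indicator_one (hs i)]
  have e3 := lintegral_withDensity_eq_lintegral_mul P mJ (hh.comp mc)
  conv_rhs => rw [key, lintegral_map hh mc]
  refine Eq.trans ?_ e3.symm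
  refine lintegral_congr fun x => ?_
  simp only [Pi.mul_apply, hJ, Function.comp_apply]
  rw [mul_comm]

section flow

variable {E : Type*} [NormedAddCommGroup E] [InnerProductSpace ℝ E] [FiniteDimensional ℝ E]
  [MeasurableSpace E] [BorelSpace E]

/-- the flow `exp(t R) y`, `R = ∑ r_i b_i b_iᵀ` -/
noncomputable def fl (b : OrthonormalBasis ι ℝ E) (r : ι → ℝ) (t : ℝ) (y : E) : E :=
  ∑ i, (Real.exp (t * r i) * ⟪b i, y⟫) • b i

/-- density of `(exp(t R))⁻¹ γ` with respect to `γ` -/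
noncomputable def J (b : OrthonormalBasis ι ℝ E) (r : ι → ℝ) (t : ℝ) (y : E) : ℝ :=
  Real.exp (-(∑ i, (Real.exp (t * r i) ^ 2 - 1) * ⟪b i, y⟫ ^ 2) / 2 + t * ∑ i, r i)

variable (b : OrthonormalBasis ι ℝ E) (r : ι → ℝ)

lemma J_pos (t : ℝ) (y : E) : 0 < J b r t y := Real.exp_pos _

@[simp] lemma inner_fl (t : ℝ) (y : E) (i : ι) :
    ⟪b i, fl b r t y⟫ = Real.exp (t * r i) * ⟪b i, y⟫ := by
  classical
  unfold fl
  rw [inner_sum]
  simp_rw [inner_smul_right, b.inner_eq_ite]
  simp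

lemma ext_b {y z : E} (h : ∀ i, ⟪b i, y⟫ = ⟪b i, z⟫) : y = z := by
  apply b.repr.injective
  ext i
  simp [b.repr_apply_apply, h i]

lemma fl_fl (t s : ℝ) (y : E) : fl b r t (fl b r s y) = fl b r (t + s) y := by
  refine ext_b b fun i => ?_
  simp only [inner_fl]
  rw [add_mul, Real.exp_add]
  ring

@[simp] lemma fl_zero (y : E) : fl b r 0 y = y := by
  refine ext_b b fun i => ?_
  simp

lemma fl_add' (t : ℝ) (y z : E) : fl b r t (y + z) = fl b r t y + fl b r t z := by
  refine ext_b b fun i => ?_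
  simp [inner_add_right, mul_add]

lemma fl_smul' (t c : ℝ) (y : E) : fl b r t (c • y) = c • fl b r t y := by
  refine ext_b b fun i => ?_
  simp [inner_smul_right]
  ring

lemma continuous_fl : Continuous (fun p : ℝ × E => fl b r p.1 p.2) := by
  unfold fl
  fun_prop

lemma continuous_J : Continuous (fun p : ℝ × E => J b r p.1 p.2) := by
  unfold J
  fun_prop

@[simp] lemma J_zero (y : E) : J b r 0 y = 1 := by simp [J]

lemma J_add (t s : ℝ) (y : E) : J b r (t + s) y = J b r t (fl b r s y) * J b r s y := by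
  unfold J
  rw [← Real.exp_add]
  congr 1
  simp only [inner_fl]
  have : ∀ i, (Real.exp ((t + s) * r i) ^ 2 - 1) * ⟪b i, y⟫ ^ 2
      = (Real.exp (t * r i) ^ 2 - 1) * (Real.exp (s * r i) * ⟪b i, y⟫) ^ 2
        + (Real.exp (s * r i) ^ 2 - 1) * ⟪b i, y⟫ ^ 2 := by
    intro i
    rw [add_mul, Real.exp_add]
    ring
  simp_rw [this]
  rw [Finset.sum_add_distrib]
  ring

/-- change of variables along the flow -/
lemma lintegral_fl (t : ℝ) {h : E → ℝ≥0∞} (hh : Measurable h) :
    ∫⁻ y, h (fl b r t y) * ENNReal.ofReal (J b r t y) ∂(stdGaussian E) = ∫⁻ y, h y ∂(stdGaussian E) := by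
  have mf : Measurable (fun y => fl b r t y) :=
    ((continuous_fl b r).comp (by fun_prop : Continuous fun y : E => (t, y))).measurable
  have mJ : Measurable (fun y => J b r t y) :=
    ((continuous_J b r).comp (by fun_prop : Continuous fun y : E => (t, y))).measurable
  rw [stdGaussian_eq_map_pi_orthonormalBasis b, lintegral_map (by fun_prop) (by fun_prop),
    lintegral_map hh (by fun_prop)]
  have h1 := scale_pi (c := fun i => Real.exp (t * r i)) (fun i => Real.exp_pos _)
    (h := fun x => h (∑ i, x i • b i)) (by fun_prop)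
  rw [← h1]
  refine lintegral_congr fun x => ?_
  have hin : ∀ i, ⟪b i, ∑ j, x j • b j⟫ = x i := by
    classical
    intro i
    rw [inner_sum]
    simp_rw [inner_smul_right, b.inner_eq_ite]
    simp
  have e1 : fl b r t (∑ i, x i • b i) = ∑ i, (Real.exp (t * r i) * x i) • b i := by
    unfold fl
    simp_rw [hin]
  have e2 : ENNReal.ofReal (J b r t (∑ i, x i • b i)) =
      ∏ i, ENNReal.ofReal (Real.exp (t * r i) *
        Real.exp (-(Real.exp (t * r i) ^ 2 - 1) * x i ^ 2 / 2)) := by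
    unfold J
    simp_rw [hin]
    rw [← ENNReal.ofReal_prod_of_nonneg (fun i _ => by positivity)]
    congr 1
    simp_rw [← Real.exp_add]
    rw [← Real.exp_sum]
    congr 1
    rw [Finset.sum_add_distrib, Finset.mul_sum, add_comm, neg_div, Finset.sum_div,
      ← Finset.sum_neg_distrib]
    congr 1
    refine Finset.sum_congr rfl fun i _ => ?_
    ring
  rw [e1, e2]

/-- `N y = ∑ w_i y_i²` -/
noncomputable def Nn (b : OrthonormalBasis ι ℝ E) (w : ι → ℝ) (y : E) : ℝ := ∑ i, w i * ⟪b i, y⟫ ^ 2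

/-- `-(log (1 + N))'/(1+N)`, the derivative of `N/(1+N)` along the flow -/
noncomputable def θ (b : OrthonormalBasis ι ℝ E) (r w : ι → ℝ) (y : E) : ℝ :=
  (∑ i, 2 * r i * (w i * ⟪b i, y⟫ ^ 2)) / (1 + Nn b w y) ^ 2

variable {w : ι → ℝ}

lemma continuous_Nn : Continuous (Nn b w) := by
  unfold Nn
  fun_prop

lemma Nn_nonneg (hw : ∀ i, 0 ≤ w i) (y : E) : 0 ≤ Nn b w y :=
  Finset.sum_nonneg fun i _ => mul_nonneg (hw i) (sq_nonneg _)

lemma θ_nonneg (hr : ∀ i, 0 ≤ r i) (hw : ∀ i, 0 ≤ w i) (y : E) : 0 ≤ θ b r w y := by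
  unfold θ
  refine div_nonneg (Finset.sum_nonneg fun i _ => ?_) (sq_nonneg _)
  exact mul_nonneg (mul_nonneg (by norm_num) (hr i)) (mul_nonneg (hw i) (sq_nonneg _))

lemma continuous_θ (hw : ∀ i, 0 ≤ w i) : Continuous (θ b r w) := by
  unfold θ
  refine Continuous.div (by fun_prop) (by have := continuous_Nn b (w := w); fun_prop) fun y => ?_
  have := Nn_nonneg b hw y
  positivity

lemma Nn_fl (t : ℝ) (y : E) :
    Nn b w (fl b r t y) = ∑ i, w i * (Real.exp (t * r i) * ⟪b i, y⟫) ^ 2 := by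
  simp [Nn]

lemma hasDerivAt_Nn (t : ℝ) (y : E) : HasDerivAt (fun t => Nn b w (fl b r t y))
    (∑ i, 2 * r i * (w i * ⟪b i, fl b r t y⟫ ^ 2)) t := by
  simp_rw [Nn_fl, inner_fl]
  have : ∀ i ∈ Finset.univ, HasDerivAt (fun t => w i * (Real.exp (t * r i) * ⟪b i, y⟫) ^ 2)
      (2 * r i * (w i * (Real.exp (t * r i) * ⟪b i, y⟫) ^ 2)) t := by
    intro i _
    have h1 : HasDerivAt (fun t : ℝ => t * r i) (r i) t := by
      simpa using (hasDerivAt_id t).mul_const (r i)
    have h2 := (((h1.exp).mul_const ⟪b i, y⟫).pow 2).const_mul (w i)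
    refine h2.congr_deriv ?_
    simp only [Nat.cast_ofNat]
    ring
  exact HasDerivAt.fun_sum this

/-- `N` is monotone along the flow. -/
lemma Nn_mono (hr : ∀ i, 0 ≤ r i) (hw : ∀ i, 0 ≤ w i) (y : E) :
    Monotone (fun t => Nn b w (fl b r t y)) := by
  intro s t hst
  simp only [Nn_fl]
  refine Finset.sum_le_sum fun i _ => mul_le_mul_of_nonneg_left ?_ (hw i)
  rw [mul_pow, mul_pow]
  refine mul_le_mul_of_nonneg_right ?_ (sq_nonneg _)
  have : Real.exp (s * r i) ≤ Real.exp (t * r i) :=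
    Real.exp_le_exp.2 (mul_le_mul_of_nonneg_right hst (hr i))
  exact pow_le_pow_left₀ (Real.exp_pos _).le this 2

lemma tendsto_Nn_atBot (hrw : ∀ i, 0 < w i → 0 < r i) (hw : ∀ i, 0 ≤ w i) (y : E) :
    Tendsto (fun t => Nn b w (fl b r t y)) atBot (𝓝 0) := by
  simp only [Nn_fl]
  rw [show (0:ℝ) = ∑ i : ι, (0:ℝ) by simp]
  refine tendsto_finsetSum _ fun i _ => ?_
  rcases (hw i).eq_or_lt with h | h
  · simp [← h]
  · have h1 : Tendsto (fun t : ℝ => Real.exp (t * r i)) atBot (𝓝 0) :=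
      Real.tendsto_exp_atBot.comp (tendsto_id.atBot_mul_const (hrw i h))
    have := ((h1.mul_const ⟪b i, y⟫).pow 2).const_mul (w i)
    simpa using this

lemma tendsto_Nn_atTop (hrw : ∀ i, 0 < w i → 0 < r i) (hw : ∀ i, 0 ≤ w i) {y : E}
    (hy : 0 < Nn b w y) :
    Tendsto (fun t => Nn b w (fl b r t y)) atTop atTop := by
  obtain ⟨i, _, hi⟩ : ∃ i ∈ Finset.univ, 0 < w i * ⟪b i, y⟫ ^ 2 := by
    by_contra h
    push Not at h
    exact absurd (Finset.sum_nonpos h) (not_le.2 hy)
  have hwi : 0 < w i := by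
    rcases (hw i).eq_or_lt with h | h
    · rw [← h] at hi; simp at hi
    · exact h
  have hyi : 0 < ⟪b i, y⟫ ^ 2 := by
    by_contra h
    have : ⟪b i, y⟫ ^ 2 = 0 := le_antisymm (not_lt.1 h) (sq_nonneg _)
    rw [this] at hi; simp at hi
  have h1 : Tendsto (fun t : ℝ => Real.exp (t * r i)) atTop atTop :=
    Real.tendsto_exp_atTop.comp (tendsto_id.atTop_mul_const (hrw i hwi))
  have h2 : Tendsto (fun t : ℝ => (w i * ⟪b i, y⟫ ^ 2) * (Real.exp (t * r i)) ^ 2) atTop atTop :=
    Tendsto.const_mul_atTop hi ((tendsto_pow_atTop two_ne_zero).comp h1)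
  refine tendsto_atTop_mono (fun t => ?_) h2
  rw [Nn_fl]
  refine le_trans (le_of_eq ?_) (Finset.single_le_sum
    (f := fun i => w i * (Real.exp (t * r i) * ⟪b i, y⟫) ^ 2)
    (fun j _ => mul_nonneg (hw j) (sq_nonneg _)) (Finset.mem_univ i))
  ring

lemma hasDerivAt_ratio (hw : ∀ i, 0 ≤ w i) (t : ℝ) (y : E) :
    HasDerivAt (fun t => - (1 + Nn b w (fl b r t y))⁻¹) (θ b r w (fl b r t y)) t := by
  have h0 := Nn_nonneg b hw (fl b r t y)
  have h1 := ((hasDerivAt_Nn b r (w := w) t y).const_add 1).inv (by positivity)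
  refine h1.neg.congr_deriv ?_
  unfold θ
  rw [neg_div, neg_neg]

/-- the weight has total mass one on every orbit with `N > 0` -/
lemma lintegral_θ (hr : ∀ i, 0 ≤ r i) (hrw : ∀ i, 0 < w i → 0 < r i) (hw : ∀ i, 0 ≤ w i) {y : E}
    (hy : 0 < Nn b w y) : ∫⁻ t, ENNReal.ofReal (θ b r w (fl b r t y)) = 1 := by
  have cf : Continuous fun t : ℝ => fl b r t y :=
    (continuous_fl b r).comp (by fun_prop : Continuous fun t : ℝ => (t, y))
  have cθ : Continuous fun t : ℝ => θ b r w (fl b r t y) := (continuous_θ b r hw).comp cf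
  have hd : ∀ t, HasDerivAt (fun t => - (1 + Nn b w (fl b r t y))⁻¹) (θ b r w (fl b r t y)) t :=
    fun t => hasDerivAt_ratio b r hw t y
  have l1 : Tendsto (fun t => - (1 + Nn b w (fl b r t y))⁻¹) atBot (𝓝 (-1)) := by
    have := (((tendsto_Nn_atBot b r hrw hw y).const_add 1).inv₀ (by norm_num)).neg
    simpa using this
  have l2 : Tendsto (fun t => - (1 + Nn b w (fl b r t y))⁻¹) atTop (𝓝 0) := by
    have := ((tendsto_atTop_add_const_left _ 1 (tendsto_Nn_atTop b r hrw hw hy)).inv_tendsto_atTop).neg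
    simpa using this
  have hi : Integrable fun t => θ b r w (fl b r t y) := by
    refine integrable_of_intervalIntegral_norm_tendsto (l := atTop) (a := fun n : ℝ => -n)
      (b := fun n : ℝ => n) 1 (fun n => (cθ.integrableOn_Ioc)) tendsto_neg_atTop_atBot tendsto_id ?_
    have e : ∀ n : ℝ, ∫ t in (-n)..n, ‖θ b r w (fl b r t y)‖
        = - (1 + Nn b w (fl b r n y))⁻¹ - - (1 + Nn b w (fl b r (-n) y))⁻¹ := by
      intro n
      rw [← intervalIntegral.integral_eq_sub_of_hasDerivAt (fun t _ => hd t)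
        (cθ.intervalIntegrable _ _)]
      refine intervalIntegral.integral_congr fun t _ => ?_
      exact Real.norm_of_nonneg (θ_nonneg b r hr hw _)
    simp_rw [e]
    have := l2.sub (l1.comp tendsto_neg_atTop_atBot)
    simpa using this
  rw [← ofReal_integral_eq_lintegral_ofReal hi (Eventually.of_forall fun t => θ_nonneg b r hr hw _),
    integral_of_hasDerivAt_of_tendsto hd hi l1 l2]
  simp

lemma Nn_pos_iff (hw : ∀ i, 0 ≤ w i) (y : E) : 0 < Nn b w y ↔ ∃ i, 0 < w i * ⟪b i, y⟫ ^ 2 := by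
  constructor
  · intro hy
    by_contra h
    push Not at h
    exact absurd (Finset.sum_nonpos fun i _ => h i) (not_le.2 hy)
  · rintro ⟨i, hi⟩
    exact Finset.sum_pos' (fun j _ => mul_nonneg (hw j) (sq_nonneg _)) ⟨i, Finset.mem_univ i, hi⟩

lemma Nn_fl_pos_iff (hw : ∀ i, 0 ≤ w i) (t : ℝ) (y : E) :
    0 < Nn b w (fl b r t y) ↔ 0 < Nn b w y := by
  rw [Nn_pos_iff b hw, Nn_pos_iff b hw]
  refine exists_congr fun i => ?_
  rw [inner_fl, show w i * (Real.exp (t * r i) * ⟪b i, y⟫) ^ 2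
    = Real.exp (t * r i) ^ 2 * (w i * ⟪b i, y⟫ ^ 2) by ring]
  exact mul_pos_iff_of_pos_left (by positivity)

lemma measurableSet_Nn : MeasurableSet {y | 0 < Nn b w y} :=
  measurableSet_lt measurable_const (continuous_Nn b).measurable

lemma measurable_fl2 : Measurable (fun p : ℝ × E => fl b r p.1 p.2) := (continuous_fl b r).measurable

lemma measurable_J2 : Measurable (fun p : ℝ × E => ENNReal.ofReal (J b r p.1 p.2)) :=
  (continuous_J b r).measurable.ennreal_ofReal

lemma measurable_fl_time (y : E) : Measurable fun t : ℝ => fl b r t y :=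
  (measurable_fl2 b r).comp measurable_prodMk_right

lemma measurable_fl_space (t : ℝ) : Measurable fun y : E => fl b r t y :=
  (measurable_fl2 b r).comp measurable_prodMk_left

lemma measurable_J_time (y : E) : Measurable fun t : ℝ => ENNReal.ofReal (J b r t y) := by
  have h1 : Measurable fun t : ℝ => ((t, y) : ℝ × E) := measurable_prodMk_right
  have h2 : Continuous fun t : ℝ => J b r t y := by
    unfold J
    fun_prop
  exact h2.measurable.ennreal_ofReal

lemma orb_step1 {H Θ : E → ℝ≥0∞} (mH : Measurable H) (mΘ : Measurable Θ) :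
    ∫⁻ y, (∫⁻ t : ℝ, H y * Θ (fl b r (-t) y)) ∂(stdGaussian E)
      = ∫⁻ y, Θ y * ∫⁻ t : ℝ, H (fl b r t y) * ENNReal.ofReal (J b r t y) ∂volume
          ∂(stdGaussian E) := by
  have m1 : Measurable (Function.uncurry fun (y : E) (t : ℝ) => H y * Θ (fl b r (-t) y)) := by
    have : Measurable fun p : E × ℝ => fl b r (-p.2) p.1 :=
      (measurable_fl2 b r).comp (by fun_prop : Measurable fun p : E × ℝ => (-p.2, p.1))
    exact (mH.comp measurable_fst).mul (mΘ.comp this)
  have m2 : Measurable (Function.uncurry fun (t : ℝ) (y : E) =>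
      Θ y * (H (fl b r t y) * ENNReal.ofReal (J b r t y))) :=
    (mΘ.comp measurable_snd).mul ((mH.comp (measurable_fl2 b r)).mul (measurable_J2 b r))
  rw [lintegral_lintegral_swap m1.aemeasurable]
  have e1 : ∀ t : ℝ, ∫⁻ y, H y * Θ (fl b r (-t) y) ∂(stdGaussian E)
      = ∫⁻ y, Θ y * (H (fl b r t y) * ENNReal.ofReal (J b r t y)) ∂(stdGaussian E) := by
    intro t
    rw [← lintegral_fl b r t (h := fun y => H y * Θ (fl b r (-t) y))
      (mH.mul (mΘ.comp (measurable_fl_space b r (-t))))]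
    refine lintegral_congr fun y => ?_
    simp only [fl_fl, neg_add_cancel, fl_zero]
    ring
  rw [lintegral_congr e1, lintegral_lintegral_swap m2.aemeasurable]
  refine lintegral_congr fun y => ?_
  exact lintegral_const_mul _ ((mH.comp (measurable_fl_time b r y)).mul (measurable_J_time b r y))

/-- Disintegration for an arbitrary weight. -/
theorem orb_gen {A : Set E} (mA : MeasurableSet A) (hfA : ∀ (t : ℝ) (y : E), fl b r t y ∈ A ↔ y ∈ A)
    {Θ : E → ℝ≥0∞} (mΘ : Measurable Θ) (hΘ : ∀ y ∈ A, ∫⁻ t : ℝ, Θ (fl b r t y) = 1)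
    {h : E → ℝ≥0∞} (hh : Measurable h) :
    ∫⁻ y in A, h y ∂(stdGaussian E)
      = ∫⁻ y in A, (Θ y *
          ∫⁻ t : ℝ, h (fl b r t y) * ENNReal.ofReal (J b r t y)) ∂(stdGaussian E) := by
  have h1 : ∀ y, A.indicator h y = ∫⁻ t : ℝ, A.indicator h y * Θ (fl b r (-t) y) := by
    intro y
    have m5 : Measurable fun t : ℝ => Θ (fl b r (-t) y) :=
      mΘ.comp ((measurable_fl_time b r y).comp measurable_neg)
    rw [lintegral_const_mul _ m5]
    by_cases hy : y ∈ A
    · have := hΘ y hy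
      rw [← lintegral_neg_eq_self] at this
      rw [this, mul_one]
    · rw [indicator_of_notMem hy, zero_mul]
  rw [← lintegral_indicator mA, ← lintegral_indicator mA, lintegral_congr h1,
    orb_step1 b r (hh.indicator mA) mΘ]
  refine lintegral_congr fun y => ?_
  by_cases hy : y ∈ A
  · rw [indicator_of_mem hy]
    congr 1
    refine lintegral_congr fun t => ?_
    rw [indicator_of_mem ((hfA t y).2 hy)]
  · rw [indicator_of_notMem hy]
    have : ∀ t : ℝ, A.indicator h (fl b r t y) * ENNReal.ofReal (J b r t y) = 0 := by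
      intro t
      rw [indicator_of_notMem (fun hc => hy ((hfA t y).1 hc)), zero_mul]
    simp_rw [this]
    simp

/-- **Disintegration along the orbits.** -/
theorem orb_lintegral (hr : ∀ i, 0 ≤ r i) (hrw : ∀ i, 0 < w i → 0 < r i) (hw : ∀ i, 0 ≤ w i)
    {h : E → ℝ≥0∞} (hh : Measurable h) :
    ∫⁻ y in {y | 0 < Nn b w y}, h y ∂(stdGaussian E)
      = ∫⁻ y in {y | 0 < Nn b w y}, (ENNReal.ofReal (θ b r w y) *
          ∫⁻ t : ℝ, h (fl b r t y) * ENNReal.ofReal (J b r t y)) ∂(stdGaussian E) :=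
  orb_gen b r (measurableSet_Nn b) (fun t y => Nn_fl_pos_iff b r hw t y)
    (continuous_θ b r hw).measurable.ennreal_ofReal
    (fun _ hy => lintegral_θ b r hr hrw hw hy) hh

/-- `{N = 0}` is a null set as soon as `w ≠ 0`. -/
lemma ae_Nn_pos (hw : ∀ i, 0 ≤ w i) {i : ι} (hi : 0 < w i) :
    ∀ᵐ y ∂(stdGaussian E), 0 < Nn b w y := by
  have h1 : (stdGaussian E) {y | ⟪b i, y⟫ = 0} = 0 := by
    have e := gau_map_inner (ContinuousLinearMap.id ℝ E) (b i)
    rw [gau_id, adjoint_id', ContinuousLinearMap.id_apply] at e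
    have : ‖b i‖₊ = 1 := by
      ext
      simp
    rw [this, one_pow] at e
    have h0 : ((stdGaussian E).map (fun x => ⟪b i, x⟫)) {0} = 0 := by
      rw [e]
      have := nullSingletonClass_gaussianReal (μ := 0) (one_ne_zero : (1:ℝ≥0) ≠ 0)
      exact measure_singleton 0
    rw [Measure.map_apply (by fun_prop) (measurableSet_singleton 0)] at h0
    exact h0
  have h2 : ∀ᵐ y ∂(stdGaussian E), ¬ ⟪b i, y⟫ = 0 := by
    rw [ae_iff]
    simpa using h1
  filter_upwards [h2] with y hy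
  exact (Nn_pos_iff b hw y).2 ⟨i, mul_pos hi (by positivity)⟩

/-- **Comparison along the orbits.** -/
theorem orb_compare (hr : ∀ i, 0 ≤ r i) (hrw : ∀ i, 0 < w i → 0 < r i) (hw : ∀ i, 0 ≤ w i)
    {h1 h2 : E → ℝ≥0∞} (m1 : Measurable h1) (m2 : Measurable h2)
    (h : ∀ y, 0 < Nn b w y → ∫⁻ t : ℝ, h1 (fl b r t y) * ENNReal.ofReal (J b r t y)
      ≤ ∫⁻ t : ℝ, h2 (fl b r t y) * ENNReal.ofReal (J b r t y)) :
    ∫⁻ y in {y | 0 < Nn b w y}, h1 y ∂(stdGaussian E)
      ≤ ∫⁻ y in {y | 0 < Nn b w y}, h2 y ∂(stdGaussian E) := by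
  rw [orb_lintegral b r hr hrw hw m1, orb_lintegral b r hr hrw hw m2]
  refine setLIntegral_mono' (measurableSet_Nn b) fun y hy => ?_
  exact mul_le_mul_right (h y hy) _

/-- Comparison along the orbits, whole space. -/
theorem orb_compare' (hr : ∀ i, 0 ≤ r i) (hrw : ∀ i, 0 < w i → 0 < r i) (hw : ∀ i, 0 ≤ w i)
    {i : ι} (hi : 0 < w i)
    {h1 h2 : E → ℝ≥0∞} (m1 : Measurable h1) (m2 : Measurable h2)
    (h : ∀ y, 0 < Nn b w y → ∫⁻ t : ℝ, h1 (fl b r t y) * ENNReal.ofReal (J b r t y)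
      ≤ ∫⁻ t : ℝ, h2 (fl b r t y) * ENNReal.ofReal (J b r t y)) :
    ∫⁻ y, h1 y ∂(stdGaussian E) ≤ ∫⁻ y, h2 y ∂(stdGaussian E) := by
  have h3 := orb_compare b r hr hrw hw m1 m2 h
  have e : ∀ g : E → ℝ≥0∞, ∫⁻ y in {y | 0 < Nn b w y}, g y ∂(stdGaussian E)
      = ∫⁻ y, g y ∂(stdGaussian E) := by
    intro g
    have := Measure.restrict_eq_self_of_ae_mem (s := {y | 0 < Nn b w y}) (ae_Nn_pos b hw hi)
    rw [this]
  rwa [e, e] at h3

end flow

end Crest.Agent.R239.Orb
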