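import Crest.Agent.R239.Gau3

/-! General Gaussian tools for R239, part 4 (helper622): line decomposition, Cameron–Martin,
shift lemma, norm tails. -/

set_option autoImplicit false
set_option linter.unusedSectionVars false
open MeasureTheory ProbabilityTheory Set Filter Topology Metric
open scoped RealInnerProductSpace ENNReal NNReal InnerProduct Pointwise

namespace Crest.Agent.R239

open Crest.Agent.Lib.Ehrhard

variable {E : Type*} [NormedAddCommGroup E] [InnerProductSpace ℝ E] [FiniteDimensional ℝ E]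
  [MeasurableSpace E] [BorelSpace E]
variable {F : Type*} [NormedAddCommGroup F] [InnerProductSpace ℝ F] [FiniteDimensional ℝ F]
  [MeasurableSpace F] [BorelSpace F]

lemma stdGaussian_real : stdGaussian ℝ = gaussianReal 0 1 := by
  apply Measure.ext_of_charFun
  ext t
  rw [charFun_stdGaussian, charFun_gaussianReal]
  congr 1
  have : ((‖t‖ : ℝ) : ℂ) ^ 2 = (t : ℂ) ^ 2 := by
    norm_cast
    rw [Real.norm_eq_abs, sq_abs]
  rw [this]
  simp
  ring

/-- projection on the orthogonal complement of the unit vector `n` (as a map `E → E`) -/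
noncomputable def proj (n : E) : E →L[ℝ] E :=
  ContinuousLinearMap.id ℝ E - (innerSL ℝ n : E →L[ℝ] ℝ).smulRight n

lemma proj_apply (n x : E) : proj n x = x - ⟪n, x⟫ • n := by
  simp [proj]

lemma inner_proj {n : E} (hn : ‖n‖ = 1) (x : E) : ⟪n, proj n x⟫ = 0 := by
  rw [proj_apply, inner_sub_right, inner_smul_right, real_inner_self_eq_norm_sq, hn]
  ring

lemma proj_add_inner (n x : E) : ⟪n, x⟫ • n + proj n x = x := by
  rw [proj_apply]; abel

lemma adjoint_toSpanSingleton (n t : E) :
    (ContinuousLinearMap.toSpanSingleton ℝ n).adjoint t = ⟪n, t⟫ := by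
  apply ext_inner_right ℝ
  intro s
  rw [ContinuousLinearMap.adjoint_inner_left]
  simp [inner_smul_right, real_inner_comm]

lemma adjoint_proj (n t : E) : (proj n).adjoint t = proj n t := by
  apply ext_inner_right ℝ
  intro x
  rw [ContinuousLinearMap.adjoint_inner_left, proj_apply, proj_apply, inner_sub_right,
    inner_sub_left, inner_smul_right, inner_smul_left, real_inner_comm t n]
  simp
  ring

/-- The line decomposition: `s n + P_n y` is standard Gaussian for independent standard `s, y`. -/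
theorem line_decomp {n : E} (hn : ‖n‖ = 1) :
    ((gaussianReal 0 1).prod (stdGaussian E)).map (fun p => p.1 • n + proj n p.2)
      = stdGaussian E := by
  have h := map_add_prod (A := ContinuousLinearMap.toSpanSingleton ℝ n) (B := proj n)
    (C := ContinuousLinearMap.id ℝ E) (by
      intro t
      rw [adjoint_toSpanSingleton, adjoint_proj, adjoint_id', ContinuousLinearMap.id_apply]
      have h1 : ‖proj n t‖ ^ 2 = ‖t‖ ^ 2 - ⟪n, t⟫ ^ 2 := by
        rw [proj_apply, norm_sub_sq_real, norm_smul, inner_smul_right, hn, real_inner_comm,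
          Real.norm_eq_abs, mul_one, sq_abs]
        ring
      rw [h1, Real.norm_eq_abs, sq_abs]
      ring)
  rw [stdGaussian_real, gau_id] at h
  exact h

lemma measurable_line (n : E) : Measurable (fun p : ℝ × E => p.1 • n + proj n p.2) := by
  fun_prop

theorem line_lintegral {n : E} (hn : ‖n‖ = 1) {f : E → ℝ≥0∞} (hf : Measurable f) :
    ∫⁻ x, f x ∂(stdGaussian E)
      = ∫⁻ y, ∫⁻ s, f (s • n + proj n y) ∂(gaussianReal 0 1) ∂(stdGaussian E) := by
  conv_lhs => rw [← line_decomp hn]
  rw [lintegral_map hf (measurable_line n), lintegral_prod_symm]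
  exact (hf.comp (measurable_line n)).aemeasurable

theorem line_integral {n : E} (hn : ‖n‖ = 1) {f : E → ℝ} (hf : Integrable f (stdGaussian E)) :
    ∫ x, f x ∂(stdGaussian E)
      = ∫ y, ∫ s, f (s • n + proj n y) ∂(gaussianReal 0 1) ∂(stdGaussian E) := by
  rw [← line_decomp hn] at hf
  conv_lhs => rw [← line_decomp hn]
  rw [integral_map (measurable_line n).aemeasurable hf.aestronglyMeasurable]
  rw [integral_prod_symm]
  exact hf.comp_measurable (measurable_line n)

theorem line_measure {n : E} (hn : ‖n‖ = 1) {K : Set E} (hK : MeasurableSet K) :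
    stdGaussian E K = ∫⁻ y, gaussianReal 0 1 {s | s • n + proj n y ∈ K} ∂(stdGaussian E) := by
  conv_lhs => rw [← line_decomp hn]
  rw [Measure.map_apply (measurable_line n) hK, Measure.prod_apply_symm (measurable_line n hK)]
  rfl

theorem line_measure_real {n : E} (hn : ‖n‖ = 1) {K : Set E} (hK : MeasurableSet K) :
    (stdGaussian E).real K
      = ∫ y, (gaussianReal 0 1).real {s | s • n + proj n y ∈ K} ∂(stdGaussian E) := by
  have hmeas : Measurable fun y : E => (gaussianReal 0 1).real {s | s • n + proj n y ∈ K} :=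
    (measurable_measure_prodMk_right (measurable_line n hK)).ennreal_toReal
  rw [Measure.real, line_measure hn hK, integral_eq_lintegral_of_nonneg_ae
    (Eventually.of_forall fun x => measureReal_nonneg) hmeas.aestronglyMeasurable]
  congr 1
  refine lintegral_congr fun x => ?_
  rw [Measure.real, ENNReal.ofReal_toReal (measure_ne_top _ _)]

/-! ### Cameron–Martin -/

lemma gaussianPDF_shift (c s : ℝ) :
    gaussianPDF 0 1 (s - c) = ENNReal.ofReal (Real.exp (c * s - c ^ 2 / 2)) * gaussianPDF 0 1 s := by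
  unfold gaussianPDF
  rw [← ENNReal.ofReal_mul (Real.exp_pos _).le]
  congr 1
  unfold gaussianPDFReal
  rw [mul_left_comm, ← Real.exp_add]
  congr 2
  simp
  ring

theorem cameron_martin_real (c : ℝ) {f : ℝ → ℝ≥0∞} (hf : Measurable f) :
    ∫⁻ s, f (s + c) ∂(gaussianReal 0 1)
      = ∫⁻ s, f s * ENNReal.ofReal (Real.exp (c * s - c ^ 2 / 2)) ∂(gaussianReal 0 1) := by
  rw [gaussianReal_of_var_ne_zero _ one_ne_zero,
    lintegral_withDensity_eq_lintegral_mul _ (measurable_gaussianPDF _ _) (by fun_prop),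
    lintegral_withDensity_eq_lintegral_mul _ (measurable_gaussianPDF _ _) (by fun_prop),
    ← lintegral_sub_right_eq_self _ c]
  refine lintegral_congr fun s => ?_
  simp only [Pi.mul_apply, sub_add_cancel]
  rw [gaussianPDF_shift]
  ring

/-- Cameron–Martin formula. -/
theorem cameron_martin (h : E) {f : E → ℝ≥0∞} (hf : Measurable f) :
    ∫⁻ x, f (x + h) ∂(stdGaussian E)
      = ∫⁻ x, f x * ENNReal.ofReal (Real.exp (⟪h, x⟫ - ‖h‖ ^ 2 / 2)) ∂(stdGaussian E) := by
  rcases eq_or_ne h 0 with rfl | hh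
  · simp
  have hpos : 0 < ‖h‖ := norm_pos_iff.2 hh
  set n : E := (‖h‖)⁻¹ • h with hn
  have hn1 : ‖n‖ = 1 := by rw [hn, norm_smul, norm_inv, norm_norm, inv_mul_cancel₀ hpos.ne']
  have hh2 : h = ‖h‖ • n := by rw [hn, smul_smul, mul_inv_cancel₀ hpos.ne', one_smul]
  rw [line_lintegral hn1 (f := fun x => f (x + h)) (by fun_prop),
    line_lintegral hn1 (f := fun x => f x * ENNReal.ofReal (Real.exp (⟪h, x⟫ - ‖h‖ ^ 2 / 2)))
      (by fun_prop)]
  refine lintegral_congr fun y => ?_
  have e1 : ∀ s : ℝ, s • n + proj n y + h = (s + ‖h‖) • n + proj n y := by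
    intro s
    nth_rw 1 [hh2]
    rw [add_smul]
    abel
  have e2 : ∀ s : ℝ, ⟪h, s • n + proj n y⟫ = ‖h‖ * s := by
    intro s
    nth_rw 1 [hh2]
    rw [inner_smul_left, inner_add_right, inner_proj hn1, inner_smul_right,
      real_inner_self_eq_norm_sq, hn1]
    simp
  have e3 : ∀ s : ℝ, f (s • n + proj n y)
      * ENNReal.ofReal (Real.exp (⟪h, s • n + proj n y⟫ - ‖h‖ ^ 2 / 2))
      = f (s • n + proj n y) * ENNReal.ofReal (Real.exp (‖h‖ * s - ‖h‖ ^ 2 / 2)) := by
    intro s
    rw [e2]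
  rw [lintegral_congr e3, lintegral_congr fun s => congrArg f (e1 s)]
  exact cameron_martin_real ‖h‖ (f := fun s => f (s • n + proj n y)) (by fun_prop)

theorem cameron_martin_measure (h : E) {K : Set E} (hK : MeasurableSet K) :
    stdGaussian E {x | x + h ∈ K}
      = ∫⁻ x in K, ENNReal.ofReal (Real.exp (⟪h, x⟫ - ‖h‖ ^ 2 / 2)) ∂(stdGaussian E) := by
  have h1 := cameron_martin h (f := K.indicator 1) (measurable_one.indicator hK)
  have e : ∫⁻ x, K.indicator 1 (x + h) ∂(stdGaussian E) = stdGaussian E {x | x + h ∈ K} := by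
    have hm : MeasurableSet {x : E | x + h ∈ K} := measurable_add_const h hK
    rw [← lintegral_indicator_one hm]
    rfl
  rw [e] at h1
  rw [h1, ← lintegral_indicator hK]
  refine lintegral_congr fun x => ?_
  by_cases hx : x ∈ K <;> simp [hx]

lemma integrable_exp_inner (h : E) :
    Integrable (fun x : E => Real.exp (⟪h, x⟫ - ‖h‖ ^ 2 / 2)) (stdGaussian E) := by
  refine ⟨by fun_prop, ?_⟩
  have h1 := cameron_martin h (f := fun _ => 1) measurable_const
  simp only [one_mul, lintegral_const, measure_univ, mul_one] at h1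
  rw [hasFiniteIntegral_iff_ofReal (Eventually.of_forall fun x => (Real.exp_pos _).le), ← h1]
  exact ENNReal.one_lt_top

theorem cameron_martin_measure_real (h : E) {K : Set E} (hK : MeasurableSet K) :
    (stdGaussian E).real {x | x + h ∈ K}
      = ∫ x in K, Real.exp (⟪h, x⟫ - ‖h‖ ^ 2 / 2) ∂(stdGaussian E) := by
  rw [Measure.real, cameron_martin_measure h hK,
    integral_eq_lintegral_of_nonneg_ae (Eventually.of_forall fun x => (Real.exp_pos _).le)
      (by fun_prop)]

/-- The shift lemma: `Φ⁻¹γ(K)` is 1-Lipschitz under translations. -/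
theorem shift_le {K : Set E} (hK : MeasurableSet K) (h : E) {a : ℝ}
    (ha : Phi a ≤ (stdGaussian E).real K) :
    Phi (a - ‖h‖) ≤ (stdGaussian E).real {x | x + h ∈ K} := by
  rcases eq_or_ne h 0 with rfl | hh
  · simpa using ha
  have hpos : 0 < ‖h‖ := norm_pos_iff.2 hh
  -- the extremal half space {⟪h,x⟫ ≥ -a‖h‖}... (weights increase with ⟪h,x⟫)
  set H : Set E := {x | ⟪h, x⟫ ≤ a * ‖h‖} with hH
  have hHm : MeasurableSet H := measurableSet_le (by fun_prop) (by fun_prop)
  have hHγ : (stdGaussian E).real H = Phi a := by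
    have := std_halfspace h hh (a * ‖h‖)
    rw [mul_div_cancel_right₀ _ hpos.ne'] at this
    exact this
  have hHs : (stdGaussian E).real {x | x + h ∈ H} = Phi (a - ‖h‖) := by
    have h1 : {x : E | x + h ∈ H} = {x | ⟪h, x⟫ ≤ (a - ‖h‖) * ‖h‖} := by
      ext x
      simp only [hH, mem_ofPred_eq, inner_add_right, real_inner_self_eq_norm_sq]
      constructor <;> intro h2 <;> nlinarith
    rw [h1, std_halfspace h hh, mul_div_cancel_right₀ _ hpos.ne']
  set w : E → ℝ := fun x => Real.exp (⟪h, x⟫ - ‖h‖ ^ 2 / 2) with hw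
  set w0 : ℝ := Real.exp (a * ‖h‖ - ‖h‖ ^ 2 / 2) with hw0
  have hwi : Integrable w (stdGaussian E) := integrable_exp_inner h
  have e1 := cameron_martin_measure_real h hK
  have e2 := cameron_martin_measure_real h hHm
  rw [hHs] at e2
  rw [e1, e2]
  change ∫ x in H, w x ∂(stdGaussian E) ≤ ∫ x in K, w x ∂(stdGaussian E)
  have e3 : ∫ x, (K.indicator w x - H.indicator w x - w0 * (K.indicator 1 x - H.indicator 1 x))
      ∂(stdGaussian E) = (∫ x in K, w x ∂(stdGaussian E)) - (∫ x in H, w x ∂(stdGaussian E))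
        - w0 * ((stdGaussian E).real K - (stdGaussian E).real H) := by
    have i1 : Integrable (K.indicator w) (stdGaussian E) := hwi.indicator hK
    have i2 : Integrable (H.indicator w) (stdGaussian E) := hwi.indicator hHm
    have i3 : Integrable (K.indicator (1 : E → ℝ)) (stdGaussian E) :=
      (integrable_const (1:ℝ)).indicator hK
    have i4 : Integrable (H.indicator (1 : E → ℝ)) (stdGaussian E) :=
      (integrable_const (1:ℝ)).indicator hHm
    have j1 : Integrable (fun x => K.indicator w x - H.indicator w x) (stdGaussian E) := i1.sub i2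
    have j2 : Integrable (fun x => w0 * (K.indicator (1 : E → ℝ) x - H.indicator 1 x))
        (stdGaussian E) := (i3.sub i4).const_mul _
    have j3 : ∫ x, (K.indicator (1 : E → ℝ) x - H.indicator 1 x) ∂(stdGaussian E)
        = (stdGaussian E).real K - (stdGaussian E).real H := by
      rw [integral_sub i3 i4, integral_indicator_one hK, integral_indicator_one hHm]
    rw [integral_sub j1 j2, integral_sub i1 i2, integral_indicator hK, integral_indicator hHm,
      integral_const_mul, j3]
  have e4 : 0 ≤ ∫ x, (K.indicator w x - H.indicator w x - w0 * (K.indicator 1 x - H.indicator 1 x))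
      ∂(stdGaussian E) := by
    refine integral_nonneg fun x => ?_
    simp only [Pi.zero_apply]
    by_cases hx : x ∈ K <;> by_cases hy : x ∈ H
    · simp [hx, hy]
    · simp only [indicator_of_mem hx, indicator_of_notMem hy, Pi.one_apply, sub_zero, mul_one]
      have : a * ‖h‖ < ⟪h, x⟫ := by simpa [hH] using hy
      have : w0 ≤ w x := Real.exp_le_exp.2 (by linarith)
      linarith
    · simp only [indicator_of_notMem hx, indicator_of_mem hy, Pi.one_apply, zero_sub, mul_neg,
        mul_one, sub_neg_eq_add]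
      have : ⟪h, x⟫ ≤ a * ‖h‖ := hy
      have : w x ≤ w0 := Real.exp_le_exp.2 (by linarith)
      linarith
    · simp [hx, hy]
  have e5 : 0 ≤ w0 * ((stdGaussian E).real K - (stdGaussian E).real H) :=
    mul_nonneg (Real.exp_pos _).le (by rw [hHγ]; linarith)
  linarith

/-- Shift lemma for a general centred Gaussian: shifts by `T u`. -/
theorem shift_le_gau (T : F →L[ℝ] E) {K : Set E} (hK : MeasurableSet K) (u : F) {a : ℝ}
    (ha : Phi a ≤ (gau T).real K) :
    Phi (a - ‖u‖) ≤ (gau T).real {x | x + T u ∈ K} := by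
  rw [gau_real_apply T hK] at ha
  have hm : MeasurableSet {x : E | x + T u ∈ K} := measurable_add_const (T u) hK
  rw [gau_real_apply T hm]
  have := shift_le (T.continuous.measurable hK) u ha
  convert this using 3
  ext x
  simp

/-- `y ∈ tset T K (Φ a) → y + T u ∈ tset T K (Φ (a - ‖u‖))`. -/
theorem tset_shift (T : F →L[ℝ] E) {K : Set E} (hK : MeasurableSet K) (u : F) {a : ℝ} {y : E}
    (hy : y ∈ tset T K (Phi a)) : y + T u ∈ tset T K (Phi (a - ‖u‖)) := by
  have h1 : MeasurableSet {x : E | y + x ∈ K} := measurable_const_add y hK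
  have := shift_le_gau T h1 u hy
  unfold tset
  simp only [mem_ofPred_eq] at this ⊢
  convert this using 3
  ext x
  rw [add_assoc, add_comm (T u)]

/-! ### Norm tails -/

lemma integrable_exp_sq_1d {l : ℝ} (hl : l < 1) :
    Integrable (fun s : ℝ => Real.exp (l * s ^ 2 / 2)) (gaussianReal 0 1) := by
  rw [gaussianReal_of_var_ne_zero _ one_ne_zero,
    integrable_withDensity_iff_integrable_smul' (measurable_gaussianPDF 0 1)
      (Eventually.of_forall fun s => gaussianPDF_lt_top)]
  have h1 : Integrable (fun s : ℝ => (Real.sqrt (2 * Real.pi))⁻¹ * Real.exp (-((1 - l) / 2) * s ^ 2)) :=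
    (integrable_exp_neg_mul_sq (by linarith : 0 < (1 - l) / 2)).const_mul _
  refine h1.congr (Eventually.of_forall fun s => ?_)
  simp only [gaussianPDF, smul_eq_mul]
  rw [ENNReal.toReal_ofReal (gaussianPDFReal_nonneg _ _ _)]
  unfold gaussianPDFReal
  rw [mul_assoc, ← Real.exp_add]
  simp only [NNReal.coe_one, mul_one, sub_zero]
  congr 2
  ring

lemma integral_exp_sq_1d {l : ℝ} (hl : l < 1) :
    ∫ s, Real.exp (l * s ^ 2 / 2) ∂(gaussianReal 0 1) = (1 - l) ^ (-(1/2:ℝ)) := by
  have hl' : 0 < 1 - l := by linarith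
  rw [integral_gaussianReal_eq_integral_smul one_ne_zero]
  have e : ∀ s : ℝ, gaussianPDFReal 0 1 s • Real.exp (l * s ^ 2 / 2)
      = (Real.sqrt (2 * Real.pi))⁻¹ * Real.exp (-((1 - l) / 2) * s ^ 2) := by
    intro s
    unfold gaussianPDFReal
    rw [smul_eq_mul, mul_assoc, ← Real.exp_add]
    simp only [NNReal.coe_one, mul_one, sub_zero]
    congr 2
    ring
  rw [integral_congr_ae (Eventually.of_forall e), integral_const_mul, integral_gaussian]
  have e2 : Real.pi / ((1 - l) / 2) = (2 * Real.pi) * (1 - l)⁻¹ := by field_simp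
  have hpi : Real.sqrt (2 * Real.pi) ≠ 0 := by positivity
  rw [e2, Real.sqrt_mul (by positivity) ((1 - l)⁻¹), ← mul_assoc, inv_mul_cancel₀ hpi, one_mul,
    Real.sqrt_eq_rpow, Real.inv_rpow hl'.le, Real.rpow_neg hl'.le]

lemma norm_sq_sum_smul (x : Fin (Module.finrank ℝ E) → ℝ) :
    ‖∑ i, x i • stdOrthonormalBasis ℝ E i‖ ^ 2 = ∑ i, x i ^ 2 := by
  rw [← real_inner_self_eq_norm_sq, (stdOrthonormalBasis ℝ E).orthonormal.inner_sum]
  simp [sq]

lemma exp_norm_sq_prod (l : ℝ) (x : Fin (Module.finrank ℝ E) → ℝ) :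
    Real.exp (l * ‖∑ i, x i • stdOrthonormalBasis ℝ E i‖ ^ 2 / 2)
      = ∏ i, Real.exp (l * x i ^ 2 / 2) := by
  rw [← Real.exp_sum, norm_sq_sum_smul, Finset.mul_sum, Finset.sum_div]

/-- `exp(λ|x|²/2)` is integrable for `λ < 1`. -/
theorem integrable_exp_norm_sq {l : ℝ} (hl : l < 1) :
    Integrable (fun x : E => Real.exp (l * ‖x‖ ^ 2 / 2)) (stdGaussian E) := by
  unfold stdGaussian
  rw [integrable_map_measure (by fun_prop) (Measurable.aemeasurable (by fun_prop))]
  have h1 : Integrable (fun x : Fin (Module.finrank ℝ E) → ℝ => ∏ i, Real.exp (l * x i ^ 2 / 2))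
      (Measure.pi fun _ => gaussianReal 0 1) :=
    Integrable.fintype_prod (fun _ => integrable_exp_sq_1d hl)
  refine h1.congr (Eventually.of_forall fun x => ?_)
  simp only [Function.comp]
  rw [exp_norm_sq_prod]

/-- `E exp(λ|x|²/2) = (1-λ)^{-n/2}` -/
theorem integral_exp_norm_sq {l : ℝ} (hl : l < 1) :
    ∫ x, Real.exp (l * ‖x‖ ^ 2 / 2) ∂(stdGaussian E)
      = (1 - l) ^ (-((Module.finrank ℝ E : ℝ) / 2)) := by
  have hl' : 0 < 1 - l := by linarith
  unfold stdGaussian
  rw [integral_map (Measurable.aemeasurable (by fun_prop)) (by fun_prop)]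
  rw [integral_congr_ae (Eventually.of_forall fun x => exp_norm_sq_prod (E := E) l x)]
  rw [integral_fintype_prod_eq_prod (f := fun _ (s : ℝ) => Real.exp (l * s ^ 2 / 2))]
  simp_rw [integral_exp_sq_1d hl]
  rw [Finset.prod_const, Finset.card_univ, Fintype.card_fin, ← Real.rpow_natCast,
    ← Real.rpow_mul hl'.le]
  congr 1
  ring

/-- `γ(‖x‖ ≥ R) ≤ (1-λ)^{-n/2} e^{-λR²/2}`. -/
theorem norm_tail {l : ℝ} (hl0 : 0 ≤ l) (hl : l < 1) {R : ℝ} (hR : 0 ≤ R) :
    (stdGaussian E).real {x | R ≤ ‖x‖}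
      ≤ (1 - l) ^ (-((Module.finrank ℝ E : ℝ) / 2)) * Real.exp (-(l * R ^ 2 / 2)) := by
  have hm := mul_meas_ge_le_integral_of_nonneg (μ := stdGaussian E)
    (f := fun x : E => Real.exp (l * ‖x‖ ^ 2 / 2)) (Eventually.of_forall fun x => (Real.exp_pos _).le)
    (integrable_exp_norm_sq hl) (Real.exp (l * R ^ 2 / 2))
  rw [integral_exp_norm_sq hl] at hm
  have hsub : {x : E | R ≤ ‖x‖} ⊆ {x | Real.exp (l * R ^ 2 / 2) ≤ Real.exp (l * ‖x‖ ^ 2 / 2)} := by
    intro x hx
    simp only [mem_ofPred_eq] at hx ⊢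
    refine Real.exp_le_exp.2 ?_
    have : R ^ 2 ≤ ‖x‖ ^ 2 := pow_le_pow_left₀ hR hx 2
    nlinarith
  rw [Real.exp_neg, ← div_eq_mul_inv, le_div_iff₀ (Real.exp_pos _), mul_comm]
  exact (mul_le_mul_of_nonneg_left (measureReal_mono hsub) (Real.exp_pos _).le).trans hm

/-- `γ(‖x‖ ≥ R) ≤ 2^{n/2} e^{-R²/4}`. -/
theorem norm_tail' {R : ℝ} (hR : 0 ≤ R) :
    (stdGaussian E).real {x | R ≤ ‖x‖}
      ≤ 2 ^ ((Module.finrank ℝ E : ℝ) / 2) * Real.exp (-(R ^ 2 / 4)) := by
  refine (norm_tail (l := 1 / 2) (by norm_num) (by norm_num) hR).trans (le_of_eq ?_)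
  have : (1 - 1 / 2 : ℝ) = 2⁻¹ := by norm_num
  rw [this, Real.inv_rpow (by norm_num), Real.rpow_neg (by norm_num), inv_inv]
  congr 2
  ring

/-- second moment of the norm -/
theorem integral_norm_sq_gau (T : F →L[ℝ] E) (n : E) :
    ∫ x, ⟪n, x⟫ ^ 2 ∂(gau T) = ‖T.adjoint n‖ ^ 2 := by
  have h1 : ∫ x, ⟪n, x⟫ ^ 2 ∂(gau T) = ∫ s, s ^ 2 ∂((gau T).map (fun x => ⟪n, x⟫)) := by
    rw [integral_map (by fun_prop) (by fun_prop)]
  rw [h1, gau_map_inner]
  have h2 := variance_fun_id_gaussianReal (μ := 0) (v := ‖T.adjoint n‖₊ ^ 2)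
  rw [variance_of_integral_eq_zero (by fun_prop) (by simp)] at h2
  simpa using h2

end Crest.Agent.R239
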