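import Crest.Agent.R239.Gau4

/-! General Gaussian tools for R239, part 5 (helper622): Ehrhard threshold lemma. -/

set_option autoImplicit false
set_option linter.unusedSectionVars false
open MeasureTheory ProbabilityTheory Set Filter Topology Metric
open scoped RealInnerProductSpace ENNReal NNReal InnerProduct Pointwise

namespace Crest.Agent.R239

open Crest.Agent.Lib.Ehrhard

/-- `∫ Φ(a - κ t) dγ(t) = Φ(a/√(1+κ²))` -/
lemma integral_Phi_affine (a k : ℝ) :
    ∫ t, Phi (a - k * t) ∂(gaussianReal 0 1) = Phi (a / Real.sqrt (1 + k ^ 2)) := by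
  have hs : 0 < Real.sqrt (1 + k ^ 2) := Real.sqrt_pos.2 (by positivity)
  have adj : ∀ c t : ℝ, (c • ContinuousLinearMap.id ℝ ℝ).adjoint t = c * t := by
    intro c t
    apply ext_inner_right ℝ
    intro s
    rw [ContinuousLinearMap.adjoint_inner_left]
    simp
    ring
  have h := gau_mix_real (A := k • ContinuousLinearMap.id ℝ ℝ) (B := (1:ℝ) • ContinuousLinearMap.id ℝ ℝ)
    (C := Real.sqrt (1 + k ^ 2) • ContinuousLinearMap.id ℝ ℝ) (by
      intro t
      rw [adj, adj, adj, Real.norm_eq_abs, Real.norm_eq_abs, Real.norm_eq_abs, sq_abs, sq_abs,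
        sq_abs, mul_pow, mul_pow, mul_pow, Real.sq_sqrt (by positivity)]
      ring) (K := Iic a) measurableSet_Iic
  have e1 : (gau (Real.sqrt (1 + k ^ 2) • ContinuousLinearMap.id ℝ ℝ)).real (Iic a)
      = Phi (a / Real.sqrt (1 + k ^ 2)) := by
    have := gau_halfspace (Real.sqrt (1 + k ^ 2) • ContinuousLinearMap.id ℝ ℝ) (1:ℝ)
      (by rw [adj]; simpa using hs.ne') a
    rw [adj, mul_one, Real.norm_of_nonneg hs.le] at this
    rw [← this]
    congr 1
    ext x
    simp
  rw [e1] at h
  rw [h]
  have e2 : ∀ x : ℝ, (gau ((1:ℝ) • ContinuousLinearMap.id ℝ ℝ)).real {z | x + z ∈ Iic a} = Phi (a - x) := by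
    intro x
    rw [one_smul, gau_id, stdGaussian_real, Phi_eq_gaussian]
    congr 1
    ext z
    simp only [mem_ofPred_eq, mem_Iic]
    constructor <;> intro h <;> linarith
  simp_rw [e2]
  unfold gau
  have hc : Continuous fun x : ℝ => Phi (a - x) := continuous_Phi.comp (by fun_prop)
  rw [integral_map (f := fun x : ℝ => Phi (a - x)) (by fun_prop) hc.aestronglyMeasurable,
    stdGaussian_real]
  refine integral_congr_ae (Eventually.of_forall fun t => ?_)
  simp

lemma gaussian_Phi_le {f : ℝ} (h0 : 0 ≤ f) (h1 : f ≤ 1) :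
    (gaussianReal 0 1).real {z | Phi z ≤ f} = f := by
  rcases eq_or_lt_of_le h0 with h | h
  · have : {z | Phi z ≤ f} = ∅ := by
      ext z
      simp only [mem_ofPred_eq, mem_empty_iff_false, iff_false, not_le]
      rw [← h]
      exact Phi_pos z
    rw [this, measureReal_empty, h]
  · rcases eq_or_lt_of_le h1 with h' | h'
    · have : {z | Phi z ≤ f} = univ := by
        ext z
        simp only [mem_ofPred_eq, mem_univ, iff_true]
        rw [h']
        exact (Phi_lt_one z).le
      rw [this, h']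
      simp
    · have : {z | Phi z ≤ f} = Iic (Psi f) := by
        ext z
        simp only [mem_ofPred_eq, mem_Iic]
        exact (le_Psi_iff h h').symm
      rw [this, ← Phi_eq_gaussian, Phi_Psi h h']

/-- Layer cake with Gaussian levels. -/
lemma integral_eq_integral_Phi_level {Ω : Type*} [MeasurableSpace Ω] (μ : Measure Ω)
    [IsProbabilityMeasure μ] {f : Ω → ℝ} (hf : Measurable f) (h0 : ∀ x, 0 ≤ f x)
    (h1 : ∀ x, f x ≤ 1) :
    ∫ x, f x ∂μ = ∫ z, μ.real {x | Phi z ≤ f x} ∂(gaussianReal 0 1) := by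
  have hm : MeasurableSet {p : Ω × ℝ | Phi p.2 ≤ f p.1} :=
    measurableSet_le (continuous_Phi.measurable.comp measurable_snd) (hf.comp measurable_fst)
  have e1 : ∫ x, f x ∂μ = ((μ.prod (gaussianReal 0 1)) {p : Ω × ℝ | Phi p.2 ≤ f p.1}).toReal := by
    rw [Measure.prod_apply hm, integral_eq_lintegral_of_nonneg_ae (Eventually.of_forall h0)
      hf.aestronglyMeasurable]
    congr 1
    refine lintegral_congr fun x => ?_
    have := gaussian_Phi_le (h0 x) (h1 x)
    rw [← this, Measure.real, ENNReal.ofReal_toReal (measure_ne_top _ _)]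
    rfl
  have hm2 : Measurable fun z : ℝ => μ.real {x | Phi z ≤ f x} :=
    (measurable_measure_prodMk_right hm).ennreal_toReal
  rw [e1, Measure.prod_apply_symm hm, integral_eq_lintegral_of_nonneg_ae
    (Eventually.of_forall fun _ => measureReal_nonneg) hm2.aestronglyMeasurable]
  congr 1
  refine lintegral_congr fun z => ?_
  rw [Measure.real, ENNReal.ofReal_toReal (measure_ne_top _ _)]
  rfl

/-- Abstract Ehrhard threshold lemma. -/
theorem threshold_abs {m : ℝ → ℝ} (hm : Antitone m) (h0 : ∀ t, 0 ≤ m t) (h1 : ∀ t, m t ≤ 1)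
    (hE : ∀ s t a b l : ℝ, 0 ≤ l → l ≤ 1 → Phi a ≤ m s → Phi b ≤ m t →
      Phi ((1 - l) * a + l * b) ≤ m ((1 - l) * s + l * t))
    {r : ℝ} (lc : ∀ c, (∀ t < min r 0, c ≤ m t) → c ≤ m (min r 0))
    (hp : Phi r ≤ ∫ t, m t ∂(gaussianReal 0 1)) : Phi r ≤ m (min r 0) := by
  by_contra hcon
  rw [not_le] at hcon
  set s0 := min r 0 with hs0
  have hs0r : s0 ≤ r := min_le_left _ _
  have hint : Integrable m (gaussianReal 0 1) := by
    refine Integrable.of_bound (hm.measurable.aestronglyMeasurable) 1 (Eventually.of_forall fun t => ?_)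
    rw [Real.norm_of_nonneg (h0 t)]
    exact h1 t
  have hm1 : m s0 < 1 := hcon.trans (Phi_lt_one r)
  by_cases hz : ∀ t > s0, m t = 0
  · -- m vanishes to the right of s0, and m < 1 slightly to the left
    have : ∃ t < s0, m t < 1 := by
      by_contra hne
      push Not at hne
      exact absurd (lc 1 hne) (not_le.2 hm1)
    obtain ⟨t, ht, htm⟩ := this
    have hle : ∫ u, m u ∂(gaussianReal 0 1) ≤ ∫ u, ((Iic t).indicator (fun _ => (1:ℝ)) u
        + (Ioc t s0).indicator (fun _ => m t) u) ∂(gaussianReal 0 1) := by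
      refine integral_mono hint (((integrable_const _).indicator measurableSet_Iic).add
        ((integrable_const _).indicator measurableSet_Ioc)) fun u => ?_
      simp only
      by_cases hu1 : u ≤ t
      · rw [indicator_of_mem (show u ∈ Iic t from hu1),
          indicator_of_notMem (show u ∉ Ioc t s0 from fun h => absurd h.1 (not_lt.2 hu1)), add_zero]
        exact h1 u
      · rw [not_le] at hu1
        rw [indicator_of_notMem (show u ∉ Iic t from fun h => absurd hu1 (not_lt.2 h))]
        by_cases hu2 : u ≤ s0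
        · rw [indicator_of_mem (show u ∈ Ioc t s0 from ⟨hu1, hu2⟩), zero_add]
          exact hm hu1.le
        · rw [hz u (not_le.1 hu2)]
          rw [indicator_of_notMem (show u ∉ Ioc t s0 from fun h => hu2 h.2)]
          simp
    have e : ∫ u, ((Iic t).indicator (fun _ => (1:ℝ)) u
        + (Ioc t s0).indicator (fun _ => m t) u) ∂(gaussianReal 0 1)
        = Phi t + m t * (Phi s0 - Phi t) := by
      rw [integral_add ((integrable_const _).indicator measurableSet_Iic)
        ((integrable_const _).indicator measurableSet_Ioc),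
        integral_indicator_const _ measurableSet_Iic, integral_indicator_const _ measurableSet_Ioc]
      have h2 : (gaussianReal 0 1).real (Ioc t s0) = Phi s0 - Phi t := by
        have h9 : Ioc t s0 = Iic s0 \ Iic t := by
          ext u
          simp only [mem_Ioc, Set.mem_sdiff, mem_Iic, not_le]
          exact and_comm
        rw [Phi_eq_gaussian, Phi_eq_gaussian, h9,
          measureReal_sdiff (Iic_subset_Iic.2 ht.le) measurableSet_Iic]
      rw [h2, ← Phi_eq_gaussian]
      simp
      ring
    have h3 : Phi t < Phi s0 := strictMono_Phi ht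
    have h4 : Phi s0 ≤ Phi r := strictMono_Phi.monotone hs0r
    nlinarith
  · push Not at hz
    obtain ⟨t2, ht2, hm2⟩ := hz
    have hm2' : 0 < m t2 := lt_of_le_of_ne (h0 t2) (Ne.symm hm2)
    have hmp : 0 < m s0 := hm2'.trans_le (hm ht2.le)
    -- left values are < 1
    have hleft : ∀ t < s0, m t < 1 := by
      intro t ht
      by_contra hge
      rw [not_lt] at hge
      set l := (s0 - t) / (t2 - t) with hl
      have hpos : 0 < t2 - t := by linarith
      have hl0 : 0 ≤ l := div_nonneg (by linarith) hpos.le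
      have hl1 : l < 1 := by rw [hl, div_lt_one hpos]; linarith
      have hcomb : (1 - l) * t + l * t2 = s0 := by
        rw [hl]; field_simp; ring
      have hall : ∀ a : ℝ, Phi ((1 - l) * a + l * Psi (m t2)) ≤ m s0 := by
        intro a
        have := hE t t2 a (Psi (m t2)) l hl0 hl1.le ((Phi_lt_one a).le.trans hge)
          (by rw [Phi_Psi hm2' ((hm ht2.le).trans_lt hm1)])
        rwa [hcomb] at this
      have hlim : Tendsto (fun a => Phi ((1 - l) * a + l * Psi (m t2))) atTop (𝓝 1) := by
        refine tendsto_Phi_atTop.comp ?_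
        exact tendsto_atTop_add_const_right _ _ (tendsto_id.const_mul_atTop (by linarith))
      exact absurd (le_of_tendsto' hlim hall) (not_le.2 hm1)
    set G := Psi (m s0) with hG
    have hPG : Phi G = m s0 := Phi_Psi hmp hm1
    have hGr : G < r := by
      rw [← strictMono_Phi.lt_iff_lt, hPG]
      exact hcon
    -- secant comparison
    have sec : ∀ t1 < s0, ∀ t > s0, 0 < m t →
        (Psi (m t1) - G) / (s0 - t1) ≤ (G - Psi (m t)) / (t - s0) := by
      intro t1 ht1 t ht hmt
      have hpos : 0 < t - t1 := by linarith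
      set l := (s0 - t1) / (t - t1) with hl
      have hl0 : 0 ≤ l := div_nonneg (by linarith) hpos.le
      have hl1 : l ≤ 1 := by rw [hl, div_le_one hpos]; linarith
      have hcomb : (1 - l) * t1 + l * t = s0 := by
        rw [hl]; field_simp; ring
      have h5 := hE t1 t (Psi (m t1)) (Psi (m t)) l hl0 hl1
        (by rw [Phi_Psi (hmp.trans_le (hm ht1.le)) (hleft t1 ht1)])
        (by rw [Phi_Psi hmt ((hm ht.le).trans_lt hm1)])
      rw [hcomb, ← hPG, strictMono_Phi.le_iff_le] at h5
      rw [div_le_div_iff₀ (by linarith) (by linarith)]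
      have e6 : l * (t - t1) = s0 - t1 := by rw [hl]; field_simp
      have e7 : (1 - l) * (t - t1) = t - s0 := by linarith
      have h6 := mul_le_mul_of_nonneg_right h5 hpos.le
      have h7 : ((1 - l) * Psi (m t1) + l * Psi (m t)) * (t - t1)
          = (t - s0) * Psi (m t1) + (s0 - t1) * Psi (m t) := by
        rw [← e7, ← e6]
        ring
      rw [h7] at h6
      nlinarith
    set S : Set ℝ := (fun t1 => (Psi (m t1) - G) / (s0 - t1)) '' Iio s0 with hS
    have hSne : S.Nonempty := ⟨_, s0 - 1, by simp, rfl⟩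
    have hSb : BddAbove S := by
      refine ⟨(G - Psi (m t2)) / (t2 - s0), ?_⟩
      rintro _ ⟨t1, ht1, rfl⟩
      exact sec t1 ht1 t2 ht2 hm2'
    set k := sSup S with hk
    have hk0 : 0 ≤ k := by
      have h6 : (Psi (m (s0 - 1)) - G) / (s0 - (s0 - 1)) ≤ k := le_csSup hSb ⟨s0 - 1, by simp, rfl⟩
      refine le_trans (div_nonneg ?_ (by linarith)) h6
      have h7 : m s0 ≤ m (s0 - 1) := hm (by linarith)
      have h8 : G ≤ Psi (m (s0 - 1)) := by
        rw [le_Psi_iff (hmp.trans_le h7) (hleft _ (by linarith)), hPG]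
        exact h7
      linarith
    have hbound : ∀ t, m t ≤ Phi (G + k * s0 - k * t) := by
      intro t
      rcases lt_trichotomy t s0 with ht | ht | ht
      · have h6 : (Psi (m t) - G) / (s0 - t) ≤ k := le_csSup hSb ⟨t, ht, rfl⟩
        rw [div_le_iff₀ (by linarith)] at h6
        rw [← Phi_Psi (hmp.trans_le (hm ht.le)) (hleft t ht)]
        exact strictMono_Phi.monotone (by linarith)
      · rw [ht, ← hPG]
        exact strictMono_Phi.monotone (by linarith)
      · rcases eq_or_lt_of_le (h0 t) with hz' | hz'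
        · rw [← hz']
          exact Phi_nonneg _
        · have h6 : k ≤ (G - Psi (m t)) / (t - s0) := by
            refine csSup_le hSne ?_
            rintro _ ⟨t1, ht1, rfl⟩
            exact sec t1 ht1 t ht hz'
          rw [le_div_iff₀ (by linarith)] at h6
          rw [← Phi_Psi hz' ((hm ht.le).trans_lt hm1)]
          exact strictMono_Phi.monotone (by linarith)
    have hfin : ∫ t, m t ∂(gaussianReal 0 1) ≤ Phi ((G + k * s0) / Real.sqrt (1 + k ^ 2)) := by
      rw [← integral_Phi_affine]
      refine integral_mono hint ?_ hbound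
      exact integrable_Phi_comp _ (by fun_prop)
    have hlt : (G + k * s0) / Real.sqrt (1 + k ^ 2) < r := by
      have hsq : 0 < Real.sqrt (1 + k ^ 2) := Real.sqrt_pos.2 (by positivity)
      have hsq1 : 1 ≤ Real.sqrt (1 + k ^ 2) := by
        rw [Real.one_le_sqrt]; nlinarith [sq_nonneg k]
      have hsq2 : Real.sqrt (1 + k ^ 2) ≤ 1 + k := by
        rw [Real.sqrt_le_left (by linarith)]
        nlinarith
      rw [div_lt_iff₀ hsq]
      rcases le_total r 0 with hr | hr
      · have : s0 = r := min_eq_left hr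
        rw [this]
        nlinarith
      · have : s0 = 0 := min_eq_right hr
        rw [this]
        nlinarith
    exact absurd (hp.trans hfin) (not_le.2 (strictMono_Phi hlt))

section
variable {E : Type*} [NormedAddCommGroup E] [InnerProductSpace ℝ E] [FiniteDimensional ℝ E]
  [MeasurableSpace E] [BorelSpace E]
variable {F : Type*} [NormedAddCommGroup F] [InnerProductSpace ℝ F] [FiniteDimensional ℝ F]
  [MeasurableSpace F] [BorelSpace F]
variable {G : Type*} [NormedAddCommGroup G] [InnerProductSpace ℝ G] [FiniteDimensional ℝ G]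
  [MeasurableSpace G] [BorelSpace G]
variable {H : Type*} [NormedAddCommGroup H] [InnerProductSpace ℝ H] [FiniteDimensional ℝ H]
  [MeasurableSpace H] [BorelSpace H]

/-- Ehrhard threshold lemma: if `CC† = AA† + BB†` and `N_C(Z) ≥ Φ(r)` then
`N_A {x : N_B(Z - x) ≥ Φ(min r 0)} ≥ Φ(r)`. -/
theorem threshold {A : F →L[ℝ] E} {B : G →L[ℝ] E} {C : H →L[ℝ] E}
    (h : ∀ t, ‖A.adjoint t‖ ^ 2 + ‖B.adjoint t‖ ^ 2 = ‖C.adjoint t‖ ^ 2)
    {Z : Set E} (hZ : IsClosed Z) (cZ : Convex ℝ Z) {r : ℝ} (hr : Phi r ≤ (gau C).real Z) :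
    Phi r ≤ (gau A).real (tset B Z (Phi (min r 0))) := by
  have hmeas := measurable_gau_shift_real B hZ.measurableSet
  have e : (gau C).real Z
      = ∫ z, (gau A).real (tset B Z (Phi z)) ∂(gaussianReal 0 1) := by
    rw [gau_mix_real h hZ.measurableSet,
      integral_eq_integral_Phi_level (gau A) hmeas (fun _ => measureReal_nonneg)
        (fun _ => measureReal_le_one)]
    rfl
  rw [e] at hr
  refine threshold_abs (m := fun z => (gau A).real (tset B Z (Phi z))) ?_
    (fun _ => measureReal_nonneg) (fun _ => measureReal_le_one) ?_ ?_ hr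
  · intro s t hst
    exact measureReal_mono (tset_anti B Z (strictMono_Phi.monotone hst))
  · intro s t a b l hl0 hl1 ha hb
    refine ehrhard_gau A (isClosed_tset B hZ _) (isClosed_tset B hZ _) (convex_tset B hZ cZ s)
      (convex_tset B hZ cZ t) (isClosed_tset B hZ _) hl0 hl1 ?_ ha hb
    intro x hx y hy
    exact tset_concave B hZ cZ hl0 hl1 hx hy
  · intro c hc
    -- continuity from above along t ↑ s0
    set s0 := min r 0 with hs0
    have hI : tset B Z (Phi s0) = ⋂ n : ℕ, tset B Z (Phi (s0 - 1 / ((n:ℝ) + 1))) := by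
      ext x
      simp only [mem_iInter]
      constructor
      · intro hx n
        exact tset_anti B Z (strictMono_Phi.monotone (by
          have : (0:ℝ) < 1 / ((n:ℝ) + 1) := by positivity
          linarith)) hx
      · intro hx
        have hl : Tendsto (fun n : ℕ => Phi (s0 - 1 / ((n:ℝ) + 1))) atTop (𝓝 (Phi (s0 - 0))) :=
          (continuous_Phi.tendsto _).comp
            (tendsto_const_nhds.sub tendsto_one_div_add_atTop_nhds_zero_nat)
        rw [sub_zero] at hl
        exact le_of_tendsto' hl hx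
    have hanti : Antitone fun n : ℕ => tset B Z (Phi (s0 - 1 / ((n:ℝ) + 1))) := by
      intro n n' hnn
      refine tset_anti B Z (strictMono_Phi.monotone ?_)
      have : 1 / ((n':ℝ) + 1) ≤ 1 / ((n:ℝ) + 1) :=
        one_div_le_one_div_of_le (by positivity) (by exact_mod_cast Nat.succ_le_succ hnn)
      linarith
    have hl := tendsto_measure_iInter_atTop (μ := gau A)
      (fun n : ℕ => (isClosed_tset B hZ (Phi (s0 - 1 / ((n:ℝ) + 1)))).measurableSet.nullMeasurableSet)
      hanti ⟨0, measure_ne_top _ _⟩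
    rw [← hI] at hl
    have hl2 := (ENNReal.tendsto_toReal (measure_ne_top (gau A) (tset B Z (Phi s0)))).comp hl
    refine ge_of_tendsto' hl2 fun n => hc _ ?_
    have : (0:ℝ) < 1 / ((n:ℝ) + 1) := by positivity
    linarith

/-- `r ≥ 0` form: `N_C(Z) ≥ Φ(r)` implies `N_A {x : N_B(Z - x) ≥ 1/2} ≥ Φ(r)`. -/
theorem threshold_half {A : F →L[ℝ] E} {B : G →L[ℝ] E} {C : H →L[ℝ] E}
    (h : ∀ t, ‖A.adjoint t‖ ^ 2 + ‖B.adjoint t‖ ^ 2 = ‖C.adjoint t‖ ^ 2)
    {Z : Set E} (hZ : IsClosed Z) (cZ : Convex ℝ Z) (hh : 1 / 2 ≤ (gau C).real Z) :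
    (gau C).real Z ≤ (gau A).real (tset B Z (1 / 2)) := by
  have hPhi0 : Phi 0 = 1 / 2 := by
    have := Phi_neg 0
    rw [neg_zero] at this
    linarith
  refine le_of_forall_lt fun c hc => ?_
  rcases lt_or_ge c (1 / 2) with hc2 | hc2
  · have h1 := threshold h hZ cZ (r := 0) (by rw [hPhi0]; exact hh)
    rw [min_self, hPhi0] at h1
    exact hc2.trans_le h1
  · have hc0 : 0 < c := by linarith
    have hc1 : c < 1 := hc.trans_le measureReal_le_one
    obtain ⟨c', h1, h2⟩ := exists_between hc
    have hc'0 : 0 < c' := hc0.trans h1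
    have hc'1 : c' < 1 := h2.trans_le measureReal_le_one
    have h3 := threshold h hZ cZ (r := Psi c') (by rw [Phi_Psi hc'0 hc'1]; exact h2.le)
    have h4 : 0 ≤ Psi c' := by
      rw [le_Psi_iff hc'0 hc'1, hPhi0]
      linarith
    rw [min_eq_right h4, hPhi0, Phi_Psi hc'0 hc'1] at h3
    exact h1.trans_le h3

/-- `s ≤ 0` form (109's Lemma D, one step): `N_C(Z) ≥ η` implies `N_A {x : N_B(Z - x) ≥ η} ≥ η`,
`η ≤ 1/2`. -/
theorem threshold_low {A : F →L[ℝ] E} {B : G →L[ℝ] E} {C : H →L[ℝ] E}
    (h : ∀ t, ‖A.adjoint t‖ ^ 2 + ‖B.adjoint t‖ ^ 2 = ‖C.adjoint t‖ ^ 2)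
    {Z : Set E} (hZ : IsClosed Z) (cZ : Convex ℝ Z) {η : ℝ} (h0 : 0 < η) (h1 : η ≤ 1 / 2)
    (hh : η ≤ (gau C).real Z) : η ≤ (gau A).real (tset B Z η) := by
  have hPhi0 : Phi 0 = 1 / 2 := by
    have := Phi_neg 0
    rw [neg_zero] at this
    linarith
  have hη1 : η < 1 := by linarith
  have h3 := threshold h hZ cZ (r := Psi η) (by rw [Phi_Psi h0 hη1]; exact hh)
  have h4 : Psi η ≤ 0 := by
    rw [Psi_le_iff h0 hη1, hPhi0]
    exact h1
  rwa [min_eq_left h4, Phi_Psi h0 hη1] at h3

end

end Crest.Agent.R239
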