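import Crest.Agent.R215.CM
import Crest.Agent.R285.Gauss

/-!
Row 239, Step 4 of the cluster-piece lemma (helper974).

`iso`: a Gaussian isoperimetric inequality for neighbourhoods of convex sets (constant `1/3`
instead of `1`), from the functional Ehrhard inequality.
`flat`: a closed convex set `C` with `γ {g | 2g ∈ C} ≥ 1/2 - η/300` has a translate by a vector of
length `≤ η` of measure `≥ 1/2 + η/300`.
-/

set_option autoImplicit false
open MeasureTheory ProbabilityTheory Set Filter Topology Metric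
open scoped NNReal ENNReal RealInnerProductSpace

namespace Crest.Agent.R239.Flat

open Crest.Agent.Lib.Ehrhard

/-! ### numerical facts about `Phi` -/

lemma Phi_zero : Phi 0 = 1 / 2 := by
  have := Phi_neg 0
  rw [neg_zero] at this; linarith

lemma phi_le_four (x : ℝ) : phi x ≤ 2 / 5 := by
  have h0 : (5:ℝ) / 2 ≤ Real.sqrt (2 * Real.pi) := by
    apply Real.le_sqrt_of_sq_le
    nlinarith [Real.pi_gt_d2]
  have h1 : (Real.sqrt (2 * Real.pi))⁻¹ ≤ 2 / 5 := by
    have := inv_anti₀ (by norm_num : (0:ℝ) < 5 / 2) h0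
    calc _ ≤ (5 / 2 : ℝ)⁻¹ := this
      _ = 2 / 5 := by norm_num
  have h2 : Real.exp (-x ^ 2 / 2) ≤ 1 := Real.exp_le_one_iff.2 (by nlinarith [sq_nonneg x])
  unfold phi
  calc _ ≤ (2 / 5) * 1 := mul_le_mul h1 h2 (Real.exp_pos _).le (by norm_num)
    _ = _ := by ring

lemma phi_ge {x : ℝ} (h : |x| ≤ 1 / 4) : 19 / 50 ≤ phi x := by
  have h0 : Real.sqrt (2 * Real.pi) ≤ 2.507 := by
    rw [Real.sqrt_le_left (by norm_num)]
    nlinarith [Real.pi_lt_d4]
  have h1 : (1 : ℝ) / 2.507 ≤ (Real.sqrt (2 * Real.pi))⁻¹ := by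
    rw [← one_div]
    exact one_div_le_one_div_of_le (by positivity) h0
  have hx : x ^ 2 ≤ 1 / 16 := by
    have := abs_le.1 h; nlinarith
  have h2 : 1 - 1 / 32 ≤ Real.exp (-x ^ 2 / 2) := by
    have := Real.add_one_le_exp (-x ^ 2 / 2)
    linarith
  unfold phi
  calc (19 : ℝ) / 50 ≤ (1 / 2.507) * (1 - 1 / 32) := by norm_num
    _ ≤ _ := mul_le_mul h1 h2 (by norm_num) (by positivity)

lemma Phi_sub {a b : ℝ} (hab : a < b) : ∃ c ∈ Ioo a b, Phi b - Phi a = phi c * (b - a) := by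
  obtain ⟨c, hc, h⟩ := exists_hasDerivAt_eq_slope Phi phi hab continuous_Phi.continuousOn
    (fun x _ => hasDerivAt_Phi x)
  refine ⟨c, hc, ?_⟩
  rw [h]; field_simp [(sub_pos.2 hab).ne']

lemma Phi_ge {x : ℝ} (h0 : 0 ≤ x) (h1 : x ≤ 1 / 4) : 1 / 2 + 19 / 50 * x ≤ Phi x := by
  rcases h0.eq_or_lt with rfl | h0
  · rw [Phi_zero]; norm_num
  obtain ⟨c, hc, h⟩ := Phi_sub h0
  have := phi_ge (x := c) (by rw [abs_of_pos hc.1]; linarith [hc.2])
  rw [Phi_zero] at h
  nlinarith

lemma Phi_le {x : ℝ} (h0 : 0 ≤ x) : Phi x ≤ 1 / 2 + 2 / 5 * x := by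
  rcases h0.eq_or_lt with rfl | h0
  · rw [Phi_zero]; norm_num
  obtain ⟨c, hc, h⟩ := Phi_sub h0
  have := phi_le_four c
  rw [Phi_zero] at h
  nlinarith

/-- upper tail -/
lemma Phi_neg_le {a : ℝ} (ha : 0 ≤ a) : Phi (-a) ≤ Real.exp (-a ^ 2 / 2) / 2 := by
  have h1 : ∀ b : ℝ, Phi (b + a) ≤ Phi (0 + a) + Real.exp (-(a * 0) - a ^ 2 / 2) * (Phi b - Phi 0) :=
    fun b => Phi_add_le a b 0 ha
  have h2 : Tendsto (fun b : ℝ => Phi (b + a)) atTop (𝓝 1) :=
    tendsto_Phi_atTop.comp (tendsto_atTop_add_const_right _ a tendsto_id)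
  have h3 : Tendsto (fun b : ℝ => Phi (0 + a) + Real.exp (-(a * 0) - a ^ 2 / 2) * (Phi b - Phi 0)) atTop
      (𝓝 (Phi (0 + a) + Real.exp (-(a * 0) - a ^ 2 / 2) * (1 - Phi 0))) :=
    ((tendsto_Phi_atTop.sub_const _).const_mul _).const_add _
  have h4 := le_of_tendsto_of_tendsto' h2 h3 h1
  rw [Phi_zero, zero_add] at h4
  rw [Phi_neg]
  have e : -(a * 0) - a ^ 2 / 2 = -a ^ 2 / 2 := by ring
  rw [e] at h4
  linarith

/-- lower tail -/
lemma Phi_neg_ge {u : ℝ} (hu : 0 ≤ u) : 1 / 10 * Real.exp (-u ^ 2) ≤ Phi (-u) := by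
  obtain ⟨c, hc, h⟩ := Phi_sub (a := -u - 1) (b := -u) (by linarith)
  have h0 : Real.sqrt (2 * Real.pi) ≤ 2.507 := by
    rw [Real.sqrt_le_left (by norm_num)]
    nlinarith [Real.pi_lt_d4]
  have h1 : (1 : ℝ) / 2.507 ≤ (Real.sqrt (2 * Real.pi))⁻¹ := by
    rw [← one_div]
    exact one_div_le_one_div_of_le (by positivity) h0
  have h2 : c ^ 2 ≤ (u + 1) ^ 2 := by nlinarith [hc.1, hc.2]
  have h3 : Real.exp (-u ^ 2 - 1) ≤ Real.exp (-c ^ 2 / 2) := by
    apply Real.exp_le_exp.2
    nlinarith [sq_nonneg (u - 1)]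
  have h4 : Real.exp (-u ^ 2 - 1) = Real.exp (-u ^ 2) * Real.exp (-1) := by
    rw [← Real.exp_add]; congr 1
  have h5 : (0.3 : ℝ) ≤ Real.exp (-1) := by
    have := Real.exp_neg_one_gt_d9; linarith
  have h6 : 1 / 10 * Real.exp (-u ^ 2) ≤ phi c := by
    unfold phi
    calc 1 / 10 * Real.exp (-u ^ 2) ≤ (1 / 2.507) * (Real.exp (-u ^ 2) * Real.exp (-1)) := by
          have := Real.exp_pos (-u ^ 2)
          nlinarith
      _ ≤ _ := by
          rw [← h4]
          exact mul_le_mul h1 h3 (Real.exp_pos _).le (by positivity)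
  have h7 := Phi_nonneg (-u - 1)
  have h8 : phi c * (-u - (-u - 1)) = phi c := by ring
  linarith

variable {E : Type*} [NormedAddCommGroup E] [InnerProductSpace ℝ E] [FiniteDimensional ℝ E]
  [MeasurableSpace E] [BorelSpace E]

/-- exponential square moment -/
lemma integrable_exp_sq : Integrable (fun x : E => Real.exp (‖x‖ ^ 2 / 4)) (stdGaussian E) := by
  rw [Crest.Agent.R285.integrable_stdGaussian_iff]
  have h := (Crest.Agent.R285.integrable_exp_neg_sq (V := E) (b := 1 / 4) (by norm_num)).const_mul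
    ((2 * Real.pi) ^ (-(Module.finrank ℝ E : ℝ) / 2))
  refine h.congr (ae_of_all _ fun x => ?_)
  simp only [Crest.Agent.R285.gdens, smul_eq_mul]
  rw [mul_assoc, ← Real.exp_add]
  congr 2
  ring

/-! ### concavity of `t ↦ gm (R (t - dist(x, A)))` -/

lemma infDist_mid {A : Set E} (hA : Convex ℝ A) (hne : A.Nonempty) (x y : E) :
    infDist ((2:ℝ)⁻¹ • (x + y)) A ≤ (infDist x A + infDist y A) / 2 := by
  refine le_of_forall_pos_lt_add fun ε hε => ?_
  obtain ⟨a, ha, ha'⟩ := (infDist_lt_iff hne).1 (lt_add_of_pos_right (infDist x A) hε)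
  obtain ⟨b, hb, hb'⟩ := (infDist_lt_iff hne).1 (lt_add_of_pos_right (infDist y A) hε)
  have hm : (2:ℝ)⁻¹ • (a + b) ∈ A := by
    have := hA ha hb (a := (2:ℝ)⁻¹) (b := (2:ℝ)⁻¹) (by norm_num) (by norm_num) (by norm_num)
    rwa [← smul_add] at this
  refine (infDist_le_dist_of_mem hm).trans_lt ?_
  have e : (2:ℝ)⁻¹ • (x + y) - (2:ℝ)⁻¹ • (a + b) = (2:ℝ)⁻¹ • ((x - a) + (y - b)) := by
    rw [← smul_sub]; congr 1; abel
  rw [dist_eq_norm, e, norm_smul, Real.norm_of_nonneg (by norm_num)]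
  have h1 := norm_add_le (x - a) (y - b)
  rw [dist_eq_norm] at ha' hb'
  linarith

lemma infDist_lip (A : Set E) (x y : E) : |infDist x A - infDist y A| ≤ ‖x - y‖ := by
  have := (lipschitz_infDist_pt A).dist_le_mul x y
  simpa [Real.dist_eq, dist_eq_norm] using this

/-- `q A R t = Psi (E Phi (R (t - dist(x,A))))` -/
noncomputable def q (A : Set E) (R t : ℝ) : ℝ := gm (stdGaussian E) (fun x => R * (t - infDist x A))

lemma cont_q (A : Set E) (R t : ℝ) : Continuous (fun x : E => R * (t - infDist x A)) := by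
  have := continuous_infDist_pt A
  fun_prop

lemma Phi_q (A : Set E) (R t : ℝ) : Phi (q A R t) = ∫ x, Phi (R * (t - infDist x A)) ∂stdGaussian E :=
  Phi_gm _ (cont_q A R t).aemeasurable

lemma q_mid {A : Set E} (hA : Convex ℝ A) (hne : A.Nonempty) {R : ℝ} (hR : 0 ≤ R) (s t : ℝ) :
    (q A R s + q A R t) / 2 ≤ q A R ((s + t) / 2) := by
  have lip : ∀ u : ℝ, ∀ x y : E, |R * (u - infDist x A) - R * (u - infDist y A)| ≤ R * ‖x - y‖ := by
    intro u x y
    have : R * (u - infDist x A) - R * (u - infDist y A) = R * (infDist y A - infDist x A) := by ring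
    rw [this, abs_mul, abs_of_nonneg hR, abs_sub_comm]
    exact mul_le_mul_of_nonneg_left (infDist_lip A x y) hR
  refine ehrhard_std (lip s) (lip t) (lip _) ?_
  intro y z
  have h := mul_le_mul_of_nonneg_left (infDist_mid hA hne y z) hR
  nlinarith

lemma q_double {A : Set E} (hA : Convex ℝ A) (hne : A.Nonempty) {R : ℝ} (hR : 0 ≤ R) (t h : ℝ) (k : ℕ) :
    (q A R (t + 2 ^ k * h) - q A R t) / 2 ^ k ≤ q A R (t + h) - q A R t := by
  induction k with
  | zero => simp
  | succ k ih =>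
    refine le_trans ?_ ih
    have h1 := q_mid hA hne hR t (t + 2 ^ (k + 1) * h)
    have e : (t + (t + 2 ^ (k + 1) * h)) / 2 = t + 2 ^ k * h := by rw [pow_succ]; ring
    rw [e] at h1
    have h2 : (0:ℝ) < 2 ^ k := by positivity
    generalize q A R (t + 2 ^ (k + 1) * h) = Q2 at h1 ⊢
    generalize q A R (t + 2 ^ k * h) = Q1 at h1 ⊢
    rw [pow_succ, div_le_div_iff₀ (by positivity) h2]
    nlinarith

/-- asymptotic slope `≥ 1/3` -/
lemma q_large {A : Set E} {a : E} (ha : a ∈ A) {R : ℝ} (hR : 1 ≤ R) :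
    ∃ T1 : ℝ, 0 ≤ T1 ∧ ∀ T, T1 ≤ T → T / 3 ≤ q A R (T + ‖a‖) := by
  set M : ℝ := ∫ x, Real.exp (‖x‖ ^ 2 / 4) ∂stdGaussian E with hM
  have hM0 : 0 ≤ M := integral_nonneg fun x => (Real.exp_pos _).le
  refine ⟨180 * M + 1, by positivity, fun T hT => ?_⟩
  have hT1 : 1 ≤ T := by nlinarith
  by_contra hcon
  push Not at hcon
  -- upper bound
  have hup : Phi (-(q A R (T + ‖a‖))) ≤ Real.exp (-T ^ 2 / 6) * M := by
    rw [Phi_neg, Phi_q]
    have i1 : Integrable (fun x : E => Phi (R * (T + ‖a‖ - infDist x A))) (stdGaussian E) :=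
      integrable_Phi_comp _ (cont_q A R _).aemeasurable
    have e : 1 - ∫ x, Phi (R * (T + ‖a‖ - infDist x A)) ∂stdGaussian E
        = ∫ x, Phi (-(R * (T + ‖a‖ - infDist x A))) ∂stdGaussian E := by
      simp only [Phi_neg]
      rw [integral_sub (integrable_const _) i1]; simp
    rw [e, hM, ← integral_const_mul]
    refine integral_mono (integrable_Phi_comp _ (cont_q A R _).neg.aemeasurable)
      (integrable_exp_sq.const_mul _) fun x => ?_
    simp only
    rw [← Real.exp_add]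
    have hd : infDist x A ≤ ‖x‖ + ‖a‖ := by
      refine (infDist_le_dist_of_mem ha).trans ?_
      rw [dist_eq_norm]; exact norm_sub_le _ _
    rcases le_total ‖x‖ T with h | h
    · have h1 : T - ‖x‖ ≤ R * (T + ‖a‖ - infDist x A) := by
        have : 0 ≤ T + ‖a‖ - infDist x A := by linarith
        nlinarith
      calc Phi (-(R * (T + ‖a‖ - infDist x A))) ≤ Phi (-(T - ‖x‖)) :=
            strictMono_Phi.monotone (by linarith)
        _ ≤ Real.exp (-(T - ‖x‖) ^ 2 / 2) / 2 := Phi_neg_le (by linarith)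
        _ ≤ Real.exp (-(T - ‖x‖) ^ 2 / 2) := by
            have := Real.exp_pos (-(T - ‖x‖) ^ 2 / 2); linarith
        _ ≤ _ := by
            apply Real.exp_le_exp.2
            nlinarith [sq_nonneg (2 * T - 3 * ‖x‖)]
    · calc Phi (-(R * (T + ‖a‖ - infDist x A))) ≤ 1 := (Phi_lt_one _).le
        _ ≤ _ := Real.one_le_exp (by nlinarith)
  have hlow : 1 / 10 * Real.exp (-(T / 3) ^ 2) ≤ Phi (-(q A R (T + ‖a‖))) :=
    (Phi_neg_ge (by linarith)).trans (strictMono_Phi.monotone (by linarith))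
  have h1 : 1 / 10 * Real.exp (-(T / 3) ^ 2) ≤ Real.exp (-T ^ 2 / 6) * M := hlow.trans hup
  have h2 : Real.exp (-(T / 3) ^ 2) = Real.exp (-T ^ 2 / 6) * Real.exp (T ^ 2 / 18) := by
    rw [← Real.exp_add]; congr 1; ring
  rw [h2] at h1
  have h3 : 1 / 10 * Real.exp (T ^ 2 / 18) ≤ M := by
    have hp := Real.exp_pos (-T ^ 2 / 6)
    by_contra hc
    push Not at hc
    have := mul_lt_mul_of_pos_left hc hp
    linarith
  have h4 := Real.add_one_le_exp (T ^ 2 / 18)
  nlinarith

lemma q_slope {A : Set E} (hA : Convex ℝ A) (hne : A.Nonempty) {R : ℝ} (hR : 1 ≤ R) (t : ℝ) {h : ℝ}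
    (hh : 0 ≤ h) : q A R t + h / 3 ≤ q A R (t + h) := by
  rcases hh.eq_or_lt with rfl | hh
  · simp
  obtain ⟨a, ha⟩ := hne
  obtain ⟨T1, hT1, hq⟩ := q_large ha hR
  have hlim : Tendsto (fun k : ℕ => h / 3 - (‖a‖ / 3 + |t| / 3 + |q A R t|) / 2 ^ k) atTop (𝓝 (h / 3 - 0)) := by
    refine tendsto_const_nhds.sub ?_
    refine Tendsto.div_atTop tendsto_const_nhds ?_
    exact tendsto_pow_atTop_atTop_of_one_lt (by norm_num)
  rw [sub_zero] at hlim
  have hbig : ∀ᶠ k : ℕ in atTop, T1 ≤ t + 2 ^ k * h - ‖a‖ := by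
    have : Tendsto (fun k : ℕ => (2:ℝ) ^ k * h) atTop atTop :=
      (tendsto_pow_atTop_atTop_of_one_lt (by norm_num)).atTop_mul_const hh
    filter_upwards [this.eventually_ge_atTop (T1 + ‖a‖ - t)] with k hk
    linarith
  have key : h / 3 ≤ q A R (t + h) - q A R t := by
    refine le_of_tendsto hlim ?_
    filter_upwards [hbig] with k hk
    refine le_trans ?_ (q_double hA ⟨a, ha⟩ (by linarith) t h k)
    have h1 := hq _ hk
    rw [sub_add_cancel] at h1
    have h2 : (0:ℝ) < 2 ^ k := by positivity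
    rw [le_div_iff₀ h2, sub_mul, div_mul_cancel₀ _ h2.ne']
    have h3 := le_abs_self (q A R t)
    have h4 := neg_abs_le t
    nlinarith
  linarith

/-- Gaussian isoperimetry for convex sets with constant `1/3`. -/
theorem iso {A C : Set E} (hA : Convex ℝ A) (hAm : MeasurableSet A) (hne : A.Nonempty)
    (hC : MeasurableSet C) {r : ℝ} (hr : 0 < r) (hAC : ∀ x, infDist x A < r → x ∈ C) {α : ℝ}
    (hα : Phi α ≤ (stdGaussian E).real A) : Phi (α + r / 3) ≤ (stdGaussian E).real C := by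
  have cP := continuous_Phi
  -- it is enough to have the inequality with small errors
  have key : ∀ ε : ℝ, 0 < ε → ε < r / 2 → Phi (α - ε + (r - 2 * ε) / 3) ≤ (stdGaussian E).real C := by
    intro ε hε hεr
    have lim1 : Tendsto (fun R : ℕ => Phi ((R:ℝ) * ε)) atTop (𝓝 1) :=
      tendsto_Phi_atTop.comp (tendsto_natCast_atTop_atTop.atTop_mul_const hε)
    have lim2 : Tendsto (fun R : ℕ => Phi (-((R:ℝ) * ε))) atTop (𝓝 0) :=
      tendsto_Phi_atBot.comp (tendsto_neg_atTop_atBot.comp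
        (tendsto_natCast_atTop_atTop.atTop_mul_const hε))
    have ev : ∀ᶠ R : ℕ in atTop, Phi (α - ε) ≤ Phi α * Phi ((R:ℝ) * ε) := by
      have h1 : Tendsto (fun R : ℕ => Phi α * Phi ((R:ℝ) * ε)) atTop (𝓝 (Phi α * 1)) :=
        lim1.const_mul _
      rw [mul_one] at h1
      exact (h1.eventually (lt_mem_nhds (strictMono_Phi (by linarith)))).mono fun R hR => hR.le
    have lim3 : Tendsto (fun R : ℕ => (stdGaussian E).real C + Phi (-((R:ℝ) * ε))) atTop
        (𝓝 ((stdGaussian E).real C + 0)) := lim2.const_add _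
    rw [add_zero] at lim3
    refine ge_of_tendsto lim3 ?_
    filter_upwards [ev, eventually_ge_atTop 1] with R hR hR1
    have hR1' : (1:ℝ) ≤ R := by exact_mod_cast hR1
    have hR0 : (0:ℝ) ≤ R := by linarith
    have i0 : ∀ t : ℝ, Integrable (fun x : E => Phi ((R:ℝ) * (t - infDist x A))) (stdGaussian E) :=
      fun t => integrable_Phi_comp _ (cont_q A R t).aemeasurable
    -- lower bound for q at ε
    have h1 : α - ε ≤ q A R ε := by
      rw [← strictMono_Phi.le_iff_le, Phi_q]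
      refine hR.trans ?_
      calc Phi α * Phi ((R:ℝ) * ε) ≤ (stdGaussian E).real A * Phi ((R:ℝ) * ε) :=
            mul_le_mul_of_nonneg_right hα (Phi_nonneg _)
        _ = ∫ x, A.indicator (fun _ => Phi ((R:ℝ) * ε)) x ∂stdGaussian E := by
            rw [integral_indicator_const _ hAm, smul_eq_mul]
        _ ≤ _ := by
            refine integral_mono ((integrable_const _).indicator hAm) (i0 ε) fun x => ?_
            by_cases hx : x ∈ A
            · simp only [indicator_of_mem hx, infDist_zero_of_mem hx, sub_zero]; exact le_rfl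
            · simp only [indicator_of_notMem hx]; exact Phi_nonneg _
    have h2 := q_slope hA hne hR1' ε (h := r - 2 * ε) (by linarith)
    have h3 : Phi (α - ε + (r - 2 * ε) / 3) ≤ Phi (q A R (ε + (r - 2 * ε))) :=
      strictMono_Phi.monotone (by linarith)
    refine h3.trans ?_
    rw [Phi_q]
    calc ∫ x, Phi ((R:ℝ) * (ε + (r - 2 * ε) - infDist x A)) ∂stdGaussian E
        ≤ ∫ x, (C.indicator (fun _ => (1:ℝ)) x + Phi (-((R:ℝ) * ε))) ∂stdGaussian E := by
          refine integral_mono (i0 _) (((integrable_const _).indicator hC).add (integrable_const _))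
            fun x => ?_
          by_cases hx : x ∈ C
          · simp only [indicator_of_mem hx]
            have := (Phi_lt_one ((R:ℝ) * (ε + (r - 2 * ε) - infDist x A))).le
            have := Phi_nonneg (-((R:ℝ) * ε))
            linarith
          · simp only [indicator_of_notMem hx, zero_add]
            have hd : r ≤ infDist x A := by
              by_contra hcon; push Not at hcon; exact hx (hAC x hcon)
            apply strictMono_Phi.monotone
            nlinarith
      _ = _ := by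
          rw [integral_add ((integrable_const _).indicator hC) (integrable_const _),
            integral_indicator_const _ hC]
          simp
  have lim : Tendsto (fun ε : ℝ => Phi (α - ε + (r - 2 * ε) / 3)) (𝓝[>] 0)
      (𝓝 (Phi (α - 0 + (r - 2 * 0) / 3))) := by
    refine (Continuous.tendsto ?_ 0).mono_left nhdsWithin_le_nhds
    fun_prop
  have e : α - 0 + (r - 2 * 0) / 3 = α + r / 3 := by ring
  rw [e] at lim
  refine le_of_tendsto lim ?_
  have : Ioo (0:ℝ) (r / 2) ∈ 𝓝[>] (0:ℝ) := Ioo_mem_nhdsGT (by linarith)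
  filter_upwards [this] with ε hε
  exact key ε hε.1 hε.2

/-! ### half-spaces and the shift estimate -/

lemma gamma_Iic (c : ℝ) : (gaussianReal 0 1).real (Iic c) = Phi c := by
  rw [measureReal_def, gaussianReal_apply_eq_integral 0 (by norm_num : (1:ℝ≥0) ≠ 0) (Iic c),
    ENNReal.toReal_ofReal (integral_nonneg fun x => gaussianPDFReal_nonneg 0 1 x), ← phi_eq]
  rfl

lemma half {n : E} (hn : ‖n‖ = 1) (c : ℝ) : (stdGaussian E).real {x | ⟪n, x⟫ ≤ c} = Phi c := by
  have h := Crest.Agent.R215.CM.map_inner_unit hn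
  calc (stdGaussian E).real {x | ⟪n, x⟫ ≤ c}
      = ((stdGaussian E).map (fun x => ⟪n, x⟫)).real (Iic c) := by
        rw [measureReal_def, measureReal_def, Measure.map_apply (by fun_prop) measurableSet_Iic]
        rfl
    _ = (gaussianReal 0 1).real (Iic c) := by rw [h]
    _ = Phi c := gamma_Iic c

lemma shift_le {n : E} (hn : ‖n‖ = 1) {D : Set E} (hD : MeasurableSet D) {θ : ℝ} (hθ : 0 < θ) :
    (stdGaussian E).real {x | x - θ • n ∈ D} ≤
      Real.exp 1 * (stdGaussian E).real D + Phi (θ - 1 / θ) := by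
  -- split `D` into the part with `⟪n,x⟫ ≥ -1/θ` and the rest
  set D1 : Set E := {x | x ∈ D ∧ -(1 / θ) ≤ ⟪n, x⟫} with hD1
  have mD1 : MeasurableSet D1 := hD.inter
    (measurableSet_le measurable_const (by fun_prop : Measurable fun x : E => ⟪n, x⟫))
  have h1 : (stdGaussian E).real {x | x - θ • n ∈ D1} ≤ Real.exp 1 * (stdGaussian E).real D := by
    have e : {x : E | x - θ • n ∈ D1} = {x | x + (-θ) • n ∈ D1} := by
      ext x; simp [sub_eq_add_neg]
    rw [e, Crest.Agent.R215.CM.cm_real _ mD1]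
    calc ∫ x in D1, Real.exp (⟪(-θ) • n, x⟫ - ‖(-θ) • n‖ ^ 2 / 2) ∂stdGaussian E
        ≤ ∫ x in D1, Real.exp 1 ∂stdGaussian E := by
          refine setIntegral_mono_on (Crest.Agent.R215.CM.integrable_dens _).integrableOn
            (integrable_const _).integrableOn mD1 fun x hx => ?_
          apply Real.exp_le_exp.2
          rw [real_inner_smul_left]
          have h2 : -(1 / θ) ≤ ⟪n, x⟫ := hx.2
          have h3 : -θ * ⟪n, x⟫ ≤ 1 := by
            have h4 : θ * -(1 / θ) ≤ θ * ⟪n, x⟫ := mul_le_mul_of_nonneg_left h2 hθ.le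
            have h5 : θ * -(1 / θ) = -1 := by field_simp
            linarith
          have := sq_nonneg ‖(-θ) • n‖
          linarith
      _ = Real.exp 1 * (stdGaussian E).real D1 := by
          rw [setIntegral_const, smul_eq_mul, mul_comm]
      _ ≤ _ := mul_le_mul_of_nonneg_left (measureReal_mono (fun x hx => hx.1)) (Real.exp_pos _).le
  have h2 : (stdGaussian E).real {x | ⟪n, x⟫ ≤ θ - 1 / θ} = Phi (θ - 1 / θ) := half hn _
  calc (stdGaussian E).real {x | x - θ • n ∈ D}
      ≤ (stdGaussian E).real ({x | x - θ • n ∈ D1} ∪ {x | ⟪n, x⟫ ≤ θ - 1 / θ}) := by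
        refine measureReal_mono fun x hx => ?_
        by_cases hc : -(1 / θ) ≤ ⟪n, x - θ • n⟫
        · exact Or.inl ⟨hx, hc⟩
        · right
          push Not at hc
          rw [inner_sub_right, real_inner_smul_right, real_inner_self_eq_norm_sq, hn] at hc
          simp only [mem_ofPred_eq]
          linarith
    _ ≤ (stdGaussian E).real {x | x - θ • n ∈ D1} + (stdGaussian E).real {x | ⟪n, x⟫ ≤ θ - 1 / θ} :=
        measureReal_union_le _ _
    _ ≤ _ := by rw [h2]; linarith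

lemma core {C : Set E} (hC : Convex ℝ C) (hCc : IsClosed C) {p n : E} (hp : p ∈ C) (hn : ‖n‖ = 1)
    {ρ : ℝ} (hρ : ∀ y ∈ C, ⟪n, y⟫ ≤ ρ) {δ θ : ℝ}
    (hδ : 1 / 2 - δ ≤ (stdGaussian E).real {g | (2:ℝ) • g ∈ C}) (hθ : 0 < θ) :
    Phi (θ + ρ / 2) - (Real.exp 1 * (Phi (ρ / 2) - 1 / 2 + δ) + Phi (θ - 1 / θ)) ≤
      (stdGaussian E).real {g | g + ((2:ℝ)⁻¹ • p - θ • n) ∈ C} := by
  set D : Set E := {x | ⟪n, x⟫ ≤ ρ / 2 ∧ x + (2:ℝ)⁻¹ • p ∉ C} with hD
  have mH : MeasurableSet {x : E | ⟪n, x⟫ ≤ ρ / 2} :=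
    measurableSet_le (by fun_prop : Measurable fun x : E => ⟪n, x⟫) measurable_const
  have mC : MeasurableSet {x : E | x + (2:ℝ)⁻¹ • p ∈ C} :=
    hCc.measurableSet.preimage (f := fun x : E => x + (2:ℝ)⁻¹ • p) (by fun_prop)
  have mA : MeasurableSet {x : E | (2:ℝ) • x ∈ C} :=
    hCc.measurableSet.preimage (f := fun x : E => (2:ℝ) • x) (by fun_prop)
  have mD : MeasurableSet D := mH.inter mC.compl
  -- measure of D
  have hDm : (stdGaussian E).real D ≤ Phi (ρ / 2) - 1 / 2 + δ := by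
    have h1 : D ∪ {x : E | (2:ℝ) • x ∈ C} ⊆ {x : E | ⟪n, x⟫ ≤ ρ / 2} := by
      rintro x (hx | hx)
      · exact hx.1
      · have := hρ _ hx
        rw [real_inner_smul_right] at this
        simp only [mem_ofPred_eq]; linarith
    have h2 : Disjoint D {x : E | (2:ℝ) • x ∈ C} := by
      rw [Set.disjoint_left]
      rintro x hx hx2
      apply hx.2
      have := hC hx2 hp (a := (2:ℝ)⁻¹) (b := (2:ℝ)⁻¹) (by norm_num) (by norm_num) (by norm_num)
      rwa [smul_smul, inv_mul_cancel₀ (by norm_num), one_smul] at this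
    have h3 := measureReal_union (μ := stdGaussian E) h2 mA
    have h4 := measureReal_mono (μ := stdGaussian E) h1
    rw [h3, half hn] at h4
    linarith
  have hs := shift_le hn mD hθ
  -- the shifted half-space
  have h1 : (stdGaussian E).real {x | ⟪n, x - θ • n⟫ ≤ ρ / 2} = Phi (θ + ρ / 2) := by
    rw [← half hn (θ + ρ / 2)]
    congr 1
    ext x
    simp only [mem_ofPred_eq]
    rw [inner_sub_right, real_inner_smul_right, real_inner_self_eq_norm_sq, hn]
    constructor <;> intro h <;> linarith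
  have h2 : {x : E | ⟪n, x - θ • n⟫ ≤ ρ / 2} ⊆
      {g | g + ((2:ℝ)⁻¹ • p - θ • n) ∈ C} ∪ {x | x - θ • n ∈ D} := by
    intro x hx
    by_cases hc : x + ((2:ℝ)⁻¹ • p - θ • n) ∈ C
    · exact Or.inl hc
    · right
      refine ⟨hx, ?_⟩
      have e : x - θ • n + (2:ℝ)⁻¹ • p = x + ((2:ℝ)⁻¹ • p - θ • n) := by abel
      rwa [e]
  have h3 := (measureReal_mono (μ := stdGaussian E) h2).trans (measureReal_union_le _ _)
  rw [h1] at h3
  have h4 := mul_le_mul_of_nonneg_left hDm (Real.exp_pos 1).le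
  linarith

lemma exp_seven : Real.exp (-7) ≤ 1 / 500 := by
  have h1 : (2:ℝ) ≤ Real.exp 1 := by have := Real.exp_one_gt_d9; linarith
  have h2 : Real.exp 7 = Real.exp 1 ^ 7 := by rw [← Real.exp_nat_mul]; norm_num
  have h3 : (2.7:ℝ) ≤ Real.exp 1 := by have := Real.exp_one_gt_d9; linarith
  have h4 : (2.7:ℝ) ^ 7 ≤ Real.exp 7 := by rw [h2]; exact pow_le_pow_left₀ (by norm_num) h3 7
  rw [Real.exp_neg, inv_le_comm₀ (Real.exp_pos _) (by norm_num)]
  calc _ ≤ (2.7:ℝ) ^ 7 := by norm_num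
    _ ≤ _ := h4

lemma tail_small {θ : ℝ} (h0 : 0 < θ) (h1 : θ ≤ 1 / 4) : Phi (θ - 1 / θ) ≤ θ / 250 := by
  set s : ℝ := 1 / θ - θ with hs
  have hinv : 4 ≤ 1 / θ := by rw [le_div_iff₀ h0]; linarith
  have hs1 : 15 / 4 ≤ s := by rw [hs]; linarith
  have hsθ : 15 / 16 ≤ s * θ := by
    have : s * θ = 1 - θ * θ := by rw [hs]; field_simp
    rw [this]; nlinarith
  have e : θ - 1 / θ = -s := by rw [hs]; ring
  rw [e]
  have hm := mills (x := -s) (by linarith)
  rw [neg_neg] at hm
  have hphi : phi (-s) ≤ (2 / 5) * (1 / 500) := by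
    have h2 : (Real.sqrt (2 * Real.pi))⁻¹ ≤ 2 / 5 := by
      have h3 := phi_le_four 0
      unfold phi at h3
      simpa using h3
    have h4 : Real.exp (-(-s) ^ 2 / 2) ≤ 1 / 500 := by
      refine le_trans (Real.exp_le_exp.2 ?_) exp_seven
      nlinarith
    unfold phi
    exact mul_le_mul h2 h4 (Real.exp_pos _).le (by norm_num)
  have hp := Phi_nonneg (-s)
  have h5 : s * Phi (-s) ≤ 1 / 1250 := by linarith
  nlinarith

/-- **Step 4.** -/
theorem flat {C : Set E} (hC : Convex ℝ C) (hCc : IsClosed C) {η : ℝ} (h0 : 0 < η) (h1 : η ≤ 1)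
    (h : 1 / 2 - η / 300 ≤ (stdGaussian E).real {g | (2:ℝ) • g ∈ C}) :
    ∃ u : E, ‖u‖ ≤ η ∧ 1 / 2 + η / 300 ≤ (stdGaussian E).real {g | g + u ∈ C} := by
  set δ : ℝ := η / 300 with hδ
  have hδ0 : 0 < δ := by positivity
  have hδ1 : δ ≤ 1 / 300 := by rw [hδ]; linarith
  have hη : η = 300 * δ := by rw [hδ]; ring
  have he : Real.exp 1 ≤ 2.72 := by have := Real.exp_one_lt_d9; linarith
  have he0 := Real.exp_pos 1
  set A : Set E := {g | (2:ℝ) • g ∈ C} with hA
  have Ac : IsClosed A := hCc.preimage (continuous_const_smul (2:ℝ))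
  have Aconv : Convex ℝ A := by
    intro x hx y hy a b ha hb hab
    have := hC hx hy ha hb hab
    simp only [hA, mem_ofPred_eq, smul_add]
    rwa [smul_comm (2:ℝ) a, smul_comm (2:ℝ) b]
  have hA0 : 0 < (stdGaussian E).real A := by linarith
  have Ane : A.Nonempty := by
    by_contra hcon
    rw [not_nonempty_iff_eq_empty] at hcon
    rw [hcon] at hA0; simp at hA0
  have Cne : C.Nonempty := ⟨_, Ane.some_mem⟩
  set θ : ℝ := η / 4 with hθ
  have hθ0 : 0 < θ := by positivity
  have hθ1 : θ ≤ 1 / 4 := by rw [hθ]; linarith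
  have hθδ : θ = 75 * δ := by rw [hθ, hη]; ring
  have htail := tail_small hθ0 hθ1
  by_cases hz : (0:E) ∈ C
  · -- case 0 ∈ C
    by_cases hball : ∀ x : E, ‖x‖ < 36 * δ → x ∈ C
    · refine ⟨0, by simpa using h0.le, ?_⟩
      simp only [add_zero]
      have hAα : Phi (-(3 * δ)) ≤ (stdGaussian E).real A := by
        refine le_trans ?_ h
        rw [Phi_neg]
        have := Phi_ge (x := 3 * δ) (by positivity) (by linarith)
        linarith
      have hAC : ∀ x, infDist x A < 18 * δ → x ∈ C := by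
        intro x hx
        obtain ⟨y, hy, hxy⟩ := (infDist_lt_iff Ane).1 hx
        have h2 : (2:ℝ) • (x - y) ∈ C := by
          apply hball
          rw [norm_smul, Real.norm_of_nonneg (by norm_num), ← dist_eq_norm]; linarith
        have h3 := hC hy h2 (a := (2:ℝ)⁻¹) (b := (2:ℝ)⁻¹) (by norm_num) (by norm_num) (by norm_num)
        rw [smul_smul, smul_smul, inv_mul_cancel₀ (by norm_num), one_smul, one_smul] at h3
        simpa using h3
      have h2 := iso Aconv Ac.measurableSet Ane hCc.measurableSet (r := 18 * δ) (by positivity) hAC hAα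
      have e : -(3 * δ) + 18 * δ / 3 = 3 * δ := by ring
      rw [e] at h2
      have := Phi_ge (x := 3 * δ) (by positivity) (by linarith)
      have e2 : {g : E | g ∈ C} = C := rfl
      rw [e2]
      linarith
    · push Not at hball
      obtain ⟨x, hx, hxC⟩ := hball
      obtain ⟨f, s, hf, hfx⟩ := geometric_hahn_banach_closed_point hC hCc hxC
      -- represent `f` by a vector
      set v : E := (InnerProductSpace.toDual ℝ E).symm f with hv
      have hfv : ∀ y, f y = ⟪v, y⟫ := fun y => by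
        rw [hv, InnerProductSpace.toDual_symm_apply]
      have hs0 : 0 < s := by have := hf 0 hz; simpa using this
      have hv0 : v ≠ 0 := by
        intro hv0
        rw [hfv, hv0, inner_zero_left] at hfx
        linarith
      have hvn : 0 < ‖v‖ := norm_pos_iff.2 hv0
      set n : E := ‖v‖⁻¹ • v with hn
      have hn1 : ‖n‖ = 1 := by
        rw [hn, norm_smul, norm_inv, norm_norm, inv_mul_cancel₀ hvn.ne']
      have hρ : ∀ y ∈ C, ⟪n, y⟫ ≤ 36 * δ := by
        intro y hy
        have h2 := hf y hy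
        have h3 : ⟪v, y⟫ < ⟪v, x⟫ := by rw [← hfv, ← hfv]; linarith
        have h4 : ⟪v, x⟫ ≤ ‖v‖ * ‖x‖ := real_inner_le_norm _ _
        rw [hn, real_inner_smul_left, inv_mul_le_iff₀ hvn]
        nlinarith
      have hc := core hC hCc hz hn1 hρ h hθ0
      refine ⟨(2:ℝ)⁻¹ • (0:E) - θ • n, ?_, le_trans ?_ hc⟩
      · rw [smul_zero, zero_sub, norm_neg, norm_smul, hn1, Real.norm_of_nonneg hθ0.le]; linarith
      · have g1 : Phi θ ≤ Phi (θ + 36 * δ / 2) := strictMono_Phi.monotone (by linarith)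
        have g2 := Phi_ge hθ0.le hθ1
        have g3 := Phi_le (x := 36 * δ / 2) (by positivity)
        have g4 : Real.exp 1 * (Phi (36 * δ / 2) - 1 / 2 + δ) ≤ 2.72 * (8.2 * δ) := by
          have a1 : Phi (36 * δ / 2) - 1 / 2 + δ ≤ 8.2 * δ := by linarith
          have a2 : 0 ≤ 8.2 * δ := by positivity
          nlinarith
        linarith
  · -- case 0 ∉ C
    obtain ⟨p, hpC, hp⟩ := exists_norm_eq_iInf_of_complete_convex Cne hCc.isComplete hC (0:E)
    have hp2 := (norm_eq_iInf_iff_real_inner_le_zero hC hpC).1 hp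
    have hp0 : p ≠ 0 := by rintro rfl; exact hz hpC
    have hpn : 0 < ‖p‖ := norm_pos_iff.2 hp0
    set n : E := -(‖p‖⁻¹ • p) with hn
    have hn1 : ‖n‖ = 1 := by
      rw [hn, norm_neg, norm_smul, norm_inv, norm_norm, inv_mul_cancel₀ hpn.ne']
    have hρ : ∀ y ∈ C, ⟪n, y⟫ ≤ -‖p‖ := by
      intro y hy
      have h2 := hp2 y hy
      rw [zero_sub, inner_neg_left, inner_sub_right, real_inner_self_eq_norm_sq] at h2
      rw [hn, inner_neg_left, real_inner_smul_left, neg_le_neg_iff, le_inv_mul_iff₀ hpn]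
      nlinarith
    have hps : ‖p‖ ≤ 6 * δ := by
      have h2 : (stdGaussian E).real A ≤ Phi (-‖p‖ / 2) := by
        rw [← half hn1]
        refine measureReal_mono fun x hx => ?_
        have := hρ _ hx
        rw [real_inner_smul_right] at this
        simp only [mem_ofPred_eq]; linarith
      by_contra hcon
      push Not at hcon
      have h3 : Phi (-‖p‖ / 2) ≤ Phi (-(3 * δ)) := strictMono_Phi.monotone (by linarith)
      have h4 := Phi_ge (x := 3 * δ) (by positivity) (by linarith)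
      rw [Phi_neg] at h3
      linarith
    have hc := core hC hCc hpC hn1 hρ h hθ0
    refine ⟨(2:ℝ)⁻¹ • p - θ • n, ?_, le_trans ?_ hc⟩
    · calc ‖(2:ℝ)⁻¹ • p - θ • n‖ ≤ ‖(2:ℝ)⁻¹ • p‖ + ‖θ • n‖ := norm_sub_le _ _
        _ = 2⁻¹ * ‖p‖ + θ := by
            rw [norm_smul, norm_smul, hn1, Real.norm_of_nonneg (by norm_num : (0:ℝ) ≤ 2⁻¹),
              Real.norm_of_nonneg hθ0.le, mul_one]
        _ ≤ _ := by linarith
    · have g1 : Phi (θ - 3 * δ) ≤ Phi (θ + -‖p‖ / 2) := strictMono_Phi.monotone (by linarith)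
      have g2 := Phi_ge (x := θ - 3 * δ) (by linarith) (by linarith)
      have g3 : Phi (-‖p‖ / 2) ≤ 1 / 2 := by
        rw [← Phi_zero]; exact strictMono_Phi.monotone (by linarith)
      have g4 : Real.exp 1 * (Phi (-‖p‖ / 2) - 1 / 2 + δ) ≤ 2.72 * δ := by
        have a1 : Phi (-‖p‖ / 2) - 1 / 2 + δ ≤ δ := by linarith
        nlinarith
      linarith

end Crest.Agent.R239.Flat
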