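import Crest.Agent.R239.Gau2

/-! General Gaussian tools for R239, part 3 (helper622): level sets of
`y ↦ N(0,AA†)(K - y)`, isoperimetry, dilations. -/

set_option autoImplicit false
set_option linter.unusedSectionVars false
open MeasureTheory ProbabilityTheory Set Filter Topology Metric
open scoped RealInnerProductSpace ENNReal NNReal InnerProduct Pointwise

namespace Crest.Agent.R239

open Crest.Agent.Lib.Ehrhard

variable {E : Type*} [NormedAddCommGroup E] [InnerProductSpace ℝ E] [FiniteDimensional ℝ E]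
  [MeasurableSpace E] [BorelSpace E]
variable {F : Type*} [NormedAddCommGroup F] [InnerProductSpace ℝ F] [FiniteDimensional ℝ F]
  [MeasurableSpace F] [BorelSpace F]

/-! ### Level sets -/

/-- `tset T K c = {y : P(y + T g ∈ K) ≥ c}`. -/
def tset (T : F →L[ℝ] E) (K : Set E) (c : ℝ) : Set E :=
  {y | c ≤ (gau T).real {x | y + x ∈ K}}

lemma isClosed_shift {K : Set E} (hK : IsClosed K) (y : E) : IsClosed {x : E | y + x ∈ K} :=
  hK.preimage (continuous_const_add y)

lemma convex_shift {K : Set E} (cK : Convex ℝ K) (y : E) : Convex ℝ {x : E | y + x ∈ K} := by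
  intro x hx z hz a b ha hb hab
  have := cK hx hz ha hb hab
  simp only [mem_ofPred_eq]
  convert this using 1
  rw [smul_add, smul_add]
  have : y = a • y + b • y := by rw [← add_smul, hab, one_smul]
  nth_rw 1 [this]
  abel

/-- Ehrhard for the level sets: `(1-t) tset(Φ a) + t tset(Φ b) ⊆ tset(Φ((1-t)a+tb))`. -/
theorem tset_concave (T : F →L[ℝ] E) {K : Set E} (hK : IsClosed K) (cK : Convex ℝ K)
    {t : ℝ} (ht0 : 0 ≤ t) (ht1 : t ≤ 1) {a b : ℝ} {x y : E}
    (hx : x ∈ tset T K (Phi a)) (hy : y ∈ tset T K (Phi b)) :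
    (1 - t) • x + t • y ∈ tset T K (Phi ((1 - t) * a + t * b)) := by
  refine ehrhard_gau T (isClosed_shift hK x) (isClosed_shift hK y) (convex_shift cK x)
    (convex_shift cK y) (isClosed_shift hK _) ht0 ht1 ?_ hx hy
  intro p hp q hq
  simp only [mem_ofPred_eq] at hp hq ⊢
  have := cK hp hq (sub_nonneg.2 ht1) ht0 (by ring)
  convert this using 1
  rw [smul_add, smul_add]
  abel

/-- Upper semicontinuity: `y ↦ N(K - y)` for closed `K`; the level sets are closed. -/
theorem isClosed_tset (T : F →L[ℝ] E) {K : Set E} (hK : IsClosed K) (c : ℝ) :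
    IsClosed (tset T K c) := by
  rw [← isSeqClosed_iff_isClosed]
  intro u y hu hy
  simp only [tset, mem_ofPred_eq] at hu ⊢
  -- for every δ, eventually {x | u n + x ∈ K} ⊆ {x | y + x ∈ cthickening δ K}
  have hδ : ∀ δ > 0, c ≤ (gau T).real {x | y + x ∈ cthickening δ K} := by
    intro δ hδ
    obtain ⟨n, hn⟩ := ((tendsto_iff_dist_tendsto_zero.1 hy).eventually (gt_mem_nhds hδ)).exists
    refine (hu n).trans (measureReal_mono ?_)
    intro x hx
    refine mem_cthickening_of_dist_le _ (u n + x) δ K hx ?_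
    rw [dist_add_right, dist_comm]
    exact hn.le
  have hlim : Tendsto (fun δ => (gau T).real {x | y + x ∈ cthickening δ K}) (𝓝[>] 0)
      (𝓝 ((gau T).real {x | y + x ∈ K})) := by
    have h1 : ∀ X : Set E, MeasurableSet X →
        (gau T).real {x | y + x ∈ X} = ((gau T).map (fun x => y + x)).real X := by
      intro X hX
      rw [Measure.real, Measure.real, Measure.map_apply (by fun_prop) hX]
      rfl
    rw [h1 K hK.measurableSet]
    have h2 : (fun δ => (gau T).real {x | y + x ∈ cthickening δ K})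
        = fun δ => ((gau T).map (fun x => y + x)).real (cthickening δ K) := by
      funext δ
      exact h1 _ isClosed_cthickening.measurableSet
    rw [h2]
    have : IsProbabilityMeasure ((gau T).map (fun x => y + x)) :=
      Measure.isProbabilityMeasure_map (by fun_prop)
    have hl := tendsto_measure_cthickening_of_isClosed (μ := (gau T).map (fun x => y + x)) (s := K)
      ⟨1, one_pos, measure_ne_top _ _⟩ hK
    exact (ENNReal.tendsto_toReal (measure_ne_top _ _)).comp (hl.mono_left nhdsWithin_le_nhds)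
  refine ge_of_tendsto hlim ?_
  filter_upwards [self_mem_nhdsWithin] with δ h
  exact hδ δ h

lemma tset_anti (T : F →L[ℝ] E) (K : Set E) {c c' : ℝ} (h : c ≤ c') : tset T K c' ⊆ tset T K c :=
  fun _ hy => h.trans hy

lemma tset_mono (T : F →L[ℝ] E) {K K' : Set E} (h : K ⊆ K') (c : ℝ) : tset T K c ⊆ tset T K' c := by
  intro y hy
  have h2 : (gau T).real {x | y + x ∈ K} ≤ (gau T).real {x | y + x ∈ K'} :=
    measureReal_mono fun x hx => h hx
  exact le_trans hy h2

/-- The level sets `tset T K c`, `0 < c < 1`, of a closed convex set are convex. -/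
theorem convex_tset (T : F →L[ℝ] E) {K : Set E} (hK : IsClosed K) (cK : Convex ℝ K) (a : ℝ) :
    Convex ℝ (tset T K (Phi a)) := by
  intro x hx y hy s t hs ht hst
  have h1 : s = 1 - t := by linarith
  have := tset_concave T hK cK ht (by linarith) hx hy
  rw [h1]
  convert this using 3
  ring

theorem convex_tset' (T : F →L[ℝ] E) {K : Set E} (hK : IsClosed K) (cK : Convex ℝ K) {c : ℝ}
    (hc0 : 0 < c) (hc1 : c < 1) : Convex ℝ (tset T K c) := by
  rw [← Phi_Psi hc0 hc1]
  exact convex_tset T hK cK _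

/-! ### Asymptotics of balls -/

lemma Phi_neg_eq (s : ℝ) : Phi (-s) = ∫ t in Ioi s, phi t := by
  have h1 := Phi_add_compl s
  have h2 := Phi_neg s
  linarith

lemma Phi_neg_add_le {s h : ℝ} (hh : 0 ≤ h) :
    Phi (-(s + h)) ≤ Real.exp (-(s * h)) * Phi (-s) := by
  rw [Phi_neg_eq, Phi_neg_eq]
  have e : ∫ t in Ioi (s + h), phi t = ∫ t in Ioi s, phi (t + h) := by
    rw [← integral_indicator measurableSet_Ioi, ← integral_indicator measurableSet_Ioi,
      ← integral_add_right_eq_self _ h]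
    refine integral_congr_ae (Eventually.of_forall fun t => ?_)
    simp only [indicator, mem_Ioi, add_lt_add_iff_right]
  rw [e, ← integral_const_mul]
  refine setIntegral_mono_on ?_ (integrable_phi.integrableOn.const_mul _) measurableSet_Ioi ?_
  · exact (integrable_phi.comp_add_right h).integrableOn
  · intro t ht
    rw [phi_add, mul_comm]
    refine mul_le_mul_of_nonneg_right ?_ (phi_nonneg t)
    refine Real.exp_le_exp.2 ?_
    have : s * h ≤ h * t := by nlinarith [mem_Ioi.1 ht]
    nlinarith [sq_nonneg h]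

/-- Large balls: `Φ(c R) ≤ γ(B(x0,R))` for `c < 1` and `R` large. -/
theorem Phi_le_ball {c : ℝ} (hc0 : 0 < c) (hc : c < 1) (x0 : E) :
    ∀ᶠ R : ℝ in atTop, Phi (c * R) ≤ (stdGaussian E).real (closedBall x0 R) := by
  -- a finite net of the sphere
  obtain ⟨c', hc1, hc2⟩ := exists_between hc
  have hcov : sphere (0:E) 1 ⊆ ⋃ n : sphere (0:E) 1, {x : E | c' < ⟪(n:E), x⟫} := by
    intro x hx
    refine mem_iUnion.2 ⟨⟨x, hx⟩, ?_⟩
    have : ‖x‖ = 1 := by simpa using hx
    simp only [mem_ofPred_eq, real_inner_self_eq_norm_sq, this]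
    simpa using hc2
  obtain ⟨S, hS⟩ := (isCompact_sphere (0:E) 1).elim_finite_subcover _
    (fun n => isOpen_lt continuous_const (by fun_prop)) hcov
  have hev : ∀ᶠ R : ℝ in atTop, (0 < R ∧ ‖x0‖ ≤ (c' - c) * R) ∧
      (S.card : ℝ) * Real.exp (-(c * R * ((c' - c) * R - ‖x0‖))) ≤ 1 := by
    refine Eventually.and (Eventually.and (eventually_gt_atTop 0) ?_) ?_
    · have : Tendsto (fun R : ℝ => (c' - c) * R) atTop atTop :=
        tendsto_id.const_mul_atTop (by linarith)
      exact this.eventually (eventually_ge_atTop _)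
    · have h1 : Tendsto (fun R : ℝ => c * R * ((c' - c) * R - ‖x0‖)) atTop atTop := by
        refine Tendsto.atTop_mul_atTop₀ (tendsto_id.const_mul_atTop hc0) ?_
        exact tendsto_atTop_add_const_right _ _ (tendsto_id.const_mul_atTop (by linarith))
      have h2 : Tendsto (fun R : ℝ => (S.card : ℝ) * Real.exp (-(c * R * ((c' - c) * R - ‖x0‖)))) atTop
          (𝓝 ((S.card : ℝ) * 0)) :=
        (Real.tendsto_exp_atBot.comp (tendsto_neg_atTop_atBot.comp h1)).const_mul _
      rw [mul_zero] at h2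
      exact (h2.eventually (gt_mem_nhds one_pos)).mono fun _ h => h.le
  filter_upwards [hev] with R hR
  obtain ⟨⟨hR0, hR1⟩, hR2⟩ := hR
  -- complement of the ball
  have hsub : (closedBall x0 R)ᶜ ⊆ ⋃ n ∈ S, {x : E | c' * R - ‖x0‖ < ⟪(n:E), x⟫} := by
    intro x hx
    have hx' : R < ‖x - x0‖ := by
      simpa [mem_closedBall, dist_eq_norm] using hx
    have hpos : 0 < ‖x - x0‖ := hR0.trans hx'
    have hu : (‖x - x0‖)⁻¹ • (x - x0) ∈ sphere (0:E) 1 := by
      simp [norm_smul, hpos.ne']
    obtain ⟨n, hn⟩ := mem_iUnion.1 (hS hu)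
    obtain ⟨hnS, hn2⟩ := mem_iUnion.1 hn
    refine mem_iUnion.2 ⟨n, mem_iUnion.2 ⟨hnS, ?_⟩⟩
    simp only [mem_ofPred_eq, inner_smul_right] at hn2 ⊢
    have h3 : c' * ‖x - x0‖ < ⟪(n:E), x - x0⟫ := by
      rw [inv_mul_eq_div, lt_div_iff₀ hpos] at hn2
      exact hn2
    rw [inner_sub_right] at h3
    have h4 : -‖x0‖ ≤ ⟪(n:E), x0⟫ := by
      have := abs_real_inner_le_norm (n:E) x0
      have hn1 : ‖(n:E)‖ = 1 := by simp
      rw [hn1, one_mul] at this
      exact (abs_le.1 this).1
    have h5 : c' * R ≤ c' * ‖x - x0‖ := mul_le_mul_of_nonneg_left hx'.le (by linarith)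
    linarith
  have hhalf : ∀ n : sphere (0:E) 1, (stdGaussian E).real {x : E | c' * R - ‖x0‖ < ⟪(n:E), x⟫}
      = Phi (-(c' * R - ‖x0‖)) := by
    intro n
    have hn1 : ‖(n:E)‖ = 1 := by simp
    have hn0 : (n:E) ≠ 0 := by
      intro h0
      rw [h0, norm_zero] at hn1
      exact zero_ne_one hn1
    have h1 := std_halfspace (n:E) hn0 (c' * R - ‖x0‖)
    rw [hn1, div_one] at h1
    have h2 : {x : E | c' * R - ‖x0‖ < ⟪(n:E), x⟫} = {x : E | ⟪(n:E), x⟫ ≤ c' * R - ‖x0‖}ᶜ := by
      ext x
      simp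
    rw [h2, probReal_compl_eq_one_sub (measurableSet_le (by fun_prop) (by fun_prop)), h1, Phi_neg]
  have hle : (stdGaussian E).real (closedBall x0 R)ᶜ ≤ (S.card : ℝ) * Phi (-(c' * R - ‖x0‖)) := by
    refine (measureReal_mono hsub (measure_ne_top _ _)).trans ((measureReal_biUnion_finset_le S _).trans ?_)
    rw [Finset.sum_congr rfl fun n _ => hhalf n]
    simp
  rw [probReal_compl_eq_one_sub isClosed_closedBall.measurableSet] at hle
  have h6 : Phi (-(c' * R - ‖x0‖)) ≤ Real.exp (-(c * R * ((c' - c) * R - ‖x0‖))) * Phi (-(c * R)) := by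
    have := Phi_neg_add_le (s := c * R) (h := (c' - c) * R - ‖x0‖) (by linarith)
    convert this using 2
    ring
  have h7 : (S.card : ℝ) * Phi (-(c' * R - ‖x0‖)) ≤ Phi (-(c * R)) := by
    calc (S.card : ℝ) * Phi (-(c' * R - ‖x0‖))
        ≤ (S.card : ℝ) * (Real.exp (-(c * R * ((c' - c) * R - ‖x0‖))) * Phi (-(c * R))) :=
          mul_le_mul_of_nonneg_left h6 (Nat.cast_nonneg _)
      _ = ((S.card : ℝ) * Real.exp (-(c * R * ((c' - c) * R - ‖x0‖)))) * Phi (-(c * R)) := by ring
      _ ≤ 1 * Phi (-(c * R)) := mul_le_mul_of_nonneg_right hR2 (Phi_nonneg _)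
      _ = _ := one_mul _
  have h8 := Phi_neg (c * R)
  linarith

/-- Gaussian isoperimetry for closed convex sets. -/
theorem isoperimetry {K : Set E} (hK : IsClosed K) (cK : Convex ℝ K) {a r : ℝ} (hr : 0 ≤ r)
    (ha : Phi a ≤ (stdGaussian E).real K) :
    Phi (a + r) ≤ (stdGaussian E).real (cthickening r K) := by
  have hKne : K.Nonempty := by
    by_contra hne
    rw [not_nonempty_iff_eq_empty] at hne
    rw [hne] at ha
    simp only [measureReal_empty] at ha
    exact absurd ha (not_le.2 (Phi_pos a))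
  obtain ⟨x0, hx0⟩ := hKne
  have key : ∀ c : ℝ, 0 < c → c < 1 → Phi (a + c * r) ≤ (stdGaussian E).real (cthickening r K) := by
    intro c hc0 hc1
    have hev : ∀ᶠ R : ℝ in atTop, Phi ((1 - r / R) * a + (r / R) * (c * R))
        ≤ (stdGaussian E).real (cthickening r K) := by
      filter_upwards [Phi_le_ball hc0 hc1 x0, eventually_gt_atTop 0, eventually_ge_atTop r]
        with R hR hR0 hRr
      refine ehrhard_sets hK isClosed_closedBall cK (convex_closedBall x0 R) isClosed_cthickening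
        (by positivity) ((div_le_one hR0).2 hRr) ?_ ha hR
      intro x hx y hy
      refine mem_cthickening_of_dist_le _ ((1 - r / R) • x + (r / R) • x0) r K ?_ ?_
      · exact cK hx hx0 (sub_nonneg.2 ((div_le_one hR0).2 hRr)) (by positivity) (by ring)
      · rw [dist_add_left, dist_smul₀, Real.norm_of_nonneg (by positivity)]
        have := mem_closedBall.1 hy
        calc r / R * dist y x0 ≤ r / R * R := mul_le_mul_of_nonneg_left this (by positivity)
          _ = r := by field_simp
    have hlim : Tendsto (fun R : ℝ => Phi ((1 - r / R) * a + (r / R) * (c * R))) atTop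
        (𝓝 (Phi (a + c * r))) := by
      refine (continuous_Phi.tendsto _).comp ?_
      have h1 : Tendsto (fun R : ℝ => r / R) atTop (𝓝 0) := tendsto_const_nhds.div_atTop tendsto_id
      have h2 : Tendsto (fun R : ℝ => (1 - r / R) * a + c * r) atTop (𝓝 ((1 - 0) * a + c * r)) :=
        ((tendsto_const_nhds.sub h1).mul_const a).add_const _
      rw [sub_zero, one_mul] at h2
      refine h2.congr' ?_
      filter_upwards [eventually_gt_atTop 0] with R hR
      field_simp
    exact le_of_tendsto hlim hev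
  have hlim : Tendsto (fun c : ℝ => Phi (a + c * r)) (𝓝[<] 1) (𝓝 (Phi (a + 1 * r))) := by
    refine Tendsto.mono_left ?_ nhdsWithin_le_nhds
    exact (continuous_Phi.comp (by fun_prop : Continuous fun c : ℝ => a + c * r)).tendsto 1
  rw [one_mul] at hlim
  refine le_of_tendsto hlim ?_
  have h0 : ∀ᶠ c : ℝ in 𝓝[<] 1, 0 < c := nhdsWithin_le_nhds (lt_mem_nhds one_pos)
  filter_upwards [self_mem_nhdsWithin, h0] with c hc hc0
  exact key c hc0 hc

lemma cthickening_subset_add {K : Set E} (hK : IsClosed K) {r : ℝ} (hr : 0 ≤ r) :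
    cthickening r K ⊆ K + closedBall 0 r := by
  rw [hK.cthickening_eq_biUnion_closedBall hr]
  intro z hz
  obtain ⟨x, hx⟩ := mem_iUnion.1 hz
  obtain ⟨hxK, hzx⟩ := mem_iUnion.1 hx
  refine ⟨x, hxK, z - x, ?_, add_sub_cancel x z⟩
  rw [mem_closedBall_zero_iff, ← dist_eq_norm]
  exact hzx

/-- Isoperimetry for a general centred Gaussian: enlargement by the ellipsoid `r T(B)`. -/
theorem isoperimetry_gau (T : F →L[ℝ] E) {K C : Set E} (hK : IsClosed K) (cK : Convex ℝ K)
    (hC : IsClosed C) {a r : ℝ} (hr : 0 ≤ r) (h : ∀ x ∈ K, ∀ u : F, ‖u‖ ≤ r → x + T u ∈ C)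
    (ha : Phi a ≤ (gau T).real K) : Phi (a + r) ≤ (gau T).real C := by
  rw [gau_real_apply T hK.measurableSet] at ha
  rw [gau_real_apply T hC.measurableSet]
  have hcl : IsClosed (T ⁻¹' K) := hK.preimage T.continuous
  refine (isoperimetry hcl (cK.linear_preimage (T : F →ₗ[ℝ] E)) hr ha).trans
    (measureReal_mono ?_)
  refine (cthickening_subset_add hcl hr).trans ?_
  rintro z ⟨x, hx, u, hu, rfl⟩
  simp only [mem_preimage, map_add]
  exact h _ hx u (by simpa using hu)

/-- Dilations: if `closedBall 0 ρ ⊆ C` (`C` closed convex) then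
`Φ(a) ≤ γ(s C)` implies `Φ(a + (t - s) ρ) ≤ γ(t C)` for `0 < s ≤ t`. -/
theorem dilation_slope {C : Set E} (hC : IsClosed C) (cC : Convex ℝ C) {ρ : ℝ} (hρ : 0 ≤ ρ)
    (hb : closedBall (0:E) ρ ⊆ C) {s t a : ℝ} (hs : 0 < s) (hst : s ≤ t)
    (ha : Phi a ≤ (stdGaussian E).real (s • C)) :
    Phi (a + (t - s) * ρ) ≤ (stdGaussian E).real (t • C) := by
  have hcl : IsClosed (s • C) := hC.smul_of_ne_zero hs.ne'
  refine (isoperimetry hcl (cC.smul s) (mul_nonneg (by linarith) hρ) ha).trans
    (measureReal_mono ?_)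
  refine (cthickening_subset_add hcl (mul_nonneg (by linarith) hρ)).trans ?_
  rintro z ⟨x, hx, u, hu, rfl⟩
  have h1 : t • C = s • C + (t - s) • C := by
    rw [← cC.add_smul hs.le (by linarith)]
    congr 1
    ring
  rw [h1]
  refine add_mem_add hx ?_
  rcases eq_or_lt_of_le hst with h | h
  · have hu0 : u = 0 := by
      simpa [h] using hu
    rw [hu0, h, sub_self]
    exact ⟨0, hb (mem_closedBall_self hρ), by simp⟩
  · have hts : 0 < t - s := by linarith
    refine ⟨(t - s)⁻¹ • u, hb ?_, by simp [smul_smul, hts.ne']⟩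
    rw [mem_closedBall_zero_iff, norm_smul, Real.norm_of_nonneg (by positivity)]
    rw [mem_closedBall_zero_iff] at hu
    calc (t - s)⁻¹ * ‖u‖ ≤ (t - s)⁻¹ * ((t - s) * ρ) := mul_le_mul_of_nonneg_left hu (by positivity)
      _ = ρ := by field_simp

/-- Concavity in the dilation parameter. -/
theorem dilation_concave {C : Set E} (hC : IsClosed C) (cC : Convex ℝ C) {s t a b l : ℝ}
    (hs : 0 < s) (ht : 0 < t) (hl0 : 0 ≤ l) (hl1 : l ≤ 1)
    (ha : Phi a ≤ (stdGaussian E).real (s • C)) (hb : Phi b ≤ (stdGaussian E).real (t • C)) :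
    Phi ((1 - l) * a + l * b) ≤ (stdGaussian E).real (((1 - l) * s + l * t) • C) := by
  have hpos : 0 < (1 - l) * s + l * t := by
    rcases eq_or_lt_of_le hl0 with h | h
    · rw [← h]; simpa using hs
    · have h1 : 0 ≤ (1 - l) * s := mul_nonneg (by linarith) hs.le
      have h2 : 0 < l * t := mul_pos h ht
      linarith
  refine ehrhard_sets (hC.smul_of_ne_zero hs.ne') (hC.smul_of_ne_zero ht.ne') (cC.smul s)
    (cC.smul t) (hC.smul_of_ne_zero hpos.ne') hl0 hl1 ?_ ha hb
  rintro x ⟨x', hx', rfl⟩ y ⟨y', hy', rfl⟩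
  rw [cC.add_smul (mul_nonneg (by linarith) hs.le) (mul_nonneg hl0 ht.le)]
  refine add_mem_add ⟨x', hx', ?_⟩ ⟨y', hy', ?_⟩
  · simp only [smul_smul]
  · simp only [smul_smul]

end Crest.Agent.R239
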