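import Mathlib
import Crest.Agent.Lib.Ehrhard.Gain

/-! R239, Steps 2 + 3 of helper439's #10467 (helper876). -/

set_option autoImplicit false
open MeasureTheory ProbabilityTheory Set Filter Topology
open scoped ENNReal NNReal

namespace Crest.Agent.R239.Shell876

open Crest.Agent.Lib.Ehrhard

/-! ### Part 1: facts about `Phi` -/

lemma Phi_sub (p e : ℝ) : Phi (p + e) - Phi p = ∫ s in (0:ℝ)..e, phi (p + s) := by
  have h : ∫ s in (0:ℝ)..e, phi (p + s) = ∫ s in p..(p+e), phi s := by
    rw [intervalIntegral.integral_comp_add_left (f := phi)]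
    simp
  rw [h]
  have := intervalIntegral.integral_eq_sub_of_hasDerivAt (f := Phi) (f' := phi) (a := p) (b := p + e)
    (fun x _ => hasDerivAt_Phi x) (continuous_phi.intervalIntegrable _ _)
  rw [this]

lemma exp_half_le : Real.exp (1/2) ≤ 17/10 := by
  have h : Real.exp (1/2) ^ 2 = Real.exp 1 := by
    rw [← Real.exp_nat_mul]; norm_num
  have h1 := Real.exp_one_lt_d9
  have h0 : 0 < Real.exp (1/2) := Real.exp_pos _
  nlinarith

lemma phi_le_phi {p0 p s : ℝ} (hp0 : -1 ≤ p0) (hp : p0 ≤ p) (hs : 0 ≤ s) :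
    phi (p + s) ≤ 17/10 * phi (p0 + s) := by
  unfold phi
  have hc : 0 < (Real.sqrt (2 * Real.pi))⁻¹ := by positivity
  have h1 : Real.exp (-(p + s) ^ 2 / 2) ≤ Real.exp (1/2) * Real.exp (-(p0 + s) ^ 2 / 2) := by
    rw [← Real.exp_add]
    apply Real.exp_le_exp.2
    rcases le_total 0 (p0 + s) with h | h
    · nlinarith
    · nlinarith [sq_nonneg (p + s)]
  have h2 : Real.exp (1/2) * Real.exp (-(p0 + s) ^ 2 / 2) ≤ 17/10 * Real.exp (-(p0 + s) ^ 2 / 2) :=
    mul_le_mul_of_nonneg_right exp_half_le (Real.exp_pos _).le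
  nlinarith

lemma Phi_incr {p0 p d e : ℝ} (hp0 : -1 ≤ p0) (hp : p0 ≤ p) (he : 0 ≤ e) (hed : e ≤ d) :
    Phi (p + e) - Phi p ≤ 17/10 * (Phi (p0 + d) - Phi p0) := by
  rw [Phi_sub, Phi_sub, ← intervalIntegral.integral_const_mul]
  have i1 : ∀ a b q : ℝ, IntervalIntegrable (fun s => phi (q + s)) volume a b := fun a b q =>
    (continuous_phi.comp (by fun_prop)).intervalIntegrable _ _
  calc ∫ s in (0:ℝ)..e, phi (p + s) ≤ ∫ s in (0:ℝ)..e, 17/10 * phi (p0 + s) := by
        apply intervalIntegral.integral_mono_on he (i1 _ _ _) ((i1 _ _ _).const_mul _)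
        intro s hs
        exact phi_le_phi hp0 hp hs.1
    _ ≤ ∫ s in (0:ℝ)..d, 17/10 * phi (p0 + s) := by
        rw [← intervalIntegral.integral_add_adjacent_intervals ((i1 0 e p0).const_mul (17/10))
          ((i1 e d p0).const_mul (17/10))]
        have : 0 ≤ ∫ s in e..d, 17/10 * phi (p0 + s) := by
          apply intervalIntegral.integral_nonneg hed
          intro s _
          have := phi_nonneg (p0 + s)
          positivity
        linarith

lemma Phi_neg_le_exp (s : ℝ) : Phi (-s) ≤ Real.exp (-s) := by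
  have h1 : ∀ t, phi t ≤ Real.exp t := by
    intro t
    unfold phi
    have hc : (Real.sqrt (2 * Real.pi))⁻¹ ≤ 1/2 := by
      rw [inv_le_comm₀ (by positivity) (by norm_num)]
      apply Real.le_sqrt_of_sq_le
      nlinarith [Real.pi_gt_three]
    have h2 : Real.exp (-t^2/2) ≤ Real.exp (1/2) * Real.exp t := by
      rw [← Real.exp_add]
      apply Real.exp_le_exp.2
      nlinarith [sq_nonneg (t + 1)]
    have h3 := exp_half_le
    have h4 := Real.exp_pos t
    have h5 := Real.exp_pos (-t^2/2)
    have h6 : Real.exp (1/2) * Real.exp t ≤ 17/10 * Real.exp t := mul_le_mul_of_nonneg_right h3 h4.le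
    calc (Real.sqrt (2 * Real.pi))⁻¹ * Real.exp (-t^2/2) ≤ 1/2 * Real.exp (-t^2/2) :=
          mul_le_mul_of_nonneg_right hc h5.le
      _ ≤ Real.exp t := by linarith
  unfold Phi
  rw [← integral_exp_Iic]
  exact integral_mono integrable_phi.integrableOn (integrableOn_exp_Iic _) h1

lemma Phi_zero : Phi 0 = 1/2 := by
  have := Phi_neg 0
  simp at this
  linarith

lemma half_sub_Phi {t : ℝ} (h0 : 0 ≤ t) (h1 : t ≤ 1/20) : 3/10 * t ≤ 1/2 - Phi (-t) := by
  have e : 1/2 - Phi (-t) = Phi (0 + t) - Phi 0 := by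
    rw [Phi_neg, Phi_zero]; simp; ring
  rw [e, Phi_sub]
  have i1 : IntervalIntegrable (fun s => phi (0 + s)) volume 0 t :=
    (continuous_phi.comp (by fun_prop)).intervalIntegrable _ _
  calc 3/10 * t = ∫ s in (0:ℝ)..t, (3/10 : ℝ) := by simp; ring
    _ ≤ _ := by
      apply intervalIntegral.integral_mono_on h0 (by simp) i1
      intro s hs
      unfold phi
      have hc : 39/100 ≤ (Real.sqrt (2 * Real.pi))⁻¹ := by
        rw [le_inv_comm₀ (by norm_num) (by positivity)]
        apply Real.sqrt_le_iff.2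
        constructor
        · norm_num
        · have := Real.pi_lt_d2
          norm_num
          linarith
      have h2 : 9/10 ≤ Real.exp (-(0 + s)^2/2) := by
        rw [zero_add]
        have h4 := Real.add_one_le_exp (-s^2/2)
        have h3 : s^2 ≤ (1/20)^2 := by
          have : s ≤ 1/20 := hs.2.trans h1
          exact pow_le_pow_left₀ hs.1 this 2
        norm_num at h3
        linarith
      nlinarith

/-! ### Part 2: shells of a concave profile -/

lemma shells {a : ℕ → ℝ} (mono : Monotone a) (h1 : ∀ j, a j ≤ 1) (h0 : Phi (-1) ≤ a 0)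
    (hE : ∀ j p q, Phi p ≤ a j → Phi q ≤ a (j + 2) → Phi ((p + q) / 2) ≤ a (j + 1)) (k : ℕ) :
    a (k + 2) - a (k + 1) ≤ 17/10 * (a 1 - a 0) := by
  rcases eq_or_lt_of_le (h1 1) with h | h
  · have e1 : a (k + 2) ≤ 1 := h1 _
    have e2 : a 1 ≤ a (k + 1) := mono (by omega)
    have e3 : a 0 ≤ a 1 := mono (by omega)
    linarith
  have hlt : ∀ j, a j < 1 ∧ a (j + 1) < 1 := by
    intro j
    induction j with
    | zero => exact ⟨lt_of_le_of_lt (mono (by omega)) h, h⟩
    | succ j ih =>
      refine ⟨ih.2, ?_⟩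
      by_contra hc
      have h2 : a (j + 2) = 1 := le_antisymm (h1 _) (not_lt.1 hc)
      obtain ⟨q, hq⟩ := Phi_surj (p := (a (j + 1) + 1) / 2) (by
        have := Phi_pos (-1)
        have : a 0 ≤ a (j + 1) := mono (by omega)
        linarith) (by linarith [ih.2])
      have h3 := hE j (-1) (2 * q + 1) (h0.trans (mono (by omega))) (by rw [h2]; exact (Phi_lt_one _).le)
      have h4 : (-1 + (2 * q + 1)) / 2 = q := by ring
      rw [h4, hq] at h3
      linarith [ih.2]
  have hpos : ∀ j, 0 < a j := fun j => lt_of_lt_of_le (Phi_pos (-1)) (h0.trans (mono (by omega)))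
  have hP : ∀ j, Phi (Psi (a j)) = a j := fun j => Phi_Psi (hpos j) (hlt j).1
  set p : ℕ → ℝ := fun j => Psi (a j) with hp
  have hP' : ∀ j, Phi (p j) = a j := hP
  have pm : ∀ j, p j ≤ p (j + 1) := by
    intro j
    rw [← strictMono_Phi.le_iff_le, hP', hP']
    exact mono (by omega)
  have pc : ∀ j, (p j + p (j + 2)) / 2 ≤ p (j + 1) := by
    intro j
    rw [← strictMono_Phi.le_iff_le, hP' (j+1)]
    exact hE j _ _ (hP' j).le (hP' (j+2)).le
  have p0 : -1 ≤ p 0 := by
    rw [← strictMono_Phi.le_iff_le, hP']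
    exact h0
  have pge : ∀ j, p 0 ≤ p j := by
    intro j
    induction j with
    | zero => exact le_rfl
    | succ j ih => exact ih.trans (pm j)
  have dd : ∀ j, p (j + 1) - p j ≤ p 1 - p 0 := by
    intro j
    induction j with
    | zero => simp
    | succ j ih => 
      have := pc j
      have e : j + 1 + 1 = j + 2 := rfl
      rw [e]
      linarith
  have h3 := Phi_incr p0 (pge (k + 1)) (sub_nonneg.2 (pm (k + 1))) (dd (k + 1))
  have e1 : p (k + 1) + (p (k + 1 + 1) - p (k + 1)) = p (k + 2) := by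
    show p (k + 1) + (p (k + 2) - p (k + 1)) = p (k + 2)
    ring
  have e2 : p 0 + (p 1 - p 0) = p 1 := by ring
  rw [e1, e2, hP', hP', hP', hP'] at h3
  exact h3

/-! ### Part 3: the measure inequality, abstract form -/

section prod

variable {α β : Type*} [MeasurableSpace α] [MeasurableSpace β]

lemma prod_real (γ : Measure α) (ν : Measure β) [IsProbabilityMeasure γ] [IsProbabilityMeasure ν]
    {T : Set (α × β)} (hT : MeasurableSet T) :
    (γ.prod ν).real T = ∫ y, ν.real (Prod.mk y ⁻¹' T) ∂γ := by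
  rw [Measure.real, Measure.prod_apply hT,
    integral_eq_lintegral_of_nonneg_ae (Eventually.of_forall fun x => measureReal_nonneg)
    (measurable_measure_prodMk_left hT).ennreal_toReal.aestronglyMeasurable]
  congr 1
  refine lintegral_congr fun x => ?_
  rw [Measure.real, ENNReal.ofReal_toReal (measure_ne_top _ _)]

lemma prod_real_symm (γ : Measure α) (ν : Measure β) [IsProbabilityMeasure γ] [IsProbabilityMeasure ν]
    {T : Set (α × β)} (hT : MeasurableSet T) :
    (γ.prod ν).real T = ∫ z, γ.real ((fun y => (y, z)) ⁻¹' T) ∂ν := by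
  rw [Measure.real, Measure.prod_apply_symm hT,
    integral_eq_lintegral_of_nonneg_ae (Eventually.of_forall fun x => measureReal_nonneg)
    (measurable_measure_prodMk_right hT).ennreal_toReal.aestronglyMeasurable]
  congr 1
  refine lintegral_congr fun x => ?_
  rw [Measure.real, ENNReal.ofReal_toReal (measure_ne_top _ _)]

lemma integrable_of_unit (γ : Measure α) [IsProbabilityMeasure γ] {f : α → ℝ} (hf : Measurable f)
    (h0 : ∀ y, 0 ≤ f y) (h1 : ∀ y, f y ≤ 1) : Integrable f γ :=
  Integrable.of_bound hf.aestronglyMeasurable 1 (Eventually.of_forall fun y => by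
    rw [Real.norm_eq_abs, abs_of_nonneg (h0 y)]; exact h1 y)

end prod

/-- The sum of the shells: `∫_{Yᶜ} f2 ≤ G/2 + (17/5)/τ * D`. -/
lemma shell_sum {α : Type*} [MeasurableSpace α] (γ : Measure α) [IsProbabilityMeasure γ]
    {Y : Set α} (hY : MeasurableSet Y) {f1 f2 : α → ℝ} (m1 : Measurable f1) (m2 : Measurable f2)
    (p2 : ∀ y, 0 ≤ f2 y) (q2 : ∀ y, f2 y ≤ 1)
    {τ : ℝ} (hτ : 0 < τ)
    (hoff : ∀ y, y ∉ Y → f2 y ≤ 1/2)
    (hL : ∀ y, y ∉ Y → ∀ r, 0 ≤ r → f1 y < Phi (-r) → f2 y ≤ Phi (-(r/2)))
    (W : ℝ → Set α) (hWdef : ∀ t, W t = {y | Phi t ≤ f1 y ∧ Phi t ≤ f2 y})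
    (hW : ∀ s t a b, Phi a ≤ γ.real (W s) → Phi b ≤ γ.real (W t) →
      Phi ((a + b) / 2) ≤ γ.real (W ((s + t) / 2)))
    (h0 : Phi (-1) ≤ γ.real (W (-τ))) :
    ∫ y in Yᶜ, f2 y ∂γ ≤ 1/2 * γ.real (W (-(2*τ)) \ Y) +
      17/10 * (γ.real (W (-(2*τ))) - γ.real (W (-τ))) * (2/τ) := by
  have mW : ∀ t, MeasurableSet (W t) := by
    intro t
    rw [hWdef]
    exact (measurableSet_le measurable_const m1).inter (measurableSet_le measurable_const m2)
  have Wmono : ∀ {s t : ℝ}, s ≤ t → W t ⊆ W s := by
    intro s t h y hy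
    rw [hWdef] at hy ⊢
    have := strictMono_Phi.monotone h
    exact ⟨this.trans hy.1, this.trans hy.2⟩
  set a : ℕ → ℝ := fun j => γ.real (W (-((j + 1 : ℕ) * τ))) with ha
  have amono : Monotone a := by
    intro i j h
    refine measureReal_mono (Wmono ?_) (measure_ne_top _ _)
    have : ((i + 1 : ℕ) : ℝ) ≤ ((j + 1 : ℕ) : ℝ) := by exact_mod_cast Nat.succ_le_succ h
    nlinarith
  have a0 : a 0 = γ.real (W (-τ)) := by simp [ha]
  have a1 : a 1 = γ.real (W (-(2*τ))) := by simp only [ha]; norm_num
  have sh := shells amono (fun j => measureReal_le_one) (by rw [a0]; exact h0) (by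
    intro j p q hp hq
    have := hW _ _ p q hp hq
    have e : (-((j + 1 : ℕ) * τ) + -((j + 2 + 1 : ℕ) * τ)) / 2 = -((j + 1 + 1 : ℕ) * τ) := by
      push_cast
      ring
    rw [e] at this
    exact this)
  -- pointwise bound
  set B : ℕ → ℝ := fun k => Phi (-((k + 2 : ℕ) * τ / 2)) with hB
  set S : ℕ → Set α := fun k => W (-((k + 3 : ℕ) * τ)) \ W (-((k + 2 : ℕ) * τ)) with hS
  have mS : ∀ k, MeasurableSet (S k) := fun k => (mW _).diff (mW _)
  have key : ∀ M : ℕ, ∀ y, y ∉ Y → f2 y ≤ (W (-(2*τ)) \ Y).indicator (fun _ => (1/2:ℝ)) y +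
      ∑ k ∈ Finset.range M, (S k).indicator (fun _ => B k) y + B M := by
    intro M y hy
    have nonneg1 : 0 ≤ (W (-(2*τ)) \ Y).indicator (fun _ => (1/2:ℝ)) y :=
      indicator_nonneg (fun _ _ => by norm_num) y
    have nonneg2 : ∀ k, 0 ≤ (S k).indicator (fun _ => B k) y := fun k =>
      indicator_nonneg (fun _ _ => Phi_nonneg _) y
    have hBM : 0 ≤ B M := Phi_nonneg _
    have out : ∀ r, 0 ≤ r → y ∉ W (-r) → f2 y ≤ Phi (-(r/2)) := by
      intro r hr h
      rw [hWdef] at h
      simp only [mem_ofPred_eq, not_and_or, not_le] at h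
      rcases h with h | h
      · exact hL y hy r hr h
      · exact h.le.trans (strictMono_Phi.monotone (by linarith))
    induction M with
    | zero =>
      by_cases h : y ∈ W (-(2*τ))
      · rw [indicator_of_mem (show y ∈ W (-(2*τ)) \ Y from ⟨h, hy⟩)]
        simp only [Finset.range_zero, Finset.sum_empty]
        linarith [hoff y hy]
      · have := out _ (by positivity) h
        have e : B 0 = Phi (-(2 * τ / 2)) := by simp [hB]
        simp only [Finset.range_zero, Finset.sum_empty]
        rw [e]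
        linarith
    | succ M ih =>
      rw [Finset.sum_range_succ]
      by_cases h : y ∈ W (-((M + 3 : ℕ) * τ))
      · by_cases h' : y ∈ W (-((M + 2 : ℕ) * τ))
        · -- y is in an earlier shell, use a smaller index
          -- find the first index
          by_cases h2 : y ∈ W (-(2*τ))
          · rw [indicator_of_mem (show y ∈ W (-(2*τ)) \ Y from ⟨h2, hy⟩)]
            have hs : 0 ≤ ∑ k ∈ Finset.range M, (S k).indicator (fun _ => B k) y :=
              Finset.sum_nonneg fun k _ => nonneg2 k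
            have := nonneg2 M
            linarith [hoff y hy]
          · -- there is k < M with y ∈ S k
            have hex : ∃ j : ℕ, y ∈ W (-((j + 2 : ℕ) * τ)) := ⟨M, h'⟩
            classical
            set j0 := Nat.find hex with hj0
            have hj := Nat.find_spec hex
            rw [← hj0] at hj
            have hj1 : j0 ≠ 0 := by
              intro h3
              rw [h3] at hj
              apply h2
              have e : (-((0 + 2 : ℕ) * τ) : ℝ) = -(2*τ) := by push_cast; ring
              rw [e] at hj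
              exact hj
            obtain ⟨j, hjj⟩ := Nat.exists_eq_succ_of_ne_zero hj1
            have hlt : y ∉ W (-((j + 2 : ℕ) * τ)) := Nat.find_min hex (by omega)
            have hle : j0 ≤ M := Nat.find_min' hex h'
            have hmem : y ∈ S j := by
              refine ⟨?_, hlt⟩
              rw [hjj] at hj
              exact hj
            have hb := out _ (by positivity) hlt
            have e : Phi (-(((j + 2 : ℕ) * τ) / 2)) = B j := rfl
            rw [e] at hb
            have hs : B j ≤ ∑ k ∈ Finset.range M, (S k).indicator (fun _ => B k) y := by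
              have := Finset.single_le_sum (f := fun k => (S k).indicator (fun _ => B k) y)
                (fun k _ => nonneg2 k) (Finset.mem_range.2 (show j < M by omega))
              rw [indicator_of_mem hmem] at this
              exact this
            have := nonneg2 M
            have hBM' : 0 ≤ B (M + 1) := Phi_nonneg _
            linarith
        · have hmem : y ∈ S M := ⟨h, h'⟩
          rw [indicator_of_mem hmem]
          have hb := out _ (by positivity) h'
          have e : Phi (-(((M + 2 : ℕ) * τ) / 2)) = B M := rfl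
          rw [e] at hb
          have hs : 0 ≤ ∑ k ∈ Finset.range M, (S k).indicator (fun _ => B k) y :=
              Finset.sum_nonneg fun k _ => nonneg2 k
          have hBM' : 0 ≤ B (M + 1) := Phi_nonneg _
          linarith
      · have hb := out _ (by positivity) h
        have e : Phi (-(((M + 3 : ℕ) * τ) / 2)) = B (M + 1) := rfl
        rw [e] at hb
        have hs : 0 ≤ ∑ k ∈ Finset.range M, (S k).indicator (fun _ => B k) y :=
              Finset.sum_nonneg fun k _ => nonneg2 k
        have := nonneg2 M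
        linarith
  have If2 : Integrable f2 γ := integrable_of_unit γ m2 p2 q2
  have measS : ∀ k, γ.real (S k) ≤ 17/10 * (a 1 - a 0) := by
    intro k
    have e : γ.real (S k) = a (k + 2) - a (k + 1) := by
      rw [hS, ha]
      simp only
      rw [measureReal_sdiff (Wmono (by
        have : ((k + 2 : ℕ) : ℝ) ≤ ((k + 3 : ℕ) : ℝ) := by exact_mod_cast (by omega)
        nlinarith)) (mW _)]
    rw [e]
    exact sh k
  have expB : ∀ k, B k ≤ Real.exp (-(τ/2)) ^ (k + 2) := by
    intro k
    have h := Phi_neg_le_exp ((k + 2 : ℕ) * τ / 2)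
    rw [← Real.exp_nat_mul]
    refine h.trans (le_of_eq ?_)
    congr 1
    ring
  set x := Real.exp (-(τ/2)) with hx
  have x0 : 0 < x := Real.exp_pos _
  have x1 : x < 1 := by
    have := Real.exp_lt_exp.2 (show -(τ/2) < 0 by linarith)
    rwa [Real.exp_zero] at this
  have xg : x / (1 - x) ≤ 2 / τ := by
    rw [div_le_div_iff₀ (by linarith) hτ]
    -- x τ ≤ 2 (1 - x) i.e. x (1 + τ/2) ≤ 1
    have h := Real.add_one_le_exp (τ/2)
    have h2 : x * Real.exp (τ/2) = 1 := by rw [hx, ← Real.exp_add]; simp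
    nlinarith
  have sumB : ∀ M, ∑ k ∈ Finset.range M, B k ≤ 2/τ := by
    intro M
    calc ∑ k ∈ Finset.range M, B k ≤ ∑ k ∈ Finset.range M, x ^ (k + 2) :=
          Finset.sum_le_sum fun k _ => expB k
      _ = x^2 * ∑ k ∈ Finset.range M, x ^ k := by
          rw [Finset.mul_sum]; refine Finset.sum_congr rfl fun k _ => by ring
      _ ≤ x^2 * (1 - x)⁻¹ := by
          apply mul_le_mul_of_nonneg_left _ (by positivity)
          have hs := (hasSum_geometric_of_lt_one x0.le x1)
          exact sum_le_hasSum _ (fun k _ => by positivity) hs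
      _ ≤ x / (1 - x) := by
          rw [div_eq_mul_inv]
          apply mul_le_mul_of_nonneg_right _ (inv_nonneg.2 (by linarith))
          nlinarith
      _ ≤ 2/τ := xg
  have bound : ∀ M : ℕ, ∫ y in Yᶜ, f2 y ∂γ ≤ 1/2 * γ.real (W (-(2*τ)) \ Y) +
      17/10 * (a 1 - a 0) * (2/τ) + x ^ (M + 2) := by
    intro M
    have I1 : Integrable ((W (-(2*τ)) \ Y).indicator (fun _ => (1/2:ℝ))) γ :=
      (integrable_const _).indicator ((mW _).diff hY)
    have I2 : ∀ k, Integrable ((S k).indicator (fun _ => B k)) γ := fun k =>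
      (integrable_const _).indicator (mS k)
    have I3 : Integrable (fun y => ∑ k ∈ Finset.range M, (S k).indicator (fun _ => B k) y) γ :=
      integrable_finsetSum _ fun k _ => I2 k
    have Itot : Integrable (fun y => (W (-(2*τ)) \ Y).indicator (fun _ => (1/2:ℝ)) y +
      ∑ k ∈ Finset.range M, (S k).indicator (fun _ => B k) y + B M) γ :=
      (I1.add I3).add (integrable_const _)
    calc ∫ y in Yᶜ, f2 y ∂γ ≤ ∫ y in Yᶜ, ((W (-(2*τ)) \ Y).indicator (fun _ => (1/2:ℝ)) y +
          ∑ k ∈ Finset.range M, (S k).indicator (fun _ => B k) y + B M) ∂γ :=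
          setIntegral_mono_on If2.integrableOn Itot.integrableOn hY.compl (fun y hy => key M y hy)
      _ ≤ ∫ y, ((W (-(2*τ)) \ Y).indicator (fun _ => (1/2:ℝ)) y +
          ∑ k ∈ Finset.range M, (S k).indicator (fun _ => B k) y + B M) ∂γ := by
          apply setIntegral_le_integral Itot
          refine Eventually.of_forall fun y => ?_
          have nonneg1 : 0 ≤ (W (-(2*τ)) \ Y).indicator (fun _ => (1/2:ℝ)) y :=
            indicator_nonneg (fun _ _ => by norm_num) y
          have nonneg2 : 0 ≤ ∑ k ∈ Finset.range M, (S k).indicator (fun _ => B k) y :=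
            Finset.sum_nonneg fun k _ => indicator_nonneg (fun _ _ => Phi_nonneg _) y
          have hBM : 0 ≤ B M := Phi_nonneg _
          simp only [Pi.zero_apply]
          linarith
      _ = 1/2 * γ.real (W (-(2*τ)) \ Y) + ∑ k ∈ Finset.range M, γ.real (S k) * B k + B M := by
          rw [integral_add (f := fun y => (W (-(2*τ)) \ Y).indicator (fun _ => (1/2:ℝ)) y +
            ∑ k ∈ Finset.range M, (S k).indicator (fun _ => B k) y) (g := fun _ => B M)
            (I1.add I3) (integrable_const _),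
            integral_add (f := fun y => (W (-(2*τ)) \ Y).indicator (fun _ => (1/2:ℝ)) y)
            (g := fun y => ∑ k ∈ Finset.range M, (S k).indicator (fun _ => B k) y) I1 I3,
            integral_finsetSum _ (fun k _ => I2 k), integral_const]
          have e1 : ∫ y, (W (-(2*τ)) \ Y).indicator (fun _ => (1/2:ℝ)) y ∂γ =
              1/2 * γ.real (W (-(2*τ)) \ Y) := by
            rw [integral_indicator_const _ ((mW _).diff hY)]
            simp [mul_comm]
          have e2 : ∀ k, ∫ y, (S k).indicator (fun _ => B k) y ∂γ = γ.real (S k) * B k := by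
            intro k
            rw [integral_indicator_const _ (mS k)]
            simp
          rw [e1]
          simp only [e2]
          simp
      _ ≤ 1/2 * γ.real (W (-(2*τ)) \ Y) + 17/10 * (a 1 - a 0) * (2/τ) + x ^ (M + 2) := by
          have s1 : ∑ k ∈ Finset.range M, γ.real (S k) * B k ≤ 17/10 * (a 1 - a 0) * (2/τ) := by
            calc ∑ k ∈ Finset.range M, γ.real (S k) * B k
                ≤ ∑ k ∈ Finset.range M, 17/10 * (a 1 - a 0) * B k :=
                  Finset.sum_le_sum fun k _ => mul_le_mul_of_nonneg_right (measS k) (Phi_nonneg _)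
              _ = 17/10 * (a 1 - a 0) * ∑ k ∈ Finset.range M, B k := by rw [Finset.mul_sum]
              _ ≤ _ := by
                  apply mul_le_mul_of_nonneg_left (sumB M)
                  have := amono (show 0 ≤ 1 by omega)
                  nlinarith
          have := expB M
          linarith
  rw [← a0, ← a1]
  have lim : Tendsto (fun M : ℕ => 1/2 * γ.real (W (-(2*τ)) \ Y) +
      17/10 * (a 1 - a 0) * (2/τ) + x ^ (M + 2)) atTop (𝓝 (1/2 * γ.real (W (-(2*τ)) \ Y) +
      17/10 * (a 1 - a 0) * (2/τ) + 0)) := by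
    apply Tendsto.add tendsto_const_nhds
    exact (tendsto_pow_atTop_nhds_zero_of_lt_one x0.le x1).comp (tendsto_add_atTop_nat 2)
  rw [add_zero] at lim
  exact ge_of_tendsto' lim bound

/-- The loss average (Step 2): `x * γ(B) ≤ 70 k0 ∫_{Yᶜ} f2`, where `f2 y = ν {z | y + z ∈ Y}`. -/
lemma loss_avg {E : Type*} [NormedAddCommGroup E] [MeasurableSpace E] [BorelSpace E]
    [SecondCountableTopology E]
    (γ ν : Measure E) [IsProbabilityMeasure γ] [IsProbabilityMeasure ν]
    (hν : ν.map (fun z => -z) = ν) {Y : Set E} (hY : MeasurableSet Y)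
    {τ k0 x : ℝ} (hk0 : 0 ≤ k0) (hx : 2 * x ≤ 1 - 2 * Phi (-τ))
    (hA : ν.real {z | k0 < ‖z‖} ≤ x)
    (hR : ∀ s : E, ‖s‖ ≤ k0 → γ.real {y | y ∈ Y ∧ y + s ∉ Y ∧ y - s ∉ Y} ≤
      35 * k0 * γ.real {y | y ∉ Y ∧ (y + s ∈ Y ∨ y - s ∈ Y)}) :
    γ.real {y | y ∈ Y ∧ ν.real {z | y + z ∈ Y} < Phi (-τ)} * x ≤
      70 * k0 * ∫ y in Yᶜ, ν.real {z | y + z ∈ Y} ∂γ := by
  have add_meas : Measurable fun p : E × E => p.1 + p.2 := by fun_prop
  have sub_meas : Measurable fun p : E × E => p.1 - p.2 := by fun_prop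
  have mf : Measurable fun y => ν.real {z | y + z ∈ Y} :=
    (measurable_measure_prodMk_left (add_meas hY)).ennreal_toReal
  have mB : MeasurableSet {y | y ∈ Y ∧ ν.real {z | y + z ∈ Y} < Phi (-τ)} :=
    hY.inter (measurableSet_lt mf measurable_const)
  set B := {y | y ∈ Y ∧ ν.real {z | y + z ∈ Y} < Phi (-τ)} with hB
  have nonneg : ∀ y, 0 ≤ ν.real {z | y + z ∈ Y} := fun y => measureReal_nonneg
  have le1 : ∀ y, ν.real {z | y + z ∈ Y} ≤ 1 := fun y => measureReal_le_one
  -- symmetry
  have mset : ∀ y : E, MeasurableSet {z : E | y + z ∈ Y} := fun y =>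
    (show Measurable fun z : E => y + z by fun_prop) hY
  have mset' : ∀ y : E, MeasurableSet {z : E | y - z ∈ Y} := fun y =>
    (show Measurable fun z : E => y - z by fun_prop) hY
  have sym : ∀ y, ν.real {z | y - z ∈ Y} = ν.real {z | y + z ∈ Y} := by
    intro y
    conv_rhs => rw [← hν]
    rw [Measure.real, Measure.real, Measure.map_apply measurable_neg (mset y)]
    simp only [preimage_ofPred_eq, ← sub_eq_add_neg]
  set T : Set (E × E) := {p | p.1 ∈ Y ∧ p.1 + p.2 ∉ Y ∧ p.1 - p.2 ∉ Y ∧ ‖p.2‖ ≤ k0} with hT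
  have mT : MeasurableSet T := by
    have e1 : MeasurableSet {p : E × E | p.1 ∈ Y} := measurable_fst hY
    have e2 : MeasurableSet {p : E × E | p.1 + p.2 ∉ Y} := (add_meas hY).compl
    have e3 : MeasurableSet {p : E × E | p.1 - p.2 ∉ Y} := (sub_meas hY).compl
    have e4 : MeasurableSet {p : E × E | ‖p.2‖ ≤ k0} := measurableSet_le (by fun_prop) measurable_const
    exact e1.inter (e2.inter (e3.inter e4))
  set G : Set (E × E) := {p | p.1 ∉ Y ∧ (p.1 + p.2 ∈ Y ∨ p.1 - p.2 ∈ Y)} with hG
  have mG : MeasurableSet G := by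
    have e1 : MeasurableSet {p : E × E | p.1 ∉ Y} := (measurable_fst hY).compl
    have e2 : MeasurableSet {p : E × E | p.1 + p.2 ∈ Y} := (add_meas hY)
    have e3 : MeasurableSet {p : E × E | p.1 - p.2 ∈ Y} := (sub_meas hY)
    exact e1.inter (e2.union e3)
  have s1 : γ.real B * x ≤ (γ.prod ν).real T := by
    rw [prod_real γ ν mT]
    calc γ.real B * x = ∫ y, B.indicator (fun _ => x) y ∂γ := by
          rw [integral_indicator_const _ mB]; simp
      _ ≤ ∫ y, ν.real (Prod.mk y ⁻¹' T) ∂γ := by
          apply integral_mono ((integrable_const _).indicator mB)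
            (integrable_of_unit γ (measurable_measure_prodMk_left mT).ennreal_toReal
              (fun _ => measureReal_nonneg) (fun _ => measureReal_le_one))
          intro y
          by_cases hy : y ∈ B
          · rw [indicator_of_mem hy]
            have hy1 : y ∈ Y := hy.1
            have hy2 : ν.real {z | y + z ∈ Y} < Phi (-τ) := hy.2
            -- univ ⊆ T_y ∪ {y+z ∈ Y} ∪ {y - z ∈ Y} ∪ {k0 < ‖z‖}
            have hcov : (univ : Set E) ⊆ (Prod.mk y ⁻¹' T) ∪ ({z | y + z ∈ Y} ∪ ({z | y - z ∈ Y} ∪ {z | k0 < ‖z‖})) := by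
              intro z _
              by_cases h1 : y + z ∈ Y
              · right; left; exact h1
              by_cases h2 : y - z ∈ Y
              · right; right; left; exact h2
              by_cases h3 : k0 < ‖z‖
              · right; right; right; exact h3
              · left; exact ⟨hy1, h1, h2, not_lt.1 h3⟩
            have h4 : (1:ℝ) ≤ ν.real (Prod.mk y ⁻¹' T) + (ν.real {z | y + z ∈ Y} + (ν.real {z | y - z ∈ Y} + ν.real {z | k0 < ‖z‖})) := by
              calc (1:ℝ) = ν.real univ := by simp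
                _ ≤ _ := measureReal_mono hcov (measure_ne_top _ _)
                _ ≤ _ := (measureReal_union_le _ _).trans (by gcongr; exact (measureReal_union_le _ _).trans (by gcongr; exact measureReal_union_le _ _))
            rw [sym y] at h4
            show x ≤ ν.real (Prod.mk y ⁻¹' T)
            linarith
          · rw [indicator_of_notMem hy]
            exact measureReal_nonneg
  have s2 : (γ.prod ν).real T ≤ 35 * k0 * (γ.prod ν).real G := by
    rw [prod_real_symm γ ν mT, prod_real_symm γ ν mG, ← integral_const_mul]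
    apply integral_mono
      (integrable_of_unit ν (measurable_measure_prodMk_right mT).ennreal_toReal
              (fun _ => measureReal_nonneg) (fun _ => measureReal_le_one))
      ((integrable_of_unit ν (measurable_measure_prodMk_right mG).ennreal_toReal
              (fun _ => measureReal_nonneg) (fun _ => measureReal_le_one)).const_mul _)
    intro z
    by_cases hz : ‖z‖ ≤ k0
    · refine le_trans (measureReal_mono ?_ (measure_ne_top _ _)) (hR z hz)
      intro y hy
      exact ⟨hy.1, hy.2.1, hy.2.2.1⟩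
    · have : (fun y => (y, z)) ⁻¹' T = ∅ := by
        ext y
        simp only [mem_preimage, hT, mem_empty_iff_false, iff_false]
        intro h
        exact hz h.2.2.2
      show γ.real ((fun y => (y, z)) ⁻¹' T) ≤ 35 * k0 * γ.real ((fun y => (y, z)) ⁻¹' G)
      rw [this, measureReal_empty]
      exact mul_nonneg (by positivity) measureReal_nonneg
  have s3 : (γ.prod ν).real G ≤ 2 * ∫ y in Yᶜ, ν.real {z | y + z ∈ Y} ∂γ := by
    rw [prod_real γ ν mG, ← integral_indicator hY.compl, ← integral_const_mul]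
    apply integral_mono (integrable_of_unit γ (measurable_measure_prodMk_left mG).ennreal_toReal
              (fun _ => measureReal_nonneg) (fun _ => measureReal_le_one))
      (((integrable_of_unit γ mf nonneg le1).indicator hY.compl).const_mul _)
    intro y
    by_cases hy : y ∈ Y
    · have : Prod.mk y ⁻¹' G = ∅ := by
        ext z
        simp only [mem_preimage, hG, mem_empty_iff_false, iff_false]
        intro h
        exact h.1 hy
      simp only [this, measureReal_empty]
      rw [indicator_of_notMem (by simpa using hy)]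
      simp
    · simp only
      rw [indicator_of_mem (by simpa using hy)]
      have : Prod.mk y ⁻¹' G ⊆ {z | y + z ∈ Y} ∪ {z | y - z ∈ Y} := by
        intro z hz
        exact hz.2
      have h5 := (measureReal_mono this (measure_ne_top ν _)).trans (measureReal_union_le _ _)
      rw [sym y] at h5
      show ν.real (Prod.mk y ⁻¹' G) ≤ 2 * ν.real {z | y + z ∈ Y}
      linarith
  have : 35 * k0 * (γ.prod ν).real G ≤ 35 * k0 * (2 * ∫ y in Yᶜ, ν.real {z | y + z ∈ Y} ∂γ) :=
    mul_le_mul_of_nonneg_left s3 (by positivity)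
  linarith

/-- Steps 2 + 3 of #10467, with rank one lemma and Ehrhard for level sets as hypotheses.
`ν` is the law of the noise (`2ξ`), `U = {y | Φ(-2τ) ≤ ν(Y - y)}`. -/
theorem shell_main {E : Type*} [NormedAddCommGroup E] [MeasurableSpace E] [BorelSpace E]
    [SecondCountableTopology E]
    (γ ν : Measure E) [IsProbabilityMeasure γ] [IsProbabilityMeasure ν]
    (hν : ν.map (fun z => -z) = ν) {Y : Set E} (hY : MeasurableSet Y) (hγY : 1/2 ≤ γ.real Y)
    {τ k0 : ℝ} (hτ : 0 < τ) (hτ1 : τ ≤ 1/20) (hk0 : 0 ≤ k0) (hk : k0 ≤ τ^2/5000)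
    (hoff : ∀ y, y ∉ Y → ν.real {z | y + z ∈ Y} ≤ 1/2)
    (hA : ν.real {z | k0 < ‖z‖} ≤ 3/10 * τ)
    (hR : ∀ s : E, ‖s‖ ≤ k0 → γ.real {y | y ∈ Y ∧ y + s ∉ Y ∧ y - s ∉ Y} ≤
      35 * k0 * γ.real {y | y ∉ Y ∧ (y + s ∈ Y ∨ y - s ∈ Y)})
    (hW : ∀ s t a b : ℝ, Phi a ≤ γ.real {y | Phi s ≤ ν.real {z | y + z ∈ Y}} →
      Phi b ≤ γ.real {y | Phi t ≤ ν.real {z | y + z ∈ Y}} →
      Phi ((a + b) / 2) ≤ γ.real {y | Phi ((s + t) / 2) ≤ ν.real {z | y + z ∈ Y}}) :
    γ.real Y + 1/2 * γ.real ({y | Phi (-(2*τ)) ≤ ν.real {z | y + z ∈ Y}} \ Y) ≤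
      γ.real {y | Phi (-(2*τ)) ≤ ν.real {z | y + z ∈ Y}} := by
  have add_meas : Measurable fun p : E × E => p.1 + p.2 := by fun_prop
  have mf : Measurable fun y => ν.real {z | y + z ∈ Y} :=
    (measurable_measure_prodMk_left (add_meas hY)).ennreal_toReal
  set f : E → ℝ := fun y => ν.real {z | y + z ∈ Y} with hf
  set x := 3/10 * τ with hx
  have x0 : 0 < x := by positivity
  have hx2 : 2 * x ≤ 1 - 2 * Phi (-τ) := by
    have := half_sub_Phi hτ.le hτ1
    linarith
  have A := loss_avg γ ν hν hY hk0 hx2 hA hR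
  set W : ℝ → Set E := fun t => {y | Phi t ≤ f y} with hWd
  have mW : ∀ t, MeasurableSet (W t) := fun t => measurableSet_le measurable_const mf
  set B := {y | y ∈ Y ∧ f y < Phi (-τ)} with hB
  have mB : MeasurableSet B := hY.inter (measurableSet_lt mf measurable_const)
  set P := ∫ y in Yᶜ, f y ∂γ with hP
  have P0 : 0 ≤ P := setIntegral_nonneg hY.compl fun y _ => measureReal_nonneg
  have P1 : P ≤ 1 := by
    have If : Integrable f γ := integrable_of_unit γ mf (fun _ => measureReal_nonneg) (fun _ => measureReal_le_one)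
    calc P ≤ ∫ y, f y ∂γ := setIntegral_le_integral If (Eventually.of_forall fun y => measureReal_nonneg)
      _ ≤ ∫ y, (1:ℝ) ∂γ := integral_mono If (integrable_const _) (fun y => measureReal_le_one)
      _ = 1 := by simp
  have hAx : γ.real B * x ≤ 70 * k0 * P := A
  -- a first crude bound
  have hk0' : 70 * k0 * P ≤ 70 * (τ^2/5000) := by nlinarith
  have hBsmall : γ.real B ≤ 1/10 := by
    by_contra h
    rw [not_le] at h
    have : 1/10 * x < γ.real B * x := mul_lt_mul_of_pos_right h x0
    rw [hx] at this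
    nlinarith
  have YsubB : Y \ B ⊆ W (-τ) := by
    intro y hy
    have : ¬ (f y < Phi (-τ)) := fun h => hy.2 ⟨hy.1, h⟩
    exact not_lt.1 this
  have hWτ : 1/2 - γ.real B ≤ γ.real (W (-τ)) := by
    have h1 : γ.real (Y \ B) ≤ γ.real (W (-τ)) := measureReal_mono YsubB (measure_ne_top _ _)
    have h2 : γ.real Y ≤ γ.real (Y \ B) + γ.real B := by
      rw [← measureReal_sdiff_add_inter mB (s := Y)]
      have : γ.real (Y ∩ B) ≤ γ.real B := measureReal_mono inter_subset_right (measure_ne_top _ _)
      linarith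
    linarith
  have hm1 : Phi (-1) ≤ γ.real (W (-τ)) := by
    have h1 : Phi (-1) ≤ 2/5 := by
      have h2 := Phi_neg_le_exp 1
      have h3 : Real.exp (-1) ≤ 2/5 := by
        have h4 := Real.exp_one_gt_d9
        have h5 : Real.exp (-1) * Real.exp 1 = 1 := by rw [← Real.exp_add]; simp
        have h6 := Real.exp_pos (-1)
        nlinarith
      linarith
    linarith
  have sum := shell_sum γ hY mf mf (fun _ => measureReal_nonneg) (fun _ => measureReal_le_one) hτ hoff
    (fun y _ r hr h => h.le.trans (strictMono_Phi.monotone (by linarith))) W (fun t => by simp [hWd]) hW hm1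
  have hPs : P ≤ 1/2 * γ.real (W (-(2*τ)) \ Y) +
      17/10 * (γ.real (W (-(2*τ))) - γ.real (W (-τ))) * (2/τ) := sum
  set G := γ.real (W (-(2*τ)) \ Y) with hG
  have G0 : 0 ≤ G := measureReal_nonneg
  set D := γ.real (W (-(2*τ))) - γ.real (W (-τ)) with hD
  have Wsub : W (-τ) ⊆ W (-(2*τ)) := by
    intro y hy
    exact le_trans (strictMono_Phi.monotone (by linarith)) hy
  have hDle : D ≤ G + γ.real B := by
    have h1 : D = γ.real (W (-(2*τ)) \ W (-τ)) := by
      rw [measureReal_sdiff Wsub (mW _)]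
    rw [h1]
    have h2 : W (-(2*τ)) \ W (-τ) ⊆ (W (-(2*τ)) \ Y) ∪ B := by
      intro y hy
      by_cases h : y ∈ Y
      · right
        exact ⟨h, not_le.1 hy.2⟩
      · left
        exact ⟨hy.1, h⟩
    exact (measureReal_mono h2 (measure_ne_top _ _)).trans (measureReal_union_le _ _)
  set b := γ.real B with hb
  have b0 : 0 ≤ b := measureReal_nonneg
  -- b x ≤ 70 k0 P
  have hb2 : b ≤ 1/2 * G := by
    have h1 : P ≤ 1/2 * G + 17/10 * (G + b) * (2/τ) := by
      have : 17/10 * D * (2/τ) ≤ 17/10 * (G + b) * (2/τ) := by gcongr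
      linarith
    have h2 : P * τ ≤ 1/2 * G * τ + 17/5 * (G + b) := by
      have : (1/2 * G + 17/10 * (G + b) * (2/τ)) * τ = 1/2 * G * τ + 17/5 * (G + b) := by
        field_simp
        ring
      rw [← this]
      exact mul_le_mul_of_nonneg_right h1 hτ.le
    have h3 : P * τ ≤ 7/2 * (G + b) := by nlinarith
    have h4 : b * x ≤ 70 * (τ^2/5000) * P := hAx.trans (by gcongr)
    have h5 : b * (3/10 * τ) ≤ 70/5000 * τ * (7/2 * (G + b)) := by
      calc b * (3/10 * τ) ≤ 70 * (τ^2/5000) * P := h4
        _ = 70/5000 * τ * (P * τ) := by ring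
        _ ≤ _ := by gcongr
    have h6 : b * (3/10) ≤ 70/5000 * (7/2 * (G + b)) := by
      have : b * (3/10) * τ ≤ 70/5000 * (7/2 * (G + b)) * τ := by linarith
      exact le_of_mul_le_mul_right this hτ
    linarith
  -- conclusion
  have h1 : γ.real Y ≤ γ.real (Y ∩ W (-(2*τ))) + b := by
    have h2 : Y ⊆ (Y ∩ W (-(2*τ))) ∪ B := by
      intro y hy
      by_cases h : y ∈ W (-(2*τ))
      · exact Or.inl ⟨hy, h⟩
      · right
        exact ⟨hy, lt_of_not_ge fun h' => h (Wsub h')⟩
    exact (measureReal_mono h2 (measure_ne_top _ _)).trans (measureReal_union_le _ _)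
  have h3 : γ.real (W (-(2*τ))) = γ.real (Y ∩ W (-(2*τ))) + G := by
    rw [hG, ← measureReal_inter_add_sdiff hY (s := W (-(2*τ))), inter_comm]
  show γ.real Y + 1/2 * G ≤ γ.real (W (-(2*τ)))
  linarith

end Crest.Agent.R239.Shell876
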