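import Mathlib
import Crest.Agent.R239.Flat974
import Crest.Agent.R239.Rank1
import Crest.Agent.R239.Gau3
import Crest.Agent.R239.Shell876

/-! R239: the inequality (***) of helper527's #10297 in Lean (glue by helper876 of the steps by
helper252, helper622, helper974, helper876; proof of helper439 #10467). -/

set_option autoImplicit false
open MeasureTheory ProbabilityTheory Set Filter Topology
open scoped ENNReal NNReal

namespace Crest.Agent.R239

open Crest.Agent.Lib.Ehrhard (Phi Phi_pos Phi_lt_one strictMono_Phi Phi_neg)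
open Shell876

variable {E : Type*} [NormedAddCommGroup E] [InnerProductSpace ℝ E] [FiniteDimensional ℝ E]
  [MeasurableSpace E] [BorelSpace E]
variable {F : Type*} [NormedAddCommGroup F] [InnerProductSpace ℝ F] [FiniteDimensional ℝ F]
  [MeasurableSpace F] [BorelSpace F]

lemma gau_neg (A : F →L[ℝ] E) : (gau A).map (fun z => -z) = gau A := by
  have e : (fun z : E => -z) = (-(ContinuousLinearMap.id ℝ E) : E →L[ℝ] E) := rfl
  rw [e, gau_map]
  apply gau_ext
  intro t
  have : ((-(ContinuousLinearMap.id ℝ E) : E →L[ℝ] E) ∘L A).adjoint t = - A.adjoint t := by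
    apply ext_inner_right ℝ
    intro w
    rw [ContinuousLinearMap.adjoint_inner_left, inner_neg_left, ContinuousLinearMap.adjoint_inner_left]
    simp
  rw [this, norm_neg]

/-- outside a convex set, the level is at most `1/2` -/
lemma gau_off {A : F →L[ℝ] E} {Y : Set E} (hYc : IsClosed Y) (hYx : Convex ℝ Y) {y : E} (hy : y ∉ Y) :
    (gau A).real {z | y + z ∈ Y} ≤ 1/2 := by
  have m1 : MeasurableSet {z : E | y + z ∈ Y} := (isClosed_shift hYc y).measurableSet
  have m2 : MeasurableSet {z : E | y - z ∈ Y} := by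
    have : Continuous fun z : E => y - z := by fun_prop
    exact (hYc.preimage this).measurableSet
  have sym : (gau A).real {z | y - z ∈ Y} = (gau A).real {z | y + z ∈ Y} := by
    conv_rhs => rw [← gau_neg A]
    rw [Measure.real, Measure.real, Measure.map_apply measurable_neg m1]
    simp only [preimage_ofPred_eq, ← sub_eq_add_neg]
  have dis : Disjoint {z : E | y + z ∈ Y} {z : E | y - z ∈ Y} := by
    rw [Set.disjoint_left]
    intro z h1 h2
    apply hy
    have := hYx h1 h2 (show (0:ℝ) ≤ 1/2 by norm_num) (show (0:ℝ) ≤ 1/2 by norm_num) (by norm_num)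
    have e : (1/2:ℝ) • (y + z) + (1/2:ℝ) • (y - z) = y := by
      rw [← smul_add]
      have : y + z + (y - z) = (2:ℝ) • y := by rw [two_smul]; abel
      rw [this, smul_smul]; norm_num
    rw [e] at this
    exact this
  have h := measureReal_union (μ := gau A) dis m2
  have h2 : (gau A).real ({z : E | y + z ∈ Y} ∪ {z : E | y - z ∈ Y}) ≤ 1 := measureReal_le_one
  linarith

/-- (***), measure form: `U = {y | Φ(-2τ) ≤ P(y + 2ξ ∈ Y)}` has at least the measure of `Y`
(plus half of what is new). -/
theorem star_measure (A : F →L[ℝ] E) {Y : Set E} (hYc : IsClosed Y) (hYx : Convex ℝ Y)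
    (hY : 1/2 ≤ (stdGaussian E).real Y) {τ : ℝ} (hτ : 0 < τ) (hτ1 : τ ≤ 1/20)
    (hA : (gau A).real {z | τ^2/5000 < ‖z‖} ≤ 3/10 * τ) :
    (stdGaussian E).real Y + 1/2 * (stdGaussian E).real (tset A Y (Phi (-(2*τ))) \ Y) ≤
      (stdGaussian E).real (tset A Y (Phi (-(2*τ)))) := by
  have hk0 : (0:ℝ) ≤ τ^2/5000 := by positivity
  have hY' : 1/2 ≤ stdGaussian E Y := by
    have h := ENNReal.ofReal_le_ofReal hY
    rw [Measure.real, ENNReal.ofReal_toReal (measure_ne_top _ _)] at h
    refine le_trans (le_of_eq ?_) h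
    rw [ENNReal.ofReal_div_of_pos (by norm_num)]
    simp
  have key := shell_main (stdGaussian E) (gau A) (gau_neg A) hYc.measurableSet hY hτ hτ1 hk0 le_rfl
    (fun y hy => gau_off hYc hYx hy) hA
    (by
      intro s hs
      have hs1 : ‖s‖ ≤ 7/100 := by
        have : τ^2/5000 ≤ 7/100 := by nlinarith
        linarith
      refine (rank_one_pm hYc hYx hY' hs1).trans ?_
      apply mul_le_mul_of_nonneg_right _ measureReal_nonneg
      nlinarith)
    (by
      intro s t a b ha hb
      have h := ehrhard_sets (E := E) (A := tset A Y (Phi s)) (B := tset A Y (Phi t))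
        (C := tset A Y (Phi ((s + t) / 2))) (isClosed_tset A hYc _) (isClosed_tset A hYc _)
        (convex_tset A hYc hYx s) (convex_tset A hYc hYx t) (isClosed_tset A hYc _)
        (t := 1/2) (by norm_num) (by norm_num) (by
          intro x hx y hy
          have h1 := tset_concave A hYc hYx (t := 1/2) (by norm_num) (by norm_num) hx hy
          have e : (1 - 1/2 : ℝ) * s + 1/2 * t = (s + t) / 2 := by ring
          rw [e] at h1
          exact h1) ha hb
      have e : (1 - 1/2 : ℝ) * a + 1/2 * b = (a + b) / 2 := by ring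
      rw [e] at h
      exact h)
  exact key

/-- **(***)**: if the noise `A g` is small (in probability), the set of points which can be moved by
`A u`, `‖u‖ ≤ η`, to a point of level `≥ 1/2 + η/300` has at least the Gaussian measure of `Y`. -/
theorem starstar (A : F →L[ℝ] E) {Y : Set E} (hYc : IsClosed Y) (hYx : Convex ℝ Y)
    (hY : 1/2 ≤ (stdGaussian E).real Y) {η : ℝ} (h0 : 0 < η) (h1 : η ≤ 1)
    (hA : (stdGaussian F).real {g | η^2 / 900000000 < ‖A g‖} ≤ η / 1000) :
    ∃ U : Set E, IsClosed U ∧ Convex ℝ U ∧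
      (stdGaussian E).real Y + 1/2 * (stdGaussian E).real (U \ Y) ≤ (stdGaussian E).real U ∧
      ∀ y ∈ U, ∃ u : F, ‖u‖ ≤ η ∧ 1/2 + η/300 ≤ (stdGaussian F).real {g | y + A u + A g ∈ Y} := by
  set τ := η / 300 with hτ
  have hτ0 : 0 < τ := by positivity
  have hτ1 : τ ≤ 1/20 := by rw [hτ]; linarith
  set B : F →L[ℝ] E := (2:ℝ) • A with hB
  refine ⟨tset B Y (Phi (-(2*τ))), isClosed_tset B hYc _, convex_tset B hYc hYx _, ?_, ?_⟩
  · apply star_measure B hYc hYx hY hτ0 hτ1
    rw [gau_real_apply B (measurableSet_lt measurable_const measurable_norm)]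
    refine le_trans (measureReal_mono ?_ (measure_ne_top _ _)) (hA.trans ?_)
    · intro g hg
      simp only [mem_preimage, mem_ofPred_eq, hB, smul_apply, norm_smul,
        Real.norm_eq_abs, abs_two] at hg ⊢
      rw [hτ] at hg
      have : (η / 300)^2 / 5000 = η^2 / 450000000 := by ring
      rw [this] at hg
      linarith
    · rw [hτ]; linarith
  · intro y hy
    set C : Set F := {w | y + A w ∈ Y} with hC
    have hCc : IsClosed C := hYc.preimage (by fun_prop)
    have hCx : Convex ℝ C := by
      intro a ha b hb s t hs ht hst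
      have := hYx ha hb hs ht hst
      have e : s • (y + A a) + t • (y + A b) = y + A (s • a + t • b) := by
        rw [map_add, map_smul, map_smul, smul_add, smul_add]
        have : s • y + t • y = y := by rw [← add_smul, hst, one_smul]
        calc s • y + s • A a + (t • y + t • A b) = (s • y + t • y) + (s • A a + t • A b) := by abel
          _ = _ := by rw [this]
      rw [e] at this
      exact this
    have hlev : 1/2 - η/300 ≤ (stdGaussian F).real {g | (2:ℝ) • g ∈ C} := by
      have h2 : Phi (-(2*τ)) ≤ (gau B).real {x | y + x ∈ Y} := hy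
      rw [gau_real_apply B (isClosed_shift hYc y).measurableSet] at h2
      have e : B ⁻¹' {x | y + x ∈ Y} = {g | (2:ℝ) • g ∈ C} := by
        ext g
        simp [hB, hC, map_smul]
      rw [e] at h2
      refine le_trans ?_ h2
      -- 1/2 - τ ≤ Phi (-2τ)
      have h3 : 1/2 - Phi (-(2*τ)) ≤ τ := by
        have e2 : 1/2 - Phi (-(2*τ)) = Phi (0 + 2*τ) - Phi 0 := by
          rw [Phi_neg, Phi_zero]; simp; ring
        rw [e2, Phi_sub]
        have i1 : IntervalIntegrable (fun s => Crest.Agent.Lib.Ehrhard.phi (0 + s)) volume 0 (2*τ) :=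
          (Crest.Agent.Lib.Ehrhard.continuous_phi.comp (by fun_prop)).intervalIntegrable _ _
        calc ∫ s in (0:ℝ)..(2*τ), Crest.Agent.Lib.Ehrhard.phi (0 + s) ≤ ∫ s in (0:ℝ)..(2*τ), (1/2 : ℝ) := by
              apply intervalIntegral.integral_mono_on (by positivity) i1 (by simp)
              intro s _
              unfold Crest.Agent.Lib.Ehrhard.phi
              have hc : (Real.sqrt (2 * Real.pi))⁻¹ ≤ 1/2 := by
                rw [inv_le_comm₀ (by positivity) (by norm_num)]
                apply Real.le_sqrt_of_sq_le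
                nlinarith [Real.pi_gt_three]
              have h5 : Real.exp (-(0 + s)^2/2) ≤ 1 := Real.exp_le_one_iff.2 (by nlinarith [sq_nonneg (0 + s)])
              have h6 := Real.exp_pos (-(0 + s)^2/2)
              nlinarith
          _ = τ := by simp; ring
      rw [← hτ]
      linarith
    obtain ⟨u, hu, hlev2⟩ := Flat.flat hCx hCc h0 h1 hlev
    refine ⟨u, hu, hlev2.trans (le_of_eq ?_)⟩
    congr 1
    ext g
    simp only [hC, mem_ofPred_eq, map_add]
    constructor <;> intro h <;> convert h using 1 <;> abel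

open scoped RealInnerProductSpace in
lemma integral_inner_sq (n : E) : ∫ x, ⟪n, x⟫ ^ 2 ∂(stdGaussian E) = ‖n‖ ^ 2 := by
  have h := variance_dual_stdGaussian (E := E) (innerSL ℝ n)
  rw [variance_eq_integral (by fun_prop)] at h
  have h0 := integral_strongDual_stdGaussian (E := E) (innerSL ℝ n)
  rw [h0] at h
  simpa using h

open scoped RealInnerProductSpace in
lemma integrable_inner_sq (n : E) : Integrable (fun x => ⟪n, x⟫ ^ 2) (stdGaussian E) := by
  have h : MemLp (fun x : E => ⟪n, x⟫) 2 (stdGaussian E) :=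
    (IsGaussian.memLp_dual (stdGaussian E) (innerSL ℝ n) 2 (by simp))
  exact h.integrable_sq

/-- `E ‖A g‖² = ∑ ‖A† b_i‖²`. -/
lemma integral_norm_sq {ι : Type*} [Fintype ι] (A : F →L[ℝ] E) (b : OrthonormalBasis ι ℝ E) :
    Integrable (fun g => ‖A g‖ ^ 2) (stdGaussian F) ∧
    ∫ g, ‖A g‖ ^ 2 ∂(stdGaussian F) = ∑ i, ‖A.adjoint (b i)‖ ^ 2 := by
  have e : (fun g => ‖A g‖ ^ 2) = fun g => ∑ i, (inner ℝ (A.adjoint (b i)) g) ^ 2 := by
    ext g
    rw [← b.sum_sq_norm_inner_right (A g)]
    refine Finset.sum_congr rfl fun i _ => ?_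
    rw [ContinuousLinearMap.adjoint_inner_left, Real.norm_eq_abs, sq_abs]
  rw [e]
  refine ⟨integrable_finsetSum _ fun i _ => integrable_inner_sq _, ?_⟩
  rw [integral_finsetSum _ fun i _ => integrable_inner_sq _]
  exact Finset.sum_congr rfl fun i _ => integral_inner_sq _

/-- Chebyshev for the noise. -/
lemma noise_tail {ι : Type*} [Fintype ι] (A : F →L[ℝ] E) (b : OrthonormalBasis ι ℝ E) {k ε : ℝ}
    (hk : 0 < k) (h : ∑ i, ‖A.adjoint (b i)‖ ^ 2 ≤ ε * k ^ 2) :
    (stdGaussian F).real {g | k < ‖A g‖} ≤ ε := by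
  obtain ⟨I, e⟩ := integral_norm_sq A b
  have m := mul_meas_ge_le_integral_of_nonneg (μ := stdGaussian F) (f := fun g => ‖A g‖ ^ 2)
    (Eventually.of_forall fun g => by positivity) I (k ^ 2)
  rw [e] at m
  have h1 : (stdGaussian F).real {g | k < ‖A g‖} ≤ (stdGaussian F).real {g | k ^ 2 ≤ ‖A g‖ ^ 2} := by
    refine measureReal_mono ?_ (measure_ne_top _ _)
    intro g hg
    simp only [mem_ofPred_eq] at hg ⊢
    exact pow_le_pow_left₀ hk.le hg.le 2
  have hk2 : 0 < k ^ 2 := by positivity
  have h2 : k ^ 2 * (stdGaussian F).real {g | k ^ 2 ≤ ‖A g‖ ^ 2} ≤ k ^ 2 * ε := by linarith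
  exact h1.trans (le_of_mul_le_mul_left h2 hk2)

/-- **(***)** with the trace of the noise covariance. -/
theorem starstar_trace {ι : Type*} [Fintype ι] (b : OrthonormalBasis ι ℝ E) (A : F →L[ℝ] E)
    {Y : Set E} (hYc : IsClosed Y) (hYx : Convex ℝ Y)
    (hY : 1/2 ≤ (stdGaussian E).real Y) {η : ℝ} (h0 : 0 < η) (h1 : η ≤ 1)
    (hA : ∑ i, ‖A.adjoint (b i)‖ ^ 2 ≤ η ^ 5 / 10 ^ 21) :
    ∃ U : Set E, IsClosed U ∧ Convex ℝ U ∧
      (stdGaussian E).real Y + 1/2 * (stdGaussian E).real (U \ Y) ≤ (stdGaussian E).real U ∧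
      ∀ y ∈ U, ∃ u : F, ‖u‖ ≤ η ∧ 1/2 + η/300 ≤ (stdGaussian F).real {g | y + A u + A g ∈ Y} := by
  apply starstar A hYc hYx hY h0 h1
  apply noise_tail A b (by positivity)
  refine hA.trans ?_
  have : η / 1000 * (η ^ 2 / 900000000) ^ 2 = η ^ 5 / (1000 * 900000000 ^ 2) := by ring
  rw [this]
  apply div_le_div_of_nonneg_left (by positivity) (by positivity) (by norm_num)

end Crest.Agent.R239
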