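import Mathlib
import Crest.Agent.R239.StarStar876
import Crest.Agent.R239.Gau4
import Crest.Agent.R239.Gau5

/-! R239, helper690: the inequality (***)' with passengers (challenge #11059, proof #11165):
reduction to (***) (StarStar876) by compressing the passengers to one dimension. -/

set_option autoImplicit false
set_option linter.unusedSectionVars false
open MeasureTheory ProbabilityTheory Set Filter Topology Metric
open scoped ENNReal NNReal RealInnerProductSpace Pointwise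

namespace Crest.Agent.R239

open Crest.Agent.Lib.Ehrhard (Phi Phi_pos Phi_lt_one strictMono_Phi Phi_neg continuous_Phi)

variable {E : Type*} [NormedAddCommGroup E] [InnerProductSpace ℝ E] [FiniteDimensional ℝ E]
  [MeasurableSpace E] [BorelSpace E]
variable {F : Type*} [NormedAddCommGroup F] [InnerProductSpace ℝ F] [FiniteDimensional ℝ F]
  [MeasurableSpace F] [BorelSpace F]

namespace Pass690

lemma Phi_zero' : Phi 0 = 1/2 := by
  have := Phi_neg 0
  simp at this
  linarith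

/-- A closed convex set of measure `≥ Φ(a)`, `a ≥ 0`, contains the ball of radius `a`. -/
lemma ball_subset {W : Set E} (hW : IsClosed W) (cW : Convex ℝ W) {a : ℝ}
    (ha : Phi a ≤ (stdGaussian E).real W) : closedBall (0:E) a ⊆ W := by
  intro z hz
  by_contra hzW
  obtain ⟨f, u, h1, h2⟩ := geometric_hahn_banach_closed_point cW hW hzW
  set n : E := (InnerProductSpace.toDual ℝ E).symm f with hn
  have hf : ∀ x, f x = ⟪n, x⟫ := fun x => by
    rw [hn, InnerProductSpace.toDual_symm_apply]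
  rw [mem_closedBall_zero_iff] at hz
  rcases eq_or_ne n 0 with h0 | h0
  · have hf0 : ∀ x, f x = 0 := fun x => by rw [hf, h0, inner_zero_left]
    have hWe : W = ∅ := by
      ext x
      simp only [mem_empty_iff_false, iff_false]
      intro hx
      have := h1 x hx
      rw [hf0] at this h2
      linarith
    rw [hWe] at ha
    simp only [measureReal_empty] at ha
    exact absurd ha (not_le.2 (Phi_pos a))
  · have hsub : W ⊆ {x | ⟪n, x⟫ ≤ u} := fun x hx => by
      have := h1 x hx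
      rw [hf] at this
      exact this.le
    have h3 := ha.trans (measureReal_mono hsub (measure_ne_top _ _))
    rw [std_halfspace n h0 u, strictMono_Phi.le_iff_le] at h3
    have hpos : 0 < ‖n‖ := norm_pos_iff.2 h0
    rw [le_div_iff₀ hpos] at h3
    rw [hf] at h2
    have h4 := real_inner_le_norm n z
    nlinarith

/-- **Dilation lemma** (Landau–Shepp–Borell): `Φ⁻¹ P(σ g ∈ W) ≥ Φ⁻¹ P(g ∈ W) / σ`, `σ ≤ 1`. -/
theorem dilation {W : Set E} (hW : IsClosed W) (cW : Convex ℝ W) {a σ : ℝ} (hσ : 0 < σ)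
    (hσ1 : σ ≤ 1) (ha : Phi a ≤ (stdGaussian E).real W) :
    Phi (a / σ) ≤ (stdGaussian E).real {x | σ • x ∈ W} := by
  have h1σ : 1 ≤ σ⁻¹ := by
    rw [one_le_inv₀ hσ]; exact hσ1
  rcases le_or_gt 0 a with h | h
  · have hb := ball_subset hW cW ha
    have key := dilation_slope hW cW h hb (s := 1) (t := σ⁻¹) one_pos h1σ (a := a)
      (by rwa [one_smul])
    have e : a + (σ⁻¹ - 1) * a = a / σ := by
      rw [div_eq_mul_inv]; ring
    rw [e] at key
    refine key.trans (le_of_eq ?_)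
    congr 1
    ext x
    rw [mem_smul_set_iff_inv_smul_mem₀ (inv_ne_zero hσ.ne'), inv_inv]
    rfl
  · -- nearest point
    have hiso := isoperimetry hW cW (r := -a) (by linarith) ha
    rw [add_neg_cancel] at hiso
    have hcc : Convex ℝ (cthickening (-a) W) := cW.cthickening _
    have h0 : (0:E) ∈ cthickening (-a) W :=
      ball_subset isClosed_cthickening hcc hiso (mem_closedBall_self le_rfl)
    have h00 := cthickening_subset_add hW (by linarith : 0 ≤ -a) h0
    obtain ⟨p, hp, u, hu, hpu⟩ := h00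
    have hpn : ‖p‖ ≤ -a := by
      have : p = -u := eq_neg_of_add_eq_zero_left hpu
      rw [this, norm_neg]
      exact mem_closedBall_zero_iff.1 hu
    have hs := shift_le hW.measurableSet (-((σ⁻¹ - 1) • p)) ha
    have hσ0 : 0 ≤ σ⁻¹ - 1 := by linarith
    have hle : Phi (a / σ) ≤ Phi (a - ‖-((σ⁻¹ - 1) • p)‖) := by
      rw [strictMono_Phi.le_iff_le, norm_neg, norm_smul, Real.norm_of_nonneg hσ0]
      have : a / σ = a - (σ⁻¹ - 1) * (-a) := by rw [div_eq_mul_inv]; ring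
      rw [this]
      have := mul_le_mul_of_nonneg_left hpn hσ0
      linarith
    refine hle.trans (hs.trans (measureReal_mono ?_ (measure_ne_top _ _)))
    intro x hx
    simp only [mem_ofPred_eq] at hx ⊢
    have h5 := cW hx hp hσ.le (by linarith : 0 ≤ 1 - σ) (by ring)
    convert h5 using 1
    rw [smul_add, smul_neg, smul_smul]
    have : σ * (σ⁻¹ - 1) = 1 - σ := by field_simp
    rw [this]
    abel

/-- Dilation lemma for a general centred Gaussian. -/
theorem dilation_gau (B : F →L[ℝ] E) {W : Set E} (hW : IsClosed W) (cW : Convex ℝ W) {a σ : ℝ}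
    (hσ : 0 < σ) (hσ1 : σ ≤ 1) (ha : Phi a ≤ (gau B).real W) :
    Phi (a / σ) ≤ (gau (σ • B)).real W := by
  rw [gau_real_apply _ hW.measurableSet] at ha ⊢
  have h := dilation (hW.preimage B.continuous) (cW.linear_preimage (B : F →ₗ[ℝ] E)) hσ hσ1 ha
  refine h.trans (le_of_eq ?_)
  congr 1
  ext x
  simp [map_smul]

/-- `P(Φ(σ s) ≤ P(ζ ∈ W)) ≤ P(σ ζ ∈ W)`. -/
theorem level_dilation (B : F →L[ℝ] E) {W : Set E} (hW : IsClosed W) (cW : Convex ℝ W) {σ : ℝ}
    (hσ : 0 < σ) (hσ1 : σ ≤ 1) :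
    (gaussianReal 0 1).real {s | Phi (σ * s) ≤ (gau B).real W} ≤ (gau (σ • B)).real W := by
  rw [← gaussian_Phi_le (f := (gau (σ • B)).real W) measureReal_nonneg measureReal_le_one]
  refine measureReal_mono ?_ (measure_ne_top _ _)
  intro s hs
  simp only [mem_ofPred_eq] at hs ⊢
  have h := dilation_gau B hW cW hσ hσ1 hs
  rwa [mul_div_assoc, mul_comm, div_mul_cancel₀ _ hσ.ne'] at h

section product

variable {G : Type*} [NormedAddCommGroup G] [InnerProductSpace ℝ G] [FiniteDimensional ℝ G]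
  [MeasurableSpace G] [BorelSpace G]

variable (G) in
/-- the space `G × ℝ` with its Euclidean structure -/
abbrev X2 := WithLp 2 (G × ℝ)

variable (G) in
/-- first inclusion -/
noncomputable def i0 : G →L[ℝ] X2 G :=
  (WithLp.prodContinuousLinearEquiv 2 ℝ G ℝ).symm.toContinuousLinearMap ∘L
    ContinuousLinearMap.inl ℝ G ℝ

variable (G) in
/-- second inclusion -/
noncomputable def i1 : ℝ →L[ℝ] X2 G :=
  (WithLp.prodContinuousLinearEquiv 2 ℝ G ℝ).symm.toContinuousLinearMap ∘L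
    ContinuousLinearMap.inr ℝ G ℝ

variable (G) in
/-- first projection -/
noncomputable def p0 : X2 G →L[ℝ] G := WithLp.fstL 2 ℝ G ℝ

variable (G) in
/-- second projection -/
noncomputable def p1 : X2 G →L[ℝ] ℝ := WithLp.sndL 2 ℝ G ℝ

@[simp] lemma p0_i0 (x : G) : p0 G (i0 G x) = x := rfl
@[simp] lemma p1_i0 (x : G) : p1 G (i0 G x) = 0 := rfl
@[simp] lemma p0_i1 (x : ℝ) : p0 G (i1 G x) = 0 := rfl
@[simp] lemma p1_i1 (x : ℝ) : p1 G (i1 G x) = x := rfl

lemma inner_X2 (z w : X2 G) : ⟪z, w⟫ = ⟪p0 G z, p0 G w⟫ + p1 G z * p1 G w := by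
  rw [WithLp.prod_inner_apply]
  simp only [RCLike.inner_apply, conj_trivial]
  rw [mul_comm]
  rfl

lemma adj_i0 (t : X2 G) : (i0 G).adjoint t = p0 G t := by
  apply ext_inner_right ℝ
  intro s
  rw [ContinuousLinearMap.adjoint_inner_left, inner_X2]
  simp

lemma adj_i1 (t : X2 G) : (i1 G).adjoint t = p1 G t := by
  apply ext_inner_right ℝ
  intro s
  rw [ContinuousLinearMap.adjoint_inner_left, inner_X2]
  simp [mul_comm]

lemma norm_X2 (t : X2 G) : ‖p0 G t‖ ^ 2 + ‖p1 G t‖ ^ 2 = ‖t‖ ^ 2 := by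
  rw [← real_inner_self_eq_norm_sq, ← real_inner_self_eq_norm_sq t, inner_X2,
    real_inner_self_eq_norm_sq, Real.norm_eq_abs, sq_abs]
  ring

lemma X2_ext {z w : X2 G} (h0 : p0 G z = p0 G w) (h1 : p1 G z = p1 G w) : z = w := by
  have h := norm_X2 (z - w)
  rw [map_sub, map_sub, h0, h1, sub_self, sub_self] at h
  simp at h
  exact sub_eq_zero.1 (norm_eq_zero.1 (by nlinarith [norm_nonneg (z - w)]))

end product

section main

variable {G0 : Type*} [NormedAddCommGroup G0] [InnerProductSpace ℝ G0] [FiniteDimensional ℝ G0]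
  [MeasurableSpace G0] [BorelSpace G0]
variable {G1 : Type*} [NormedAddCommGroup G1] [InnerProductSpace ℝ G1] [FiniteDimensional ℝ G1]
  [MeasurableSpace G1] [BorelSpace G1]
variable {G2 : Type*} [NormedAddCommGroup G2] [InnerProductSpace ℝ G2] [FiniteDimensional ℝ G2]
  [MeasurableSpace G2] [BorelSpace G2]
variable {G3 : Type*} [NormedAddCommGroup G3] [InnerProductSpace ℝ G3] [FiniteDimensional ℝ G3]
  [MeasurableSpace G3] [BorelSpace G3]
variable {G4 : Type*} [NormedAddCommGroup G4] [InnerProductSpace ℝ G4] [FiniteDimensional ℝ G4]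
  [MeasurableSpace G4] [BorelSpace G4]

/-- hypograph of `x ↦ Φ⁻¹ P(T x + B g ∈ Z)` -/
def hyp (T : G0 →L[ℝ] E) (B : G1 →L[ℝ] E) (Z : Set E) : Set (X2 G0) :=
  {p | Phi (p1 G0 p) ≤ (gau B).real {z | T (p0 G0 p) + z ∈ Z}}

lemma isClosed_hyp (T : G0 →L[ℝ] E) (B : G1 →L[ℝ] E) {Z : Set E} (hZ : IsClosed Z) :
    IsClosed (hyp T B Z) := by
  rw [← isSeqClosed_iff_isClosed]
  intro u p hu hp
  simp only [hyp, mem_ofPred_eq] at hu ⊢
  have h1 : Tendsto (fun n => p1 G0 (u n)) atTop (𝓝 (p1 G0 p)) :=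
    ((p1 G0).continuous.tendsto p).comp hp
  have h2 : Tendsto (fun n => T (p0 G0 (u n))) atTop (𝓝 (T (p0 G0 p))) :=
    ((T.continuous.comp (p0 G0).continuous).tendsto p).comp hp
  refine le_of_forall_lt_imp_le_of_dense fun c hc => ?_
  have h3 : ∀ᶠ n in atTop, c ≤ Phi (p1 G0 (u n)) :=
    ((continuous_Phi.tendsto _).comp h1).eventually (le_mem_nhds hc)
  have hcl := isClosed_tset B hZ c
  have : T (p0 G0 p) ∈ tset B Z c := by
    refine hcl.mem_of_tendsto h2 (h3.mono fun n hn => ?_)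
    exact hn.trans (hu n)
  exact this

lemma convex_hyp (T : G0 →L[ℝ] E) (B : G1 →L[ℝ] E) {Z : Set E} (hZ : IsClosed Z)
    (cZ : Convex ℝ Z) : Convex ℝ (hyp T B Z) := by
  intro p hp q hq s t hs ht hst
  have h1 : s = 1 - t := by linarith
  have := tset_concave B hZ cZ ht (by linarith) (show T (p0 G0 p) ∈ tset B Z (Phi (p1 G0 p)) from hp)
    (show T (p0 G0 q) ∈ tset B Z (Phi (p1 G0 q)) from hq)
  simp only [hyp, mem_ofPred_eq, map_add, map_smul, smul_eq_mul]
  rw [h1]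
  exact this

lemma hyp_down (T : G0 →L[ℝ] E) (B : G1 →L[ℝ] E) {Z : Set E} {p q : X2 G0} (hp : p ∈ hyp T B Z)
    (h0 : p0 G0 q = p0 G0 p) (h1 : p1 G0 q ≤ p1 G0 p) : q ∈ hyp T B Z := by
  simp only [hyp, mem_ofPred_eq] at hp ⊢
  rw [h0]
  exact (strictMono_Phi.monotone h1).trans hp

/-- law of `A x + s B` -/
lemma law_prod (A : G0 →L[ℝ] E) (B : ℝ →L[ℝ] E) {C : G3 →L[ℝ] E}
    (h : ∀ t, ‖A.adjoint t‖ ^ 2 + ‖B.adjoint t‖ ^ 2 = ‖C.adjoint t‖ ^ 2) {K : Set E}
    (hK : MeasurableSet K) :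
    (gau C).real K = ∫ x, (gaussianReal 0 1).real {s | A x + B s ∈ K} ∂(stdGaussian G0) := by
  rw [← map_add_prod h, measureReal_def, Measure.map_apply (by fun_prop) hK, ← measureReal_def,
    stdGaussian_real, Shell876.prod_real _ _ ((by fun_prop : Measurable fun p : G0 × ℝ => A p.1 + B p.2) hK)]
  rfl

lemma measure_hyp (T : G0 →L[ℝ] E) (B : G1 →L[ℝ] E) {C : G3 →L[ℝ] E}
    (hC : ∀ t, ‖T.adjoint t‖ ^ 2 + ‖B.adjoint t‖ ^ 2 = ‖C.adjoint t‖ ^ 2) {Z : Set E}
    (hZ : IsClosed Z) :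
    (stdGaussian (X2 G0)).real (hyp T B Z) = (gau C).real Z := by
  have h0 : ∀ t : X2 G0, ‖(i0 G0).adjoint t‖ ^ 2 + ‖(i1 G0).adjoint t‖ ^ 2
      = ‖(ContinuousLinearMap.id ℝ (X2 G0)).adjoint t‖ ^ 2 := by
    intro t
    rw [adj_i0, adj_i1, norm_X2]
    simp
  rw [← gau_id, law_prod (i0 G0) (i1 G0) h0 (isClosed_hyp T B hZ).measurableSet,
    gau_mix_real hC hZ.measurableSet, gau, integral_map T.continuous.aemeasurable
      (measurable_gau_shift_real B hZ.measurableSet).aestronglyMeasurable]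
  refine integral_congr_ae (Eventually.of_forall fun x => ?_)
  simp only [hyp, mem_ofPred_eq, map_add, p0_i0, p0_i1, p1_i0, p1_i1, add_zero, zero_add]
  exact gaussian_Phi_le measureReal_nonneg measureReal_le_one

/-- the noise `(A g, σ s)` -/
noncomputable def noise (A : G2 →L[ℝ] G0) (σ : ℝ) : X2 G2 →L[ℝ] X2 G0 :=
  (i0 G0 ∘L A) ∘L p0 G2 + (σ • i1 G0) ∘L p1 G2

lemma adj_noise_p0 (A : G2 →L[ℝ] G0) (σ : ℝ) (t : X2 G0) :
    p0 G2 ((noise A σ).adjoint t) = A.adjoint (p0 G0 t) := by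
  apply ext_inner_right ℝ
  intro s
  have h1 : ⟪p0 G2 ((noise A σ).adjoint t), s⟫ = ⟪(noise A σ).adjoint t, i0 G2 s⟫ := by
    rw [inner_X2]; simp
  rw [h1, ContinuousLinearMap.adjoint_inner_left, ContinuousLinearMap.adjoint_inner_left, inner_X2]
  simp [noise]

lemma adj_noise_p1 (A : G2 →L[ℝ] G0) (σ : ℝ) (t : X2 G0) :
    p1 G2 ((noise A σ).adjoint t) = σ * p1 G0 t := by
  have h1 : p1 G2 ((noise A σ).adjoint t) = ⟪(noise A σ).adjoint t, i1 G2 1⟫ := by
    rw [inner_X2]; simp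
  rw [h1, ContinuousLinearMap.adjoint_inner_left, inner_X2]
  simp [noise, mul_comm]

lemma norm_adj_noise (A : G2 →L[ℝ] G0) (σ : ℝ) (t : X2 G0) :
    ‖(noise A σ).adjoint t‖ ^ 2 = ‖A.adjoint (p0 G0 t)‖ ^ 2 + σ ^ 2 * (p1 G0 t) ^ 2 := by
  rw [← norm_X2, adj_noise_p0, adj_noise_p1, Real.norm_eq_abs, sq_abs]
  ring

lemma law_noise (A : G2 →L[ℝ] G0) (σ : ℝ) {K : Set (X2 G0)} (hK : MeasurableSet K) :
    (gau (noise A σ)).real K
      = ∫ g, (gaussianReal 0 1).real {s | i0 G0 (A g) + i1 G0 (σ * s) ∈ K} ∂(stdGaussian G2) := by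
  have h0 : ∀ t : X2 G0, ‖(i0 G0 ∘L A).adjoint t‖ ^ 2 + ‖(σ • i1 G0).adjoint t‖ ^ 2
      = ‖(noise A σ).adjoint t‖ ^ 2 := by
    intro t
    rw [norm_adj_noise, ContinuousLinearMap.adjoint_comp, ContinuousLinearMap.comp_apply, adj_i0]
    congr 1
    have : (σ • i1 G0).adjoint t = σ * p1 G0 t := by
      apply ext_inner_right ℝ
      intro s
      rw [ContinuousLinearMap.adjoint_inner_left, inner_X2]
      simp
      ring
    rw [this, Real.norm_eq_abs, sq_abs]
    ring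
  rw [law_prod (i0 G0 ∘L A) (σ • i1 G0) h0 hK]
  refine integral_congr_ae (Eventually.of_forall fun x => ?_)
  simp only [ContinuousLinearMap.comp_apply, smul_apply]
  congr 1
  ext s
  simp only [mem_ofPred_eq]
  rw [← smul_eq_mul, map_smul]

/-- Step (4): the level at `(x, 0)` for the compressed body is at most the real level. -/
lemma level_le (T : G0 →L[ℝ] E) (B : G1 →L[ℝ] E) (A : G2 →L[ℝ] G0) {D : G4 →L[ℝ] E} {σ : ℝ}
    (hσ : 0 < σ) (hσ1 : σ ≤ 1)
    (hD : ∀ t, ‖(T ∘L A).adjoint t‖ ^ 2 + ‖(σ • B).adjoint t‖ ^ 2 = ‖D.adjoint t‖ ^ 2)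
    {Z : Set E} (hZ : IsClosed Z) (cZ : Convex ℝ Z) (x : G0) :
    (gau (noise A σ)).real {z | i0 G0 x + z ∈ hyp T B Z} ≤ (gau D).real {z | T x + z ∈ Z} := by
  have m1 : MeasurableSet {z | i0 G0 x + z ∈ hyp T B Z} :=
    (isClosed_shift (isClosed_hyp T B hZ) _).measurableSet
  have c2 : IsClosed {z | T x + z ∈ Z} := isClosed_shift hZ _
  rw [law_noise A σ m1, gau_mix_real hD c2.measurableSet, gau, integral_map
    (T ∘L A).continuous.aemeasurable
    (measurable_gau_shift_real (σ • B) c2.measurableSet).aestronglyMeasurable]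
  have key : ∀ g : G2, (gaussianReal 0 1).real {s | i0 G0 (A g) + i1 G0 (σ * s) ∈
      {z | i0 G0 x + z ∈ hyp T B Z}} ≤ (gau (σ • B)).real {z | (T ∘L A) g + z ∈ {z | T x + z ∈ Z}} := by
    intro g
    have h := level_dilation B (isClosed_shift hZ (T x + T (A g)))
      (convex_shift cZ (T x + T (A g))) hσ hσ1
    refine (le_of_eq ?_).trans (h.trans (le_of_eq ?_))
    · congr 1
      ext s
      simp only [hyp, mem_ofPred_eq, map_add, p0_i0, p0_i1, p1_i0, p1_i1, add_zero, zero_add]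
    · congr 1
      ext z
      simp only [mem_ofPred_eq, ContinuousLinearMap.comp_apply, add_assoc]
  have mm : Measurable fun g : G2 => (gau (σ • B)).real {z | (T ∘L A) g + z ∈ {z | T x + z ∈ Z}} :=
    (measurable_gau_shift_real (σ • B) c2.measurableSet).comp (T ∘L A).continuous.measurable
  refine integral_mono_of_nonneg (Eventually.of_forall fun g => measureReal_nonneg) ?_
    (Eventually.of_forall key)
  exact Integrable.of_bound mm.aestronglyMeasurable 1 (Eventually.of_forall fun y => by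
    rw [Real.norm_eq_abs, abs_of_nonneg measureReal_nonneg]; exact measureReal_le_one)

/-- Step (3): section `s = 0`. -/
lemma section_zero {U : Set (X2 G0)} (hU : IsClosed U) (cU : Convex ℝ U)
    (down : ∀ p ∈ U, ∀ q, p0 G0 q = p0 G0 p → p1 G0 q ≤ p1 G0 p → q ∈ U)
    (hh : 1/2 ≤ (stdGaussian (X2 G0)).real U) :
    (stdGaussian (X2 G0)).real U ≤ (stdGaussian G0).real {x | i0 G0 x ∈ U} := by
  have h0 : ∀ t : X2 G0, ‖(i0 G0).adjoint t‖ ^ 2 + ‖(i1 G0).adjoint t‖ ^ 2
      = ‖(ContinuousLinearMap.id ℝ (X2 G0)).adjoint t‖ ^ 2 := by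
    intro t
    rw [adj_i0, adj_i1, norm_X2]
    simp
  have h := threshold_half h0 hU cU (by rwa [gau_id])
  rw [gau_id] at h
  refine h.trans ?_
  rw [gau_real_apply _ (isClosed_tset _ hU _).measurableSet]
  refine measureReal_mono ?_ (measure_ne_top _ _)
  intro x hx
  simp only [mem_preimage, tset, mem_ofPred_eq] at hx ⊢
  by_contra hc
  have hopen : IsOpen {s : ℝ | i0 G0 x + i1 G0 s ∉ U} :=
    hU.isOpen_compl.preimage (by fun_prop)
  have h0m : (0:ℝ) ∈ {s : ℝ | i0 G0 x + i1 G0 s ∉ U} := by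
    simpa using hc
  obtain ⟨δ, hδ, hb⟩ := Metric.isOpen_iff.1 hopen 0 h0m
  have hm : MeasurableSet {z | i0 G0 x + z ∈ U} := (isClosed_shift hU _).measurableSet
  rw [gau_real_apply _ hm, stdGaussian_real] at hx
  have hsub : (i1 G0) ⁻¹' {z | i0 G0 x + z ∈ U} ⊆ Iic (-(δ/2)) := by
    intro s hs
    simp only [mem_preimage, mem_ofPred_eq] at hs
    by_contra hs2
    rw [mem_Iic, not_le] at hs2
    have h3 : (-(δ/2)) ∈ {s : ℝ | i0 G0 x + i1 G0 s ∉ U} := by
      apply hb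
      rw [mem_ball_zero_iff, norm_neg, Real.norm_eq_abs, abs_of_pos (by positivity)]
      linarith
    apply h3
    refine down _ hs _ ?_ ?_
    · simp
    · simp only [map_add, p1_i0, p1_i1, zero_add]
      exact hs2.le
  have h4 := hx.trans (measureReal_mono hsub (measure_ne_top _ _))
  rw [← Phi_eq_gaussian] at h4
  have h5 : Phi (-(δ/2)) < Phi 0 := strictMono_Phi (by linarith)
  rw [Phi_zero'] at h5
  linarith

/-- **(***)' with passengers**, measure form. `gau T` is the reference after consumption, `gau B` the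
consumed passenger noise, `gau C` the reference before, `T ∘ A` the small noise, `gau D` the noise
`T A g + σ B g'`. -/
theorem passengers (T : G0 →L[ℝ] E) (B : G1 →L[ℝ] E) (A : G2 →L[ℝ] G0) {C : G3 →L[ℝ] E}
    {D : G4 →L[ℝ] E} {σ τ : ℝ} (hσ : 0 < σ) (hσ1 : σ ≤ 1)
    (hC : ∀ t, ‖T.adjoint t‖ ^ 2 + ‖B.adjoint t‖ ^ 2 = ‖C.adjoint t‖ ^ 2)
    (hD : ∀ t, ‖(T ∘L A).adjoint t‖ ^ 2 + ‖(σ • B).adjoint t‖ ^ 2 = ‖D.adjoint t‖ ^ 2)
    {Z : Set E} (hZ : IsClosed Z) (cZ : Convex ℝ Z) (hh : 1/2 ≤ (gau C).real Z)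
    (hτ : 0 < τ) (hτ1 : τ ≤ 1/20) {ι : Type*} [Fintype ι] (b : OrthonormalBasis ι ℝ G0)
    (hA : ∑ i, ‖A.adjoint (b i)‖ ^ 2 + σ ^ 2 ≤ 3/10 * τ * (τ^2/5000) ^ 2) :
    (gau C).real Z ≤ (gau T).real (tset D Z (Phi (-(2*τ)))) := by
  have hYc := isClosed_hyp T B hZ
  have hYx := convex_hyp T B hZ cZ
  have hY := measure_hyp T B hC hZ
  have hk : 0 < τ^2/5000 := by positivity
  have tail : (gau (noise A σ)).real {z | τ^2/5000 < ‖z‖} ≤ 3/10 * τ := by
    rw [gau_real_apply _ (measurableSet_lt measurable_const measurable_norm)]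
    refine noise_tail (noise A σ) (b.prod (OrthonormalBasis.singleton Unit ℝ)) hk ?_
    refine le_trans (le_of_eq ?_) hA
    rw [Fintype.sum_sum_type]
    congr 1
    · refine Finset.sum_congr rfl fun i _ => ?_
      rw [norm_adj_noise]
      have e0 : (b.prod (OrthonormalBasis.singleton Unit ℝ)) (Sum.inl i) = i0 G0 (b i) := by
        simp; rfl
      rw [e0]; simp
    · have e1 : ∀ i, (b.prod (OrthonormalBasis.singleton Unit ℝ)) (Sum.inr i) = i1 G0 1 := by
        intro i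
        simp; rfl
      simp only [norm_adj_noise, e1]
      simp
  have hstar := star_measure (noise A σ) hYc hYx (by rw [hY]; exact hh) hτ hτ1 tail
  have h1 : (gau C).real Z ≤ (stdGaussian (X2 G0)).real
      (tset (noise A σ) (hyp T B Z) (Phi (-(2*τ)))) := by
    rw [← hY]
    have : 0 ≤ 1/2 * (stdGaussian (X2 G0)).real
      (tset (noise A σ) (hyp T B Z) (Phi (-(2*τ))) \ hyp T B Z) := by positivity
    linarith
  have h2 := section_zero (isClosed_tset (noise A σ) hYc (Phi (-(2*τ))))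
    (convex_tset (noise A σ) hYc hYx (-(2*τ))) (by
      intro p hp q hq0 hq1
      simp only [tset, mem_ofPred_eq] at hp ⊢
      refine hp.trans (measureReal_mono ?_ (measure_ne_top _ _))
      intro z hz
      simp only [mem_ofPred_eq] at hz ⊢
      exact hyp_down T B hz (by rw [map_add, map_add, hq0]) (by
        rw [map_add, map_add]; linarith)) (hh.trans h1)
  refine h1.trans (h2.trans ?_)
  rw [gau_real_apply T (isClosed_tset D hZ _).measurableSet]
  refine measureReal_mono ?_ (measure_ne_top _ _)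
  intro x hx
  simp only [mem_ofPred_eq, mem_preimage, tset] at hx ⊢
  exact hx.trans (level_le T B A hσ hσ1 hD hZ cZ x)

/-- Output with steering: `D = 2 D0`. -/
theorem tset_flat {D0 : G4 →L[ℝ] E} {η : ℝ} (h0 : 0 < η) (h1 : η ≤ 1) {Z : Set E}
    (hZ : IsClosed Z) (cZ : Convex ℝ Z) {y : E}
    (hy : y ∈ tset ((2:ℝ) • D0) Z (Phi (-(2 * (η / 300))))) :
    ∃ u : G4, ‖u‖ ≤ η ∧ 1/2 + η/300 ≤ (gau D0).real {z | y + D0 u + z ∈ Z} := by
  set C : Set G4 := {w | y + D0 w ∈ Z} with hC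
  have hCc : IsClosed C := hZ.preimage (by fun_prop)
  have hCx : Convex ℝ C := by
    have := (convex_shift cZ y).linear_preimage (D0 : G4 →ₗ[ℝ] E)
    exact this
  have hlev : 1/2 - η/300 ≤ (stdGaussian G4).real {g | (2:ℝ) • g ∈ C} := by
    have h2 : Phi (-(2*(η/300))) ≤ (gau ((2:ℝ) • D0)).real {x | y + x ∈ Z} := hy
    rw [gau_real_apply _ (isClosed_shift hZ y).measurableSet] at h2
    have e : ((2:ℝ) • D0) ⁻¹' {x | y + x ∈ Z} = {g | (2:ℝ) • g ∈ C} := by
      ext g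
      simp [hC, map_smul]
    rw [e] at h2
    refine le_trans ?_ h2
    have hp := Shell876.Phi_sub (-(2*(η/300))) (2*(η/300))
    have h3 : 1/2 - Phi (-(2*(η/300))) ≤ η/300 := by
      have e2 : 1/2 - Phi (-(2*(η/300))) = Phi (0 + 2*(η/300)) - Phi 0 := by
        rw [Phi_neg, Phi_zero']; simp; ring
      rw [e2, Shell876.Phi_sub]
      have i1 : IntervalIntegrable (fun s => Crest.Agent.Lib.Ehrhard.phi (0 + s)) volume 0 (2*(η/300)) :=
        (Crest.Agent.Lib.Ehrhard.continuous_phi.comp (by fun_prop)).intervalIntegrable _ _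
      calc ∫ s in (0:ℝ)..(2*(η/300)), Crest.Agent.Lib.Ehrhard.phi (0 + s)
          ≤ ∫ s in (0:ℝ)..(2*(η/300)), (1/2 : ℝ) := by
            apply intervalIntegral.integral_mono_on (by positivity) i1 (by simp)
            intro s _
            unfold Crest.Agent.Lib.Ehrhard.phi
            have hc : (Real.sqrt (2 * Real.pi))⁻¹ ≤ 1/2 := by
              rw [inv_le_comm₀ (by positivity) (by norm_num)]
              apply Real.le_sqrt_of_sq_le
              nlinarith [Real.pi_gt_three]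
            have h5 : Real.exp (-(0 + s)^2/2) ≤ 1 := Real.exp_le_one_iff.2 (by nlinarith [sq_nonneg (0 + s)])
            have h6 := Real.exp_pos (-(0 + s)^2/2)
            nlinarith
        _ = η/300 := by simp; ring
    linarith
  obtain ⟨u, hu, hlev2⟩ := Flat.flat hCx hCc h0 h1 hlev
  refine ⟨u, hu, ?_⟩
  rw [gau_real_apply _ (isClosed_shift hZ _).measurableSet]
  refine hlev2.trans (le_of_eq ?_)
  congr 1
  ext g
  simp only [mem_preimage, hC, mem_ofPred_eq, map_add]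
  constructor <;> intro h <;> convert h using 1 <;> abel

lemma smul_adj (c : ℝ) (M : F →L[ℝ] E) (t : E) :
    ‖(c • M).adjoint t‖ ^ 2 = c ^ 2 * ‖M.adjoint t‖ ^ 2 := by
  have : (c • M).adjoint t = c • M.adjoint t := by
    apply ext_inner_right ℝ
    intro s
    rw [ContinuousLinearMap.adjoint_inner_left, inner_smul_left,
      ContinuousLinearMap.adjoint_inner_left]
    simp [inner_smul_right]
  rw [this, norm_smul, mul_pow, Real.norm_eq_abs, sq_abs]

/-- **(***)' with passengers and steering**. `gau T` = reference after consumption, `gau B` = consumed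
passenger noise, `gau C` = reference before, `2 D0` = the noise `T A g + σ B g'`. -/
theorem passengers_steer (T : G0 →L[ℝ] E) (B : G1 →L[ℝ] E) (A : G2 →L[ℝ] G0) {C : G3 →L[ℝ] E}
    {D0 : G4 →L[ℝ] E} {σ η : ℝ} (hσ : 0 < σ) (hσ1 : σ ≤ 1)
    (hC : ∀ t, ‖T.adjoint t‖ ^ 2 + ‖B.adjoint t‖ ^ 2 = ‖C.adjoint t‖ ^ 2)
    (hD : ∀ t, ‖(T ∘L A).adjoint t‖ ^ 2 + σ ^ 2 * ‖B.adjoint t‖ ^ 2 = 4 * ‖D0.adjoint t‖ ^ 2)
    {Z : Set E} (hZ : IsClosed Z) (cZ : Convex ℝ Z) (hh : 1/2 ≤ (gau C).real Z)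
    (h0 : 0 < η) (h1 : η ≤ 1) {ι : Type*} [Fintype ι] (b : OrthonormalBasis ι ℝ G0)
    (hA : ∑ i, ‖A.adjoint (b i)‖ ^ 2 + σ ^ 2 ≤ η ^ 5 / 10 ^ 21) :
    ∃ U : Set E, IsClosed U ∧ Convex ℝ U ∧ (gau C).real Z ≤ (gau T).real U ∧
      ∀ y ∈ U, ∃ u : G4, ‖u‖ ≤ η ∧ 1/2 + η/300 ≤ (gau D0).real {z | y + D0 u + z ∈ Z} := by
  refine ⟨tset ((2:ℝ) • D0) Z (Phi (-(2*(η/300)))), isClosed_tset _ hZ _, convex_tset _ hZ cZ _, ?_,
    fun y hy => tset_flat h0 h1 hZ cZ hy⟩
  refine passengers T B A hσ hσ1 hC (by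
    intro t
    rw [smul_adj, smul_adj, hD]
    ring) hZ cZ hh (by positivity) (by linarith) b (hA.trans ?_)
  have : 3 / 10 * (η / 300) * ((η / 300) ^ 2 / 5000) ^ 2 = η ^ 5 * (3 / (10 * 300 ^ 5 * 5000 ^ 2)) := by
    ring
  rw [this, div_eq_mul_inv]
  apply mul_le_mul_of_nonneg_left _ (by positivity)
  norm_num

/-- Noise reduction at level `≥ 1/2`. -/
theorem mono_cov (S : G1 →L[ℝ] E) (R : G2 →L[ℝ] E) {C : G3 →L[ℝ] E}
    (hC : ∀ t, ‖R.adjoint t‖ ^ 2 + ‖S.adjoint t‖ ^ 2 = ‖C.adjoint t‖ ^ 2) {Z : Set E}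
    (hZ : IsClosed Z) (cZ : Convex ℝ Z) (hh : 1/2 ≤ (gau C).real Z) :
    (gau C).real Z ≤ (gau S).real Z := by
  -- the hypograph of `r ↦ Φ⁻¹ N(R r, S)(Z)` contains the ball of radius `Φ⁻¹ N(0,C)(Z)`
  by_contra hcon
  rw [not_le] at hcon
  obtain ⟨c, hc1, hc2⟩ := exists_between hcon
  have hc0 : 0 < c := lt_of_le_of_lt measureReal_nonneg hc1
  have hc1' : c < 1 := lt_of_lt_of_le hc2 measureReal_le_one
  obtain ⟨a, rfl⟩ := Crest.Agent.Lib.Ehrhard.Phi_surj hc0 hc1'
  have hY := measure_hyp R S hC hZ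
  -- WLOG `a ≥ 0`
  have main : ∀ a : ℝ, 0 ≤ a → Phi a ≤ (gau C).real Z → Phi a ≤ (gau S).real Z := by
    intro a ha h
    have hb := ball_subset (isClosed_hyp R S hZ) (convex_hyp R S hZ cZ) (h.trans hY.ge)
    have hmem : i1 G2 a ∈ closedBall (0 : X2 G2) a := by
      rw [mem_closedBall_zero_iff]
      have h := norm_X2 (i1 G2 a)
      simp only [p0_i1, p1_i1, norm_zero, Real.norm_eq_abs, sq_abs] at h
      have h2 : ‖i1 G2 a‖ ^ 2 = a ^ 2 := by rw [← h]; ring
      exact (abs_le_of_sq_le_sq' h2.le ha).2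
    have h3 := hb hmem
    simp only [hyp, mem_ofPred_eq, p0_i1, p1_i1, map_zero, zero_add] at h3
    exact h3
  rcases le_or_gt 0 a with h | h
  · exact absurd (main a h hc2.le) (not_le.2 hc1)
  · have h1 := main 0 le_rfl (by rw [Phi_zero']; exact hh)
    have h2 : Phi a < Phi 0 := strictMono_Phi h
    linarith

end main

end Pass690

end Crest.Agent.R239
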