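import Mathlib
import Crest.Agent.R239.Pass690

/-! R239, helper690: interface for (PW') (861 #11481): diagonal operators in an orthonormal basis,
the data (`fV`, bad set `B`) consumed by the orbit argument. -/

set_option autoImplicit false
set_option linter.unusedSectionVars false
open MeasureTheory ProbabilityTheory Set Filter Topology Metric
open scoped ENNReal NNReal RealInnerProductSpace

namespace Crest.Agent.R239.PW

open Crest.Agent.Lib.Ehrhard (Phi Phi_pos Phi_lt_one strictMono_Phi Phi_neg continuous_Phi)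
open Crest.Agent.R239 Crest.Agent.R239.Pass690

variable {F : Type*} [NormedAddCommGroup F] [InnerProductSpace ℝ F] [FiniteDimensional ℝ F]
  [MeasurableSpace F] [BorelSpace F]
variable {ι : Type*} [Fintype ι]

/-- diagonal operator in the orthonormal basis `b` -/
noncomputable def dg (b : OrthonormalBasis ι ℝ F) (c : ι → ℝ) : F →L[ℝ] F :=
  ∑ i, c i • (innerSL ℝ (b i)).smulRight (b i)

lemma dg_apply (b : OrthonormalBasis ι ℝ F) (c : ι → ℝ) (y : F) :
    dg b c y = ∑ i, (c i * ⟪b i, y⟫) • b i := by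
  simp [dg, smul_smul]

lemma inner_dg (b : OrthonormalBasis ι ℝ F) (c : ι → ℝ) (i : ι) (y : F) :
    ⟪b i, dg b c y⟫ = c i * ⟪b i, y⟫ := by
  classical
  rw [dg_apply, inner_sum]
  simp_rw [inner_smul_right, orthonormal_iff_ite.1 b.orthonormal]
  simp

lemma ext_basis (b : OrthonormalBasis ι ℝ F) {x y : F} (h : ∀ i, ⟪b i, x⟫ = ⟪b i, y⟫) : x = y := by
  rw [← b.sum_repr' x, ← b.sum_repr' y]
  simp_rw [h]

lemma dg_dg (b : OrthonormalBasis ι ℝ F) (c d : ι → ℝ) (y : F) :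
    dg b c (dg b d y) = dg b (fun i => c i * d i) y := by
  apply ext_basis b
  intro i
  rw [inner_dg, inner_dg, inner_dg, mul_assoc]

lemma norm_sq_basis (b : OrthonormalBasis ι ℝ F) (y : F) : ‖y‖ ^ 2 = ∑ i, ⟪b i, y⟫ ^ 2 := by
  rw [← b.sum_sq_norm_inner_right y]
  simp

lemma inner_basis (b : OrthonormalBasis ι ℝ F) (x y : F) : ⟪x, y⟫ = ∑ i, ⟪b i, x⟫ * ⟪b i, y⟫ := by
  rw [← b.sum_inner_mul_inner x y]
  refine Finset.sum_congr rfl fun i _ => ?_
  rw [real_inner_comm]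

lemma inner_dg_left (b : OrthonormalBasis ι ℝ F) (c : ι → ℝ) (x y : F) :
    ⟪dg b c x, y⟫ = ⟪x, dg b c y⟫ := by
  rw [inner_basis b, inner_basis b]
  refine Finset.sum_congr rfl fun i _ => ?_
  rw [inner_dg, inner_dg]; ring

lemma adjoint_dg (b : OrthonormalBasis ι ℝ F) (c : ι → ℝ) (y : F) :
    (dg b c).adjoint y = dg b c y := by
  apply ext_inner_right ℝ
  intro x
  rw [ContinuousLinearMap.adjoint_inner_left, inner_dg_left]

lemma norm_dg_sq (b : OrthonormalBasis ι ℝ F) (c : ι → ℝ) (y : F) :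
    ‖dg b c y‖ ^ 2 = ∑ i, c i ^ 2 * ⟪b i, y⟫ ^ 2 := by
  rw [norm_sq_basis b]
  refine Finset.sum_congr rfl fun i _ => ?_
  rw [inner_dg]; ring

lemma norm_dg_le (b : OrthonormalBasis ι ℝ F) {c d : ι → ℝ} (h : ∀ i, |c i| ≤ |d i|) (y : F) :
    ‖dg b c y‖ ≤ ‖dg b d y‖ := by
  rw [← abs_of_nonneg (norm_nonneg (dg b c y)), ← abs_of_nonneg (norm_nonneg (dg b d y)),
    ← sq_le_sq, norm_dg_sq, norm_dg_sq]
  refine Finset.sum_le_sum fun i _ => ?_
  apply mul_le_mul_of_nonneg_right _ (sq_nonneg _)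
  exact sq_le_sq.2 (h i)

lemma dg_const (b : OrthonormalBasis ι ℝ F) (r : ℝ) (y : F) : dg b (fun _ => r) y = r • y := by
  apply ext_basis b
  intro i
  rw [inner_dg, inner_smul_right]

/-- `a i = √(s i)`, `q i = √(1 - s i)`, `s i = a i ^ 2` -/
noncomputable def qq (a : ι → ℝ) : ι → ℝ := fun i => Real.sqrt (1 - a i ^ 2)

/-- The data consumed by the orbit argument of 861 (#11342, #11481, plan #11572):
`f = Φ(V)`, bad set `B`, `X y = ‖dg b a y‖`. `η'` is the (slightly smaller) slack of the support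
inequality (*). `κ` is the Lipschitz constant of `V` (about `1 + ε`). -/
structure OrbData (b : OrthonormalBasis ι ℝ F) (a : ι → ℝ) (η η' κ : ℝ) (f : F → ℝ) (B : Set F) :
    Prop where
  nonneg : ∀ y, 0 ≤ f y
  le_one : ∀ y, f y ≤ 1
  isClosed : IsClosed {p : X2 F | Phi (p1 F p) ≤ f (p0 F p)}
  convex : Convex ℝ {p : X2 F | Phi (p1 F p) ≤ f (p0 F p)}
  half : 1/2 ≤ ∫ y, f y ∂(stdGaussian F)
  lip : ∀ y w t, Phi t ≤ f y → Phi (t - κ * ‖w‖) ≤ f (y + dg b a w)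
  near : ∀ y ∈ B, ‖dg b a y‖ ≤ η / 2 → f y < Phi (-(η / 10))
  supp : ∀ z ∈ B, (∀ w, f (z + dg b a w) = 0) ∨
    ∃ (c : ℝ) (α β : F), 0 ≤ c ∧ ‖dg b (qq a) β‖ ≤ c ∧ c ^ 2 + ‖dg b a α‖ ^ 2 = 1 ∧
      ∀ y, f y ≤ Phi (-(c * η' + ⟪α, y - z⟫ - ⟪β, dg b a y⟫))

end Crest.Agent.R239.PW
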