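import Mathlib
import Crest.Agent.R239.Orb723
import Crest.Agent.R239.PWdef690

/-! R239 (helper723): estimates along the orbits `fl b (rr a) t y`, `rr a i = -log (1 - a i ^ 2)`,
`X y = ‖dg b a y‖`, in the normal form of `PWdef690`. -/

set_option autoImplicit false
set_option linter.unusedSectionVars false
open MeasureTheory ProbabilityTheory Set Filter Topology
open scoped RealInnerProductSpace ENNReal NNReal

namespace Crest.Agent.R239.OD

open Crest.Agent.R239 Crest.Agent.R239.PW Crest.Agent.R239.Orb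

variable {ι : Type*} [Fintype ι]
variable {E : Type*} [NormedAddCommGroup E] [InnerProductSpace ℝ E] [FiniteDimensional ℝ E]
  [MeasurableSpace E] [BorelSpace E]

/-- the rates `r_i = -log (1 - a_i²)` -/
noncomputable def rr (a : ι → ℝ) : ι → ℝ := fun i => -Real.log (1 - a i ^ 2)

section rates
variable {a : ι → ℝ} {ε : ℝ}

lemma sq_le (hs : ∑ i, a i ^ 2 ≤ ε) (i : ι) : a i ^ 2 ≤ ε :=
  (Finset.single_le_sum (f := fun i => a i ^ 2) (fun _ _ => sq_nonneg _) (Finset.mem_univ i)).trans hs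

lemma rr_ge (hs : ∑ i, a i ^ 2 ≤ ε) (hε : ε ≤ 1/100) (i : ι) : a i ^ 2 ≤ rr a i := by
  have h := sq_le hs i
  have := Real.log_le_sub_one_of_pos (show 0 < 1 - a i ^ 2 by linarith)
  unfold rr
  linarith

lemma rr_le (hs : ∑ i, a i ^ 2 ≤ ε) (hε : ε ≤ 1/100) (i : ι) : rr a i ≤ (1 + 2 * ε) * a i ^ 2 := by
  have h := sq_le hs i
  have h0 := sq_nonneg (a i)
  have hp : 0 < 1 - a i ^ 2 := by linarith
  have h1 := Real.one_sub_inv_le_log_of_pos hp
  have h2 : (1 - a i ^ 2)⁻¹ ≤ 1 + (1 + 2 * ε) * a i ^ 2 := by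
    rw [inv_le_iff_one_le_mul₀ hp]
    nlinarith [mul_nonneg h0 h0]
  unfold rr
  linarith

lemma rr_nonneg (hs : ∑ i, a i ^ 2 ≤ ε) (hε : ε ≤ 1/100) (i : ι) : 0 ≤ rr a i :=
  (sq_nonneg _).trans (rr_ge hs hε i)

lemma rr_pos (hs : ∑ i, a i ^ 2 ≤ ε) (hε : ε ≤ 1/100) (i : ι) (hi : 0 < a i ^ 2) : 0 < rr a i :=
  hi.trans_le (rr_ge hs hε i)

lemma eps_nonneg (hs : ∑ i, a i ^ 2 ≤ ε) : 0 ≤ ε :=
  (Finset.sum_nonneg fun i _ => sq_nonneg (a i)).trans hs

lemma sum_rr_le (hs : ∑ i, a i ^ 2 ≤ ε) (hε : ε ≤ 1/100) : ∑ i, rr a i ≤ 2 * ε := by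
  have h0 := eps_nonneg hs
  calc ∑ i, rr a i ≤ ∑ i, (1 + 2 * ε) * a i ^ 2 := Finset.sum_le_sum fun i _ => rr_le hs hε i
    _ = (1 + 2 * ε) * ∑ i, a i ^ 2 := by rw [Finset.mul_sum]
    _ ≤ (1 + 2 * ε) * ε := by gcongr
    _ ≤ 2 * ε := by nlinarith

lemma rr_le' (hs : ∑ i, a i ^ 2 ≤ ε) (hε : ε ≤ 1/100) (i : ι) : rr a i ≤ 2 * ε :=
  (Finset.single_le_sum (f := rr a) (fun j _ => rr_nonneg hs hε j) (Finset.mem_univ i)).trans
    (sum_rr_le hs hε)

lemma sum_rr_nonneg (hs : ∑ i, a i ^ 2 ≤ ε) (hε : ε ≤ 1/100) : 0 ≤ ∑ i, rr a i :=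
  Finset.sum_nonneg fun i _ => rr_nonneg hs hε i

end rates

lemma tanh_ineq {u : ℝ} (hu : 0 ≤ u) : 2 * (Real.exp u - 1) ≤ u * (Real.exp u + 1) := by
  have key : ∀ x : ℝ, HasDerivAt (fun u : ℝ => u * (Real.exp u + 1) - 2 * (Real.exp u - 1))
      (1 - (1 - x) * Real.exp x) x := by
    intro x
    have h1 := (hasDerivAt_id x).mul ((Real.hasDerivAt_exp x).add_const 1)
    have h2 := ((Real.hasDerivAt_exp x).sub_const 1).const_mul 2
    refine (h1.sub h2).congr_deriv ?_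
    simp only [id_eq]
    ring
  have mono : MonotoneOn (fun u : ℝ => u * (Real.exp u + 1) - 2 * (Real.exp u - 1)) (Ici 0) := by
    refine monotoneOn_of_deriv_nonneg (convex_Ici 0)
      (fun x _ => (key x).continuousAt.continuousWithinAt)
      (fun x _ => (key x).differentiableAt.differentiableWithinAt) fun x _ => ?_
    rw [(key x).deriv]
    have h1 := Real.add_one_le_exp (-x)
    have h2 : Real.exp (-x) * Real.exp x = 1 := by rw [← Real.exp_add]; simp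
    nlinarith [Real.exp_pos x]
  have := mono (mem_Ici.2 le_rfl) (mem_Ici.2 hu) hu
  simp at this
  linarith

variable (b : OrthonormalBasis ι ℝ E) {a : ι → ℝ} {ε : ℝ}

lemma norm_dg_mono {c d : ι → ℝ} {x y : E}
    (h : ∀ i, (c i * ⟪b i, x⟫) ^ 2 ≤ (d i * ⟪b i, y⟫) ^ 2) : ‖dg b c x‖ ≤ ‖dg b d y‖ := by
  rw [← abs_of_nonneg (norm_nonneg (dg b c x)), ← abs_of_nonneg (norm_nonneg (dg b d y)),
    ← sq_le_sq, norm_dg_sq, norm_dg_sq]
  refine Finset.sum_le_sum fun i _ => ?_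
  rw [← mul_pow, ← mul_pow]
  exact h i

lemma Nn_eq (y : E) : Nn b (fun i => a i ^ 2) y = ‖dg b a y‖ ^ 2 := by
  rw [norm_dg_sq]
  rfl

/-- (O4a) `X` is monotone along the orbits. -/
lemma X_mono (hs : ∑ i, a i ^ 2 ≤ ε) (hε : ε ≤ 1/100) (y : E) {s t : ℝ} (hst : s ≤ t) :
    ‖dg b a (fl b (rr a) s y)‖ ≤ ‖dg b a (fl b (rr a) t y)‖ := by
  refine norm_dg_mono b fun i => ?_
  rw [inner_fl, inner_fl]
  have : Real.exp (s * rr a i) ≤ Real.exp (t * rr a i) :=
    Real.exp_le_exp.2 (mul_le_mul_of_nonneg_right hst (rr_nonneg hs hε i))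
  have h2 := pow_le_pow_left₀ (Real.exp_pos _).le this 2
  calc (a i * (Real.exp (s * rr a i) * ⟪b i, y⟫)) ^ 2
      = Real.exp (s * rr a i) ^ 2 * (a i * ⟪b i, y⟫) ^ 2 := by ring
    _ ≤ Real.exp (t * rr a i) ^ 2 * (a i * ⟪b i, y⟫) ^ 2 :=
        mul_le_mul_of_nonneg_right h2 (sq_nonneg _)
    _ = _ := by ring

/-- (O4b) -/
lemma X_le (hs : ∑ i, a i ^ 2 ≤ ε) (hε : ε ≤ 1/100) (y : E) {s t : ℝ} (hst : s ≤ t) :
    ‖dg b a (fl b (rr a) t y)‖ ≤ ‖dg b a (fl b (rr a) s y)‖ * Real.exp (2 * ε * (t - s)) := by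
  have h1 : ‖dg b a (fl b (rr a) s y)‖ * Real.exp (2 * ε * (t - s))
      = ‖dg b (fun i => Real.exp (2 * ε * (t - s)) * a i) (fl b (rr a) s y)‖ := by
    have : dg b (fun i => Real.exp (2 * ε * (t - s)) * a i) (fl b (rr a) s y)
        = Real.exp (2 * ε * (t - s)) • dg b a (fl b (rr a) s y) := by
      rw [← dg_const b, dg_dg]
    rw [this, norm_smul, Real.norm_of_nonneg (Real.exp_pos _).le, mul_comm]
  rw [h1]
  refine norm_dg_mono b fun i => ?_
  rw [inner_fl, inner_fl]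
  have : Real.exp (t * rr a i) ≤ Real.exp (2 * ε * (t - s)) * Real.exp (s * rr a i) := by
    rw [← Real.exp_add, Real.exp_le_exp]
    have := mul_le_mul_of_nonneg_right (rr_le' hs hε i) (sub_nonneg.2 hst)
    linarith
  have h2 := pow_le_pow_left₀ (Real.exp_pos _).le this 2
  calc (a i * (Real.exp (t * rr a i) * ⟪b i, y⟫)) ^ 2
      = Real.exp (t * rr a i) ^ 2 * (a i * ⟪b i, y⟫) ^ 2 := by ring
    _ ≤ (Real.exp (2 * ε * (t - s)) * Real.exp (s * rr a i)) ^ 2 * (a i * ⟪b i, y⟫) ^ 2 :=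
        mul_le_mul_of_nonneg_right h2 (sq_nonneg _)
    _ = _ := by ring

lemma J_shift (r : ι → ℝ) (y : E) (s t : ℝ) :
    J b r t y = J b r (t - s) (fl b r s y) * J b r s y := by
  rw [← J_add, sub_add_cancel]

/-- (O1)+(O2): displacement and density. -/
theorem step (hs : ∑ i, a i ^ 2 ≤ ε) (hε : ε ≤ 1/100) (y : E) {s t : ℝ} (hst : s ≤ t) :
    ∃ v : E, fl b (rr a) t y = fl b (rr a) s y + dg b a v ∧
      (t - s) * ‖dg b a (fl b (rr a) s y)‖ ≤ ‖v‖ ∧
      ‖v‖ ≤ (1 + 2 * ε) * (t - s) * ‖dg b a (fl b (rr a) t y)‖ ∧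
      (t - s) * (Real.log (J b (rr a) t y) - Real.log (J b (rr a) s y))
        ≤ -((1 - 2 * ε) * ‖v‖ ^ 2) + 2 * ε * (t - s) ^ 2 := by
  have hε0 := eps_nonneg hs
  set τ := t - s with hτ
  have hτ0 : 0 ≤ τ := sub_nonneg.2 hst
  set x := fl b (rr a) s y with hx
  have ht : fl b (rr a) t y = fl b (rr a) τ x := by rw [hx, fl_fl, hτ, sub_add_cancel]
  set c : ι → ℝ := fun i => (Real.exp (τ * rr a i) - 1) / a i with hc
  have hac : ∀ i, a i * c i = Real.exp (τ * rr a i) - 1 := by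
    intro i
    rw [hc]
    by_cases hi : a i = 0
    · simp [hi, rr]
    · field_simp
  have hu0 : ∀ i, 0 ≤ τ * rr a i := fun i => mul_nonneg hτ0 (rr_nonneg hs hε i)
  have hexp : ∀ i, τ * rr a i ≤ Real.exp (τ * rr a i) - 1 := fun i => by
    have := Real.add_one_le_exp (τ * rr a i)
    linarith
  -- c_i² a_i² etc.
  refine ⟨dg b c x, ?_, ?_, ?_, ?_⟩
  · rw [ht, dg_dg]
    refine ext_b b fun i => ?_
    rw [inner_fl, inner_add_right, inner_dg]
    have := hac i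
    rw [show a i * c i = Real.exp (τ * rr a i) - 1 from this]
    ring
  · rw [show τ * ‖dg b a x‖ = ‖dg b (fun i => τ * a i) x‖ by
      rw [show dg b (fun i => τ * a i) x = τ • dg b a x by rw [← dg_const b, dg_dg],
        norm_smul, Real.norm_of_nonneg hτ0]]
    refine norm_dg_mono b fun i => ?_
    by_cases hi : a i = 0
    · rw [hi]; simp [sq_nonneg]
    · have ha2 : 0 < a i ^ 2 := by positivity
      have h1 : τ * a i ^ 2 ≤ a i * c i := by
        rw [hac]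
        exact (mul_le_mul_of_nonneg_left (rr_ge hs hε i) hτ0).trans (hexp i)
      have h2 : (τ * a i ^ 2) ^ 2 ≤ (a i * c i) ^ 2 := pow_le_pow_left₀ (by positivity) h1 2
      have h3 : (τ * a i) ^ 2 ≤ c i ^ 2 := by
        have : a i ^ 2 * (τ * a i) ^ 2 ≤ a i ^ 2 * c i ^ 2 := by nlinarith
        exact le_of_mul_le_mul_left this ha2
      calc (τ * a i * ⟪b i, x⟫) ^ 2 = (τ * a i) ^ 2 * ⟪b i, x⟫ ^ 2 := by ring
        _ ≤ c i ^ 2 * ⟪b i, x⟫ ^ 2 := mul_le_mul_of_nonneg_right h3 (sq_nonneg _)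
        _ = _ := by ring
  · have hk : 0 ≤ (1 + 2 * ε) * τ := by positivity
    rw [show (1 + 2 * ε) * τ * ‖dg b a (fl b (rr a) t y)‖
        = ‖dg b (fun i => (1 + 2 * ε) * τ * a i) (fl b (rr a) t y)‖ by
      rw [show dg b (fun i => (1 + 2 * ε) * τ * a i) (fl b (rr a) t y)
        = ((1 + 2 * ε) * τ) • dg b a (fl b (rr a) t y) by rw [← dg_const b, dg_dg],
        norm_smul, Real.norm_of_nonneg hk], ht]
    refine norm_dg_mono b fun i => ?_
    rw [inner_fl b (rr a) τ x i]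
    by_cases hi : a i = 0
    · have : c i = 0 := by rw [hc]; simp [hi]
      rw [this, hi]; simp
    · have ha2 : 0 < a i ^ 2 := by positivity
      have h1 : a i * c i ≤ (1 + 2 * ε) * τ * a i ^ 2 * Real.exp (τ * rr a i) := by
        rw [hac]
        have e1 : Real.exp (τ * rr a i) - 1 ≤ τ * rr a i * Real.exp (τ * rr a i) := by
          have h1 := Real.add_one_le_exp (-(τ * rr a i))
          have h2 : Real.exp (-(τ * rr a i)) * Real.exp (τ * rr a i) = 1 := by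
            rw [← Real.exp_add]; simp
          nlinarith [Real.exp_pos (τ * rr a i)]
        refine e1.trans ?_
        have := mul_le_mul_of_nonneg_left (rr_le hs hε i) hτ0
        have h3 := Real.exp_pos (τ * rr a i)
        nlinarith
      have h0 : 0 ≤ a i * c i := by rw [hac]; linarith [hexp i, hu0 i]
      have h2 := pow_le_pow_left₀ h0 h1 2
      have h3 : c i ^ 2 ≤ ((1 + 2 * ε) * τ * a i * Real.exp (τ * rr a i)) ^ 2 := by
        have : a i ^ 2 * c i ^ 2 ≤ a i ^ 2 * ((1 + 2 * ε) * τ * a i * Real.exp (τ * rr a i)) ^ 2 := by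
          nlinarith
        exact le_of_mul_le_mul_left this ha2
      calc (c i * ⟪b i, x⟫) ^ 2 = c i ^ 2 * ⟪b i, x⟫ ^ 2 := by ring
        _ ≤ ((1 + 2 * ε) * τ * a i * Real.exp (τ * rr a i)) ^ 2 * ⟪b i, x⟫ ^ 2 :=
            mul_le_mul_of_nonneg_right h3 (sq_nonneg _)
        _ = _ := by ring
  · rw [J_shift b (rr a) y s t, Real.log_mul (J_pos b (rr a) _ _).ne' (J_pos b (rr a) _ _).ne',
      add_sub_cancel_right, ← hτ, ← hx]
    unfold J
    rw [Real.log_exp, norm_dg_sq]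
    have hsum : τ * (τ * ∑ i, rr a i) ≤ 2 * ε * τ ^ 2 := by
      have := mul_le_mul_of_nonneg_left (sum_rr_le hs hε) (sq_nonneg τ)
      nlinarith
    have hterm : ∀ i, (1 - 2 * ε) * (c i ^ 2 * ⟪b i, x⟫ ^ 2)
        ≤ τ * ((Real.exp (τ * rr a i) ^ 2 - 1) * ⟪b i, x⟫ ^ 2) / 2 := by
      intro i
      by_cases hi : a i = 0
      · have : c i = 0 := by rw [hc]; simp [hi]
        rw [this]
        simp [rr, hi]
      · have ha2 : 0 < a i ^ 2 := by positivity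
        set u := τ * rr a i with hu
        have hu0' : 0 ≤ u := hu0 i
        have h1 := tanh_ineq hu0'
        have he : 0 ≤ Real.exp u - 1 := by linarith [hexp i]
        -- (e^u-1)^2 ≤ u (e^{2u}-1)/2
        have h2 : (Real.exp u - 1) ^ 2 ≤ u * (Real.exp u ^ 2 - 1) / 2 := by nlinarith
        have h3 : u ≤ τ * ((1 + 2 * ε) * a i ^ 2) := mul_le_mul_of_nonneg_left (rr_le hs hε i) hτ0
        have h4 : 0 ≤ Real.exp u ^ 2 - 1 := by nlinarith
        have h5 : (a i * c i) ^ 2 ≤ τ * ((1 + 2 * ε) * a i ^ 2) * (Real.exp u ^ 2 - 1) / 2 := by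
          rw [hac]
          refine h2.trans ?_
          have := mul_le_mul_of_nonneg_right h3 h4
          linarith
        have h6 : c i ^ 2 ≤ τ * (1 + 2 * ε) * (Real.exp u ^ 2 - 1) / 2 := by
          have : a i ^ 2 * c i ^ 2 ≤ a i ^ 2 * (τ * (1 + 2 * ε) * (Real.exp u ^ 2 - 1) / 2) := by
            nlinarith
          exact le_of_mul_le_mul_left this ha2
        have h7 : (1 - 2 * ε) * c i ^ 2 ≤ τ * (Real.exp u ^ 2 - 1) / 2 := by
          have h8 : 0 ≤ τ * (Real.exp u ^ 2 - 1) / 2 := by positivity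
          have h9 : (1 - 2 * ε) * c i ^ 2 ≤ (1 - 2 * ε) * ((1 + 2 * ε) * (τ * (Real.exp u ^ 2 - 1) / 2)) := by
            apply mul_le_mul_of_nonneg_left _ (by linarith)
            linarith
          nlinarith [mul_nonneg (sq_nonneg ε) h8]
        have := mul_le_mul_of_nonneg_right h7 (sq_nonneg ⟪b i, x⟫)
        nlinarith
    have hS := Finset.sum_le_sum fun i (_ : i ∈ Finset.univ) => hterm i
    rw [← Finset.mul_sum, ← Finset.sum_div, ← Finset.mul_sum] at hS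
    nlinarith

lemma log_J_le (hs : ∑ i, a i ^ 2 ≤ ε) (hε : ε ≤ 1/100) (y : E) {s t : ℝ} (hst : s ≤ t) :
    Real.log (J b (rr a) t y) - Real.log (J b (rr a) s y)
      ≤ -((‖dg b a (fl b (rr a) s y)‖ ^ 2 - 2 * ε) * (t - s)) := by
  rw [J_shift b (rr a) y s t, Real.log_mul (J_pos b (rr a) _ _).ne' (J_pos b (rr a) _ _).ne',
    add_sub_cancel_right]
  unfold J
  have hτ0 : 0 ≤ t - s := sub_nonneg.2 hst
  rw [Real.log_exp, norm_dg_sq]
  have h1 := mul_le_mul_of_nonneg_left (sum_rr_le hs hε) hτ0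
  have h2 : (t - s) * ∑ i, a i ^ 2 * ⟪b i, fl b (rr a) s y⟫ ^ 2
      ≤ (∑ i, (Real.exp ((t - s) * rr a i) ^ 2 - 1) * ⟪b i, fl b (rr a) s y⟫ ^ 2) / 2 := by
    rw [Finset.mul_sum, Finset.sum_div]
    refine Finset.sum_le_sum fun i _ => ?_
    have h3 : (t - s) * a i ^ 2 ≤ (t - s) * rr a i :=
      mul_le_mul_of_nonneg_left (rr_ge hs hε i) hτ0
    have h4 : Real.exp ((t - s) * rr a i) ^ 2 = Real.exp (2 * ((t - s) * rr a i)) := by
      rw [← Real.exp_nat_mul]; norm_num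
    have h5 := Real.add_one_le_exp (2 * ((t - s) * rr a i))
    rw [h4]
    have := mul_le_mul_of_nonneg_right (show 2 * ((t - s) * a i ^ 2)
      ≤ Real.exp (2 * ((t - s) * rr a i)) - 1 by linarith) (sq_nonneg ⟪b i, fl b (rr a) s y⟫)
    linarith
  linarith

/-- (O2), simple form: decay of the density. -/
theorem J_le (hs : ∑ i, a i ^ 2 ≤ ε) (hε : ε ≤ 1/100) (y : E) {s t : ℝ} (hst : s ≤ t) :
    J b (rr a) t y ≤ J b (rr a) s y *
      Real.exp (-((‖dg b a (fl b (rr a) s y)‖ ^ 2 - 2 * ε) * (t - s))) := by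
  have h := log_J_le b hs hε y hst
  have p1 := J_pos b (rr a) t y
  have p2 := J_pos b (rr a) s y
  rw [← Real.log_le_log_iff p1 (by positivity), Real.log_mul p2.ne' (Real.exp_pos _).ne',
    Real.log_exp]
  linarith

/-- (O3): the density does not decay too fast. -/
theorem J_ge (hs : ∑ i, a i ^ 2 ≤ ε) (hε : ε ≤ 1/100) (y : E) {s t : ℝ} (hst : s ≤ t) :
    J b (rr a) s y ≤ J b (rr a) t y *
      Real.exp ((1 + 2 * ε) * ‖dg b a (fl b (rr a) t y)‖ ^ 2 * (t - s)) := by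
  have hτ0 : 0 ≤ t - s := sub_nonneg.2 hst
  have p1 := J_pos b (rr a) t y
  have p2 := J_pos b (rr a) s y
  rw [J_shift b (rr a) y t s, mul_comm]
  refine mul_le_mul_of_nonneg_left ?_ p1.le
  unfold J
  rw [Real.exp_le_exp, norm_dg_sq]
  have h1 := mul_nonneg hτ0 (sum_rr_nonneg hs hε)
  have h2 : -(∑ i, (Real.exp ((s - t) * rr a i) ^ 2 - 1) * ⟪b i, fl b (rr a) t y⟫ ^ 2) / 2
      ≤ (1 + 2 * ε) * (∑ i, a i ^ 2 * ⟪b i, fl b (rr a) t y⟫ ^ 2) * (t - s) := by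
    rw [Finset.mul_sum, Finset.sum_mul, ← Finset.sum_neg_distrib, Finset.sum_div]
    refine Finset.sum_le_sum fun i _ => ?_
    have h3 : (t - s) * rr a i ≤ (t - s) * ((1 + 2 * ε) * a i ^ 2) :=
      mul_le_mul_of_nonneg_left (rr_le hs hε i) hτ0
    have h4 : Real.exp ((s - t) * rr a i) ^ 2 = Real.exp (2 * ((s - t) * rr a i)) := by
      rw [← Real.exp_nat_mul]; norm_num
    have h5 := Real.add_one_le_exp (2 * ((s - t) * rr a i))
    rw [h4]
    have := mul_le_mul_of_nonneg_right (show (1 - Real.exp (2 * ((s - t) * rr a i))) / 2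
      ≤ (1 + 2 * ε) * a i ^ 2 * (t - s) by linarith) (sq_nonneg ⟪b i, fl b (rr a) t y⟫)
    linarith
  linarith

/-- (O1)+(O2), exponential form of 996's inequality. -/
theorem step' (hs : ∑ i, a i ^ 2 ≤ ε) (hε : ε ≤ 1/100) (y : E) {s t : ℝ} (hst : s ≤ t) :
    ∃ v : E, fl b (rr a) t y = fl b (rr a) s y + dg b a v ∧
      (t - s) * ‖dg b a (fl b (rr a) s y)‖ ≤ ‖v‖ ∧
      ‖v‖ ≤ (1 + 2 * ε) * (t - s) * ‖dg b a (fl b (rr a) t y)‖ ∧
      J b (rr a) t y ≤ J b (rr a) s y * Real.exp (-((1 - 2 * ε) *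
        (‖dg b a (fl b (rr a) s y)‖ * ‖v‖)) + 2 * ε * (t - s)) := by
  obtain ⟨v, h1, h2, h3, h4⟩ := step b hs hε y hst
  refine ⟨v, h1, h2, h3, ?_⟩
  have hε0 := eps_nonneg hs
  have p1 := J_pos b (rr a) t y
  have p2 := J_pos b (rr a) s y
  rcases hst.eq_or_lt with rfl | hlt
  · have hv : ‖v‖ = 0 := le_antisymm (by simpa using h3) (norm_nonneg _)
    rw [hv]; simp
  · have hτ : 0 < t - s := sub_pos.2 hlt
    rw [← Real.log_le_log_iff p1 (by positivity), Real.log_mul p2.ne' (Real.exp_pos _).ne',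
      Real.log_exp]
    have h5 : (t - s) * ‖dg b a (fl b (rr a) s y)‖ * ‖v‖ ≤ ‖v‖ ^ 2 := by
      rw [sq]; exact mul_le_mul_of_nonneg_right h2 (norm_nonneg _)
    have h6 : (t - s) * (Real.log (J b (rr a) t y) - Real.log (J b (rr a) s y))
        ≤ (t - s) * (-((1 - 2 * ε) * (‖dg b a (fl b (rr a) s y)‖ * ‖v‖)) + 2 * ε * (t - s)) := by
      have := mul_le_mul_of_nonneg_left h5 (show 0 ≤ 1 - 2 * ε by linarith)
      nlinarith
    have := le_of_mul_le_mul_left h6 hτ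
    linarith

lemma continuous_X (y : E) : Continuous fun t : ℝ => ‖dg b a (fl b (rr a) t y)‖ := by
  have : Continuous fun t : ℝ => fl b (rr a) t y := by
    unfold fl
    fun_prop
  exact ((dg b a).continuous.comp this).norm

/-- (O5) every orbit with `X > 0` crosses every wall. -/
theorem exists_wall (hs : ∑ i, a i ^ 2 ≤ ε) (hε : ε ≤ 1/100) {y : E} (hy : 0 < ‖dg b a y‖)
    {M : ℝ} (hM : 0 < M) : ∃ t, ‖dg b a (fl b (rr a) t y)‖ = M := by
  have hw : ∀ i, 0 ≤ a i ^ 2 := fun i => sq_nonneg _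
  have hN : 0 < Nn b (fun i => a i ^ 2) y := by rw [Nn_eq]; positivity
  have l1 : Tendsto (fun t => ‖dg b a (fl b (rr a) t y)‖) atBot (𝓝 0) := by
    have := (tendsto_Nn_atBot b (rr a) (w := fun i => a i ^ 2) (rr_pos hs hε) hw y).sqrt
    simp only [Nn_eq, Real.sqrt_zero] at this
    refine this.congr fun t => ?_
    rw [Real.sqrt_sq (norm_nonneg _)]
  have l2 : Tendsto (fun t => ‖dg b a (fl b (rr a) t y)‖) atTop atTop := by
    have := Real.tendsto_sqrt_atTop.comp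
      (tendsto_Nn_atTop b (rr a) (w := fun i => a i ^ 2) (rr_pos hs hε) hw hN)
    refine this.congr fun t => ?_
    simp only [Function.comp_apply, Nn_eq]
    rw [Real.sqrt_sq (norm_nonneg _)]
  obtain ⟨t1, h1⟩ := (l1.eventually (gt_mem_nhds hM)).exists
  obtain ⟨t2, h2⟩ := (l2.eventually (eventually_ge_atTop M)).exists
  exact mem_range_of_exists_le_of_exists_ge (continuous_X b y) ⟨t1, h1.le⟩ ⟨t2, h2⟩

/-- Comparison along the orbits in the normal form `X y = ‖dg b a y‖`. -/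
theorem compare (ha : ∃ i, a i ≠ 0) (hs : ∑ i, a i ^ 2 ≤ ε) (hε : ε ≤ 1/100)
    {h1 h2 : E → ℝ≥0∞} (m1 : Measurable h1) (m2 : Measurable h2)
    (h : ∀ y, 0 < ‖dg b a y‖ →
      ∫⁻ t : ℝ, h1 (fl b (rr a) t y) * ENNReal.ofReal (J b (rr a) t y)
      ≤ ∫⁻ t : ℝ, h2 (fl b (rr a) t y) * ENNReal.ofReal (J b (rr a) t y)) :
    ∫⁻ y, h1 y ∂(stdGaussian E) ≤ ∫⁻ y, h2 y ∂(stdGaussian E) := by
  obtain ⟨i, hi⟩ := ha
  refine orb_compare' b (rr a) (w := fun i => a i ^ 2) (rr_nonneg hs hε) (rr_pos hs hε)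
    (fun i => sq_nonneg _) (i := i) (by positivity) m1 m2 fun y hy => h y ?_
  rw [Nn_eq] at hy
  by_contra hc
  have : ‖dg b a y‖ = 0 := le_antisymm (not_lt.1 hc) (norm_nonneg _)
  rw [this] at hy
  simp at hy

end Crest.Agent.R239.OD
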