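import Mathlib
import Crest.Agent.R239.FarA992
import Crest.Agent.R239.OrbData723

/-! R239 (helper992): case (A) (far saddle) of (LI'') on `OrbData`. -/

set_option autoImplicit false
set_option linter.unusedSectionVars false
open MeasureTheory ProbabilityTheory Set Filter Topology
open scoped RealInnerProductSpace ENNReal NNReal

namespace Crest.Agent.R239.FarA

open Crest.Agent.Lib.Ehrhard (Phi Phi_pos Phi_lt_one strictMono_Phi Phi_neg continuous_Phi)
open Crest.Agent.R239 Crest.Agent.R239.PW Crest.Agent.R239.Orb Crest.Agent.R239.OD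

variable {ι : Type*} [Fintype ι]
variable {E : Type*} [NormedAddCommGroup E] [InnerProductSpace ℝ E] [FiniteDimensional ℝ E]
  [MeasurableSpace E] [BorelSpace E]
variable {b : OrthonormalBasis ι ℝ E} {a : ι → ℝ} {η η' κ : ℝ} {f : E → ℝ} {B : Set E}

/-- the pointwise far-saddle bound at an arbitrary point with `J` -/
lemma J_ge_four (h0 : 0 < η) (h1 : η ≤ 1/10) (hs : ∑ i, a i ^ 2 ≤ 1/100) {z : E}
    (hX : CA η ≤ ‖dg b a z‖) {σ : ℝ} (hσ0 : 0 ≤ σ) (hσ : σ ≤ 1 / ‖dg b a z‖ ^ 2) :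
    4 ≤ J b (rr a) (-1 + σ) z := by
  have h := far_core (a := a) (y := fun i => ⟪b i, z⟫) (α := 0) (β := 0) (c := 1)
    (X := ‖dg b a z‖) (m := η / 2) h0 h1 hs (norm_nonneg _) (norm_dg_sq b a z) hX zero_le_one
    (by simp) (by simp) hσ0 hσ (by simp)
  refine h.trans ?_
  have hp := Phi_lt_one (η / 2)
  unfold J rr
  exact mul_le_of_le_one_left (Real.exp_pos _).le hp.le

/-- **case (A), pointwise** -/
theorem far_pointwise (h0 : 0 < η) (h1 : η ≤ 1/10) (hη' : η / 2 ≤ η')
    (hs : ∑ i, a i ^ 2 ≤ 1/100) (hf : OrbData b a η η' κ f B) {z : E} (hz : z ∈ B)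
    (hX : CA η ≤ ‖dg b a z‖) {σ : ℝ} (hσ0 : 0 ≤ σ) (hσ : σ ≤ 1 / ‖dg b a z‖ ^ 2) :
    4 ≤ (1 - f (fl b (rr a) (-1 + σ) z)) * J b (rr a) (-1 + σ) z := by
  have hX6 := (a_large h0 h1 hX).2.2
  have hσ1 : -1 + σ ≤ 0 := by
    have h2 : 1 / ‖dg b a z‖ ^ 2 ≤ 1 := by
      rw [div_le_one (by nlinarith)]
      nlinarith
    linarith
  rcases hf.supp z hz with h | ⟨c, α, β, hc, hβ, hα, hfy⟩
  · obtain ⟨v, hv, -⟩ := step b hs le_rfl z hσ1
    have h2 : fl b (rr a) (-1 + σ) z = z + dg b a (-v) := by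
      rw [fl_zero] at hv
      rw [map_neg]
      nth_rewrite 2 [hv]
      abel
    rw [h2, h (-v), sub_zero, one_mul]
    exact J_ge_four h0 h1 hs hX hσ0 hσ
  · set w := fl b (rr a) (-1 + σ) z with hw
    set m := c * η' + ⟪α, w - z⟫ - ⟪β, dg b a w⟫ with hm
    have h2 : Phi m ≤ 1 - f w := by
      have := hfy w
      rw [Phi_neg] at this
      linarith
    have e1 : ⟪α, w - z⟫ = ∑ i, ⟪b i, α⟫ *
        ((Real.exp ((-1 + σ) * -Real.log (1 - a i ^ 2)) - 1) * ⟪b i, z⟫) := by
      rw [inner_basis b]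
      refine Finset.sum_congr rfl fun i _ => ?_
      rw [inner_sub_right, hw, inner_fl]
      unfold rr
      ring
    have e2 : ⟪β, dg b a w⟫ = ∑ i, ⟪b i, β⟫ *
        (a i * (Real.exp ((-1 + σ) * -Real.log (1 - a i ^ 2)) * ⟪b i, z⟫)) := by
      rw [inner_basis b]
      refine Finset.sum_congr rfl fun i _ => ?_
      rw [inner_dg, hw, inner_fl]
      rfl
    have hai : ∀ i, a i ^ 2 ≤ 1/100 := fun i => OD.sq_le hs i
    have h := far_core (a := a) (y := fun i => ⟪b i, z⟫) (α := fun i => ⟪b i, α⟫)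
      (β := fun i => ⟪b i, β⟫) (c := c) (X := ‖dg b a z‖) (m := m) h0 h1 hs (norm_nonneg _)
      (norm_dg_sq b a z) hX hc (by
        have h3 := pow_le_pow_left₀ (norm_nonneg _) hβ 2
        rw [norm_dg_sq] at h3
        refine le_trans (le_of_eq ?_) h3
        refine Finset.sum_congr rfl fun i _ => ?_
        rw [qq, Real.sq_sqrt (by linarith [hai i])]) (by
        rw [norm_dg_sq] at hα
        exact hα) hσ0 hσ (by
        rw [← e1, ← e2, hm]
        have := mul_le_mul_of_nonneg_left hη' hc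
        linarith)
    refine h.trans ?_
    unfold J rr
    exact mul_le_mul_of_nonneg_right h2 (Real.exp_pos _).le

/-- **case (A), integrated over the window** `[t₁ - 1, t₁ - 1 + 1/X²]` -/
theorem far_window (h0 : 0 < η) (h1 : η ≤ 1/10) (hη' : η / 2 ≤ η')
    (hs : ∑ i, a i ^ 2 ≤ 1/100) (hf : OrbData b a η η' κ f B) {y : E} {t1 : ℝ}
    (hz : fl b (rr a) t1 y ∈ B) (hX : CA η ≤ ‖dg b a (fl b (rr a) t1 y)‖) :
    ENNReal.ofReal (4 / ‖dg b a (fl b (rr a) t1 y)‖ ^ 2 * J b (rr a) t1 y) ≤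
      ∫⁻ t in Ioc (t1 - 1) (t1 - 1 + 1 / ‖dg b a (fl b (rr a) t1 y)‖ ^ 2),
        ENNReal.ofReal (1 - f (fl b (rr a) t y)) * ENNReal.ofReal (J b (rr a) t y) := by
  set z := fl b (rr a) t1 y with hzdef
  set X := ‖dg b a z‖ with hXdef
  have hJ := J_pos b (rr a) t1 y
  have hX6 := (a_large h0 h1 hX).2.2
  have hXp : 0 < X ^ 2 := by nlinarith
  calc ENNReal.ofReal (4 / X ^ 2 * J b (rr a) t1 y)
      = ∫⁻ _ in Ioc (t1 - 1) (t1 - 1 + 1 / X ^ 2), ENNReal.ofReal (4 * J b (rr a) t1 y) := by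
        rw [setLIntegral_const, Real.volume_Ioc, ← ENNReal.ofReal_mul (by positivity)]
        congr 1
        ring
    _ ≤ _ := by
        apply setLIntegral_mono' measurableSet_Ioc
        intro t ht
        have hp := far_pointwise h0 h1 hη' hs hf hz hX (σ := t - (t1 - 1)) (by linarith [ht.1])
          (by linarith [ht.2])
        have e1 : -1 + (t - (t1 - 1)) = t - t1 := by ring
        rw [e1, hzdef, fl_fl, sub_add_cancel] at hp
        have hf1 : 0 ≤ 1 - f (fl b (rr a) t y) := by linarith [hf.le_one (fl b (rr a) t y)]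
        rw [← ENNReal.ofReal_mul hf1]
        apply ENNReal.ofReal_le_ofReal
        rw [J_shift b (rr a) y t1 t, ← mul_assoc]
        exact mul_le_mul_of_nonneg_right hp hJ.le

/-- exponential tail of the orbit density -/
lemma tail_J {ε : ℝ} (hs : ∑ i, a i ^ 2 ≤ ε) (hε : ε ≤ 1/100) {y : E} {t1 : ℝ}
    (hX : 1 ≤ ‖dg b a (fl b (rr a) t1 y)‖) :
    ∫⁻ t in Ioi t1, ENNReal.ofReal (J b (rr a) t y) ≤
      ENNReal.ofReal (2 / ‖dg b a (fl b (rr a) t1 y)‖ ^ 2 * J b (rr a) t1 y) := by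
  set X := ‖dg b a (fl b (rr a) t1 y)‖ with hXdef
  have hJ := J_pos b (rr a) t1 y
  set l := X ^ 2 - 2 * ε with hl
  have hlp : 0 < l := by nlinarith
  calc ∫⁻ t in Ioi t1, ENNReal.ofReal (J b (rr a) t y)
      ≤ ∫⁻ t in Ioi t1, ENNReal.ofReal (J b (rr a) t1 y * Real.exp (l * t1) *
          Real.exp (-(l * t))) := by
        apply setLIntegral_mono' measurableSet_Ioi
        intro t ht
        apply ENNReal.ofReal_le_ofReal
        refine (J_le b hs hε y (le_of_lt ht)).trans (le_of_eq ?_)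
        rw [mul_assoc, ← Real.exp_add]
        congr 2
        ring
    _ = ENNReal.ofReal (∫ t in Ioi t1, J b (rr a) t1 y * Real.exp (l * t1) *
          Real.exp (-(l * t))) := by
        rw [ofReal_integral_eq_lintegral_ofReal]
        · refine (Integrable.const_mul ?_ _)
          have := (exp_neg_integrableOn_Ioi t1 hlp)
          simp only [neg_mul] at this
          exact this
        · filter_upwards with t
          positivity
    _ = ENNReal.ofReal (1 / l * J b (rr a) t1 y) := by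
        congr 1
        rw [integral_const_mul]
        have h := integral_exp_mul_Ioi (a := -l) (by linarith) t1
        have e : ∀ t : ℝ, Real.exp (-(l * t)) = Real.exp (-l * t) := fun t => by
          congr 1; ring
        simp_rw [e]
        rw [h]
        have h2 : Real.exp (l * t1) * Real.exp (-l * t1) = 1 := by
          rw [← Real.exp_add]; simp
        calc J b (rr a) t1 y * Real.exp (l * t1) * (-Real.exp (-l * t1) / -l)
            = (Real.exp (l * t1) * Real.exp (-l * t1)) * (J b (rr a) t1 y) / l := by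
              rw [neg_div_neg_eq]; ring
          _ = _ := by rw [h2]; ring
    _ ≤ _ := by
        apply ENNReal.ofReal_le_ofReal
        apply mul_le_mul_of_nonneg_right _ hJ.le
        rw [div_le_div_iff₀ hlp (by nlinarith)]
        nlinarith

/-- **case (A) of (LI'')**: `t₁` bad and far (`CA η ≤ X t₁`); then the whole tail is at most half
of the consumption after any earlier time `α` with `X α ≤ η/2`. -/
theorem far_LI (h0 : 0 < η) (h1 : η ≤ 1/10) (hη' : η / 2 ≤ η')
    (hs : ∑ i, a i ^ 2 ≤ 1/100) (hf : OrbData b a η η' κ f B) {y : E} {α t1 : ℝ} (hα : α ≤ t1)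
    (hXα : ‖dg b a (fl b (rr a) α y)‖ ≤ η / 2)
    (hz : fl b (rr a) t1 y ∈ B) (hX : CA η ≤ ‖dg b a (fl b (rr a) t1 y)‖) :
    ∫⁻ t in Ioi t1, ENNReal.ofReal (J b (rr a) t y) ≤ ENNReal.ofReal (1/2) *
      ∫⁻ t in Ioi α, ENNReal.ofReal (1 - f (fl b (rr a) t y)) *
        ENNReal.ofReal (J b (rr a) t y) := by
  have hX6 := (a_large h0 h1 hX).2.2
  have hJ := J_pos b (rr a) t1 y
  have hαt : α ≤ t1 - 1 := by
    by_contra hcon
    push Not at hcon
    have h := X_le b hs le_rfl y hα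
    have h2 : Real.exp (2 * (1/100) * (t1 - α)) ≤ Real.exp 1 :=
      Real.exp_le_exp.2 (by linarith)
    have h3 : Real.exp 1 ≤ 3 := by linarith [Real.exp_one_lt_d9]
    have h4 : ‖dg b a (fl b (rr a) α y)‖ * Real.exp (2 * (1/100) * (t1 - α)) ≤ (1/20) * 3 :=
      mul_le_mul (by linarith) (h2.trans h3) (Real.exp_pos _).le (by norm_num)
    linarith
  calc ∫⁻ t in Ioi t1, ENNReal.ofReal (J b (rr a) t y)
      ≤ ENNReal.ofReal (2 / ‖dg b a (fl b (rr a) t1 y)‖ ^ 2 * J b (rr a) t1 y) :=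
        tail_J hs le_rfl (by linarith)
    _ = ENNReal.ofReal (1/2) *
        ENNReal.ofReal (4 / ‖dg b a (fl b (rr a) t1 y)‖ ^ 2 * J b (rr a) t1 y) := by
        rw [← ENNReal.ofReal_mul (by norm_num)]
        congr 1
        ring
    _ ≤ ENNReal.ofReal (1/2) * ∫⁻ t in Ioi α, ENNReal.ofReal (1 - f (fl b (rr a) t y)) *
        ENNReal.ofReal (J b (rr a) t y) := by
        gcongr
        refine (far_window h0 h1 hη' hs hf hz hX).trans (lintegral_mono_set ?_)
        intro t ht
        exact lt_of_le_of_lt hαt ht.1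

end Crest.Agent.R239.FarA
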