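import Crest.Agent.R239.Gau1

/-! General Gaussian tools for R239, part 2 (helper622): Ehrhard's inequality for sets,
isoperimetry. -/

set_option autoImplicit false
set_option linter.unusedSectionVars false
open MeasureTheory ProbabilityTheory Set Filter Topology Metric
open scoped RealInnerProductSpace ENNReal NNReal InnerProduct Pointwise

namespace Crest.Agent.R239

open Crest.Agent.Lib.Ehrhard

variable {E : Type*} [NormedAddCommGroup E] [InnerProductSpace ℝ E] [FiniteDimensional ℝ E]
  [MeasurableSpace E] [BorelSpace E]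
variable {F : Type*} [NormedAddCommGroup F] [InnerProductSpace ℝ F] [FiniteDimensional ℝ F]
  [MeasurableSpace F] [BorelSpace F]

/-- Ehrhard's inequality for closed sets, midpoint form (junk-free). -/
theorem ehrhard_mid {A B C : Set E} (hA : IsClosed A) (hB : IsClosed B) (hC : IsClosed C)
    (h : ∀ x ∈ A, ∀ y ∈ B, (2:ℝ)⁻¹ • (x + y) ∈ C) {a b : ℝ}
    (ha : Phi a ≤ (stdGaussian E).real A) (hb : Phi b ≤ (stdGaussian E).real B) :
    Phi ((a + b) / 2) ≤ (stdGaussian E).real C := by
  have hAne : A.Nonempty := by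
    by_contra hne
    rw [not_nonempty_iff_eq_empty] at hne
    rw [hne] at ha
    simp only [measureReal_empty] at ha
    exact absurd ha (not_le.2 (Phi_pos a))
  have hBne : B.Nonempty := by
    by_contra hne
    rw [not_nonempty_iff_eq_empty] at hne
    rw [hne] at hb
    simp only [measureReal_empty] at hb
    exact absurd hb (not_le.2 (Phi_pos b))
  obtain ⟨x0, hx0⟩ := hAne
  obtain ⟨y0, hy0⟩ := hBne
  have hCne : C.Nonempty := ⟨_, h x0 hx0 y0 hy0⟩
  have hAne : A.Nonempty := ⟨x0, hx0⟩
  have hBne : B.Nonempty := ⟨y0, hy0⟩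
  -- the key step
  have key : ∀ a1 < a, ∀ b1 < b, Phi ((a1 + b1) / 2) ≤ (stdGaussian E).real C := by
    intro a1 ha1 b1 hb1
    have hA0 : Phi a1 < (stdGaussian E).real A := (strictMono_Phi ha1).trans_le ha
    have hB0 : Phi b1 < (stdGaussian E).real B := (strictMono_Phi hb1).trans_le hb
    have l1 : Tendsto (fun s => Phi s * (stdGaussian E).real A) atTop (𝓝 (1 * (stdGaussian E).real A)) :=
      tendsto_Phi_atTop.mul_const _
    have l2 : Tendsto (fun s => Phi s * (stdGaussian E).real B) atTop (𝓝 (1 * (stdGaussian E).real B)) :=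
      tendsto_Phi_atTop.mul_const _
    rw [one_mul] at l1 l2
    obtain ⟨s, hs1, hs2⟩ := ((l1.eventually (lt_mem_nhds hA0)).and
      (l2.eventually (lt_mem_nhds hB0))).exists
    -- functions
    have cont : ∀ (R : ℕ) (X : Set E), Continuous (fun x => s - (R:ℝ) * infDist x X) := fun R X =>
      continuous_const.sub (continuous_const.mul (continuous_infDist_pt X))
    have lip : ∀ (R : ℕ) (X : Set E), ∀ x y : E,
        |(s - (R:ℝ) * infDist x X) - (s - (R:ℝ) * infDist y X)| ≤ (R:ℝ) * ‖x - y‖ := by
      intro R X x y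
      have h1 : |infDist x X - infDist y X| ≤ ‖x - y‖ := by
        rw [← dist_eq_norm]
        exact abs_sub_le_iff.2 ⟨by linarith [infDist_le_infDist_add_dist (s := X) (x := x) (y := y)],
          by linarith [infDist_le_infDist_add_dist (s := X) (x := y) (y := x), dist_comm x y]⟩
      have e : (s - (R:ℝ) * infDist x X) - (s - (R:ℝ) * infDist y X)
          = (R:ℝ) * (infDist y X - infDist x X) := by ring
      rw [e, abs_mul, Nat.abs_cast, abs_sub_comm]
      exact mul_le_mul_of_nonneg_left h1 (Nat.cast_nonneg _)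
    have low : ∀ (R : ℕ) (X : Set E), IsClosed X →
        Phi s * (stdGaussian E).real X ≤ ∫ x, Phi (s - (R:ℝ) * infDist x X) ∂(stdGaussian E) := by
      intro R X hX
      have e : Phi s * (stdGaussian E).real X = ∫ x, X.indicator (fun _ => Phi s) x ∂(stdGaussian E) := by
        rw [integral_indicator_const _ hX.measurableSet]
        simp [mul_comm]
      rw [e]
      refine integral_mono ((integrable_const _).indicator hX.measurableSet)
        (integrable_Phi_comp _ (cont R X).aemeasurable) ?_
      intro x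
      by_cases hx : x ∈ X
      · simp only [indicator_of_mem hx]
        rw [infDist_zero_of_mem hx, mul_zero, sub_zero]
      · simp only [indicator_of_notMem hx]
        exact Phi_nonneg _
    have main : ∀ R : ℕ, Phi ((a1 + b1) / 2) ≤ ∫ x, Phi (s - (R:ℝ) * infDist x C) ∂(stdGaussian E) := by
      intro R
      have hE := ehrhard_std (E := E) (lip R A) (lip R B) (lip R C) (by
        intro y z
        have hd : infDist ((2:ℝ)⁻¹ • (y + z)) C ≤ (infDist y A + infDist z B) / 2 := by
          refine le_of_forall_pos_le_add fun ε hε => ?_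
          obtain ⟨p, hp, hp'⟩ := (infDist_lt_iff hAne).1 (show infDist y A < infDist y A + ε by linarith)
          obtain ⟨q, hq, hq'⟩ := (infDist_lt_iff hBne).1 (show infDist z B < infDist z B + ε by linarith)
          calc infDist ((2:ℝ)⁻¹ • (y + z)) C ≤ dist ((2:ℝ)⁻¹ • (y + z)) ((2:ℝ)⁻¹ • (p + q)) :=
                infDist_le_dist_of_mem (h p hp q hq)
            _ = ‖(2:ℝ)⁻¹ • ((y - p) + (z - q))‖ := by
                rw [dist_eq_norm, ← smul_sub]
                congr 2
                abel
            _ ≤ (2:ℝ)⁻¹ * (dist y p + dist z q) := by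
                rw [norm_smul, Real.norm_of_nonneg (by norm_num), dist_eq_norm, dist_eq_norm]
                exact mul_le_mul_of_nonneg_left (norm_add_le _ _) (by norm_num)
            _ ≤ (infDist y A + infDist z B) / 2 + ε := by linarith
        have hR : (0:ℝ) ≤ R := Nat.cast_nonneg _
        nlinarith [mul_le_mul_of_nonneg_left hd hR])
      have g1 : a1 ≤ gm (stdGaussian E) (fun x => s - (R:ℝ) * infDist x A) := by
        rw [← strictMono_Phi.le_iff_le, Phi_gm _ (cont R A).aemeasurable]
        exact hs1.le.trans (low R A hA)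
      have g2 : b1 ≤ gm (stdGaussian E) (fun x => s - (R:ℝ) * infDist x B) := by
        rw [← strictMono_Phi.le_iff_le, Phi_gm _ (cont R B).aemeasurable]
        exact hs2.le.trans (low R B hB)
      rw [← Phi_gm _ (cont R C).aemeasurable]
      exact strictMono_Phi.monotone (by linarith)
    -- the limit
    have lim : Tendsto (fun R : ℕ => ∫ x, Phi (s - (R:ℝ) * infDist x C) ∂(stdGaussian E)) atTop
        (𝓝 (∫ x, C.indicator (fun _ => Phi s) x ∂(stdGaussian E))) := by
      refine tendsto_integral_of_dominated_convergence (fun _ => (1:ℝ)) ?_ (integrable_const _) ?_ ?_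
      · intro R
        exact (continuous_Phi.comp (cont R C)).aestronglyMeasurable
      · intro R
        refine Eventually.of_forall fun x => ?_
        rw [Real.norm_of_nonneg (Phi_nonneg _)]
        exact (Phi_lt_one _).le
      · refine Eventually.of_forall fun x => ?_
        by_cases hx : x ∈ C
        · simp only [indicator_of_mem hx, infDist_zero_of_mem hx, mul_zero, sub_zero]
          exact tendsto_const_nhds
        · simp only [indicator_of_notMem hx]
          have hpos : 0 < infDist x C := (hC.notMem_iff_infDist_pos hCne).1 hx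
          refine tendsto_Phi_atBot.comp ?_
          have : Tendsto (fun R : ℕ => (R:ℝ) * infDist x C) atTop atTop :=
            tendsto_natCast_atTop_atTop.atTop_mul_const hpos
          exact tendsto_const_nhds.add_atBot (tendsto_neg_atTop_atBot.comp this)
    have h2 := ge_of_tendsto' lim main
    rw [integral_indicator_const _ hC.measurableSet] at h2
    refine h2.trans ?_
    simp only [smul_eq_mul]
    exact mul_le_of_le_one_right measureReal_nonneg (Phi_lt_one s).le
  -- pass to the limit a1 → a, b1 → b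
  have lim : Tendsto (fun n : ℕ => Phi (((a - 1 / ((n:ℝ) + 1)) + (b - 1 / ((n:ℝ) + 1))) / 2)) atTop
      (𝓝 (Phi (((a - 0) + (b - 0)) / 2))) := by
    refine (continuous_Phi.tendsto _).comp ?_
    exact (((tendsto_const_nhds.sub tendsto_one_div_add_atTop_nhds_zero_nat).add
      (tendsto_const_nhds.sub tendsto_one_div_add_atTop_nhds_zero_nat)).div_const 2)
  rw [sub_zero, sub_zero] at lim
  refine le_of_tendsto' lim fun n => key _ ?_ _ ?_
  · have : (0:ℝ) < 1 / ((n:ℝ) + 1) := by positivity
    linarith
  · have : (0:ℝ) < 1 / ((n:ℝ) + 1) := by positivity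
    linarith


/-- dyadic induction -/
lemma ehrhard_dyadic {A B : Set E} (hA : IsCompact A) (hB : IsCompact B) (cA : Convex ℝ A)
    (cB : Convex ℝ B) {a b : ℝ}
    (ha : Phi a ≤ (stdGaussian E).real A) (hb : Phi b ≤ (stdGaussian E).real B) (n : ℕ) :
    ∀ k : ℕ, k ≤ 2 ^ n → Phi ((1 - (k:ℝ) / 2 ^ n) * a + ((k:ℝ) / 2 ^ n) * b)
      ≤ (stdGaussian E).real ((1 - (k:ℝ) / 2 ^ n) • A + ((k:ℝ) / 2 ^ n) • B) := by
  have ne : ∀ {X : Set E} {c : ℝ}, Phi c ≤ (stdGaussian E).real X → X.Nonempty := by
    intro X c hc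
    by_contra hne
    rw [not_nonempty_iff_eq_empty] at hne
    rw [hne] at hc
    simp only [measureReal_empty] at hc
    exact absurd hc (not_le.2 (Phi_pos c))
  have hAne := ne ha
  have hBne := ne hb
  have e0 : (1 - (0:ℝ)) • A + (0:ℝ) • B = A := by
    rw [sub_zero, one_smul, zero_smul_set hBne, add_zero]
  have e1 : (1 - (1:ℝ)) • A + (1:ℝ) • B = B := by
    rw [sub_self, one_smul, zero_smul_set hAne, zero_add]
  induction n with
  | zero =>
    intro k hk
    simp only [pow_zero] at hk
    interval_cases k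
    · simp only [Nat.cast_zero, zero_div]
      rw [e0]
      simpa using ha
    · simp only [Nat.cast_one, pow_zero, div_one]
      rw [e1]
      simpa using hb
  | succ n ih =>
    intro k hk
    rcases Nat.even_or_odd' k with ⟨j, hj | hj⟩
    · have hj2 : j ≤ 2 ^ n := by rw [pow_succ] at hk; omega
      have e : (k:ℝ) / 2 ^ (n + 1) = (j:ℝ) / 2 ^ n := by
        rw [hj, pow_succ]
        push_cast
        field_simp
      rw [e]
      exact ih j hj2
    · have hj2 : j + 1 ≤ 2 ^ n := by rw [pow_succ] at hk; omega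
      have i1 := ih j (by omega)
      have i2 := ih (j + 1) hj2
      set s : ℝ := (j:ℝ) / 2 ^ n with hs
      set s' : ℝ := ((j + 1 : ℕ):ℝ) / 2 ^ n with hs'
      have e : (k:ℝ) / 2 ^ (n + 1) = (s + s') / 2 := by
        rw [hj, pow_succ, hs, hs']
        push_cast
        field_simp
        ring
      have p2 : (0:ℝ) < 2 ^ n := by positivity
      have hs0 : 0 ≤ s := by positivity
      have hs0' : 0 ≤ s' := by positivity
      have hs1' : s' ≤ 1 := by
        rw [hs', div_le_one p2]
        exact_mod_cast hj2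
      have hs1 : s ≤ 1 := by
        rw [hs, div_le_one p2]
        exact_mod_cast (by omega : j ≤ 2 ^ n)
      have cl : ∀ {u : ℝ}, IsClosed ((1 - u) • A + u • B) := fun {u} =>
        ((hA.smul (1 - u)).add (hB.smul u)).isClosed
      have hm := ehrhard_mid (C := (1 - (s + s') / 2) • A + ((s + s') / 2) • B) cl cl cl (by
        intro x hx y hy
        have hxy : x + y ∈ ((1 - s) • A + s • B) + ((1 - s') • A + s' • B) := add_mem_add hx hy
        have e2 : ((1 - s) • A + s • B) + ((1 - s') • A + s' • B)
            = ((1 - s) + (1 - s')) • A + (s + s') • B := by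
          rw [cA.add_smul (by linarith) (by linarith), cB.add_smul hs0 hs0']
          abel
        rw [e2] at hxy
        have h3 : (2:ℝ)⁻¹ • (x + y) ∈ (2:ℝ)⁻¹ • (((1 - s) + (1 - s')) • A + (s + s') • B) :=
          smul_mem_smul_set hxy
        rw [smul_add, smul_smul, smul_smul] at h3
        have e3 : (2:ℝ)⁻¹ * ((1 - s) + (1 - s')) = 1 - (s + s') / 2 := by ring
        have e4 : (2:ℝ)⁻¹ * (s + s') = (s + s') / 2 := by ring
        rw [e3, e4] at h3
        exact h3) i1 i2
      rw [e]
      convert hm using 2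
      ring

/-- Ehrhard's inequality for closed convex sets, arbitrary weights (junk-free). -/
theorem ehrhard_sets {A B C : Set E} (hA : IsClosed A) (hB : IsClosed B) (cA : Convex ℝ A)
    (cB : Convex ℝ B) (hC : IsClosed C) {t : ℝ} (ht0 : 0 ≤ t) (ht1 : t ≤ 1)
    (h : ∀ x ∈ A, ∀ y ∈ B, (1 - t) • x + t • y ∈ C) {a b : ℝ}
    (ha : Phi a ≤ (stdGaussian E).real A) (hb : Phi b ≤ (stdGaussian E).real B) :
    Phi ((1 - t) * a + t * b) ≤ (stdGaussian E).real C := by
  have ne : ∀ {X : Set E} {c : ℝ}, Phi c ≤ (stdGaussian E).real X → X.Nonempty := by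
    intro X c hc
    by_contra hne
    rw [not_nonempty_iff_eq_empty] at hne
    rw [hne] at hc
    simp only [measureReal_empty] at hc
    exact absurd hc (not_le.2 (Phi_pos c))
  -- exhaustion by compact sets
  have exh : ∀ {X : Set E} {c c1 : ℝ}, IsClosed X → Phi c ≤ (stdGaussian E).real X → c1 < c →
      ∃ R : ℕ, Phi c1 ≤ (stdGaussian E).real (X ∩ closedBall 0 R) := by
    intro X c c1 hX hc hcc
    have hmono : Monotone (fun R : ℕ => X ∩ closedBall (0:E) (R:ℝ)) := by
      intro R S hRS
      exact inter_subset_inter_right _ (closedBall_subset_closedBall (by exact_mod_cast hRS))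
    have hU : (⋃ R : ℕ, X ∩ closedBall (0:E) (R:ℝ)) = X := by
      rw [← inter_iUnion, iUnion_closedBall_nat, inter_univ]
    have hl := tendsto_measure_iUnion_atTop (μ := stdGaussian E) hmono
    rw [hU] at hl
    have hl2 : Tendsto (fun R : ℕ => (stdGaussian E).real (X ∩ closedBall (0:E) (R:ℝ))) atTop
        (𝓝 ((stdGaussian E).real X)) := (ENNReal.tendsto_toReal (measure_ne_top _ _)).comp hl
    obtain ⟨R, hR⟩ := (hl2.eventually (lt_mem_nhds ((strictMono_Phi hcc).trans_le hc))).exists
    exact ⟨R, hR.le⟩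
  have key : ∀ a1 < a, ∀ b1 < b, Phi ((1 - t) * a1 + t * b1) ≤ (stdGaussian E).real C := by
    intro a1 ha1 b1 hb1
    obtain ⟨R1, hR1⟩ := exh hA ha ha1
    obtain ⟨R2, hR2⟩ := exh hB hb hb1
    set A' := A ∩ closedBall (0:E) (R1:ℝ) with hA'
    set B' := B ∩ closedBall (0:E) (R2:ℝ) with hB'
    have kA : IsCompact A' := (isCompact_closedBall _ _).inter_left hA
    have kB : IsCompact B' := (isCompact_closedBall _ _).inter_left hB
    have cA' : Convex ℝ A' := cA.inter (convex_closedBall _ _)
    have cB' : Convex ℝ B' := cB.inter (convex_closedBall _ _)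
    have dy := ehrhard_dyadic kA kB cA' cB' hR1 hR2
    -- dyadic approximations of t
    set k : ℕ → ℕ := fun n => ⌊t * 2 ^ n⌋₊ with hk
    have hkle : ∀ n, k n ≤ 2 ^ n := by
      intro n
      rw [hk]
      have : t * 2 ^ n ≤ ((2 ^ n : ℕ) : ℝ) := by
        push_cast
        exact mul_le_of_le_one_left (by positivity) ht1
      exact (Nat.floor_le_floor this).trans (by rw [Nat.floor_natCast])
    have hlim : Tendsto (fun n => (k n : ℝ) / 2 ^ n) atTop (𝓝 t) := by
      have h1 : Tendsto (fun n : ℕ => (2:ℝ) ^ n) atTop atTop := tendsto_pow_atTop_atTop_of_one_lt (by norm_num)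
      exact (tendsto_nat_floor_mul_div_atTop ht0).comp h1
    have hthick : ∀ δ > 0, Phi ((1 - t) * a1 + t * b1) ≤ (stdGaussian E).real (cthickening δ C) := by
      intro δ hδ
      have hl : Tendsto (fun n => Phi ((1 - (k n:ℝ) / 2 ^ n) * a1 + ((k n:ℝ) / 2 ^ n) * b1)) atTop
          (𝓝 (Phi ((1 - t) * a1 + t * b1))) :=
        (continuous_Phi.tendsto _).comp
          (((tendsto_const_nhds.sub hlim).mul_const _).add (hlim.mul_const _))
      have hl3 : Tendsto (fun n => |(k n : ℝ) / 2 ^ n - t| * ((R1:ℝ) + R2)) atTop (𝓝 0) := by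
        have := ((hlim.sub_const t).abs).mul_const ((R1:ℝ) + R2)
        simpa using this
      refine le_of_tendsto hl ?_
      filter_upwards [hl3.eventually (gt_mem_nhds hδ)] with n hn
      refine (dy n (k n) (hkle n)).trans (measureReal_mono ?_)
      rintro z hz
      obtain ⟨p, ⟨x, hx, rfl⟩, q, ⟨y, hy, rfl⟩, rfl⟩ := hz
      refine mem_cthickening_of_dist_le _ ((1 - t) • x + t • y) δ C (h x hx.1 y hy.1) ?_
      simp only
      have e : (1 - (k n:ℝ) / 2 ^ n) • x + ((k n:ℝ) / 2 ^ n) • y - ((1 - t) • x + t • y)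
          = ((k n:ℝ) / 2 ^ n - t) • (y - x) := by
        module
      rw [dist_eq_norm, e, norm_smul, Real.norm_eq_abs]
      refine le_trans (mul_le_mul_of_nonneg_left ?_ (abs_nonneg _)) hn.le
      have h1 : ‖x‖ ≤ R1 := by simpa using hx.2
      have h2 : ‖y‖ ≤ R2 := by simpa using hy.2
      calc ‖y - x‖ ≤ ‖y‖ + ‖x‖ := norm_sub_le _ _
        _ ≤ _ := by linarith
    have hlC := tendsto_measure_cthickening_of_isClosed (μ := stdGaussian E) (s := C)
      ⟨1, one_pos, measure_ne_top _ _⟩ hC
    have hlC2 : Tendsto (fun δ => (stdGaussian E).real (cthickening δ C)) (𝓝[>] 0)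
        (𝓝 ((stdGaussian E).real C)) :=
      (ENNReal.tendsto_toReal (measure_ne_top _ _)).comp (hlC.mono_left nhdsWithin_le_nhds)
    refine ge_of_tendsto hlC2 ?_
    filter_upwards [self_mem_nhdsWithin] with δ hδ
    exact hthick δ hδ
  have lim : Tendsto (fun n : ℕ => Phi ((1 - t) * (a - 1 / ((n:ℝ) + 1)) + t * (b - 1 / ((n:ℝ) + 1)))) atTop
      (𝓝 (Phi ((1 - t) * (a - 0) + t * (b - 0)))) := by
    refine (continuous_Phi.tendsto _).comp ?_
    exact ((tendsto_const_nhds.sub tendsto_one_div_add_atTop_nhds_zero_nat).const_mul _).add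
      ((tendsto_const_nhds.sub tendsto_one_div_add_atTop_nhds_zero_nat).const_mul _)
  rw [sub_zero, sub_zero] at lim
  refine le_of_tendsto' lim fun n => key _ ?_ _ ?_
  · have : (0:ℝ) < 1 / ((n:ℝ) + 1) := by positivity
    linarith
  · have : (0:ℝ) < 1 / ((n:ℝ) + 1) := by positivity
    linarith

/-- Ehrhard's inequality for a general centred Gaussian. -/
theorem ehrhard_gau (T : F →L[ℝ] E) {A B C : Set E} (hA : IsClosed A) (hB : IsClosed B)
    (cA : Convex ℝ A) (cB : Convex ℝ B) (hC : IsClosed C) {t : ℝ} (ht0 : 0 ≤ t) (ht1 : t ≤ 1)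
    (h : ∀ x ∈ A, ∀ y ∈ B, (1 - t) • x + t • y ∈ C) {a b : ℝ}
    (ha : Phi a ≤ (gau T).real A) (hb : Phi b ≤ (gau T).real B) :
    Phi ((1 - t) * a + t * b) ≤ (gau T).real C := by
  rw [gau_real_apply T hA.measurableSet] at ha
  rw [gau_real_apply T hB.measurableSet] at hb
  rw [gau_real_apply T hC.measurableSet]
  refine ehrhard_sets (hA.preimage T.continuous) (hB.preimage T.continuous)
    (cA.linear_preimage (T : F →ₗ[ℝ] E)) (cB.linear_preimage (T : F →ₗ[ℝ] E))
    (hC.preimage T.continuous) ht0 ht1 ?_ ha hb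
  intro x hx y hy
  simp only [mem_preimage, map_add, map_smul]
  exact h _ hx _ hy

end Crest.Agent.R239
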