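import Crest.Agent.R239.Gau6

/-! General Gaussian tools for R239, part 7 (helper622): Gebelein's inequality (Gaussian maximal
correlation) for linear images of standard Gaussian vectors. -/

set_option autoImplicit false
set_option linter.unusedSectionVars false
open MeasureTheory ProbabilityTheory Set Filter Topology Metric
open scoped RealInnerProductSpace ENNReal NNReal InnerProduct Pointwise

namespace Crest.Agent.R239

open Crest.Agent.Lib.Ehrhard

variable {E : Type*} [NormedAddCommGroup E] [InnerProductSpace ℝ E] [FiniteDimensional ℝ E]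
  [MeasurableSpace E] [BorelSpace E]
variable {F : Type*} [NormedAddCommGroup F] [InnerProductSpace ℝ F] [FiniteDimensional ℝ F]
  [MeasurableSpace F] [BorelSpace F]
variable {G : Type*} [NormedAddCommGroup G] [InnerProductSpace ℝ G] [FiniteDimensional ℝ G]
  [MeasurableSpace G] [BorelSpace G]
variable {H : Type*} [NormedAddCommGroup H] [InnerProductSpace ℝ H] [FiniteDimensional ℝ H]
  [MeasurableSpace H] [BorelSpace H]

open Complex in
lemma charFunDual_joint (P : E →L[ℝ] F) (Q : G →L[ℝ] F) (R : E →L[ℝ] H) (S : G →L[ℝ] H)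
    (s : F) (t : H) (L : StrongDual ℝ (F × H)) (hL : ∀ x y, L (x, y) = ⟪s, x⟫ + ⟪t, y⟫) :
    charFunDual (((stdGaussian E).prod (stdGaussian G)).map
      (fun p => (P p.1 + Q p.2, R p.1 + S p.2))) L
      = Complex.exp (-((‖P.adjoint s + R.adjoint t‖ ^ 2
          + ‖Q.adjoint s + S.adjoint t‖ ^ 2) / 2 : ℝ)) := by
  rw [charFunDual_apply, integral_map (by fun_prop) (by fun_prop)]
  have e : ∀ p : E × G, cexp (L (P p.1 + Q p.2, R p.1 + S p.2) * I)
      = cexp (⟪p.1, P.adjoint s + R.adjoint t⟫ * I)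
        * cexp (⟪p.2, Q.adjoint s + S.adjoint t⟫ * I) := by
    intro p
    rw [← Complex.exp_add, ← add_mul, hL, ← Complex.ofReal_add]
    congr 3
    simp only [inner_add_right, ContinuousLinearMap.adjoint_inner_right]
    rw [real_inner_comm s, real_inner_comm s, real_inner_comm t, real_inner_comm t]
    ring
  simp_rw [e]
  rw [integral_prod_mul (fun x : E => cexp (⟪x, P.adjoint s + R.adjoint t⟫ * I))
    (fun x : G => cexp (⟪x, Q.adjoint s + S.adjoint t⟫ * I)),
    ← charFun_apply, ← charFun_apply, charFun_stdGaussian, charFun_stdGaussian,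
    ← Complex.exp_add]
  congr 1
  push_cast
  ring

/-- Time reversal of the Gaussian chain `x ↦ Ax + Bw`. -/
theorem joint_law {A : E →L[ℝ] F} {B : G →L[ℝ] F} {C : H →L[ℝ] E}
    (hB : ∀ t, ‖A.adjoint t‖ ^ 2 + ‖B.adjoint t‖ ^ 2 = ‖t‖ ^ 2)
    (hC : ∀ s, ‖A s‖ ^ 2 + ‖C.adjoint s‖ ^ 2 = ‖s‖ ^ 2) :
    ((stdGaussian E).prod (stdGaussian G)).map (fun p => (p.1, A p.1 + B p.2))
      = ((stdGaussian F).prod (stdGaussian H)).map (fun q => (A.adjoint q.1 + C q.2, q.1)) := by
  have := Measure.isProbabilityMeasure_map (μ := (stdGaussian E).prod (stdGaussian G))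
    (f := fun p => (p.1, A p.1 + B p.2)) (by fun_prop)
  have := Measure.isProbabilityMeasure_map (μ := (stdGaussian F).prod (stdGaussian H))
    (f := fun q => (A.adjoint q.1 + C q.2, q.1)) (by fun_prop)
  apply Measure.ext_of_charFunDual
  ext L
  set s : E := (InnerProductSpace.toDual ℝ E).symm (L ∘L ContinuousLinearMap.inl ℝ E F) with hs
  set t : F := (InnerProductSpace.toDual ℝ F).symm (L ∘L ContinuousLinearMap.inr ℝ E F) with ht
  have hL : ∀ x y, L (x, y) = ⟪s, x⟫ + ⟪t, y⟫ := by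
    intro x y
    rw [hs, ht, InnerProductSpace.toDual_symm_apply, InnerProductSpace.toDual_symm_apply]
    simp only [ContinuousLinearMap.comp_apply, ContinuousLinearMap.inl_apply,
      ContinuousLinearMap.inr_apply]
    rw [← map_add]
    simp
  have e1 := charFunDual_joint (ContinuousLinearMap.id ℝ E) (0 : G →L[ℝ] E) A B s t L hL
  have e2 := charFunDual_joint A.adjoint C (ContinuousLinearMap.id ℝ F) (0 : H →L[ℝ] F) s t L hL
  simp only [ContinuousLinearMap.id_apply, zero_apply, add_zero] at e1 e2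
  rw [e1, e2]
  congr 3
  have h1 := hB t
  have h2 := hC s
  simp only [adjoint_id', ContinuousLinearMap.id_apply, map_zero, zero_apply,
    zero_add, add_zero, ContinuousLinearMap.adjoint_adjoint]
  have h3 : ‖s + A.adjoint t‖ ^ 2 = ‖s‖ ^ 2 + 2 * ⟪s, A.adjoint t⟫ + ‖A.adjoint t‖ ^ 2 :=
    norm_add_sq_real _ _
  have h4 : ‖A s + t‖ ^ 2 = ‖A s‖ ^ 2 + 2 * ⟪A s, t⟫ + ‖t‖ ^ 2 := norm_add_sq_real _ _
  rw [ContinuousLinearMap.adjoint_inner_right] at h3
  rw [h3, h4]
  linarith

/-- Average of `g` around `b` under `N(0, BB†)`. -/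
noncomputable def avg (B : G →L[ℝ] F) (g : F → ℝ) (b : F) : ℝ := ∫ z, g (b + z) ∂(gau B)

lemma avg_eq (B : G →L[ℝ] F) {g : F → ℝ} (hg : Measurable g) (b : F) :
    avg B g b = ∫ w, g (b + B w) ∂(stdGaussian G) := by
  unfold avg gau
  have hm : Measurable (fun z => g (b + z)) := hg.comp (measurable_const_add b)
  rw [integral_map B.continuous.aemeasurable hm.aestronglyMeasurable]

lemma measurable_avg (B : G →L[ℝ] F) {g : F → ℝ} (hg : Measurable g) : Measurable (avg B g) := by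
  have h1 : StronglyMeasurable (fun p : F × F => g (p.1 + p.2)) :=
    (by fun_prop : Measurable (fun p : F × F => g (p.1 + p.2))).stronglyMeasurable
  exact (h1.integral_prod_right' (ν := gau B)).measurable

lemma abs_avg_le (B : G →L[ℝ] F) {g : F → ℝ} {M : ℝ} (hM : ∀ x, |g x| ≤ M) (b : F) :
    |avg B g b| ≤ M := by
  have := norm_integral_le_of_norm_le_const (μ := gau B) (f := fun z => g (b + z)) (C := M)
    (Eventually.of_forall fun z => hM _)
  simpa [avg] using this

lemma avg_congr {B : G →L[ℝ] F} {C : H →L[ℝ] F} (h : ∀ t, ‖B.adjoint t‖ = ‖C.adjoint t‖)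
    (g : F → ℝ) (b : F) : avg B g b = avg C g b := by
  unfold avg
  rw [gau_ext h]

lemma integrable_of_bdd {Ω : Type*} [MeasurableSpace Ω] {μ : Measure Ω} [IsFiniteMeasure μ]
    {f : Ω → ℝ} (hf : Measurable f) {M : ℝ} (hM : ∀ x, |f x| ≤ M) : Integrable f μ :=
  Integrable.of_bound hf.aestronglyMeasurable M (Eventually.of_forall fun x => hM x)

lemma integral_avg {A : E →L[ℝ] F} {B : G →L[ℝ] F} {D : H →L[ℝ] F}
    (h : ∀ t, ‖A.adjoint t‖ ^ 2 + ‖B.adjoint t‖ ^ 2 = ‖D.adjoint t‖ ^ 2) {g : F → ℝ}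
    (hg : Measurable g) {M : ℝ} (hM : ∀ x, |g x| ≤ M) (b : F) :
    ∫ x, avg B g (b + A x) ∂(stdGaussian E) = avg D g b := by
  unfold avg
  have hm : Measurable (fun z => g (b + z)) := hg.comp (measurable_const_add b)
  rw [← map_add_prod h, integral_map (by fun_prop) hm.aestronglyMeasurable, integral_prod]
  · refine integral_congr_ae (Eventually.of_forall fun x => ?_)
    have := avg_eq B hg (b + A x)
    unfold avg at this
    simp only
    rw [this]
    simp only [add_assoc]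
  · exact integrable_of_bdd (by fun_prop) fun x => hM _

/-- Duality of the chain and its time reversal. -/
theorem pairing {A : E →L[ℝ] F} {B : G →L[ℝ] F} {C : H →L[ℝ] E}
    (hB : ∀ t, ‖A.adjoint t‖ ^ 2 + ‖B.adjoint t‖ ^ 2 = ‖t‖ ^ 2)
    (hC : ∀ s, ‖A s‖ ^ 2 + ‖C.adjoint s‖ ^ 2 = ‖s‖ ^ 2) {f : E → ℝ} {g : F → ℝ}
    (hf : Measurable f) (hg : Measurable g) {L M : ℝ} (hL : ∀ x, |f x| ≤ L)
    (hM : ∀ x, |g x| ≤ M) :
    ∫ x, f x * avg B g (A x) ∂(stdGaussian E)
      = ∫ y, g y * avg C f (A.adjoint y) ∂(stdGaussian F) := by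
  have hL0 : 0 ≤ L := (abs_nonneg _).trans (hL 0)
  have bd : ∀ (x : E) (y : F), |f x * g y| ≤ L * M := by
    intro x y
    rw [abs_mul]
    exact mul_le_mul (hL x) (hM y) (abs_nonneg _) hL0
  have e1 : ∫ x, f x * avg B g (A x) ∂(stdGaussian E)
      = ∫ p, f p.1 * g p.2 ∂(((stdGaussian E).prod (stdGaussian G)).map
        (fun p => (p.1, A p.1 + B p.2))) := by
    rw [integral_map (by fun_prop) (by fun_prop), integral_prod]
    · refine integral_congr_ae (Eventually.of_forall fun x => ?_)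
      simp only
      rw [avg_eq B hg, integral_const_mul]
    · exact integrable_of_bdd (by fun_prop) fun x => bd _ _
  have e2 : ∫ y, g y * avg C f (A.adjoint y) ∂(stdGaussian F)
      = ∫ p, f p.1 * g p.2 ∂(((stdGaussian F).prod (stdGaussian H)).map
        (fun q => (A.adjoint q.1 + C q.2, q.1))) := by
    rw [integral_map (by fun_prop) (by fun_prop), integral_prod]
    · refine integral_congr_ae (Eventually.of_forall fun y => ?_)
      simp only
      rw [avg_eq C hf, mul_comm, integral_mul_const]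
    · exact integrable_of_bdd (by fun_prop) fun x => bd _ _
  rw [e1, e2, joint_law hB hC]

lemma norm_le_of_adjoint {A : E →L[ℝ] F} {r : ℝ} (hr : 0 ≤ r)
    (h : ∀ t, ‖A.adjoint t‖ ≤ r * ‖t‖) (s : E) : ‖A s‖ ≤ r * ‖s‖ := by
  have h1 : ‖A s‖ ^ 2 = ⟪A.adjoint (A s), s⟫ := by
    rw [ContinuousLinearMap.adjoint_inner_left, real_inner_self_eq_norm_sq]
  have h2 : ⟪A.adjoint (A s), s⟫ ≤ ‖A.adjoint (A s)‖ * ‖s‖ := real_inner_le_norm _ _
  have h3 := h (A s)
  rcases eq_or_lt_of_le (norm_nonneg (A s)) with h0 | h0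
  · rw [← h0]
    positivity
  · have h4 : ‖A s‖ * ‖A s‖ ≤ ‖A s‖ * (r * ‖s‖) := by
      calc ‖A s‖ * ‖A s‖ = ‖A s‖ ^ 2 := by ring
        _ ≤ ‖A.adjoint (A s)‖ * ‖s‖ := by rw [h1]; exact h2
        _ ≤ (r * ‖A s‖) * ‖s‖ := by gcongr
        _ = _ := by ring
    exact le_of_mul_le_mul_left h4 h0

lemma exists_backward {A : E →L[ℝ] F} {B : G →L[ℝ] F}
    (hB : ∀ t, ‖A.adjoint t‖ ^ 2 + ‖B.adjoint t‖ ^ 2 = ‖t‖ ^ 2) :
    ∃ C : E →L[ℝ] E, ∀ s, ‖A s‖ ^ 2 + ‖C.adjoint s‖ ^ 2 = ‖s‖ ^ 2 := by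
  have h1 : ∀ t, ‖A.adjoint t‖ ≤ 1 * ‖t‖ := by
    intro t
    have := hB t
    have h0 := sq_nonneg (‖B.adjoint t‖)
    nlinarith [norm_nonneg (A.adjoint t), norm_nonneg t]
  obtain ⟨C, hC⟩ := exists_complement A.adjoint (ContinuousLinearMap.id ℝ E) (by
    intro s
    rw [ContinuousLinearMap.adjoint_adjoint]
    simpa using norm_le_of_adjoint zero_le_one h1 s)
  refine ⟨C, fun s => ?_⟩
  have := hC s
  rw [ContinuousLinearMap.adjoint_adjoint] at this
  simpa using this

/-- `‖T g‖² = ⟨g, P_{AA†} g⟩`. -/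
theorem integral_avg_sq {A : E →L[ℝ] F} {B : G →L[ℝ] F} {N : H →L[ℝ] F}
    (hB : ∀ t, ‖A.adjoint t‖ ^ 2 + ‖B.adjoint t‖ ^ 2 = ‖t‖ ^ 2)
    (hN : ∀ t, ‖A (A.adjoint t)‖ ^ 2 + ‖N.adjoint t‖ ^ 2 = ‖t‖ ^ 2) {g : F → ℝ}
    (hg : Measurable g) {M : ℝ} (hM : ∀ x, |g x| ≤ M) :
    ∫ x, avg B g (A x) ^ 2 ∂(stdGaussian E)
      = ∫ y, g y * avg N g (A (A.adjoint y)) ∂(stdGaussian F) := by
  obtain ⟨C, hC⟩ := exists_backward hB
  have h1 := pairing hB hC (f := fun x => avg B g (A x)) (g := g)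
    ((measurable_avg B hg).comp A.continuous.measurable) hg (L := M) (M := M)
    (fun x => abs_avg_le B hM _) hM
  have h2 : ∀ x, avg B g (A x) ^ 2 = avg B g (A x) * avg B g (A x) := fun x => by ring
  simp_rw [h2]
  rw [h1]
  refine integral_congr_ae (Eventually.of_forall fun y => ?_)
  simp only
  congr 1
  have hm : Measurable (fun x => avg B g (A x)) :=
    (measurable_avg B hg).comp A.continuous.measurable
  rw [avg_eq C hm]
  simp only [map_add]
  refine integral_avg (A := A ∘L C) (B := B) (D := N) ?_ hg hM (A (A.adjoint y))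
  intro t
  have e1 := hB t
  have e2 := hN t
  have e3 := hC (A.adjoint t)
  rw [ContinuousLinearMap.adjoint_comp]
  simp only [ContinuousLinearMap.comp_apply]
  linarith

/-! ### Total variation of translates -/

lemma Phi_sub_le {a b : ℝ} (h : b ≤ a) : Phi a - Phi b ≤ a - b := by
  have := image_sub_le_mul_sub_of_deriv_le (f := Phi) (fun x => (hasDerivAt_Phi x).differentiableAt)
    (C := 1) (fun x => by rw [(hasDerivAt_Phi x).deriv]; exact phi_le_one x) h
  linarith

lemma measure_shift_le {K : Set E} (hK : MeasurableSet K) (h : E) :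
    (stdGaussian E).real K - ‖h‖ ≤ (stdGaussian E).real {x | x + h ∈ K} := by
  rcases eq_or_lt_of_le (measureReal_nonneg (μ := stdGaussian E) (s := K)) with h0 | h0
  · rw [← h0]
    have := norm_nonneg h
    have h2 := measureReal_nonneg (μ := stdGaussian E) (s := {x | x + h ∈ K})
    linarith
  rcases eq_or_lt_of_le (measureReal_le_one (μ := stdGaussian E) (s := K)) with h1 | h1
  · have h2 : ∀ a, Phi (a - ‖h‖) ≤ (stdGaussian E).real {x | x + h ∈ K} := fun a =>
      shift_le hK h (by rw [h1]; exact (Phi_lt_one a).le)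
    have h3 : Tendsto (fun a => Phi (a - ‖h‖)) atTop (𝓝 1) :=
      tendsto_Phi_atTop.comp (tendsto_atTop_add_const_right _ _ tendsto_id)
    have h4 := le_of_tendsto' h3 h2
    rw [h1]
    linarith [norm_nonneg h]
  · obtain ⟨a, ha⟩ := Phi_surj h0 h1
    have h2 := shift_le hK h ha.le
    have h3 := Phi_sub_le (show a - ‖h‖ ≤ a by linarith [norm_nonneg h])
    linarith

lemma measure_shift_abs {K : Set E} (hK : MeasurableSet K) (h : E) :
    |(stdGaussian E).real {x | x + h ∈ K} - (stdGaussian E).real K| ≤ ‖h‖ := by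
  have h1 := measure_shift_le hK h
  have hK' : MeasurableSet {x | x + h ∈ K} := measurable_add_const h hK
  have h2 := measure_shift_le hK' (-h)
  have e : {x | x + -h ∈ {x | x + h ∈ K}} = K := by
    ext x
    simp
  rw [e, norm_neg] at h2
  rw [abs_le]
  constructor <;> linarith

lemma integral_shift_abs01 {f : E → ℝ} (hf : Measurable f) (h0 : ∀ x, 0 ≤ f x) (h1 : ∀ x, f x ≤ 1)
    (h : E) : |∫ x, f (x + h) ∂(stdGaussian E) - ∫ x, f x ∂(stdGaussian E)| ≤ ‖h‖ := by
  have hb : ∀ x, |f x| ≤ 1 := fun x => by rw [abs_of_nonneg (h0 x)]; exact h1 x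
  have e1 := (integrable_of_bdd (μ := stdGaussian E) hf hb).integral_eq_integral_Ioc_meas_le
    (M := 1) (Eventually.of_forall h0) (Eventually.of_forall h1)
  have hf' : Measurable (fun x => f (x + h)) := by fun_prop
  have e2 := (integrable_of_bdd (μ := stdGaussian E) hf'
    fun x => hb (x + h)).integral_eq_integral_Ioc_meas_le
    (M := 1) (Eventually.of_forall fun x => h0 _) (Eventually.of_forall fun x => h1 _)
  have mono1 : Antitone (fun t : ℝ => (stdGaussian E).real {x | t ≤ f x}) := fun s t hst =>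
    measureReal_mono fun x (hx : t ≤ f x) => hst.trans hx
  have mono2 : Antitone (fun t : ℝ => (stdGaussian E).real {x | t ≤ f (x + h)}) := fun s t hst =>
    measureReal_mono fun x (hx : t ≤ f (x + h)) => hst.trans hx
  have i1 : IntegrableOn (fun t : ℝ => (stdGaussian E).real {x | t ≤ f x}) (Ioc 0 1) :=
    integrable_of_bdd mono1.measurable (M := 1) fun t => by
      rw [abs_of_nonneg measureReal_nonneg]; exact measureReal_le_one
  have i2 : IntegrableOn (fun t : ℝ => (stdGaussian E).real {x | t ≤ f (x + h)}) (Ioc 0 1) :=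
    integrable_of_bdd mono2.measurable (M := 1) fun t => by
      rw [abs_of_nonneg measureReal_nonneg]; exact measureReal_le_one
  rw [e1, e2, ← integral_sub i2 i1]
  have := norm_setIntegral_le_of_norm_le_const (μ := (volume : Measure ℝ)) (s := Ioc (0:ℝ) 1)
    (f := fun t => (stdGaussian E).real {x | t ≤ f (x + h)} - (stdGaussian E).real {x | t ≤ f x})
    (C := ‖h‖) (by simp) (fun t _ => by
      have hm : MeasurableSet {x | t ≤ f x} := measurableSet_le measurable_const hf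
      exact measure_shift_abs hm h)
  simpa using this

lemma integral_shift_abs {f : E → ℝ} (hf : Measurable f) {M : ℝ} (hM : ∀ x, |f x| ≤ M) (h : E) :
    |∫ x, f (x + h) ∂(stdGaussian E) - ∫ x, f x ∂(stdGaussian E)| ≤ 2 * M * ‖h‖ := by
  have hM0 : 0 ≤ M := (abs_nonneg _).trans (hM 0)
  rcases eq_or_lt_of_le hM0 with h0 | h0
  · have : ∀ x, f x = 0 := fun x => abs_nonpos_iff.1 ((hM x).trans h0.ge)
    simp [this, ← h0]
  have h2M : (0:ℝ) < 2 * M := by linarith
  have hf' : Measurable (fun x => (f x + M) / (2 * M)) := by fun_prop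
  have h1 := integral_shift_abs01 hf' (fun x => div_nonneg (by linarith [(abs_le.1 (hM x)).1])
    h2M.le) (fun x => (div_le_one h2M).2 (by linarith [(abs_le.1 (hM x)).2])) h
  have i1 : Integrable f (stdGaussian E) := integrable_of_bdd hf hM
  have i2 : Integrable (fun x => f (x + h)) (stdGaussian E) :=
    integrable_of_bdd (by fun_prop) fun x => hM (x + h)
  have e1 : ∫ x, (f x + M) / (2 * M) ∂(stdGaussian E)
      = (∫ x, f x ∂(stdGaussian E) + M) / (2 * M) := by
    rw [integral_div, integral_add i1 (integrable_const M)]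
    simp
  have e2 : ∫ x, (f (x + h) + M) / (2 * M) ∂(stdGaussian E)
      = (∫ x, f (x + h) ∂(stdGaussian E) + M) / (2 * M) := by
    rw [integral_div, integral_add i2 (integrable_const M)]
    simp
  rw [e1, e2, ← sub_div, abs_div, abs_of_pos h2M, div_le_iff₀ h2M] at h1
  have e3 : ∫ x, f (x + h) ∂(stdGaussian E) + M - (∫ x, f x ∂(stdGaussian E) + M)
      = ∫ x, f (x + h) ∂(stdGaussian E) - ∫ x, f x ∂(stdGaussian E) := by ring
  rw [e3] at h1
  linarith

/-- If `NN† ≥ 1/4` then `avg N g` is Lipschitz. -/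
lemma avg_lip {N : H →L[ℝ] F} (hN : ∀ t, ‖t‖ ≤ 2 * ‖N.adjoint t‖) {g : F → ℝ}
    (hg : Measurable g) {M : ℝ} (hM : ∀ x, |g x| ≤ M) (b b' : F) :
    |avg N g b - avg N g b'| ≤ 4 * M * ‖b - b'‖ := by
  have hid : ∀ t : F, ((1/2 : ℝ) • ContinuousLinearMap.id ℝ F).adjoint t = (1/2 : ℝ) • t := by
    intro t
    simp
  obtain ⟨D, hD⟩ := exists_complement ((1/2 : ℝ) • ContinuousLinearMap.id ℝ F) N (by
    intro t
    rw [hid, norm_smul]
    have := hN t
    norm_num
    linarith)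
  have e1 := integral_avg hD hg hM b
  have e2 := integral_avg hD hg hM b'
  have h1 := integral_shift_abs (f := fun x => avg D g (b' + (1/2 : ℝ) • x))
    ((measurable_avg D hg).comp (by fun_prop)) (M := M) (fun x => abs_avg_le D hM _)
    ((2:ℝ) • (b - b'))
  have e3 : ∀ x : F, b' + (1/2 : ℝ) • (x + (2:ℝ) • (b - b')) = b + (1/2 : ℝ) • x := by
    intro x
    rw [smul_add, smul_smul]
    norm_num
    abel
  simp only [e3] at h1
  simp only [smul_apply, ContinuousLinearMap.id_apply] at e1 e2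
  rw [e1, e2, norm_smul] at h1
  norm_num at h1
  linarith

/-! ### The quadratic form `⟨g, P_S g⟩` -/

lemma integrable_norm_std : Integrable (fun y : F => ‖y‖) (stdGaussian F) := by
  have h := (IsGaussian.memLp_id (stdGaussian F) 1 (by simp)).integrable le_rfl
  exact h.norm

/-- Cauchy–Schwarz for bounded functions. -/
lemma cs_bdd {Ω : Type*} [MeasurableSpace Ω] {μ : Measure Ω} [IsFiniteMeasure μ] {u v : Ω → ℝ}
    (hu : Measurable u) (hv : Measurable v) {L M : ℝ} (hL : ∀ x, |u x| ≤ L)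
    (hM : ∀ x, |v x| ≤ M) :
    (∫ x, u x * v x ∂μ) ^ 2 ≤ (∫ x, u x ^ 2 ∂μ) * ∫ x, v x ^ 2 ∂μ := by
  have i1 : Integrable (fun x => u x ^ 2) μ := integrable_of_bdd (by fun_prop) (M := L ^ 2)
    fun x => by rw [abs_pow]; exact pow_le_pow_left₀ (abs_nonneg _) (hL x) 2
  have i2 : Integrable (fun x => v x ^ 2) μ := integrable_of_bdd (by fun_prop) (M := M ^ 2)
    fun x => by rw [abs_pow]; exact pow_le_pow_left₀ (abs_nonneg _) (hM x) 2
  have i3 : Integrable (fun x => u x * v x) μ := integrable_of_bdd (by fun_prop) (M := L * M)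
    fun x => by
      rw [abs_mul]
      exact mul_le_mul (hL x) (hM x) (abs_nonneg _) ((abs_nonneg _).trans (hL x))
  have h : ∀ l : ℝ, 0 ≤ (∫ x, u x ^ 2 ∂μ) * (l * l) + (2 * ∫ x, u x * v x ∂μ) * l
      + ∫ x, v x ^ 2 ∂μ := by
    intro l
    have h1 : 0 ≤ ∫ x, (l * u x + v x) ^ 2 ∂μ := integral_nonneg fun x => sq_nonneg _
    have e : ∀ x, (l * u x + v x) ^ 2 = (l * l) * u x ^ 2 + (2 * l) * (u x * v x) + v x ^ 2 :=
      fun x => by ring
    simp_rw [e] at h1
    have i4 : Integrable (fun x => (l * l) * u x ^ 2) μ := i1.const_mul _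
    have i5 : Integrable (fun x => (2 * l) * (u x * v x)) μ := i3.const_mul _
    have i6 : Integrable (fun x => (l * l) * u x ^ 2 + (2 * l) * (u x * v x)) μ := i4.add i5
    rw [integral_add i6 i2, integral_add i4 i5, integral_const_mul, integral_const_mul] at h1
    linarith
  have := discrim_le_zero h
  unfold discrim at this
  linarith

lemma integral_centered_sq {Ω : Type*} [MeasurableSpace Ω] {μ : Measure Ω}
    [IsProbabilityMeasure μ] {f : Ω → ℝ} (hf : Measurable f) {L : ℝ} (hL : ∀ x, |f x| ≤ L) :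
    ∫ x, (f x - ∫ y, f y ∂μ) ^ 2 ∂μ = ∫ x, f x ^ 2 ∂μ - (∫ x, f x ∂μ) ^ 2 := by
  set mf := ∫ y, f y ∂μ with hmf
  have i0 : Integrable f μ := integrable_of_bdd hf hL
  have i1 : Integrable (fun x => f x ^ 2) μ := integrable_of_bdd (by fun_prop) (M := L ^ 2)
    fun x => by rw [abs_pow]; exact pow_le_pow_left₀ (abs_nonneg _) (hL x) 2
  have i2 : Integrable (fun x => (2 * mf) * f x) μ := i0.const_mul _
  have i3 : Integrable (fun x => f x ^ 2 - (2 * mf) * f x) μ := i1.sub i2
  have e : ∀ x, (f x - mf) ^ 2 = f x ^ 2 - (2 * mf) * f x + mf ^ 2 := fun x => by ring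
  simp_rw [e]
  rw [integral_add i3 (integrable_const _), integral_sub i1 i2, integral_const_mul]
  simp only [integral_const, probReal_univ, smul_eq_mul, one_mul]
  rw [← hmf]
  ring

lemma norm_comp_self_le {S : F →L[ℝ] F} {r : ℝ} (hr : 0 ≤ r)
    (h : ∀ t, ‖S.adjoint t‖ ≤ r * ‖t‖) (t : F) : ‖S (S.adjoint t)‖ ≤ r ^ 2 * ‖t‖ := by
  have h1 := norm_le_of_adjoint hr h (S.adjoint t)
  calc ‖S (S.adjoint t)‖ ≤ r * ‖S.adjoint t‖ := h1
    _ ≤ r * (r * ‖t‖) := mul_le_mul_of_nonneg_left (h t) hr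
    _ = _ := by ring

lemma quad_small {g : F → ℝ} (hg : Measurable g) {M : ℝ} (hM : ∀ x, |g x| ≤ M)
    (h0 : ∫ x, g x ∂(stdGaussian F) = 0) {S : F →L[ℝ] F} {N : H →L[ℝ] F} {r : ℝ} (hr : 0 ≤ r)
    (hS : ∀ t, ‖S.adjoint t‖ ≤ r * ‖t‖)
    (hN : ∀ t, ‖S.adjoint t‖ ^ 2 + ‖N.adjoint t‖ ^ 2 = ‖t‖ ^ 2) :
    |∫ y, g y * avg N g (S y) ∂(stdGaussian F)|
      ≤ (4 * M ^ 2 * (∫ y, ‖y‖ ∂(stdGaussian F)) + 2 * M ^ 2) * r := by
  have hM0 : 0 ≤ M := (abs_nonneg _).trans (hM 0)
  have hK0 : 0 ≤ ∫ y : F, ‖y‖ ∂(stdGaussian F) := integral_nonneg fun y => norm_nonneg _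
  rcases le_or_gt r (1 / 2) with hr2 | hr2
  · have hN' : ∀ t, ‖t‖ ≤ 2 * ‖N.adjoint t‖ := by
      intro t
      have h1 := hN t
      have h2 := hS t
      have h3 : ‖S.adjoint t‖ ≤ 1 / 2 * ‖t‖ :=
        h2.trans (mul_le_mul_of_nonneg_right hr2 (norm_nonneg t))
      have h4 := norm_nonneg t
      have h5 := norm_nonneg (N.adjoint t)
      have h6 := norm_nonneg (S.adjoint t)
      nlinarith
    have i1 : Integrable (fun y => g y * avg N g 0) (stdGaussian F) :=
      (integrable_of_bdd hg hM).mul_const _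
    have hm : Measurable (fun y => avg N g (S y)) := (measurable_avg N hg).comp
      S.continuous.measurable
    have i2 : Integrable (fun y => g y * avg N g (S y)) (stdGaussian F) := by
      refine integrable_of_bdd (by fun_prop) (M := M * M) fun y => ?_
      rw [abs_mul]
      exact mul_le_mul (hM y) (abs_avg_le N hM _) (abs_nonneg _) hM0
    have e1 : ∫ y, g y * avg N g (S y) ∂(stdGaussian F)
        = ∫ y, g y * (avg N g (S y) - avg N g 0) ∂(stdGaussian F) := by
      simp_rw [mul_sub]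
      rw [integral_sub i2 i1, integral_mul_const, h0]
      ring
    rw [e1]
    have hb : ∀ y, ‖g y * (avg N g (S y) - avg N g 0)‖ ≤ 4 * M ^ 2 * r * ‖y‖ := by
      intro y
      have h1 := avg_lip hN' hg hM (S y) 0
      rw [sub_zero] at h1
      have h2 := norm_le_of_adjoint hr hS y
      rw [Real.norm_eq_abs, abs_mul]
      calc |g y| * |avg N g (S y) - avg N g 0| ≤ M * (4 * M * (r * ‖y‖)) := by
            refine mul_le_mul (hM y) (h1.trans ?_) (abs_nonneg _) hM0
            exact mul_le_mul_of_nonneg_left h2 (by positivity)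
        _ = _ := by ring
    have := norm_integral_le_of_norm_le (integrable_norm_std.const_mul (4 * M ^ 2 * r))
      (Eventually.of_forall hb)
    rw [integral_const_mul, Real.norm_eq_abs] at this
    have h5 : 0 ≤ 2 * M ^ 2 * r := by positivity
    linarith
  · have := norm_integral_le_of_norm_le_const (μ := stdGaussian F)
      (f := fun y => g y * avg N g (S y)) (C := M ^ 2) (Eventually.of_forall fun y => by
        rw [Real.norm_eq_abs, abs_mul, pow_two]
        exact mul_le_mul (hM y) (abs_avg_le N hM _) (abs_nonneg _) hM0)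
    simp only [Real.norm_eq_abs, probReal_univ, mul_one] at this
    have h5 : M ^ 2 ≤ 2 * M ^ 2 * r := by nlinarith [sq_nonneg M]
    have h6 : 0 ≤ 4 * M ^ 2 * (∫ y : F, ‖y‖ ∂(stdGaussian F)) * r := by positivity
    linarith

lemma quad_iterate {g : F → ℝ} (hg : Measurable g) {M : ℝ} (hM : ∀ x, |g x| ≤ M)
    (h0 : ∫ x, g x ∂(stdGaussian F) = 0) (k : ℕ) : ∀ (S N : F →L[ℝ] F) (r : ℝ), 0 ≤ r → r < 1 →
    (∀ t, ‖S.adjoint t‖ ≤ r * ‖t‖) →
    (∀ t, ‖S.adjoint t‖ ^ 2 + ‖N.adjoint t‖ ^ 2 = ‖t‖ ^ 2) →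
    (∫ x, g x ^ 2 ∂(stdGaussian F)) * |∫ y, g y * avg N g (S y) ∂(stdGaussian F)| ^ (2 ^ k)
      ≤ (4 * M ^ 2 * (∫ y, ‖y‖ ∂(stdGaussian F)) + 2 * M ^ 2)
        * ((∫ x, g x ^ 2 ∂(stdGaussian F)) * r) ^ (2 ^ k) := by
  have hV : 0 ≤ ∫ x, g x ^ 2 ∂(stdGaussian F) := integral_nonneg fun x => sq_nonneg _
  induction k with
  | zero =>
    intro S N r hr hr1 hS hN
    have := quad_small hg hM h0 hr hS hN
    simp only [pow_zero, pow_one]
    calc _ ≤ (∫ x, g x ^ 2 ∂(stdGaussian F))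
          * ((4 * M ^ 2 * (∫ y, ‖y‖ ∂(stdGaussian F)) + 2 * M ^ 2) * r) :=
          mul_le_mul_of_nonneg_left this hV
      _ = _ := by ring
  | succ k ih =>
    intro S N r hr hr1 hS hN
    have hSS : ∀ t, ‖(S ∘L S.adjoint).adjoint t‖ ≤ r ^ 2 * ‖t‖ := by
      intro t
      rw [ContinuousLinearMap.adjoint_comp, ContinuousLinearMap.adjoint_adjoint]
      exact norm_comp_self_le hr hS t
    have hr2 : r ^ 2 < 1 := pow_lt_one₀ hr hr1 two_ne_zero
    obtain ⟨N', hN'⟩ := exists_complement (S ∘L S.adjoint) (ContinuousLinearMap.id ℝ F) (by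
      intro t
      have := hSS t
      simp only [adjoint_id', ContinuousLinearMap.id_apply]
      nlinarith [norm_nonneg t])
    simp only [adjoint_id', ContinuousLinearMap.id_apply] at hN'
    have h1 := ih (S ∘L S.adjoint) N' (r ^ 2) (by positivity) hr2 hSS hN'
    have hN'' : ∀ t, ‖S (S.adjoint t)‖ ^ 2 + ‖N'.adjoint t‖ ^ 2 = ‖t‖ ^ 2 := by
      intro t
      have := hN' t
      rw [ContinuousLinearMap.adjoint_comp, ContinuousLinearMap.adjoint_adjoint] at this
      exact this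
    have h2 := integral_avg_sq hN hN'' hg hM
    have hm : Measurable (fun y => avg N g (S y)) := (measurable_avg N hg).comp
      S.continuous.measurable
    have h3 := cs_bdd (μ := stdGaussian F) hg hm hM (fun y => abs_avg_le N hM (S y))
    rw [h2] at h3
    simp only [ContinuousLinearMap.comp_apply] at h1
    set V := ∫ x, g x ^ 2 ∂(stdGaussian F) with hVdef
    set a := ∫ y, g y * avg N g (S y) ∂(stdGaussian F)
    set a' := ∫ y, g y * avg N' g (S (S.adjoint y)) ∂(stdGaussian F)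
    set C := 4 * M ^ 2 * (∫ y, ‖y‖ ∂(stdGaussian F)) + 2 * M ^ 2
    have h4 : |a| ^ 2 ≤ V * |a'| := by
      rw [sq_abs]
      exact h3.trans (mul_le_mul_of_nonneg_left (le_abs_self _) hV)
    calc V * |a| ^ (2 ^ (k + 1)) = V * (|a| ^ 2) ^ (2 ^ k) := by rw [← pow_mul]; ring_nf
      _ ≤ V * (V * |a'|) ^ (2 ^ k) := by gcongr
      _ = V ^ (2 ^ k) * (V * |a'| ^ (2 ^ k)) := by rw [mul_pow]; ring
      _ ≤ V ^ (2 ^ k) * (C * (V * r ^ 2) ^ (2 ^ k)) := by gcongr
      _ = C * (V * r) ^ (2 ^ (k + 1)) := by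
        rw [pow_succ 2 k, mul_comm (2 ^ k) 2, pow_mul (V * r), mul_left_comm, ← mul_pow]
        ring_nf

/-- `|⟨g, P_S g⟩| ≤ ‖S‖ ‖g‖²` for mean zero `g`. -/
theorem quad_le {g : F → ℝ} (hg : Measurable g) {M : ℝ} (hM : ∀ x, |g x| ≤ M)
    (h0 : ∫ x, g x ∂(stdGaussian F) = 0) {S N : F →L[ℝ] F} {r : ℝ} (hr : 0 ≤ r) (hr1 : r < 1)
    (hS : ∀ t, ‖S.adjoint t‖ ≤ r * ‖t‖)
    (hN : ∀ t, ‖S.adjoint t‖ ^ 2 + ‖N.adjoint t‖ ^ 2 = ‖t‖ ^ 2) :
    |∫ y, g y * avg N g (S y) ∂(stdGaussian F)| ≤ r * ∫ x, g x ^ 2 ∂(stdGaussian F) := by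
  have hV : 0 ≤ ∫ x, g x ^ 2 ∂(stdGaussian F) := integral_nonneg fun x => sq_nonneg _
  have key := fun k => quad_iterate hg hM h0 k S N r hr hr1 hS hN
  have hm : Measurable (fun y => avg N g (S y)) := (measurable_avg N hg).comp
    S.continuous.measurable
  have h3 := cs_bdd (μ := stdGaussian F) hg hm hM (fun y => abs_avg_le N hM (S y))
  set V := ∫ x, g x ^ 2 ∂(stdGaussian F) with hVdef
  set a := ∫ y, g y * avg N g (S y) ∂(stdGaussian F)
  set C := 4 * M ^ 2 * (∫ y, ‖y‖ ∂(stdGaussian F)) + 2 * M ^ 2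
  rcases eq_or_lt_of_le hV with hV0 | hV0
  · rw [← hV0, zero_mul] at h3
    have : a = 0 := by
      have := sq_nonneg a
      exact pow_eq_zero_iff (two_ne_zero) |>.1 (le_antisymm h3 this)
    rw [this, ← hV0]
    simp
  by_contra hcon
  push Not at hcon
  have ha : 0 < |a| := lt_of_le_of_lt (by positivity) hcon
  set q := V * r / |a| with hq
  have hq0 : 0 ≤ q := by positivity
  have hq1 : q < 1 := by
    rw [hq, div_lt_one ha]
    linarith
  have h5 : ∀ k : ℕ, V ≤ C * q ^ (2 ^ k) := by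
    intro k
    have := key k
    have hp : 0 < |a| ^ (2 ^ k) := by positivity
    rw [hq, div_pow, mul_div_assoc', le_div_iff₀ hp]
    exact this
  have h6 : Tendsto (fun k : ℕ => C * q ^ (2 ^ k)) atTop (𝓝 (C * 0)) := by
    refine Tendsto.const_mul C ?_
    have : Tendsto (fun k : ℕ => 2 ^ k) atTop atTop := tendsto_pow_atTop_atTop_of_one_lt one_lt_two
    exact (tendsto_pow_atTop_nhds_zero_of_lt_one hq0 hq1).comp this
  have h7 := ge_of_tendsto' h6 h5
  rw [mul_zero] at h7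
  linarith

/-! ### Gebelein's inequality -/

/-- `‖T g‖ ≤ ρ ‖g‖` for mean zero `g`, `T g x = E g(Ax + Bw)`. -/
theorem gebelein_contraction {A : E →L[ℝ] F} {B : G →L[ℝ] F}
    (hB : ∀ t, ‖A.adjoint t‖ ^ 2 + ‖B.adjoint t‖ ^ 2 = ‖t‖ ^ 2) {ρ : ℝ} (hρ : 0 ≤ ρ)
    (hρ1 : ρ < 1) (hA : ∀ t, ‖A.adjoint t‖ ≤ ρ * ‖t‖) {g : F → ℝ}
    (hg : Measurable g) {M : ℝ} (hM : ∀ x, |g x| ≤ M) (h0 : ∫ x, g x ∂(stdGaussian F) = 0) :
    ∫ x, avg B g (A x) ^ 2 ∂(stdGaussian E) ≤ ρ ^ 2 * ∫ x, g x ^ 2 ∂(stdGaussian F) := by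
  have hS : ∀ t, ‖(A ∘L A.adjoint).adjoint t‖ ≤ ρ ^ 2 * ‖t‖ := by
    intro t
    rw [ContinuousLinearMap.adjoint_comp, ContinuousLinearMap.adjoint_adjoint]
    have h1 := norm_le_of_adjoint hρ hA (A.adjoint t)
    calc ‖A (A.adjoint t)‖ ≤ ρ * ‖A.adjoint t‖ := h1
      _ ≤ ρ * (ρ * ‖t‖) := mul_le_mul_of_nonneg_left (hA t) hρ
      _ = _ := by ring
  have hr2 : ρ ^ 2 < 1 := pow_lt_one₀ hρ hρ1 two_ne_zero
  obtain ⟨N, hN⟩ := exists_complement (A ∘L A.adjoint) (ContinuousLinearMap.id ℝ F) (by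
    intro t
    have := hS t
    simp only [adjoint_id', ContinuousLinearMap.id_apply]
    nlinarith [norm_nonneg t])
  simp only [adjoint_id', ContinuousLinearMap.id_apply] at hN
  have hN' : ∀ t, ‖A (A.adjoint t)‖ ^ 2 + ‖N.adjoint t‖ ^ 2 = ‖t‖ ^ 2 := by
    intro t
    have := hN t
    rw [ContinuousLinearMap.adjoint_comp, ContinuousLinearMap.adjoint_adjoint] at this
    exact this
  rw [integral_avg_sq hB hN' hg hM]
  have := quad_le hg hM h0 (by positivity) hr2 hS hN
  exact (le_abs_self _).trans this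

/-- **Gebelein's inequality**, functional form. -/
theorem gebelein {A : E →L[ℝ] F} {B : G →L[ℝ] F}
    (hB : ∀ t, ‖A.adjoint t‖ ^ 2 + ‖B.adjoint t‖ ^ 2 = ‖t‖ ^ 2) {ρ : ℝ} (hρ : 0 ≤ ρ)
    (hρ1 : ρ < 1) (hA : ∀ t, ‖A.adjoint t‖ ≤ ρ * ‖t‖) {f : E → ℝ} {g : F → ℝ}
    (hf : Measurable f) (hg : Measurable g) {L M : ℝ} (hL : ∀ x, |f x| ≤ L)
    (hM : ∀ x, |g x| ≤ M) :
    (∫ p, f p.1 * g (A p.1 + B p.2) ∂((stdGaussian E).prod (stdGaussian G))
        - (∫ x, f x ∂(stdGaussian E)) * ∫ x, g x ∂(stdGaussian F)) ^ 2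
      ≤ ρ ^ 2 * (∫ x, f x ^ 2 ∂(stdGaussian E) - (∫ x, f x ∂(stdGaussian E)) ^ 2)
        * (∫ x, g x ^ 2 ∂(stdGaussian F) - (∫ x, g x ∂(stdGaussian F)) ^ 2) := by
  have hL0 : 0 ≤ L := (abs_nonneg _).trans (hL 0)
  have hM0 : 0 ≤ M := (abs_nonneg _).trans (hM 0)
  set mf := ∫ x, f x ∂(stdGaussian E) with hmf
  set mg := ∫ x, g x ∂(stdGaussian F) with hmg
  have if1 : Integrable f (stdGaussian E) := integrable_of_bdd hf hL
  have ig1 : Integrable g (stdGaussian F) := integrable_of_bdd hg hM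
  have if2 : Integrable (fun x => f x ^ 2) (stdGaussian E) :=
    integrable_of_bdd (by fun_prop) (M := L ^ 2)
      fun x => by rw [abs_pow]; exact pow_le_pow_left₀ (abs_nonneg _) (hL x) 2
  have ig2 : Integrable (fun x => g x ^ 2) (stdGaussian F) :=
    integrable_of_bdd (by fun_prop) (M := M ^ 2)
      fun x => by rw [abs_pow]; exact pow_le_pow_left₀ (abs_nonneg _) (hM x) 2
  -- centred functions
  have hbf : ∀ x, |f x - mf| ≤ L + |mf| := fun x => (abs_sub _ _).trans (by gcongr; exact hL x)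
  have hbg : ∀ x, |g x - mg| ≤ M + |mg| := fun x => (abs_sub _ _).trans (by gcongr; exact hM x)
  have hf' : Measurable (fun x => f x - mf) := by fun_prop
  have hg' : Measurable (fun x => g x - mg) := by fun_prop
  have h0 : ∫ x, (g x - mg) ∂(stdGaussian F) = 0 := by
    rw [integral_sub ig1 (integrable_const _)]
    simp [hmg]
  have h0f : ∫ x, (f x - mf) ∂(stdGaussian E) = 0 := by
    rw [integral_sub if1 (integrable_const _)]
    simp [hmf]
  have hm : Measurable (fun x => avg B g (A x)) := (measurable_avg B hg).comp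
    A.continuous.measurable
  have hm' : Measurable (fun x => avg B (fun y => g y - mg) (A x)) :=
    (measurable_avg B hg').comp A.continuous.measurable
  have eavg : ∀ b, avg B (fun y => g y - mg) b = avg B g b - mg := by
    intro b
    unfold avg
    have hmb : Measurable (fun z => g (b + z)) := hg.comp (measurable_const_add b)
    rw [integral_sub (integrable_of_bdd hmb fun x => hM _) (integrable_const _)]
    simp
  have e1 : ∫ p, f p.1 * g (A p.1 + B p.2) ∂((stdGaussian E).prod (stdGaussian G))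
      = ∫ x, f x * avg B g (A x) ∂(stdGaussian E) := by
    rw [integral_prod]
    · refine integral_congr_ae (Eventually.of_forall fun x => ?_)
      simp only
      rw [avg_eq B hg, integral_const_mul]
    · refine integrable_of_bdd (by fun_prop) (M := L * M) fun p => ?_
      rw [abs_mul]
      exact mul_le_mul (hL _) (hM _) (abs_nonneg _) hL0
  have e2 : ∫ x, avg B g (A x) ∂(stdGaussian E) = mg := by
    have h := integral_avg (A := A) (B := B) (D := ContinuousLinearMap.id ℝ F) (by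
      intro t
      rw [hB t]
      simp) hg hM 0
    simp only [zero_add] at h
    rw [h]
    unfold avg
    rw [gau_id]
    simp [hmg]
  have i1 : Integrable (fun x => f x * avg B g (A x)) (stdGaussian E) := by
    refine integrable_of_bdd (by fun_prop) (M := L * M) fun x => ?_
    rw [abs_mul]
    exact mul_le_mul (hL x) (abs_avg_le B hM _) (abs_nonneg _) hL0
  have i2 : Integrable (fun x => avg B g (A x)) (stdGaussian E) :=
    integrable_of_bdd hm fun x => abs_avg_le B hM _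
  have e3 : ∫ p, f p.1 * g (A p.1 + B p.2) ∂((stdGaussian E).prod (stdGaussian G)) - mf * mg
      = ∫ x, (f x - mf) * avg B (fun y => g y - mg) (A x) ∂(stdGaussian E) := by
    have e : ∀ x, (f x - mf) * avg B (fun y => g y - mg) (A x)
        = (f x * avg B g (A x) - mf * avg B g (A x)) - (f x - mf) * mg := by
      intro x
      rw [eavg]
      ring
    simp_rw [e]
    have i3 : Integrable (fun x => mf * avg B g (A x)) (stdGaussian E) := i2.const_mul _
    have i4 : Integrable (fun x => f x * avg B g (A x) - mf * avg B g (A x)) (stdGaussian E) :=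
      i1.sub i3
    have i5 : Integrable (fun x => (f x - mf) * mg) (stdGaussian E) :=
      (if1.sub (integrable_const _)).mul_const _
    rw [integral_sub i4 i5, integral_sub i1 i3, integral_mul_const, integral_const_mul, h0f, e1,
      e2]
    ring
  have e4 : ∫ x, (f x - mf) ^ 2 ∂(stdGaussian E) = ∫ x, f x ^ 2 ∂(stdGaussian E) - mf ^ 2 :=
    integral_centered_sq hf hL
  have e5 : ∫ x, (g x - mg) ^ 2 ∂(stdGaussian F) = ∫ x, g x ^ 2 ∂(stdGaussian F) - mg ^ 2 :=
    integral_centered_sq hg hM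
  rw [e3, ← e4, ← e5]
  have h1 := cs_bdd (μ := stdGaussian E) hf' hm' hbf (fun x => abs_avg_le B hbg (A x))
  have h2 := gebelein_contraction hB hρ hρ1 hA hg' hbg h0
  refine h1.trans ?_
  calc _ ≤ (∫ x, (f x - mf) ^ 2 ∂(stdGaussian E))
        * (ρ ^ 2 * ∫ x, (g x - mg) ^ 2 ∂(stdGaussian F)) :=
        mul_le_mul_of_nonneg_left h2 (integral_nonneg fun x => sq_nonneg _)
    _ = _ := by ring

/-- **Gebelein's inequality** for sets. -/
theorem gebelein_set {A : E →L[ℝ] F} {B : G →L[ℝ] F}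
    (hB : ∀ t, ‖A.adjoint t‖ ^ 2 + ‖B.adjoint t‖ ^ 2 = ‖t‖ ^ 2) {ρ : ℝ} (hρ : 0 ≤ ρ)
    (hρ1 : ρ < 1) (hA : ∀ t, ‖A.adjoint t‖ ≤ ρ * ‖t‖) {U : Set E} {V : Set F}
    (hU : MeasurableSet U) (hV : MeasurableSet V) :
    (((stdGaussian E).prod (stdGaussian G)).real {p | p.1 ∈ U ∧ A p.1 + B p.2 ∈ V}
        - (stdGaussian E).real U * (stdGaussian F).real V) ^ 2
      ≤ ρ ^ 2 * ((stdGaussian E).real U * (1 - (stdGaussian E).real U))
        * ((stdGaussian F).real V * (1 - (stdGaussian F).real V)) := by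
  have h := gebelein hB hρ hρ1 hA (f := U.indicator 1) (g := V.indicator 1)
    (measurable_one.indicator hU) (measurable_one.indicator hV) (L := 1) (M := 1)
    (fun x => by by_cases hx : x ∈ U <;> simp [hx])
    (fun x => by by_cases hx : x ∈ V <;> simp [hx])
  have e1 : ∫ x, U.indicator (1 : E → ℝ) x ∂(stdGaussian E) = (stdGaussian E).real U := by
    rw [integral_indicator_one hU]
  have e2 : ∫ x, V.indicator (1 : F → ℝ) x ∂(stdGaussian F) = (stdGaussian F).real V := by
    rw [integral_indicator_one hV]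
  have e3 : ∫ x, U.indicator (1 : E → ℝ) x ^ 2 ∂(stdGaussian E) = (stdGaussian E).real U := by
    rw [← e1]
    refine integral_congr_ae (Eventually.of_forall fun x => ?_)
    by_cases hx : x ∈ U <;> simp [hx]
  have e4 : ∫ x, V.indicator (1 : F → ℝ) x ^ 2 ∂(stdGaussian F) = (stdGaussian F).real V := by
    rw [← e2]
    refine integral_congr_ae (Eventually.of_forall fun x => ?_)
    by_cases hx : x ∈ V <;> simp [hx]
  have hW : MeasurableSet {p : E × G | p.1 ∈ U ∧ A p.1 + B p.2 ∈ V} :=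
    (measurable_fst hU).inter ((by fun_prop : Measurable fun p : E × G => A p.1 + B p.2) hV)
  have e5 : ∫ p : E × G, U.indicator (1 : E → ℝ) p.1 * V.indicator (1 : F → ℝ) (A p.1 + B p.2)
      ∂((stdGaussian E).prod (stdGaussian G))
      = ((stdGaussian E).prod (stdGaussian G)).real {p | p.1 ∈ U ∧ A p.1 + B p.2 ∈ V} := by
    rw [← integral_indicator_one hW]
    refine integral_congr_ae (Eventually.of_forall fun p => ?_)
    by_cases h1 : p.1 ∈ U <;> by_cases h2 : A p.1 + B p.2 ∈ V <;> simp [h1, h2]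
  rw [e1, e2, e3, e4, e5] at h
  calc _ ≤ _ := h
    _ = _ := by ring

/-! ### Two linear images of one standard Gaussian -/

/-- Equality of joint laws of pairs of linear images from the second moments. -/
theorem joint_ext {E' G' : Type*} [NormedAddCommGroup E'] [InnerProductSpace ℝ E']
    [FiniteDimensional ℝ E'] [MeasurableSpace E'] [BorelSpace E'] [NormedAddCommGroup G']
    [InnerProductSpace ℝ G'] [FiniteDimensional ℝ G'] [MeasurableSpace G'] [BorelSpace G']
    {P : E →L[ℝ] F} {Q : G →L[ℝ] F} {R : E →L[ℝ] H} {S : G →L[ℝ] H}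
    {P' : E' →L[ℝ] F} {Q' : G' →L[ℝ] F} {R' : E' →L[ℝ] H} {S' : G' →L[ℝ] H}
    (h : ∀ s t, ‖P.adjoint s + R.adjoint t‖ ^ 2 + ‖Q.adjoint s + S.adjoint t‖ ^ 2
      = ‖P'.adjoint s + R'.adjoint t‖ ^ 2 + ‖Q'.adjoint s + S'.adjoint t‖ ^ 2) :
    ((stdGaussian E).prod (stdGaussian G)).map (fun p => (P p.1 + Q p.2, R p.1 + S p.2))
      = ((stdGaussian E').prod (stdGaussian G')).map
        (fun p => (P' p.1 + Q' p.2, R' p.1 + S' p.2)) := by
  have := Measure.isProbabilityMeasure_map (μ := (stdGaussian E).prod (stdGaussian G))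
    (f := fun p => (P p.1 + Q p.2, R p.1 + S p.2)) (by fun_prop)
  have := Measure.isProbabilityMeasure_map (μ := (stdGaussian E').prod (stdGaussian G'))
    (f := fun p => (P' p.1 + Q' p.2, R' p.1 + S' p.2)) (by fun_prop)
  apply Measure.ext_of_charFunDual
  ext L
  set s : F := (InnerProductSpace.toDual ℝ F).symm (L ∘L ContinuousLinearMap.inl ℝ F H) with hs
  set t : H := (InnerProductSpace.toDual ℝ H).symm (L ∘L ContinuousLinearMap.inr ℝ F H) with ht
  have hL : ∀ x y, L (x, y) = ⟪s, x⟫ + ⟪t, y⟫ := by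
    intro x y
    rw [hs, ht, InnerProductSpace.toDual_symm_apply, InnerProductSpace.toDual_symm_apply]
    simp only [ContinuousLinearMap.comp_apply, ContinuousLinearMap.inl_apply,
      ContinuousLinearMap.inr_apply]
    rw [← map_add]
    simp
  rw [charFunDual_joint P Q R S s t L hL, charFunDual_joint P' Q' R' S' s t L hL, h]

lemma map_proj_range (P : E →L[ℝ] F) (x : E) :
    P (P.adjoint.range.orthogonalProjectionOnto x : E) = P x := by
  apply ext_inner_right ℝ
  intro t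
  rw [← ContinuousLinearMap.adjoint_inner_right, ← ContinuousLinearMap.adjoint_inner_right]
  exact Submodule.inner_orthogonalProjectionOnto_eq_of_mem_right
    (⟨P.adjoint t, ⟨t, rfl⟩⟩ : P.adjoint.range) x

/-- **Gebelein's inequality** for two linear images `P w`, `Q w` of one standard Gaussian `w`
with canonical correlations at most `ρ`. -/
theorem gebelein_pair {P : E →L[ℝ] F} {Q : E →L[ℝ] G} {ρ : ℝ} (hρ : 0 ≤ ρ) (hρ1 : ρ < 1)
    (h : ∀ s t, ⟪P.adjoint s, Q.adjoint t⟫ ≤ ρ * (‖P.adjoint s‖ * ‖Q.adjoint t‖))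
    {U : Set F} {V : Set G} (hU : MeasurableSet U) (hV : MeasurableSet V) :
    ((stdGaussian E).real {w | P w ∈ U ∧ Q w ∈ V} - (gau P).real U * (gau Q).real V) ^ 2
      ≤ ρ ^ 2 * ((gau P).real U * (1 - (gau P).real U))
        * ((gau Q).real V * (1 - (gau Q).real V)) := by
  set R₁ := P.adjoint.range with hR1
  set R₂ := Q.adjoint.range with hR2
  set π₁ : E →L[ℝ] R₁ := R₁.orthogonalProjectionOnto with hπ1
  set π₂ : E →L[ℝ] R₂ := R₂.orthogonalProjectionOnto with hπ2
  have hP : ∀ x, P (π₁ x : E) = P x := map_proj_range P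
  have hQ : ∀ x, Q (π₂ x : E) = Q x := map_proj_range Q
  set A : R₁ →L[ℝ] R₂ := π₂ ∘L R₁.subtypeL with hA
  have hAadj : ∀ t : R₂, A.adjoint t = π₁ (t : E) := by
    intro t
    rw [hA, ContinuousLinearMap.adjoint_comp, Submodule.adjoint_subtypeL, hπ2,
      Submodule.adjoint_orthogonalProjectionOnto]
    rfl
  have hAle : ∀ t : R₂, ‖A.adjoint t‖ ≤ ρ * ‖t‖ := by
    intro t
    rw [hAadj]
    obtain ⟨s', hs'⟩ := (π₁ (t : E)).2
    obtain ⟨t', ht'⟩ := t.2
    have h1 : ‖π₁ (t : E)‖ ^ 2 = ⟪((π₁ (t : E) : R₁) : E), (t : E)⟫ := by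
      rw [← Submodule.inner_orthogonalProjectionOnto_eq_of_mem_left, real_inner_self_eq_norm_sq]
    have h2 : ⟪((π₁ (t : E) : R₁) : E), (t : E)⟫ ≤ ρ * (‖π₁ (t : E)‖ * ‖t‖) := by
      have := h s' t'
      have e1 : P.adjoint s' = ((π₁ (t : E) : R₁) : E) := hs'
      have e2 : Q.adjoint t' = (t : E) := ht'
      rw [e1, e2] at this
      exact this
    rcases eq_or_lt_of_le (norm_nonneg (π₁ (t : E))) with h0 | h0
    · rw [← h0]
      positivity
    · have h4 : ‖π₁ (t : E)‖ * ‖π₁ (t : E)‖ ≤ ‖π₁ (t : E)‖ * (ρ * ‖t‖) := by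
        calc _ = ‖π₁ (t : E)‖ ^ 2 := by ring
          _ ≤ ρ * (‖π₁ (t : E)‖ * ‖t‖) := by rw [h1]; exact h2
          _ = _ := by ring
      exact le_of_mul_le_mul_left h4 h0
  obtain ⟨B, hB⟩ := exists_complement A (ContinuousLinearMap.id ℝ R₂) (by
    intro t
    have := hAle t
    simp only [adjoint_id', ContinuousLinearMap.id_apply]
    nlinarith [norm_nonneg t])
  simp only [adjoint_id', ContinuousLinearMap.id_apply] at hB
  -- equality of the joint laws
  have hlaw := joint_ext (P := π₁) (Q := (0 : E →L[ℝ] R₁)) (R := π₂) (S := (0 : E →L[ℝ] R₂))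
    (P' := ContinuousLinearMap.id ℝ R₁) (Q' := (0 : R₂ →L[ℝ] R₁)) (R' := A) (S' := B) (by
      intro s t
      rw [hπ1, hπ2, Submodule.adjoint_orthogonalProjectionOnto,
        Submodule.adjoint_orthogonalProjectionOnto]
      simp only [map_zero, zero_apply, add_zero, zero_add, norm_zero, adjoint_id',
        ContinuousLinearMap.id_apply]
      have e1 : ‖R₁.subtypeL s + R₂.subtypeL t‖ ^ 2
          = ‖(s : E)‖ ^ 2 + 2 * ⟪(s : E), (t : E)⟫ + ‖(t : E)‖ ^ 2 := norm_add_sq_real _ _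
      have e2 : ‖s + A.adjoint t‖ ^ 2 = ‖s‖ ^ 2 + 2 * ⟪s, A.adjoint t⟫ + ‖A.adjoint t‖ ^ 2 :=
        norm_add_sq_real _ _
      have e3 : ⟪s, A.adjoint t⟫ = ⟪(s : E), (t : E)⟫ := by
        rw [hAadj]
        exact Submodule.inner_orthogonalProjectionOnto_eq_of_mem_left s (t : E)
      have e4 := hB t
      have e5 : ‖(s : E)‖ = ‖s‖ := rfl
      have e6 : ‖(t : E)‖ = ‖t‖ := rfl
      rw [e1, e2, e3, e5, e6]
      linarith)
  -- the sets
  set U' : Set R₁ := {a | P (a : E) ∈ U} with hU'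
  set V' : Set R₂ := {a | Q (a : E) ∈ V} with hV'
  have mU' : MeasurableSet U' := (by fun_prop : Measurable fun a : R₁ => P (a : E)) hU
  have mV' : MeasurableSet V' := (by fun_prop : Measurable fun a : R₂ => Q (a : E)) hV
  have mUV : MeasurableSet (U' ×ˢ V') := mU'.prod mV'
  have hgeb := gebelein_set hB hρ hρ1 hAle mU' mV'
  have eJ : ((stdGaussian R₁).prod (stdGaussian R₂)).real {p | p.1 ∈ U' ∧ A p.1 + B p.2 ∈ V'}
      = (stdGaussian E).real {w | P w ∈ U ∧ Q w ∈ V} := by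
    have h1 := congrArg (fun μ : Measure (R₁ × R₂) => μ.real (U' ×ˢ V')) hlaw
    simp only [zero_apply, add_zero, ContinuousLinearMap.id_apply] at h1
    have h2 : (Measure.map (fun p : E × E => (π₁ p.1, π₂ p.1))
        ((stdGaussian E).prod (stdGaussian E))).real (U' ×ˢ V')
        = (stdGaussian E).real {w | P w ∈ U ∧ Q w ∈ V} := by
      rw [Measure.real, Measure.map_apply (by fun_prop) mUV]
      have e : (fun p : E × E => (π₁ p.1, π₂ p.1)) ⁻¹' (U' ×ˢ V')
          = {w | P w ∈ U ∧ Q w ∈ V} ×ˢ univ := by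
        ext p
        simp [hU', hV', hP, hQ]
      rw [e, Measure.prod_prod, measure_univ, mul_one]
      rfl
    have h3 : (Measure.map (fun p : R₁ × R₂ => (p.1, A p.1 + B p.2))
        ((stdGaussian R₁).prod (stdGaussian R₂))).real (U' ×ˢ V')
        = ((stdGaussian R₁).prod (stdGaussian R₂)).real
          {p | p.1 ∈ U' ∧ A p.1 + B p.2 ∈ V'} := by
      rw [Measure.real, Measure.map_apply (by fun_prop) mUV]
      rfl
    rw [← h3, ← h1, h2]
  have eU : (stdGaussian R₁).real U' = (gau P).real U := by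
    have h1 : gau (P ∘L R₁.subtypeL) = gau P := by
      apply gau_ext
      intro t
      rw [ContinuousLinearMap.adjoint_comp, Submodule.adjoint_subtypeL]
      simp only [ContinuousLinearMap.comp_apply]
      exact Submodule.norm_orthogonalProjectionOnto_apply (K := R₁) ⟨t, rfl⟩
    rw [← h1, gau_real_apply _ hU]
    rfl
  have eV : (stdGaussian R₂).real V' = (gau Q).real V := by
    have h1 : gau (Q ∘L R₂.subtypeL) = gau Q := by
      apply gau_ext
      intro t
      rw [ContinuousLinearMap.adjoint_comp, Submodule.adjoint_subtypeL]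
      simp only [ContinuousLinearMap.comp_apply]
      exact Submodule.norm_orthogonalProjectionOnto_apply (K := R₂) ⟨t, rfl⟩
    rw [← h1, gau_real_apply _ hV]
    rfl
  rw [eJ, eU, eV] at hgeb
  exact hgeb

/-- Crossing form: two sets of weakly correlated Gaussian vectors are crossed often. -/
theorem gebelein_cross {P : E →L[ℝ] F} {Q : E →L[ℝ] G} {ρ : ℝ} (hρ : 0 ≤ ρ) (hρ1 : ρ < 1)
    (h : ∀ s t, ⟪P.adjoint s, Q.adjoint t⟫ ≤ ρ * (‖P.adjoint s‖ * ‖Q.adjoint t‖))
    {U : Set F} {V : Set G} (hU : MeasurableSet U) (hV : MeasurableSet V) :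
    (1 - ρ) * ((gau P).real U * (1 - (gau Q).real V) + (gau Q).real V * (1 - (gau P).real U))
      ≤ (stdGaussian E).real {w | P w ∈ U ∧ Q w ∉ V}
        + (stdGaussian E).real {w | Q w ∈ V ∧ P w ∉ U} := by
  have hg := gebelein_pair hρ hρ1 h hU hV
  have mU : MeasurableSet {w | P w ∈ U} := P.continuous.measurable hU
  have mV : MeasurableSet {w | Q w ∈ V} := Q.continuous.measurable hV
  have e1 : (stdGaussian E).real {w | P w ∈ U ∧ Q w ∈ V}
      + (stdGaussian E).real {w | P w ∈ U ∧ Q w ∉ V} = (gau P).real U := by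
    rw [gau_real_apply P hU]
    exact measureReal_inter_add_sdiff (μ := stdGaussian E) (s := {w | P w ∈ U}) mV
  have e2 : (stdGaussian E).real {w | P w ∈ U ∧ Q w ∈ V}
      + (stdGaussian E).real {w | Q w ∈ V ∧ P w ∉ U} = (gau Q).real V := by
    rw [gau_real_apply Q hV]
    have := measureReal_inter_add_sdiff (μ := stdGaussian E) (s := {w | Q w ∈ V}) mU
    rw [inter_comm] at this
    exact this
  have hu0 : 0 ≤ (gau P).real U := measureReal_nonneg
  have hu1 : (gau P).real U ≤ 1 := measureReal_le_one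
  have hv0 : 0 ≤ (gau Q).real V := measureReal_nonneg
  have hv1 : (gau Q).real V ≤ 1 := measureReal_le_one
  set u := (gau P).real U
  set v := (gau Q).real V
  set m := (stdGaussian E).real {w | P w ∈ U ∧ Q w ∈ V}
  have ha : 0 ≤ u * (1 - v) := mul_nonneg hu0 (by linarith)
  have hb : 0 ≤ v * (1 - u) := mul_nonneg hv0 (by linarith)
  have h3 : (2 * (m - u * v)) ^ 2 ≤ (ρ * (u * (1 - v) + v * (1 - u))) ^ 2 := by
    have h4 : 4 * ((u * (1 - v)) * (v * (1 - u))) ≤ (u * (1 - v) + v * (1 - u)) ^ 2 := by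
      nlinarith [sq_nonneg (u * (1 - v) - v * (1 - u))]
    calc (2 * (m - u * v)) ^ 2 = 4 * (m - u * v) ^ 2 := by ring
      _ ≤ 4 * (ρ ^ 2 * (u * (1 - u)) * (v * (1 - v))) := by linarith
      _ = ρ ^ 2 * (4 * ((u * (1 - v)) * (v * (1 - u)))) := by ring
      _ ≤ ρ ^ 2 * (u * (1 - v) + v * (1 - u)) ^ 2 :=
        mul_le_mul_of_nonneg_left h4 (sq_nonneg _)
      _ = _ := by ring
  have h5 : 2 * (m - u * v) ≤ ρ * (u * (1 - v) + v * (1 - u)) :=
    le_of_abs_le (abs_le_of_sq_le_sq h3 (by positivity))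
  nlinarith

/-- `min(u, 1-u) (1-ρ) ≤ P(crossing)`. -/
theorem gebelein_min {P : E →L[ℝ] F} {Q : E →L[ℝ] G} {ρ : ℝ} (hρ : 0 ≤ ρ) (hρ1 : ρ < 1)
    (h : ∀ s t, ⟪P.adjoint s, Q.adjoint t⟫ ≤ ρ * (‖P.adjoint s‖ * ‖Q.adjoint t‖))
    {U : Set F} {V : Set G} (hU : MeasurableSet U) (hV : MeasurableSet V) :
    (1 - ρ) * min ((gau P).real U) (1 - (gau P).real U)
      ≤ (stdGaussian E).real {w | P w ∈ U ∧ Q w ∉ V}
        + (stdGaussian E).real {w | Q w ∈ V ∧ P w ∉ U} := by
  refine le_trans ?_ (gebelein_cross hρ hρ1 h hU hV)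
  have hv0 : 0 ≤ (gau Q).real V := measureReal_nonneg
  have hv1 : (gau Q).real V ≤ 1 := measureReal_le_one
  have h1 := min_le_left ((gau P).real U) (1 - (gau P).real U)
  have h2 := min_le_right ((gau P).real U) (1 - (gau P).real U)
  refine mul_le_mul_of_nonneg_left ?_ (by linarith)
  nlinarith

end Crest.Agent.R239
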