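import Crest.Agent.Lib.Ehrhard.Basic

/-! R239, (F1)/(PW') of helper861 (#11342, #11481): gluing of the near and the far zone, one orbit
(helper261).  The bad mass of one orbit, weighted by the slowly varying cut-off `KK`, is bounded by the
soft mass plus the near-zone gain.  Pure one-dimensional statement. -/

set_option autoImplicit false
open MeasureTheory Set Filter Topology
open scoped ENNReal NNReal

namespace Crest.Agent.R239.Glue

open Crest.Agent.Lib.Ehrhard

/-- the slowly varying weight: `0` below `η/4`, `1` above `η/2`. -/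
noncomputable def KK (η x : ℝ) : ℝ := min 1 (max 0 ((x - η/4)/(η/4)))

/-- the near-zone density `1{v<L+1} exp(-c1 v₋)`. -/
noncomputable def ee (L c1 v : ℝ) : ℝ := if v < L + 1 then Real.exp (-(c1 * max (-v) 0)) else 0

lemma KK_nonneg (η x : ℝ) : 0 ≤ KK η x := le_min zero_le_one (le_max_left _ _)
lemma KK_le_one (η x : ℝ) : KK η x ≤ 1 := min_le_left _ _

lemma KK_mono {η : ℝ} (hη : 0 < η) {x y : ℝ} (h : x ≤ y) : KK η x ≤ KK η y := by
  unfold KK
  gcongr

lemma KK_zero {η x : ℝ} (hη : 0 < η) (h : x ≤ η/4) : KK η x = 0 := by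
  unfold KK
  have : (x - η/4)/(η/4) ≤ 0 := div_nonpos_of_nonpos_of_nonneg (by linarith) (by linarith)
  rw [max_eq_left this]; simp

lemma KK_one {η x : ℝ} (hη : 0 < η) (h : η/2 ≤ x) : KK η x = 1 := by
  unfold KK
  have : 1 ≤ (x - η/4)/(η/4) := by
    rw [le_div_iff₀ (by linarith)]; linarith
  rw [min_eq_left]
  exact this.trans (le_max_right _ _)

lemma KK_lip {η x y : ℝ} (hη : 0 < η) (h : x ≤ y) : KK η y ≤ KK η x + 4/η*(y-x) := by
  have h0 : 0 ≤ 4/η*(y-x) := mul_nonneg (by positivity) (by linarith)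
  unfold KK
  have e : (y - η/4)/(η/4) = (x - η/4)/(η/4) + 4/η*(y-x) := by field_simp; ring
  rw [e]
  rcases le_total 1 (max 0 ((x - η/4)/(η/4))) with h1 | h1
  · rw [min_eq_left h1]
    have := min_le_left (1:ℝ) (max 0 ((x - η / 4) / (η / 4) + 4 / η * (y - x)))
    linarith
  · rw [min_eq_right h1]
    refine (min_le_right _ _).trans ?_
    apply max_le
    · have := le_max_left (0:ℝ) ((x - η/4)/(η/4))
      linarith
    · have := le_max_right (0:ℝ) ((x - η/4)/(η/4))
      linarith

lemma continuous_KK (η : ℝ) : Continuous (KK η) := by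
  unfold KK
  fun_prop

lemma ee_nonneg (L c1 v : ℝ) : 0 ≤ ee L c1 v := by
  unfold ee; split_ifs
  · exact (Real.exp_pos _).le
  · exact le_rfl

lemma measurable_ee (L c1 : ℝ) : Measurable (ee L c1) := by
  unfold ee
  apply Measurable.ite (measurableSet_lt measurable_id measurable_const) _ measurable_const
  fun_prop

/-- data of one orbit -/
structure Orb (ε : ℝ) (X ρ v : ℝ → ℝ) (B : Set ℝ) : Prop where
  cX : Continuous X
  cρ : Continuous ρ
  cv : Continuous v
  Xpos : ∀ t, 0 < X t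
  Xmono : Monotone X
  Xgrow : ∀ s t, s ≤ t → X t ≤ X s * Real.exp (2*ε*(t-s))
  ρpos : ∀ t, 0 < ρ t
  ρdec : ∀ s t, s ≤ t → ρ t ≤ ρ s * Real.exp (-((X s)^2 - 2*ε)*(t-s))
  vlip : ∀ s t, s ≤ t → |v t - v s| ≤ 11/10 * X t * (t-s)
  Bm : MeasurableSet B
  Bv : ∀ t ∈ B, v t ≤ X t + 1

variable {η ε L c c0 c1 T T' X2 : ℝ} {X ρ v : ℝ → ℝ} {B : Set ℝ}

lemma Orb.KK_orbit (h : Orb ε X ρ v B) (hη : 0 < η) (hε : 0 ≤ ε) {s t : ℝ} (hst : s ≤ t) :
    KK η (X t) ≤ KK η (X s) + 4*ε*(t-s) := by
  have hts : 0 ≤ 4*ε*(t-s) := by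
    have : 0 ≤ t - s := by linarith
    positivity
  rcases le_total (η/2) (X s) with h1 | h1
  · rw [KK_one hη h1]
    linarith [KK_le_one η (X t)]
  · set x := min (X t) (η/2) with hx
    have hK : KK η (X t) ≤ KK η x := by
      rcases le_total (X t) (η/2) with h2 | h2
      · rw [hx, min_eq_left h2]
      · rw [hx, min_eq_right h2, KK_one hη le_rfl]; exact KK_le_one _ _
    have hsx : X s ≤ x := le_min (h.Xmono hst) h1
    have hX := h.Xgrow s t hst
    have hXt : x ≤ X t := min_le_left _ _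
    have hx2 : x ≤ η/2 := min_le_right _ _
    have hx0 : 0 < x := (h.Xpos s).trans_le hsx
    have hxs : x - X s ≤ η*ε*(t-s) := by
      -- X s ≥ X t e^{-2ε(t-s)} ≥ x (1 - 2ε(t-s))
      have e1 : X t * Real.exp (-(2*ε*(t-s))) ≤ X s := by
        calc X t * Real.exp (-(2*ε*(t-s))) ≤ (X s * Real.exp (2*ε*(t-s))) * Real.exp (-(2*ε*(t-s))) := by
              gcongr
          _ = X s := by rw [mul_assoc, ← Real.exp_add]; simp
      have e2 : 1 - 2*ε*(t-s) ≤ Real.exp (-(2*ε*(t-s))) := by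
        have := Real.add_one_le_exp (-(2*ε*(t-s)))
        linarith
      have e3 : x * Real.exp (-(2*ε*(t-s))) ≤ X s :=
        (mul_le_mul_of_nonneg_right hXt (Real.exp_pos _).le).trans e1
      have e4 : x * (1 - 2*ε*(t-s)) ≤ X s :=
        (mul_le_mul_of_nonneg_left e2 hx0.le).trans e3
      have e5 : x * (2*ε*(t-s)) ≤ (η/2) * (2*ε*(t-s)) := by
        apply mul_le_mul_of_nonneg_right hx2
        have : 0 ≤ t - s := by linarith
        positivity
      nlinarith
    have h3 := KK_lip hη hsx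
    have h4 : 4/η*(x - X s) ≤ 4*ε*(t-s) := by
      calc 4/η*(x - X s) ≤ 4/η*(η*ε*(t-s)) := by gcongr
        _ = 4*ε*(t-s) := by field_simp
    linarith

/-- weighted tail bound -/
lemma Orb.tail_w (h : Orb ε X ρ v B) {s δ k m : ℝ} (hδ : 0 < δ) (hs : δ ≤ X s ^ 2 - 2*ε)
    (hk : 0 ≤ k) (hm : 0 ≤ m) :
    ∫⁻ t in Ioi s, ENNReal.ofReal (ρ t * (k + m*(t-s))) ≤
      ENNReal.ofReal (ρ s * (k/δ + 4*m/δ^2)) := by
  have hρ := h.ρpos s
  -- pointwise bound
  have hpt : ∀ t ∈ Ioi s, ρ t * (k + m*(t-s)) ≤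
      ρ s * k * Real.exp (δ*s) * Real.exp (-δ * t) +
      ρ s * (2*m/δ) * Real.exp (δ/2*s) * Real.exp (-(δ/2) * t) := by
    intro t ht
    have hts : 0 < t - s := sub_pos.2 ht
    have h1 := h.ρdec s t (le_of_lt ht)
    have h2 : ρ t ≤ ρ s * Real.exp (-δ*(t-s)) := by
      refine h1.trans ?_
      gcongr
    have h3 : t - s ≤ 2/δ * Real.exp (δ/2*(t-s)) := by
      have := Real.add_one_le_exp (δ/2*(t-s))
      have h4 : δ/2*(t-s) ≤ Real.exp (δ/2*(t-s)) := by linarith
      calc t - s = 2/δ * (δ/2*(t-s)) := by field_simp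
        _ ≤ _ := by gcongr
    calc ρ t * (k + m*(t-s)) ≤ (ρ s * Real.exp (-δ*(t-s))) * (k + m*(2/δ * Real.exp (δ/2*(t-s)))) := by
          gcongr
      _ = ρ s * k * Real.exp (-δ*(t-s)) + ρ s * (2*m/δ) * (Real.exp (-δ*(t-s)) * Real.exp (δ/2*(t-s))) := by
          ring
      _ = ρ s * k * Real.exp (δ*s) * Real.exp (-δ * t) +
          ρ s * (2*m/δ) * Real.exp (δ/2*s) * Real.exp (-(δ/2) * t) := by
          rw [← Real.exp_add, mul_assoc (ρ s * k), ← Real.exp_add, mul_assoc (ρ s * (2*m/δ)), ← Real.exp_add]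
          ring_nf
  have i1 : IntegrableOn (fun t => ρ s * k * Real.exp (δ*s) * Real.exp (-δ * t)) (Ioi s) :=
    (integrableOn_exp_mul_Ioi (by linarith) s).const_mul _
  have i2 : IntegrableOn (fun t => ρ s * (2*m/δ) * Real.exp (δ/2*s) * Real.exp (-(δ/2) * t)) (Ioi s) :=
    (integrableOn_exp_mul_Ioi (by linarith) s).const_mul _
  calc ∫⁻ t in Ioi s, ENNReal.ofReal (ρ t * (k + m*(t-s)))
      ≤ ∫⁻ t in Ioi s, ENNReal.ofReal (ρ s * k * Real.exp (δ*s) * Real.exp (-δ * t) +
      ρ s * (2*m/δ) * Real.exp (δ/2*s) * Real.exp (-(δ/2) * t)) := by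
        apply setLIntegral_mono' measurableSet_Ioi
        intro t ht
        exact ENNReal.ofReal_le_ofReal (hpt t ht)
    _ = ENNReal.ofReal (∫ t in Ioi s, (ρ s * k * Real.exp (δ*s) * Real.exp (-δ * t) +
      ρ s * (2*m/δ) * Real.exp (δ/2*s) * Real.exp (-(δ/2) * t))) := by
        refine (ofReal_integral_eq_lintegral_ofReal (f := fun t => ρ s * k * Real.exp (δ*s) * Real.exp (-δ * t) +
          ρ s * (2*m/δ) * Real.exp (δ/2*s) * Real.exp (-(δ/2) * t)) (i1.add i2) ?_).symm
        filter_upwards with t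
        simp only [Pi.zero_apply]
        positivity
    _ = ENNReal.ofReal (ρ s * (k/δ + 4*m/δ^2)) := by
        congr 1
        rw [integral_add i1 i2, integral_const_mul, integral_const_mul,
          integral_exp_mul_Ioi (by linarith), integral_exp_mul_Ioi (by linarith)]
        have e1 : Real.exp (δ*s) * Real.exp (-δ*s) = 1 := by rw [← Real.exp_add]; simp
        have e2 : Real.exp (δ/2*s) * Real.exp (-(δ/2)*s) = 1 := by rw [← Real.exp_add]; simp
        have : ρ s * k * Real.exp (δ*s) * (-Real.exp (-δ*s) / (-δ)) = ρ s * (k/δ) := by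
          rw [neg_div_neg_eq]
          calc _ = ρ s * k * (Real.exp (δ*s) * Real.exp (-δ*s)) / δ := by ring
            _ = _ := by rw [e1]; ring
        rw [this]
        have : ρ s * (2*m/δ) * Real.exp (δ/2*s) * (-Real.exp (-(δ/2)*s) / (-(δ/2))) = ρ s * (4*m/δ^2) := by
          rw [neg_div_neg_eq]
          calc _ = ρ s * (2*m/δ) * (Real.exp (δ/2*s) * Real.exp (-(δ/2)*s)) / (δ/2) := by ring
            _ = _ := by rw [e2]; field_simp; ring
        rw [this]; ring

lemma Orb.tail (h : Orb ε X ρ v B) {s δ : ℝ} (hδ : 0 < δ) (hs : δ ≤ X s ^ 2 - 2*ε) :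
    ∫⁻ t in Ioi s, ENNReal.ofReal (ρ t) ≤ ENNReal.ofReal (ρ s / δ) := by
  have := h.tail_w hδ hs zero_le_one le_rfl
  simpa [div_eq_mul_inv] using this


/-- left integrand -/
noncomputable def lo (η : ℝ) (X ρ : ℝ → ℝ) (B : Set ℝ) (t : ℝ) : ℝ :=
  ρ t * (KK η (X t) * B.indicator 1 t)

/-- right integrand -/
noncomputable def ro (η L c0 c1 : ℝ) (X ρ v : ℝ → ℝ) (t : ℝ) : ℝ :=
  ρ t * (KK η (X t) * Phi (-(v t))) + ρ t * (c0 * (1 - KK η (X t)) * ee L c1 (v t))

lemma Orb.gap (h : Orb ε X ρ v B) (hε : 0 ≤ ε) (hε1 : ε ≤ 1/1000) (hL : 1 ≤ L) {al tp : ℝ}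
    (hlt : al ≤ tp) (hd : L + 16/5 * X al ≤ v al) (hb : v tp ≤ X tp + 1) : al + 3/2 ≤ tp := by
  by_contra hcon
  push Not at hcon
  have hX := h.Xgrow al tp hlt
  have h0 := h.Xpos al
  have e1 : Real.exp (2*ε*(tp-al)) ≤ 101/100 := by
    have h1 : 2*ε*(tp-al) ≤ 3/1000 := by nlinarith
    calc Real.exp (2*ε*(tp-al)) ≤ Real.exp (3/1000) := Real.exp_le_exp.2 h1
      _ ≤ 101/100 := by
        have := Real.exp_bound_div_one_sub_of_interval (x := 3/1000) (by norm_num) (by norm_num)
        refine this.trans ?_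
        norm_num
  have hX2 : X tp ≤ 101/100 * X al := by nlinarith
  have hv := abs_le.1 (h.vlip al tp hlt)
  have h2 : 11/10 * X tp * (tp - al) ≤ 11/10 * (101/100 * X al) * (3/2) := by
    have : 0 ≤ tp - al := by linarith
    have h3 := h.Xpos tp
    gcongr
    linarith
  nlinarith [hv.1]

lemma Orb.ρanti (h : Orb ε X ρ v B) {s t : ℝ} (hst : s ≤ t) (hs : 2*ε ≤ X s ^ 2) : ρ t ≤ ρ s := by
  have h1 := h.ρdec s t hst
  have h2 : Real.exp (-((X s)^2 - 2*ε)*(t-s)) ≤ 1 := by
    rw [Real.exp_le_one_iff]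
    have : 0 ≤ t - s := by linarith
    nlinarith
  have := h.ρpos s
  nlinarith

lemma sq_ge {η x : ℝ} (hη : 0 < η) (hx : η/8 ≤ x) : η^2/64 ≤ x^2 := by
  nlinarith

/-- on the unit interval after a deep time the near density is `1` where `K < 1`. -/
lemma Orb.ee_one (h : Orb ε X ρ v B) (hη : 0 < η) (hη1 : η ≤ 1/10) (hε : 0 ≤ ε) (hε1 : ε ≤ 1/1000)
    (hL : 1 ≤ L) {al t : ℝ} (hd : L + 16/5 * X al ≤ v al) (ht : al ≤ t) (ht1 : t ≤ al + 1)
    (hnd : v t < L + 16/5 * X t) (hK : KK η (X t) < 1) : ee L c1 (v t) = 1 := by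
  have hXt : X t < η/2 := by
    by_contra hcon
    push Not at hcon
    rw [KK_one hη hcon] at hK
    exact lt_irrefl _ hK
  have hX := h.Xgrow al t ht
  have h0 := h.Xpos al
  have e1 : Real.exp (2*ε*(t-al)) ≤ 101/100 := by
    have h1 : 2*ε*(t-al) ≤ 3/1000 := by nlinarith
    calc Real.exp (2*ε*(t-al)) ≤ Real.exp (3/1000) := Real.exp_le_exp.2 h1
      _ ≤ 101/100 := by
        have := Real.exp_bound_div_one_sub_of_interval (x := 3/1000) (by norm_num) (by norm_num)
        refine this.trans ?_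
        norm_num
  have hX2 : X t ≤ 101/100 * X al := by nlinarith
  have hv := abs_le.1 (h.vlip al t ht)
  have h3 := h.Xpos t
  have h2 : 11/10 * X t * (t - al) ≤ 11/10 * (101/100 * X al) * 1 := by
    have : 0 ≤ t - al := by linarith
    gcongr
    linarith
  have hv0 : 0 ≤ v t := by nlinarith [hv.1]
  unfold ee
  rw [if_pos (by linarith), max_eq_right (by linarith)]
  simp

lemma Orb.ro_meas (h : Orb ε X ρ v B) : Measurable (ro η L c0 c1 X ρ v) := by
  unfold ro
  have m1 : Measurable fun t => KK η (X t) := ((continuous_KK η).comp h.cX).measurable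
  have m2 : Measurable fun t => Phi (-(v t)) := (continuous_Phi.comp h.cv.neg).measurable
  have m3 : Measurable fun t => ee L c1 (v t) := (measurable_ee L c1).comp h.cv.measurable
  have m4 := h.cρ.measurable
  exact (m4.mul (m1.mul m2)).add (m4.mul ((measurable_const.mul (measurable_const.sub m1)).mul m3))

/-- the soft mass of a set dominates a multiple of `∫ Φ(-v) ρ`. -/
lemma Orb.soft_lower (h : Orb ε X ρ v B) {a b k : ℝ} (hab : a ≤ b) (hk : 0 ≤ k)
    (hK : ∀ t ∈ Ioo a b, k ≤ KK η (X t)) :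
    ENNReal.ofReal (k * ∫ t in a..b, Phi (-(v t)) * ρ t) ≤
      ∫⁻ t in Ioo a b, ENNReal.ofReal (ρ t * (KK η (X t) * Phi (-(v t)))) := by
  have hcont : Continuous fun t => k * (Phi (-(v t)) * ρ t) :=
    continuous_const.mul ((continuous_Phi.comp h.cv.neg).mul h.cρ)
  have hint : IntegrableOn (fun t => k * (Phi (-(v t)) * ρ t)) (Ioc a b) :=
    (hcont.integrableOn_Icc).mono_set Ioc_subset_Icc_self
  have e1 : k * ∫ t in a..b, Phi (-(v t)) * ρ t = ∫ t in Ioo a b, k * (Phi (-(v t)) * ρ t) := by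
    rw [← intervalIntegral.integral_const_mul, intervalIntegral.integral_of_le hab,
      integral_Ioc_eq_integral_Ioo]
  rw [e1, ofReal_integral_eq_lintegral_ofReal (hint.mono_set Ioo_subset_Ioc_self)]
  · apply setLIntegral_mono' measurableSet_Ioo
    intro t ht
    apply ENNReal.ofReal_le_ofReal
    have h1 := h.ρpos t
    have h2 := Phi_nonneg (-(v t))
    calc k * (Phi (-(v t)) * ρ t) ≤ KK η (X t) * (Phi (-(v t)) * ρ t) := by
          gcongr; exact hK t ht
      _ = _ := by ring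
  · filter_upwards with t
    have h1 := h.ρpos t
    have h2 := Phi_nonneg (-(v t))
    simp only [Pi.zero_apply]
    positivity

/-- lower bound by a constant on an interval of length one -/
lemma unit_lower {f : ℝ → ℝ} {a m : ℝ} (hf : ∀ t ∈ Ioo a (a+1), m ≤ f t) :
    ENNReal.ofReal m ≤ ∫⁻ t in Ioo a (a+1), ENNReal.ofReal (f t) := by
  calc ENNReal.ofReal m = ∫⁻ t in Ioo a (a+1), ENNReal.ofReal m := by
        rw [setLIntegral_const, Real.volume_Ioo]
        simp
    _ ≤ _ := by
        apply setLIntegral_mono' measurableSet_Ioo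
        intro t ht
        exact ENNReal.ofReal_le_ofReal (hf t ht)


/-- input (A): large tilt. -/
def HA (η L X2 : ℝ) (X ρ v : ℝ → ℝ) (B : Set ℝ) : Prop :=
  ∀ al tp, al < tp → η/8 ≤ X al → L + 16/5 * X al ≤ v al →
    (∀ s ∈ Ioc al tp, v s < L + 16/5 * X s) → tp ∈ closure B → X2 ≤ X tp →
    2 * ρ tp ≤ X tp ^ 2 * ∫ t in (tp - 3/2)..tp, Phi (-(v t)) * ρ t

/-- input (C): bounded tilt, bounded window. -/
def HC (η L X2 T T' c : ℝ) (X ρ v : ℝ → ℝ) (B : Set ℝ) : Prop :=
  ∀ al tp, al < tp → η/8 ≤ X al → L + 16/5 * X al ≤ v al →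
    (∀ s ∈ Ioc al tp, v s < L + 16/5 * X s) → tp ∈ closure B → X tp < X2 → tp - al ≤ T →
    (∀ s ∈ Icc tp (tp + T'), v s < L + 16/5 * X s) ∧
    (1 + c) * ρ tp ≤ X tp ^ 2 * ∫ t in al..(tp + T'), Phi (-(v t)) * ρ t

lemma Orb.closure_le (h : Orb ε X ρ v B) {tp : ℝ} (ht : tp ∈ closure B) : v tp ≤ X tp + 1 := by
  have hc : IsClosed {t | v t ≤ X t + 1} := isClosed_le h.cv (h.cX.add continuous_const)
  exact hc.closure_subset_iff.2 (fun t ht => h.Bv t ht) ht

set_option maxHeartbeats 2000000 in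
lemma Orb.LI (h : Orb ε X ρ v B) (hη : 0 < η) (hη1 : η ≤ 1/10) (hX2 : 1 ≤ X2) (hL : 1 ≤ L)
    (hc0 : 0 < c0) (hc : 0 < c) (hc1 : c ≤ 1) (hT' : 0 ≤ T')
    {δ m0 : ℝ} (hδ : δ = η^2/128) (hm0 : m0 = min (Phi (-(L + 16/5 * X2))) c0)
    (hT : 1 + 1/(δ^2*m0) ≤ T) (hε : 0 < ε) (hε1 : ε ≤ 1/1000) (hε2 : 2*ε ≤ δ)
    (hε3 : ε*(8*T + 34/δ) ≤ c/2) (hε4 : ε*(1/(2*δ^2) + 2*T/δ + 16/δ^2) ≤ c0/2)
    (hA : HA η L X2 X ρ v B) (hC : HC η L X2 T T' c X ρ v B)
    {al tp : ℝ} (hlt : al < tp) (hal : η/8 ≤ X al) (hd : L + 16/5 * X al ≤ v al)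
    (hnd : ∀ s ∈ Ioc al tp, v s < L + 16/5 * X s) (htp : tp ∈ closure B) :
    ∃ u, tp ≤ u ∧ (∀ s ∈ Icc tp u, v s < L + 16/5 * X s) ∧
      ∫⁻ t in Ioi tp, ENNReal.ofReal (ρ t * KK η (X t)) ≤
        ∫⁻ t in Ioo al u, ENNReal.ofReal (ro η L c0 c1 X ρ v t) := by
  have hδ0 : 0 < δ := by rw [hδ]; positivity
  have hm : 0 < m0 := by rw [hm0]; exact lt_min (Phi_pos _) hc0
  have hTm : 0 < 1/(δ^2*m0) := by positivity
  have hgap := h.gap hε.le hε1 hL hlt.le hd (h.closure_le htp)
  have hXal : ∀ t, al ≤ t → η/8 ≤ X t := fun t ht => hal.trans (h.Xmono ht)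
  have hsq : ∀ t, al ≤ t → 2*δ ≤ X t ^ 2 := fun t ht => by
    have := sq_ge hη (hXal t ht); rw [hδ]; linarith
  have hρp := h.ρpos tp
  have hro0 : ∀ t, 0 ≤ ρ t * (KK η (X t) * Phi (-(v t))) := fun t => by
    have := h.ρpos t; have := KK_nonneg η (X t); have := Phi_nonneg (-(v t)); positivity
  have hro1 : ∀ t, 0 ≤ ρ t * (c0 * (1 - KK η (X t)) * ee L c1 (v t)) := fun t => by
    have h1 := h.ρpos t
    have h2 := KK_le_one η (X t)
    have h3 := ee_nonneg L c1 (v t)
    have : 0 ≤ 1 - KK η (X t) := by linarith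
    positivity
  by_cases hX : X2 ≤ X tp
  · -- case (A)
    refine ⟨tp, le_rfl, fun s hs => ?_, ?_⟩
    · have : s = tp := le_antisymm hs.2 hs.1
      rw [this]; exact hnd tp ⟨hlt, le_rfl⟩
    have hA1 := hA al tp hlt hal hd hnd htp hX
    have hXp : 0 < X tp ^ 2 := by have := h.Xpos tp; positivity
    have hX1 : 1 ≤ X tp ^ 2 := by nlinarith
    calc ∫⁻ t in Ioi tp, ENNReal.ofReal (ρ t * KK η (X t))
        ≤ ∫⁻ t in Ioi tp, ENNReal.ofReal (ρ t) := by
          apply lintegral_mono
          intro t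
          apply ENNReal.ofReal_le_ofReal
          have := KK_le_one η (X t)
          have := h.ρpos t
          nlinarith
      _ ≤ ENNReal.ofReal (ρ tp / (X tp ^ 2 / 2)) :=
          h.tail (by positivity) (by linarith)
      _ ≤ ENNReal.ofReal (1 * ∫ t in (tp-3/2)..tp, Phi (-(v t)) * ρ t) := by
          apply ENNReal.ofReal_le_ofReal
          rw [div_le_iff₀ (by positivity)]
          linarith
      _ ≤ ∫⁻ t in Ioo (tp-3/2) tp, ENNReal.ofReal (ρ t * (KK η (X t) * Phi (-(v t)))) := by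
          apply h.soft_lower (by linarith) zero_le_one
          intro t ht
          rw [KK_one hη]
          have h1 := h.Xgrow t tp ht.2.le
          have e1 : Real.exp (2*ε*(tp-t)) ≤ 101/100 := by
            have h2 : 2*ε*(tp-t) ≤ 3/1000 := by
              have : tp - t ≤ 3/2 := by linarith [ht.1]
              nlinarith
            calc Real.exp (2*ε*(tp-t)) ≤ Real.exp (3/1000) := Real.exp_le_exp.2 h2
              _ ≤ 101/100 := by
                have := Real.exp_bound_div_one_sub_of_interval (x := 3/1000) (by norm_num) (by norm_num)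
                refine this.trans ?_
                norm_num
          have h3 := h.Xpos t
          nlinarith
      _ ≤ ∫⁻ t in Ioo al tp, ENNReal.ofReal (ρ t * (KK η (X t) * Phi (-(v t)))) :=
          lintegral_mono_set (Ioo_subset_Ioo_left (by linarith))
      _ ≤ _ := by
          apply lintegral_mono
          intro t
          apply ENNReal.ofReal_le_ofReal
          unfold ro
          linarith [hro1 t]
  · push Not at hX
    -- the mass near `al`
    have hunit : ∀ t ∈ Ioo al (al+1), ρ (al+1) * (KK η (X t) * m0 + (1 - KK η (X t)) * c0) ≤ ro η L c0 c1 X ρ v t := by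
      intro t ht
      have ht1 : t ≤ tp := by linarith [ht.2]
      have hn := hnd t ⟨ht.1, ht1⟩
      have hρt : ρ (al+1) ≤ ρ t := h.ρanti ht.2.le (by linarith [hsq t ht.1.le])
      have h1 : KK η (X t) * m0 ≤ KK η (X t) * Phi (-(v t)) := by
        apply mul_le_mul_of_nonneg_left _ (KK_nonneg _ _)
        rw [hm0]
        refine (min_le_left _ _).trans (strictMono_Phi.monotone ?_)
        have := h.Xmono ht1
        linarith
      have h2 : (1 - KK η (X t)) * c0 ≤ c0 * (1 - KK η (X t)) * ee L c1 (v t) := by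
        rcases lt_or_ge (KK η (X t)) 1 with h3 | h3
        · rw [h.ee_one hη hη1 hε.le hε1 hL hd ht.1.le ht.2.le hn h3]; linarith
        · have : KK η (X t) = 1 := le_antisymm (KK_le_one _ _) h3
          rw [this]; simp
      have h4 : 0 ≤ KK η (X t) * m0 + (1 - KK η (X t)) * c0 := by
        have := KK_nonneg η (X t)
        have : 0 ≤ 1 - KK η (X t) := by linarith [KK_le_one η (X t)]
        positivity
      have h5 := h.ρpos t
      unfold ro
      calc ρ (al+1) * (KK η (X t) * m0 + (1 - KK η (X t)) * c0) ≤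
          ρ t * (KK η (X t) * m0 + (1 - KK η (X t)) * c0) := by gcongr
        _ ≤ ρ t * (KK η (X t) * Phi (-(v t)) + c0 * (1 - KK η (X t)) * ee L c1 (v t)) := by gcongr
        _ = _ := by ring
    by_cases hTc : T < tp - al
    · -- case (B)
      refine ⟨tp, le_rfl, fun s hs => ?_, ?_⟩
      · have : s = tp := le_antisymm hs.2 hs.1
        rw [this]; exact hnd tp ⟨hlt, le_rfl⟩
      have hdec := h.ρdec (al+1) tp (by linarith)
      have hsq1 := hsq (al+1) (by linarith)
      have hρ1 := h.ρpos (al+1)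
      have hex : Real.exp (-((X (al+1))^2 - 2*ε)*(tp-(al+1))) ≤ δ * m0 := by
        have h1 : 1/(δ*m0) ≤ (X (al+1)^2 - 2*ε)*(tp-(al+1)) := by
          have h2 : δ ≤ X (al+1)^2 - 2*ε := by linarith
          have h3 : 1/(δ^2*m0) ≤ tp - (al+1) := by linarith
          have h7 : 0 ≤ X (al+1)^2 - 2*ε := by linarith
          calc 1/(δ*m0) = δ * (1/(δ^2*m0)) := by field_simp
            _ ≤ _ := mul_le_mul h2 h3 (by positivity) h7
        have h4 : Real.exp (-((X (al+1))^2 - 2*ε)*(tp-(al+1))) ≤ Real.exp (-(1/(δ*m0))) := by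
          apply Real.exp_le_exp.2; linarith
        refine h4.trans ?_
        rw [Real.exp_neg]
        have h5 := Real.add_one_le_exp (1/(δ*m0))
        have h6 : 0 < 1/(δ*m0) := by positivity
        calc (Real.exp (1/(δ*m0)))⁻¹ ≤ (1/(δ*m0))⁻¹ := by
              apply inv_anti₀ h6; linarith
          _ = δ * m0 := by rw [one_div, inv_inv]
      calc ∫⁻ t in Ioi tp, ENNReal.ofReal (ρ t * KK η (X t))
          ≤ ∫⁻ t in Ioi tp, ENNReal.ofReal (ρ t) := by
            apply lintegral_mono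
            intro t
            apply ENNReal.ofReal_le_ofReal
            have := KK_le_one η (X t)
            have := h.ρpos t
            nlinarith
        _ ≤ ENNReal.ofReal (ρ tp / δ) := h.tail hδ0 (by linarith [hsq tp hlt.le])
        _ ≤ ENNReal.ofReal (ρ (al+1) * m0) := by
            apply ENNReal.ofReal_le_ofReal
            rw [div_le_iff₀ hδ0]
            calc ρ tp ≤ _ := hdec
              _ ≤ ρ (al+1) * (δ * m0) := by gcongr
              _ = _ := by ring
        _ ≤ ∫⁻ t in Ioo al (al+1), ENNReal.ofReal (ro η L c0 c1 X ρ v t) := by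
            apply unit_lower
            intro t ht
            refine le_trans ?_ (hunit t ht)
            have h1 := KK_nonneg η (X t)
            have h2 := KK_le_one η (X t)
            have h3 : m0 ≤ c0 := by rw [hm0]; exact min_le_right _ _
            have h4 : m0 ≤ KK η (X t) * m0 + (1 - KK η (X t)) * c0 := by nlinarith
            gcongr
        _ ≤ _ := lintegral_mono_set (Ioo_subset_Ioo_right (by linarith))
    · -- case (C)
      push Not at hTc
      obtain ⟨hnd2, hC1⟩ := hC al tp hlt hal hd hnd htp hX hTc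
      refine ⟨tp + T', by linarith, hnd2, ?_⟩
      set a2 := X tp ^ 2 with ha2
      set Kp := KK η (X tp) with hKp
      have ha2p : 2*δ ≤ a2 := hsq tp hlt.le
      have ha2pos : 0 < a2 := by linarith
      have hKp0 : 0 ≤ Kp := KK_nonneg _ _
      have hKp1 : Kp ≤ 1 := KK_le_one _ _
      set J := ∫ t in al..(tp + T'), Phi (-(v t)) * ρ t with hJ
      have hJ1 : (1+c) * ρ tp / a2 ≤ J := by rw [div_le_iff₀ ha2pos]; linarith
      have hδ2 : δ ≤ a2 - 2*ε := by linarith
      have hT0 : 0 ≤ T := by linarith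
      -- left side
      have hleft : ∫⁻ t in Ioi tp, ENNReal.ofReal (ρ t * KK η (X t)) ≤
          ENNReal.ofReal (ρ tp * (Kp/(a2-2*ε) + 16*ε/(a2-2*ε)^2)) := by
        calc _ ≤ ∫⁻ t in Ioi tp, ENNReal.ofReal (ρ t * (Kp + 4*ε*(t-tp))) := by
              apply setLIntegral_mono' measurableSet_Ioi
              intro t ht
              apply ENNReal.ofReal_le_ofReal
              have h1 := h.KK_orbit hη hε.le (le_of_lt ht)
              have h2 := h.ρpos t
              gcongr
          _ ≤ _ := by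
              refine (h.tail_w (by linarith) le_rfl hKp0 (by linarith)).trans ?_
              apply ENNReal.ofReal_le_ofReal
              rw [← ha2]
              apply le_of_eq; ring
      -- right side, first part
      set k := max (Kp - 4*ε*T) 0 with hk
      have hk0 : 0 ≤ k := le_max_right _ _
      have hKlow : ∀ t ∈ Ioo al (tp+T'), k ≤ KK η (X t) := by
        intro t ht
        apply max_le _ (KK_nonneg _ _)
        rcases le_total t tp with h1 | h1
        · have h2 := h.KK_orbit hη hε.le h1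
          have h3 : 4*ε*(tp-t) ≤ 4*ε*T := by
            have : tp - t ≤ T := by linarith [ht.1]
            gcongr
          linarith
        · have h2 := KK_mono hη (h.Xmono h1)
          have : 0 ≤ 4*ε*T := by positivity
          linarith
      have hsoft := h.soft_lower (a := al) (b := tp+T') (by linarith) hk0 hKlow
      have hro_sum : ∀ S : Set ℝ, ∫⁻ t in S, ENNReal.ofReal (ro η L c0 c1 X ρ v t) =
          (∫⁻ t in S, ENNReal.ofReal (ρ t * (KK η (X t) * Phi (-(v t))))) +
          ∫⁻ t in S, ENNReal.ofReal (ρ t * (c0 * (1 - KK η (X t)) * ee L c1 (v t))) := by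
        intro S
        rw [← lintegral_add_left]
        · apply lintegral_congr
          intro t
          unfold ro
          rw [ENNReal.ofReal_add (hro0 t) (hro1 t)]
        · have m1 : Measurable fun t => KK η (X t) := ((continuous_KK η).comp h.cX).measurable
          have m2 : Measurable fun t => Phi (-(v t)) := (continuous_Phi.comp h.cv.neg).measurable
          exact (h.cρ.measurable.mul (m1.mul m2)).ennreal_ofReal
      refine hleft.trans ?_
      have hJ0 : 0 ≤ J := le_trans (by positivity) hJ1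
      by_cases hKh : 1/2 ≤ Kp
      · -- large weight
        have hkey : ρ tp * (Kp/(a2-2*ε) + 16*ε/(a2-2*ε)^2) ≤ k * J := by
          have h1 : k * ((1+c) * ρ tp / a2) ≤ k * J := by gcongr
          refine le_trans ?_ h1
          have h2 : Kp - 4*ε*T ≤ k := le_max_left _ _
          have h3 : (Kp - 4*ε*T) * ((1+c) * ρ tp / a2) ≤ k * ((1+c) * ρ tp / a2) := by gcongr
          refine le_trans ?_ h3
          -- divide by ρ tp
          have e1 : (Kp - 4*ε*T) * ((1+c) * ρ tp / a2) = ρ tp * ((Kp - 4*ε*T) * (1+c) / a2) := by ring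
          rw [e1]
          apply mul_le_mul_of_nonneg_left _ hρp.le
          -- 1/(a2-2ε) ≤ (1+2ε/δ)/a2 ; 
          have hd0 : 0 < a2 - 2*ε := by linarith
          have f1 : a2/(a2-2*ε) ≤ 1 + 2*ε/δ := by
            rw [div_le_iff₀ hd0]
            have : 2*ε/δ*(a2 - 2*ε) ≥ 2*ε := by
              rw [ge_iff_le, ← sub_nonneg]
              have : 2*ε/δ*(a2 - 2*ε) - 2*ε = 2*ε/δ*(a2 - 2*ε - δ) := by field_simp
              rw [this]
              apply mul_nonneg (by positivity) (by linarith)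
            linarith
          have f2 : 1 + 2*ε/δ ≤ 2 := by
            have : 2*ε/δ ≤ 1 := by rw [div_le_one hδ0]; exact hε2
            linarith
          have f3 : 16*ε*(a2/(a2-2*ε))*(1/(a2-2*ε)) ≤ 32*ε/δ := by
            have : 1/(a2-2*ε) ≤ 1/δ := one_div_le_one_div_of_le hδ0 hδ2
            calc 16*ε*(a2/(a2-2*ε))*(1/(a2-2*ε)) ≤ 16*ε*2*(1/δ) := by
                  gcongr
                  linarith
              _ = 32*ε/δ := by ring
          have f0 : 0 ≤ a2/(a2-2*ε) := by positivity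
          rw [le_div_iff₀ ha2pos]
          have f4 : (Kp/(a2-2*ε) + 16*ε/(a2-2*ε)^2) * a2 =
              Kp * (a2/(a2-2*ε)) + 16*ε*(a2/(a2-2*ε))*(1/(a2-2*ε)) := by
            field_simp
          rw [f4]
          have f5 : Kp * (a2/(a2-2*ε)) ≤ Kp + 2*ε/δ := by
            calc Kp * (a2/(a2-2*ε)) ≤ Kp * (1 + 2*ε/δ) := by gcongr
              _ = Kp + Kp*(2*ε/δ) := by ring
              _ ≤ Kp + 1*(2*ε/δ) := by gcongr
              _ = _ := by ring
          have f6 : ε*(8*T + 34/δ) = 8*ε*T + 34*(ε/δ) := by ring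
          have f7 : 2*ε/δ = 2*(ε/δ) := by ring
          have f8 : 32*ε/δ = 32*(ε/δ) := by ring
          have f9 : 4*ε*T*(1+c) ≤ 8*ε*T := by
            have : 0 ≤ 4*ε*T := by positivity
            nlinarith
          nlinarith [f5, f3]
        calc ENNReal.ofReal (ρ tp * (Kp/(a2-2*ε) + 16*ε/(a2-2*ε)^2)) ≤ ENNReal.ofReal (k * J) :=
              ENNReal.ofReal_le_ofReal hkey
          _ ≤ _ := hsoft
          _ ≤ _ := by rw [hro_sum]; exact le_self_add
      · -- small weight
        push Not at hKh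
        have hsmall : ENNReal.ofReal (ρ tp * (c0/2)) ≤
            ∫⁻ t in Ioo al (tp+T'), ENNReal.ofReal (ρ t * (c0 * (1 - KK η (X t)) * ee L c1 (v t))) := by
          calc ENNReal.ofReal (ρ tp * (c0/2)) ≤
              ∫⁻ t in Ioo al (al+1), ENNReal.ofReal (ρ t * (c0 * (1 - KK η (X t)) * ee L c1 (v t))) := by
                apply unit_lower
                intro t ht
                have ht1 : t ≤ tp := by linarith [ht.2]
                have hn := hnd t ⟨ht.1, ht1⟩
                have hKt : KK η (X t) ≤ Kp := KK_mono hη (h.Xmono ht1)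
                rw [h.ee_one hη hη1 hε.le hε1 hL hd ht.1.le ht.2.le hn (by linarith)]
                have hρt : ρ tp ≤ ρ t := h.ρanti ht1 (by linarith [hsq t ht.1.le])
                have h6 : 1/2 ≤ 1 - KK η (X t) := by linarith
                have h7 := h.ρpos t
                calc ρ tp * (c0/2) ≤ ρ t * (c0 * (1/2) * 1) := by
                      rw [show c0 * (1/2) * 1 = c0/2 by ring]; gcongr
                  _ ≤ _ := by gcongr
            _ ≤ _ := lintegral_mono_set (Ioo_subset_Ioo_right (by linarith))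
        have hkey : ρ tp * (Kp/(a2-2*ε) + 16*ε/(a2-2*ε)^2) ≤ k * J + ρ tp * (c0/2) := by
          have h1 : k * (ρ tp / a2) ≤ k * J := by
            have : ρ tp / a2 ≤ (1+c) * ρ tp / a2 := by
              gcongr
              nlinarith
            gcongr
            linarith
          have h2 : Kp - 4*ε*T ≤ k := le_max_left _ _
          have h3 : (Kp - 4*ε*T) * (ρ tp / a2) ≤ k * (ρ tp / a2) := by gcongr
          have hd0 : 0 < a2 - 2*ε := by linarith
          have g1 : Kp/(a2-2*ε) - Kp/a2 ≤ ε*(1/(2*δ^2)) := by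
            have : Kp/(a2-2*ε) - Kp/a2 = Kp * (2*ε) / ((a2-2*ε)*a2) := by
              field_simp; ring
            rw [this]
            calc Kp * (2*ε) / ((a2-2*ε)*a2) ≤ (1/2) * (2*ε) / (δ*(2*δ)) := by
                  gcongr
              _ = ε*(1/(2*δ^2)) := by field_simp
          have g2 : 4*ε*T/a2 ≤ ε*(2*T/δ) := by
            calc 4*ε*T/a2 ≤ 4*ε*T/(2*δ) := by gcongr
              _ = _ := by field_simp; ring
          have g3 : 16*ε/(a2-2*ε)^2 ≤ ε*(16/δ^2) := by
            calc 16*ε/(a2-2*ε)^2 ≤ 16*ε/δ^2 := by gcongr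
              _ = _ := by ring
          have g4 : Kp/(a2-2*ε) + 16*ε/(a2-2*ε)^2 ≤ (Kp - 4*ε*T)/a2 + c0/2 := by
            have : (Kp - 4*ε*T)/a2 = Kp/a2 - 4*ε*T/a2 := by ring
            rw [this]
            have e5 : ε*(1/(2*δ^2) + 2*T/δ + 16/δ^2) = ε*(1/(2*δ^2)) + ε*(2*T/δ) + ε*(16/δ^2) := by ring
            linarith
          calc ρ tp * (Kp/(a2-2*ε) + 16*ε/(a2-2*ε)^2) ≤ ρ tp * ((Kp - 4*ε*T)/a2 + c0/2) := by gcongr
            _ = (Kp - 4*ε*T) * (ρ tp / a2) + ρ tp * (c0/2) := by ring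
            _ ≤ _ := by linarith
        calc ENNReal.ofReal (ρ tp * (Kp/(a2-2*ε) + 16*ε/(a2-2*ε)^2))
            ≤ ENNReal.ofReal (k * J + ρ tp * (c0/2)) := ENNReal.ofReal_le_ofReal hkey
          _ = ENNReal.ofReal (k * J) + ENNReal.ofReal (ρ tp * (c0/2)) :=
              ENNReal.ofReal_add (by positivity) (by positivity)
          _ ≤ _ := by rw [hro_sum]; exact add_le_add hsoft hsmall

end Crest.Agent.R239.Glue
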