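import Crest.Agent.R239.Glue261

/-! R239, (F1)/(PW'): gluing for one orbit, part 2 (helper261). -/

set_option autoImplicit false
open MeasureTheory Set Filter Topology
open scoped ENNReal NNReal

namespace Crest.Agent.R239.Glue

open Crest.Agent.Lib.Ehrhard

variable {η ε L c c0 c1 T T' X2 : ℝ} {X ρ v : ℝ → ℝ} {B : Set ℝ}

lemma exp_tiny : Real.exp (3/1000) ≤ 101/100 := by
  have := Real.exp_bound_div_one_sub_of_interval (x := 3/1000) (by norm_num) (by norm_num)
  refine this.trans ?_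
  norm_num

/-- one step (length at most one) of the decay of `ρ exp(-c1 v₋)`. -/
lemma Orb.q_step (h : Orb ε X ρ v B) (hη : 0 < η) (hη1 : η ≤ 1/10) (hε : 0 ≤ ε) (hε1 : ε ≤ 1/1000)
    (hε2 : ε ≤ η^2/512) {s t : ℝ} (hst : s ≤ t) (hts : t - s ≤ 1) (hs : η/8 ≤ X s) :
    ρ t * Real.exp (-(η/64 * max (-(v t)) 0)) ≤
      ρ s * Real.exp (-(η/64 * max (-(v s)) 0)) * Real.exp (-(η^2/128)*(t-s)) := by
  have h1 := h.ρdec s t hst
  have h0 : 0 ≤ t - s := by linarith
  have hX := h.Xgrow s t hst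
  have hX0 := h.Xpos s
  have e1 : Real.exp (2*ε*(t-s)) ≤ 101/100 := by
    refine (Real.exp_le_exp.2 ?_).trans exp_tiny
    nlinarith
  have hX2 : X t ≤ 101/100 * X s := by nlinarith
  have hv := abs_le.1 (h.vlip s t hst)
  have hm : max (-(v s)) 0 ≤ max (-(v t)) 0 + 11/10*X t*(t-s) := by
    have h3 := h.Xpos t
    have h4 : 0 ≤ 11/10*X t*(t-s) := by positivity
    apply max_le
    · have := le_max_left (-(v t)) 0
      linarith [hv.1, hv.2]
    · have := le_max_right (-(v t)) 0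
      linarith
  have hρ := h.ρpos s
  calc ρ t * Real.exp (-(η/64 * max (-(v t)) 0)) ≤
      (ρ s * Real.exp (-((X s)^2 - 2*ε)*(t-s))) *
        Real.exp (-(η/64 * (max (-(v s)) 0 - 11/10*X t*(t-s)))) := by
        gcongr
        linarith
    _ = ρ s * Real.exp (-(η/64 * max (-(v s)) 0)) *
        Real.exp (-((X s)^2 - 2*ε)*(t-s) + η/64*(11/10*X t*(t-s))) := by
        rw [mul_assoc (ρ s), mul_assoc (ρ s), ← Real.exp_add, ← Real.exp_add]
        congr 2
        ring
    _ ≤ _ := by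
        apply mul_le_mul_of_nonneg_left _ (by positivity)
        apply Real.exp_le_exp.2
        have h5 : η/64*(11/10*X t*(t-s)) ≤ η/64*(11/10*(101/100*X s)*(t-s)) := by gcongr
        have h6 : η^2/128 ≤ (X s)^2 - 2*ε - η/64*(11/10*(101/100*X s)) := by
          nlinarith [mul_nonneg (sub_nonneg.2 hs) (sub_nonneg.2 hs), mul_nonneg (sub_nonneg.2 hs) hη.le]
        nlinarith

lemma Orb.q_dec (h : Orb ε X ρ v B) (hη : 0 < η) (hη1 : η ≤ 1/10) (hε : 0 ≤ ε) (hε1 : ε ≤ 1/1000)
    (hε2 : ε ≤ η^2/512) (n : ℕ) : ∀ s t : ℝ, s ≤ t → t - s ≤ n → η/8 ≤ X s →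
    ρ t * Real.exp (-(η/64 * max (-(v t)) 0)) ≤
      ρ s * Real.exp (-(η/64 * max (-(v s)) 0)) * Real.exp (-(η^2/128)*(t-s)) := by
  induction n with
  | zero =>
    intro s t hst hts hs
    apply h.q_step hη hη1 hε hε1 hε2 hst _ hs
    simp at hts; linarith
  | succ n ih =>
    intro s t hst hts hs
    rcases le_total (t - s) 1 with h1 | h1
    · exact h.q_step hη hη1 hε hε1 hε2 hst h1 hs
    · have h2 := h.q_step hη hη1 hε hε1 hε2 (s := s) (t := s+1) (by linarith) (by linarith) hs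
      have h3 := ih (s+1) t (by linarith) (by push_cast at hts; linarith)
        (hs.trans (h.Xmono (by linarith)))
      refine h3.trans ?_
      calc ρ (s+1) * Real.exp (-(η/64 * max (-(v (s+1))) 0)) * Real.exp (-(η^2/128)*(t-(s+1)))
          ≤ (ρ s * Real.exp (-(η/64 * max (-(v s)) 0)) * Real.exp (-(η^2/128)*(s+1-s))) *
            Real.exp (-(η^2/128)*(t-(s+1))) := by gcongr
        _ = _ := by
          rw [mul_assoc, ← Real.exp_add]
          congr 2; ring

lemma Phi_le_exp_neg {c1 w : ℝ} (hc1 : c1 ≤ 1) :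
    Phi w ≤ Real.exp (-(c1 * max (-w) 0)) := by
  rcases le_total 0 w with h | h
  · rw [max_eq_right (by linarith)]
    simpa using (Phi_lt_one w).le
  · rw [max_eq_left (by linarith)]
    -- Φ(w) ≤ e^{w} ≤ e^{c1 w}
    have h1 : Phi w ≤ Real.exp w := by
      have h2 : ∀ t, phi t ≤ Real.exp t := by
        intro t
        unfold phi
        have hc : (Real.sqrt (2 * Real.pi))⁻¹ ≤ 1/2 := by
          rw [inv_le_comm₀ (by positivity) (by norm_num)]
          apply Real.le_sqrt_of_sq_le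
          nlinarith [Real.pi_gt_three]
        have h2 : Real.exp (-t^2/2) ≤ Real.exp (1/2) * Real.exp t := by
          rw [← Real.exp_add]
          apply Real.exp_le_exp.2
          nlinarith [sq_nonneg (t + 1)]
        have h3 : Real.exp (1/2) ≤ 2 := by
          have := Real.exp_bound_div_one_sub_of_interval (x := 1/2) (by norm_num) (by norm_num)
          refine this.trans ?_
          norm_num
        have h4 := Real.exp_pos t
        have h5 := Real.exp_pos (-t^2/2)
        have h6 : Real.exp (1/2) * Real.exp t ≤ 2 * Real.exp t := mul_le_mul_of_nonneg_right h3 h4.le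
        calc (Real.sqrt (2 * Real.pi))⁻¹ * Real.exp (-t^2/2) ≤ 1/2 * Real.exp (-t^2/2) :=
              mul_le_mul_of_nonneg_right hc h5.le
          _ ≤ Real.exp t := by linarith
      unfold Phi
      rw [← integral_exp_Iic]
      exact integral_mono integrable_phi.integrableOn (integrableOn_exp_Iic _) h2
    refine h1.trans (Real.exp_le_exp.2 ?_)
    nlinarith

lemma lo_nonneg (h : Orb ε X ρ v B) (t : ℝ) : 0 ≤ lo η X ρ B t := by
  unfold lo
  have h1 := h.ρpos t
  have h2 := KK_nonneg η (X t)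
  have h3 : (0:ℝ) ≤ B.indicator 1 t := indicator_nonneg (fun _ _ => zero_le_one) t
  positivity

lemma indic_le_one (B : Set ℝ) (t : ℝ) : B.indicator (1 : ℝ → ℝ) t ≤ 1 := by
  unfold indicator; split_ifs <;> simp

/-- the initial non-deep stretch. -/
lemma Orb.start (h : Orb ε X ρ v B) (hη : 0 < η) (hη1 : η ≤ 1/10)
    (hc0 : 0 < c0) {δ Λ : ℝ} (hδ : δ = η^2/128) (hΛ : 1 + 1/(δ^2*c0) ≤ Λ)
    (hε : 0 < ε) (hε1 : ε ≤ 1/1000) (hε2 : ε ≤ η^2/512) (hε3 : 2*ε*Λ ≤ 1/2)
    {τ0 : ℝ} (hτ0 : X τ0 = η/8)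
    {S : Set ℝ} (hS : MeasurableSet S)
    (hconn : ∀ t ∈ S, Ioo τ0 t ⊆ S) (hnd : ∀ t ∈ S, v t < L + 16/5 * X t) :
    ∫⁻ t in S, ENNReal.ofReal (lo η X ρ B t) ≤
      ∫⁻ t in S, ENNReal.ofReal (ro η L c0 (η/64) X ρ v t) := by
  have hδ0 : 0 < δ := by rw [hδ]; positivity
  have hro0 : ∀ t, 0 ≤ ρ t * (KK η (X t) * Phi (-(v t))) := fun t => by
    have := h.ρpos t; have := KK_nonneg η (X t); have := Phi_nonneg (-(v t)); positivity
  have hro1 : ∀ t, 0 ≤ ρ t * (c0 * (1 - KK η (X t)) * ee L (η/64) (v t)) := fun t => by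
    have h1 := h.ρpos t
    have h2 := KK_le_one η (X t)
    have h3 := ee_nonneg L (η/64) (v t)
    have : 0 ≤ 1 - KK η (X t) := by linarith
    positivity
  set q : ℝ → ℝ := fun t => ρ t * Real.exp (-(η/64 * max (-(v t)) 0)) with hq
  have hqpos : ∀ t, 0 < q t := fun t => mul_pos (h.ρpos t) (Real.exp_pos _)
  have mKK : Measurable fun t => KK η (X t) := ((continuous_KK η).comp h.cX).measurable
  have mPhi : Measurable fun t => Phi (-(v t)) := (continuous_Phi.comp h.cv.neg).measurable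
  -- K > 0 forces t > τ0 + Λ
  have hKΛ : ∀ t, t ≤ τ0 + Λ → KK η (X t) = 0 := by
    intro t ht
    apply KK_zero hη
    rcases le_total t τ0 with h1 | h1
    · have := h.Xmono h1; rw [hτ0] at this; linarith
    · have h2 := h.Xgrow τ0 t h1
      rw [hτ0] at h2
      have h3 : Real.exp (2*ε*(t-τ0)) ≤ 2 := by
        have h4 : 2*ε*(t-τ0) ≤ 1/2 := by
          refine le_trans ?_ hε3
          have : t - τ0 ≤ Λ := by linarith
          gcongr
        refine (Real.exp_le_exp.2 h4).trans ?_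
        have := Real.exp_bound_div_one_sub_of_interval (x := 1/2) (by norm_num) (by norm_num)
        refine this.trans ?_
        norm_num
      nlinarith
  -- pointwise bound of lo
  have hpt : ∀ t, ENNReal.ofReal (lo η X ρ B t) ≤ ENNReal.ofReal (ρ t * (KK η (X t) * Phi (-(v t)))) +
      (Ioi (τ0+Λ)).indicator (fun t => ENNReal.ofReal (q t)) t := by
    intro t
    by_cases ht : t ∈ Ioi (τ0+Λ)
    · rw [indicator_of_mem ht, ← ENNReal.ofReal_add (hro0 t) (hqpos t).le]
      apply ENNReal.ofReal_le_ofReal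
      unfold lo
      have h1 := h.ρpos t
      have h2 := KK_nonneg η (X t)
      have h3 := KK_le_one η (X t)
      have h4 : Phi (-(v t)) = 1 - Phi (v t) := Phi_neg _
      have h5 := Phi_le_exp_neg (c1 := η/64) (w := v t) (by linarith)
      have h6 := indic_le_one B t
      have h7 : KK η (X t) * B.indicator 1 t ≤ KK η (X t) * Phi (-(v t)) + Real.exp (-(η/64 * max (-(v t)) 0)) := by
        rw [h4]
        have h8 := Phi_nonneg (v t)
        have h9 : KK η (X t) * B.indicator 1 t ≤ KK η (X t) * 1 := by gcongr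
        nlinarith
      calc ρ t * (KK η (X t) * B.indicator 1 t) ≤
          ρ t * (KK η (X t) * Phi (-(v t)) + Real.exp (-(η/64 * max (-(v t)) 0))) := by gcongr
        _ = _ := by rw [hq]; ring
    · have h1 : KK η (X t) = 0 := hKΛ t (not_lt.1 ht)
      unfold lo
      rw [h1]; simp
  have hsum : ∫⁻ t in S, ENNReal.ofReal (ro η L c0 (η/64) X ρ v t) =
      (∫⁻ t in S, ENNReal.ofReal (ρ t * (KK η (X t) * Phi (-(v t))))) +
      ∫⁻ t in S, ENNReal.ofReal (ρ t * (c0 * (1 - KK η (X t)) * ee L (η/64) (v t))) := by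
    rw [← lintegral_add_left]
    · apply lintegral_congr
      intro t
      unfold ro
      rw [ENNReal.ofReal_add (hro0 t) (hro1 t)]
    · exact (h.cρ.measurable.mul (mKK.mul mPhi)).ennreal_ofReal
  have hle : ∫⁻ t in S, ENNReal.ofReal (lo η X ρ B t) ≤
      (∫⁻ t in S, ENNReal.ofReal (ρ t * (KK η (X t) * Phi (-(v t))))) +
      ∫⁻ t in S, (Ioi (τ0+Λ)).indicator (fun t => ENNReal.ofReal (q t)) t := by
    refine (lintegral_mono hpt).trans ?_
    rw [lintegral_add_left]
    exact (h.cρ.measurable.mul (mKK.mul mPhi)).ennreal_ofReal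
  refine hle.trans ?_
  rw [hsum]
  refine add_le_add le_rfl ?_
  by_cases hemp : ∃ t ∈ S, τ0 + Λ < t
  · obtain ⟨t1, ht1S, ht1⟩ := hemp
    have hΛ1 : 1 ≤ Λ := by
      have : 0 < 1/(δ^2*c0) := by positivity
      linarith
    have hX1 : η/8 ≤ X (τ0+1) := by rw [← hτ0]; exact h.Xmono (by linarith)
    -- upper bound
    have hup : ∫⁻ t in S, (Ioi (τ0+Λ)).indicator (fun t => ENNReal.ofReal (q t)) t ≤
        ENNReal.ofReal (c0 * q (τ0+1)) := by
      have hpt2 : ∀ t ∈ Ioi (τ0+Λ), q t ≤ q (τ0+1) * Real.exp (δ*(τ0+1)) * Real.exp (-δ*t) := by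
        intro t ht
        have h1 : τ0 + 1 ≤ t := by have : τ0 + Λ < t := ht; linarith
        have h2 := h.q_dec hη hη1 hε.le hε1 hε2 ⌈t-(τ0+1)⌉₊ (τ0+1) t h1 (Nat.le_ceil _) hX1
        have e : Real.exp (-(η^2/128)*(t-(τ0+1))) = Real.exp (δ*(τ0+1)) * Real.exp (-δ*t) := by
          rw [← Real.exp_add, hδ]; congr 1; ring
        calc q t ≤ q (τ0+1) * Real.exp (-(η^2/128)*(t-(τ0+1))) := h2
          _ = q (τ0+1) * Real.exp (δ*(τ0+1)) * Real.exp (-δ*t) := by
            rw [e]; ring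
      have hint : IntegrableOn (fun t => q (τ0+1) * Real.exp (δ*(τ0+1)) * Real.exp (-δ*t)) (Ioi (τ0+Λ)) :=
        (integrableOn_exp_mul_Ioi (by linarith) _).const_mul _
      calc ∫⁻ t in S, (Ioi (τ0+Λ)).indicator (fun t => ENNReal.ofReal (q t)) t
          ≤ ∫⁻ t, (Ioi (τ0+Λ)).indicator (fun t => ENNReal.ofReal (q t)) t := setLIntegral_le_lintegral _ _
        _ = ∫⁻ t in Ioi (τ0+Λ), ENNReal.ofReal (q t) := lintegral_indicator measurableSet_Ioi _
        _ ≤ ∫⁻ t in Ioi (τ0+Λ), ENNReal.ofReal (q (τ0+1) * Real.exp (δ*(τ0+1)) * Real.exp (-δ*t)) := by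
            apply setLIntegral_mono' measurableSet_Ioi
            intro t ht
            exact ENNReal.ofReal_le_ofReal (hpt2 t ht)
        _ = ENNReal.ofReal (∫ t in Ioi (τ0+Λ), q (τ0+1) * Real.exp (δ*(τ0+1)) * Real.exp (-δ*t)) := by
            refine (ofReal_integral_eq_lintegral_ofReal (f := fun t => q (τ0+1) * Real.exp (δ*(τ0+1)) * Real.exp (-δ*t)) hint ?_).symm
            filter_upwards with t
            have := hqpos (τ0+1)
            simp only [Pi.zero_apply]
            positivity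
        _ ≤ _ := by
            apply ENNReal.ofReal_le_ofReal
            rw [integral_const_mul, integral_exp_mul_Ioi (by linarith)]
            have hq1 := hqpos (τ0+1)
            have e1 : q (τ0+1) * Real.exp (δ*(τ0+1)) * (-Real.exp (-δ*(τ0+Λ)) / (-δ)) =
                q (τ0+1) * (Real.exp (-(δ*(Λ-1))) / δ) := by
              rw [neg_div_neg_eq]
              calc _ = q (τ0+1) * (Real.exp (δ*(τ0+1)) * Real.exp (-δ*(τ0+Λ))) / δ := by ring
                _ = q (τ0+1) * (Real.exp (-(δ*(Λ-1)))) / δ := by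
                    rw [← Real.exp_add]; congr 3; ring
                _ = _ := by ring
            rw [e1, mul_comm c0]
            apply mul_le_mul_of_nonneg_left _ hq1.le
            rw [div_le_iff₀ hδ0, Real.exp_neg]
            have h5 := Real.add_one_le_exp (δ*(Λ-1))
            have h6 : 1/(δ*c0) ≤ δ*(Λ-1) := by
              calc 1/(δ*c0) = δ*(1/(δ^2*c0)) := by field_simp
                _ ≤ _ := by gcongr; linarith
            have h7 : 0 < 1/(δ*c0) := by positivity
            calc (Real.exp (δ*(Λ-1)))⁻¹ ≤ (1/(δ*c0))⁻¹ := inv_anti₀ h7 (by linarith)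
              _ = c0 * δ := by rw [one_div, inv_inv]; ring
    -- lower bound
    have hlow : ENNReal.ofReal (c0 * q (τ0+1)) ≤
        ∫⁻ t in S, ENNReal.ofReal (ρ t * (c0 * (1 - KK η (X t)) * ee L (η/64) (v t))) := by
      have hsub : Ioo τ0 (τ0+1) ⊆ S := (Ioo_subset_Ioo_right (by linarith)).trans (hconn t1 ht1S)
      refine le_trans ?_ (lintegral_mono_set hsub)
      apply unit_lower
      intro t ht
      have hK := hKΛ t (by linarith [ht.2])
      have hn := hnd t (hsub ht)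
      have hXt : X t ≤ η/4 := by
        by_contra hcon
        push Not at hcon
        have h2 := h.Xgrow τ0 t ht.1.le
        rw [hτ0] at h2
        have h3 : Real.exp (2*ε*(t-τ0)) ≤ 101/100 := by
          refine (Real.exp_le_exp.2 ?_).trans exp_tiny
          have : t - τ0 ≤ 1 := by linarith [ht.2]
          nlinarith
        nlinarith
      have hee : ee L (η/64) (v t) = Real.exp (-(η/64 * max (-(v t)) 0)) := by
        unfold ee; rw [if_pos]; linarith
      rw [hK, hee]
      have h2 := h.q_step hη hη1 hε.le hε1 hε2 (s := t) (t := τ0+1) ht.2.le (by linarith [ht.1])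
        (by rw [← hτ0]; exact h.Xmono ht.1.le)
      have h3 : Real.exp (-(η^2/128)*(τ0+1-t)) ≤ 1 := by
        rw [Real.exp_le_one_iff]
        have : 0 ≤ τ0 + 1 - t := by linarith [ht.2]
        nlinarith [sq_nonneg η]
      have h4 := hqpos t
      have h5 : q (τ0+1) ≤ q t := by
        calc q (τ0+1) ≤ q t * Real.exp (-(η^2/128)*(τ0+1-t)) := h2
          _ ≤ q t * 1 := by gcongr
          _ = q t := mul_one _
      calc c0 * q (τ0+1) ≤ c0 * q t := by gcongr
        _ = _ := by rw [hq]; ring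
    exact hup.trans hlow
  · push Not at hemp
    have : ∫⁻ t in S, (Ioi (τ0+Λ)).indicator (fun t => ENNReal.ofReal (q t)) t = 0 := by
      rw [setLIntegral_congr_fun (g := fun _ => 0) hS]
      · simp
      · intro t ht
        simp only
        rw [indicator_of_notMem]
        exact not_lt.2 (hemp t ht)
    rw [this]
    exact bot_le


lemma Orb.lo_le (h : Orb ε X ρ v B) (t : ℝ) : lo η X ρ B t ≤ ρ t * KK η (X t) := by
  unfold lo
  have h1 := h.ρpos t
  have h2 := KK_nonneg η (X t)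
  have h3 := indic_le_one B t
  calc ρ t * (KK η (X t) * B.indicator 1 t) ≤ ρ t * (KK η (X t) * 1) := by gcongr
    _ = _ := by ring

lemma lo_zero_of_notMem {t : ℝ} (ht : t ∉ B) : lo η X ρ B t = 0 := by
  unfold lo; rw [indicator_of_notMem ht]; simp

set_option maxHeartbeats 1000000 in
lemma Orb.recur (h : Orb ε X ρ v B) (hη : 0 < η) (hη1 : η ≤ 1/10) (hX2 : 1 ≤ X2) (hL : 1 ≤ L)
    (hc0 : 0 < c0) (hc : 0 < c) (hc1 : c ≤ 1) (hT' : 0 ≤ T')
    {δ m0 : ℝ} (hδ : δ = η^2/128) (hm0 : m0 = min (Phi (-(L + 16/5 * X2))) c0)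
    (hT : 1 + 1/(δ^2*m0) ≤ T) (hε : 0 < ε) (hε1 : ε ≤ 1/1000) (hε2 : 2*ε ≤ δ)
    (hε3 : ε*(8*T + 34/δ) ≤ c/2) (hε4 : ε*(1/(2*δ^2) + 2*T/δ + 16/δ^2) ≤ c0/2)
    (hA : HA η L X2 X ρ v B) (hC : HC η L X2 T T' c X ρ v B) (N : ℝ) (n : ℕ) :
    ∀ τ : ℝ, η/8 ≤ X τ → L + 16/5 * X τ ≤ v τ → N - τ ≤ n →
      ∫⁻ t in Ioi τ, ENNReal.ofReal (lo η X ρ B t) ≤
        (∫⁻ t in Ioi τ, ENNReal.ofReal (ro η L c0 c1 X ρ v t)) + ∫⁻ t in Ioi N, ENNReal.ofReal (ρ t) := by
  induction n with
  | zero =>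
    intro τ _ _ hN
    have hN' : N ≤ τ := by simp at hN; linarith
    calc ∫⁻ t in Ioi τ, ENNReal.ofReal (lo η X ρ B t) ≤ ∫⁻ t in Ioi τ, ENNReal.ofReal (ρ t) := by
          apply lintegral_mono
          intro t
          apply ENNReal.ofReal_le_ofReal
          refine (h.lo_le t).trans ?_
          have := h.ρpos t
          have := KK_le_one η (X t)
          nlinarith
      _ ≤ ∫⁻ t in Ioi N, ENNReal.ofReal (ρ t) := lintegral_mono_set (Ioi_subset_Ioi hN')
      _ ≤ _ := le_add_self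
  | succ n ih =>
    intro τ hτ hdτ hN
    have mro : Measurable fun t => ENNReal.ofReal (ro η L c0 c1 X ρ v t) := h.ro_meas.ennreal_ofReal
    by_cases hB : ∃ t ∈ B, τ < t
    · obtain ⟨tb, htb, htb1⟩ := hB
      set Bτ := B ∩ Ioi τ with hBτ
      have hne : Bτ.Nonempty := ⟨tb, htb, htb1⟩
      have hbb : BddBelow Bτ := ⟨τ, fun t ht => le_of_lt ht.2⟩
      set tp := sInf Bτ with htp
      have htpcl : tp ∈ closure B := closure_mono inter_subset_left (csInf_mem_closure hne hbb)
      have hvtp := h.closure_le htpcl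
      have hτtp : τ ≤ tp := le_csInf hne (fun t ht => le_of_lt ht.2)
      have hXτ := h.Xpos τ
      have hτtp' : τ < tp := by
        rcases hτtp.eq_or_lt with h1 | h1
        · rw [← h1] at hvtp; linarith
        · exact h1
      have hXtp := h.Xpos tp
      have hnob : ∀ t ∈ Ioo τ tp, t ∉ B := by
        intro t ht htB
        exact absurd (csInf_le hbb ⟨htB, ht.1⟩) (not_le.2 ht.2)
      -- last deep time
      set D := {s | s ∈ Icc τ tp ∧ L + 16/5 * X s ≤ v s} with hD
      have hDc : IsClosed D := by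
        apply isClosed_Icc.inter
        exact isClosed_le (continuous_const.add (continuous_const.mul h.cX)) h.cv
      have hDne : D.Nonempty := ⟨τ, ⟨le_rfl, hτtp⟩, hdτ⟩
      have hDb : BddAbove D := ⟨tp, fun s hs => hs.1.2⟩
      set al := sSup D with hal
      have halD : al ∈ D := hDc.csSup_mem hDne hDb
      have hτal : τ ≤ al := halD.1.1
      have haltp : al < tp := by
        rcases halD.1.2.eq_or_lt with h1 | h1
        · exfalso
          have := halD.2
          rw [h1] at this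
          linarith
        · exact h1
      have hnd : ∀ s ∈ Ioc al tp, v s < L + 16/5 * X s := by
        intro s hs
        by_contra hcon
        push Not at hcon
        have : s ∈ D := ⟨⟨hτal.trans hs.1.le, hs.2⟩, hcon⟩
        exact absurd (le_csSup hDb this) (not_le.2 hs.1)
      have hXal : η/8 ≤ X al := hτ.trans (h.Xmono hτal)
      obtain ⟨u, htpu, hndu, hLI⟩ := h.LI (c1 := c1) hη hη1 hX2 hL hc0 hc hc1 hT' hδ hm0 hT hε hε1 hε2 hε3 hε4
        hA hC haltp hXal halD.2 hnd htpcl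
      have hz : ∫⁻ t in Ioo τ tp, ENNReal.ofReal (lo η X ρ B t) = 0 := by
        rw [setLIntegral_congr_fun (g := fun _ => 0) measurableSet_Ioo]
        · simp
        · intro t ht
          simp only
          rw [lo_zero_of_notMem (hnob t ht)]; simp
      have hmid : ∀ S : Set ℝ, S ⊆ Ici tp → ∫⁻ t in S, ENNReal.ofReal (lo η X ρ B t) ≤
          ∫⁻ t in Ioo al u, ENNReal.ofReal (ro η L c0 c1 X ρ v t) := by
        intro S hS
        calc ∫⁻ t in S, ENNReal.ofReal (lo η X ρ B t) ≤ ∫⁻ t in Ici tp, ENNReal.ofReal (lo η X ρ B t) :=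
              lintegral_mono_set hS
          _ = ∫⁻ t in Ioi tp, ENNReal.ofReal (lo η X ρ B t) := setLIntegral_congr Ioi_ae_eq_Ici.symm
          _ ≤ ∫⁻ t in Ioi tp, ENNReal.ofReal (ρ t * KK η (X t)) := by
              apply lintegral_mono
              intro t
              exact ENNReal.ofReal_le_ofReal (h.lo_le t)
          _ ≤ _ := hLI
      by_cases hE : ∃ s, tp ≤ s ∧ L + 16/5 * X s ≤ v s
      · set E := {s | tp ≤ s ∧ L + 16/5 * X s ≤ v s} with hEd
        have hEc : IsClosed E := by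
          apply isClosed_Ici.inter
          exact isClosed_le (continuous_const.add (continuous_const.mul h.cX)) h.cv
        have hEne : E.Nonempty := hE
        have hEb : BddBelow E := ⟨tp, fun s hs => hs.1⟩
        set be := sInf E with hbe
        have hbeE : be ∈ E := hEc.csInf_mem hEne hEb
        have hube : u < be := by
          by_contra hcon
          push Not at hcon
          exact absurd (hndu be ⟨hbeE.1, hcon⟩) (not_lt.2 hbeE.2)
        have hgap := h.gap hε.le hε1 hL haltp.le halD.2 hvtp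
        have hih := ih be (hXal.trans (h.Xmono (haltp.le.trans hbeE.1))) hbeE.2
          (by push_cast at hN; linarith [hbeE.1])
        have hcov : Ioi τ ⊆ (Ioo τ tp ∪ Icc tp be) ∪ Ioi be := by
          intro t ht
          rcases lt_or_ge t tp with h1 | h1
          · exact Or.inl (Or.inl ⟨ht, h1⟩)
          · rcases le_or_gt t be with h2 | h2
            · exact Or.inl (Or.inr ⟨h1, h2⟩)
            · exact Or.inr h2
        have hdisj : Disjoint (Ioo al u) (Ioi be) := by
          rw [Set.disjoint_left]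
          intro t h1 h2
          have h3 : be < t := h2
          linarith [h1.2]
        calc ∫⁻ t in Ioi τ, ENNReal.ofReal (lo η X ρ B t)
            ≤ ∫⁻ t in (Ioo τ tp ∪ Icc tp be) ∪ Ioi be, ENNReal.ofReal (lo η X ρ B t) :=
              lintegral_mono_set hcov
          _ ≤ (∫⁻ t in Ioo τ tp ∪ Icc tp be, ENNReal.ofReal (lo η X ρ B t)) +
              ∫⁻ t in Ioi be, ENNReal.ofReal (lo η X ρ B t) := lintegral_union_le _ _ _
          _ ≤ ((∫⁻ t in Ioo τ tp, ENNReal.ofReal (lo η X ρ B t)) +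
              ∫⁻ t in Icc tp be, ENNReal.ofReal (lo η X ρ B t)) +
              ∫⁻ t in Ioi be, ENNReal.ofReal (lo η X ρ B t) := by
              gcongr
              exact lintegral_union_le _ _ _
          _ ≤ (0 + ∫⁻ t in Ioo al u, ENNReal.ofReal (ro η L c0 c1 X ρ v t)) +
              ((∫⁻ t in Ioi be, ENNReal.ofReal (ro η L c0 c1 X ρ v t)) + ∫⁻ t in Ioi N, ENNReal.ofReal (ρ t)) := by
              rw [hz]
              exact add_le_add (add_le_add le_rfl (hmid _ Icc_subset_Ici_self)) hih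
          _ = (∫⁻ t in Ioo al u ∪ Ioi be, ENNReal.ofReal (ro η L c0 c1 X ρ v t)) +
              ∫⁻ t in Ioi N, ENNReal.ofReal (ρ t) := by
              rw [lintegral_union measurableSet_Ioi hdisj, zero_add, add_assoc]
          _ ≤ _ := by
              gcongr
              apply union_subset
              · intro t ht
                exact lt_of_le_of_lt hτal ht.1
              · apply Ioi_subset_Ioi
                linarith [hbeE.1]
      · push Not at hE
        have hcov : Ioi τ ⊆ Ioo τ tp ∪ Ici tp := by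
          intro t ht
          rcases lt_or_ge t tp with h1 | h1
          · exact Or.inl ⟨ht, h1⟩
          · exact Or.inr h1
        calc ∫⁻ t in Ioi τ, ENNReal.ofReal (lo η X ρ B t)
            ≤ ∫⁻ t in Ioo τ tp ∪ Ici tp, ENNReal.ofReal (lo η X ρ B t) :=
              lintegral_mono_set hcov
          _ ≤ (∫⁻ t in Ioo τ tp, ENNReal.ofReal (lo η X ρ B t)) +
              ∫⁻ t in Ici tp, ENNReal.ofReal (lo η X ρ B t) := lintegral_union_le _ _ _
          _ ≤ 0 + ∫⁻ t in Ioo al u, ENNReal.ofReal (ro η L c0 c1 X ρ v t) := by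
              rw [hz]
              exact add_le_add le_rfl (hmid _ le_rfl)
          _ ≤ ∫⁻ t in Ioi τ, ENNReal.ofReal (ro η L c0 c1 X ρ v t) := by
              rw [zero_add]
              apply lintegral_mono_set
              intro t ht
              exact lt_of_le_of_lt hτal ht.1
          _ ≤ _ := le_self_add
    · push Not at hB
      have hz : ∫⁻ t in Ioi τ, ENNReal.ofReal (lo η X ρ B t) = 0 := by
        rw [setLIntegral_congr_fun (g := fun _ => 0) measurableSet_Ioi]
        · simp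
        · intro t ht
          simp only
          rw [lo_zero_of_notMem (fun htB => absurd (hB t htB) (not_le.2 ht))]; simp
      rw [hz]
      exact bot_le

/-- the orbit inequality with explicit constants. -/
lemma Orb.final (h : Orb ε X ρ v B) (hη : 0 < η) (hη1 : η ≤ 1/10) (hX2 : 1 ≤ X2) (hL : 1 ≤ L)
    (hc0 : 0 < c0) (hc : 0 < c) (hc1 : c ≤ 1) (hT' : 0 ≤ T')
    {δ m0 Λ : ℝ} (hδ : δ = η^2/128) (hm0 : m0 = min (Phi (-(L + 16/5 * X2))) c0)
    (hΛ : 1 + 1/(δ^2*c0) ≤ Λ)
    (hT : 1 + 1/(δ^2*m0) ≤ T) (hε : 0 < ε) (hε1 : ε ≤ 1/1000) (hε2 : 2*ε ≤ δ)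
    (hε3 : ε*(8*T + 34/δ) ≤ c/2) (hε4 : ε*(1/(2*δ^2) + 2*T/δ + 16/δ^2) ≤ c0/2)
    (hε5 : ε ≤ η^2/512) (hε6 : 2*ε*Λ ≤ 1/2)
    (hA : HA η L X2 X ρ v B) (hC : HC η L X2 T T' c X ρ v B) {τ0 : ℝ} (hτ0 : X τ0 = η/8) :
    ∫⁻ t, ENNReal.ofReal (lo η X ρ B t) ≤
        ∫⁻ t, ENNReal.ofReal (ro η L c0 (η/64) X ρ v t) := by
  have hδ0 : 0 < δ := by rw [hδ]; positivity
  -- reduction to the half line
  have hhalf : ∫⁻ t, ENNReal.ofReal (lo η X ρ B t) = ∫⁻ t in Ioi τ0, ENNReal.ofReal (lo η X ρ B t) := by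
    rw [← lintegral_indicator measurableSet_Ioi]
    apply lintegral_congr
    intro t
    by_cases ht : t ∈ Ioi τ0
    · rw [indicator_of_mem ht]
    · rw [indicator_of_notMem ht]
      have h1 : X t ≤ η/4 := by
        have := h.Xmono (not_lt.1 ht); rw [hτ0] at this; linarith
      unfold lo
      rw [KK_zero hη h1]; simp
  have hsq : ∀ t, τ0 ≤ t → 2*δ ≤ X t ^ 2 := fun t ht => by
    have := sq_ge hη (x := X t) (by rw [← hτ0]; exact h.Xmono ht)
    rw [hδ]; linarith
  -- it suffices to have the bound up to a tail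
  have key : ∀ N, τ0 ≤ N → ∫⁻ t in Ioi τ0, ENNReal.ofReal (lo η X ρ B t) ≤
      (∫⁻ t in Ioi τ0, ENNReal.ofReal (ro η L c0 (η/64) X ρ v t)) + ∫⁻ t in Ioi N, ENNReal.ofReal (ρ t) := by
    intro N hN
    have hrec := fun τ hτ hd => h.recur (c1 := η/64) hη hη1 hX2 hL hc0 hc hc1 hT' hδ hm0 hT hε hε1 hε2 hε3 hε4
      hA hC N ⌈N - τ⌉₊ τ hτ hd (Nat.le_ceil _)
    by_cases hd0 : L + 16/5 * X τ0 ≤ v τ0
    · exact hrec τ0 hτ0.ge hd0
    · by_cases hE : ∃ s, τ0 ≤ s ∧ L + 16/5 * X s ≤ v s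
      · set E := {s | τ0 ≤ s ∧ L + 16/5 * X s ≤ v s} with hEd
        have hEc : IsClosed E := by
          apply isClosed_Ici.inter
          exact isClosed_le (continuous_const.add (continuous_const.mul h.cX)) h.cv
        have hEb : BddBelow E := ⟨τ0, fun s hs => hs.1⟩
        set be := sInf E with hbe
        have hbeE : be ∈ E := hEc.csInf_mem hE hEb
        have hnd : ∀ t ∈ Ioo τ0 be, v t < L + 16/5 * X t := by
          intro t ht
          by_contra hcon
          push Not at hcon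
          exact absurd (csInf_le hEb ⟨ht.1.le, hcon⟩) (not_le.2 ht.2)
        have hst := h.start hη hη1 hc0 hδ hΛ hε hε1 hε5 hε6 hτ0 (S := Ioo τ0 be) measurableSet_Ioo
          (fun t ht => Ioo_subset_Ioo_right ht.2.le) hnd
        have h2 := hrec be (by rw [← hτ0]; exact h.Xmono hbeE.1) hbeE.2
        have hcov : Ioi τ0 ⊆ Ioc τ0 be ∪ Ioi be := by
          intro t ht
          rcases le_or_gt t be with h2 | h2
          · exact Or.inl ⟨ht, h2⟩
          · exact Or.inr h2
        have hdisj : Disjoint (Ioo τ0 be) (Ioi be) := by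
          rw [Set.disjoint_left]
          intro t h1 h2
          have h3 : be < t := h2
          linarith [h1.2]
        calc ∫⁻ t in Ioi τ0, ENNReal.ofReal (lo η X ρ B t)
            ≤ ∫⁻ t in Ioc τ0 be ∪ Ioi be, ENNReal.ofReal (lo η X ρ B t) := lintegral_mono_set hcov
          _ ≤ (∫⁻ t in Ioc τ0 be, ENNReal.ofReal (lo η X ρ B t)) +
              ∫⁻ t in Ioi be, ENNReal.ofReal (lo η X ρ B t) := lintegral_union_le _ _ _
          _ = (∫⁻ t in Ioo τ0 be, ENNReal.ofReal (lo η X ρ B t)) +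
              ∫⁻ t in Ioi be, ENNReal.ofReal (lo η X ρ B t) := by
              rw [setLIntegral_congr (Ioo_ae_eq_Ioc (a := τ0) (b := be)).symm]
          _ ≤ (∫⁻ t in Ioo τ0 be, ENNReal.ofReal (ro η L c0 (η/64) X ρ v t)) +
              ((∫⁻ t in Ioi be, ENNReal.ofReal (ro η L c0 (η/64) X ρ v t)) +
              ∫⁻ t in Ioi N, ENNReal.ofReal (ρ t)) := add_le_add hst h2
          _ = (∫⁻ t in Ioo τ0 be ∪ Ioi be, ENNReal.ofReal (ro η L c0 (η/64) X ρ v t)) +
              ∫⁻ t in Ioi N, ENNReal.ofReal (ρ t) := by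
              rw [lintegral_union measurableSet_Ioi hdisj, add_assoc]
          _ ≤ _ := by
              gcongr
              exact union_subset (fun t ht => ht.1) (Ioi_subset_Ioi hbeE.1)
      · push Not at hE
        have hst := h.start hη hη1 hc0 hδ hΛ hε hε1 hε5 hε6 hτ0 (S := Ioi τ0) measurableSet_Ioi
          (fun t ht => fun s hs => hs.1) (fun t ht => hE t (le_of_lt ht))
        exact hst.trans le_self_add
  rw [hhalf]
  refine le_trans ?_ (setLIntegral_le_lintegral (Ioi τ0) _)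
  apply ENNReal.le_of_forall_pos_le_add
  intro e he _
  have he' : (0:ℝ) < e := by exact_mod_cast he
  have hρ0 := h.ρpos τ0
  set N := τ0 + ρ τ0 / (δ^2 * e) with hN
  have hN0 : τ0 ≤ N := by
    have : 0 ≤ ρ τ0 / (δ^2 * e) := by positivity
    linarith
  refine (key N hN0).trans ?_
  gcongr
  calc ∫⁻ t in Ioi N, ENNReal.ofReal (ρ t) ≤ ENNReal.ofReal (ρ N / δ) :=
        h.tail hδ0 (by linarith [hsq N hN0])
    _ ≤ ENNReal.ofReal (e : ℝ) := by
        apply ENNReal.ofReal_le_ofReal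
        rw [div_le_iff₀ hδ0]
        have h1 := h.ρdec τ0 N hN0
        have h2 : Real.exp (-((X τ0)^2 - 2*ε)*(N-τ0)) ≤ δ * e / ρ τ0 := by
          have h3 : ρ τ0/(δ*e) ≤ ((X τ0)^2 - 2*ε)*(N-τ0) := by
            have h4 : δ ≤ (X τ0)^2 - 2*ε := by linarith [hsq τ0 le_rfl]
            have h5 : N - τ0 = ρ τ0 / (δ^2 * e) := by rw [hN]; ring
            rw [h5]
            calc ρ τ0/(δ*e) = δ * (ρ τ0 / (δ^2 * e)) := by field_simp
              _ ≤ _ := by gcongr
          have h6 : 0 < ρ τ0/(δ*e) := by positivity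
          calc Real.exp (-((X τ0)^2 - 2*ε)*(N-τ0)) ≤ Real.exp (-(ρ τ0/(δ*e))) := by
                apply Real.exp_le_exp.2; linarith
            _ = (Real.exp (ρ τ0/(δ*e)))⁻¹ := Real.exp_neg _
            _ ≤ (ρ τ0/(δ*e))⁻¹ := by
                apply inv_anti₀ h6
                have := Real.add_one_le_exp (ρ τ0/(δ*e))
                linarith
            _ = _ := by rw [inv_div]
        calc ρ N ≤ ρ τ0 * (δ * e / ρ τ0) := h1.trans (by gcongr)
          _ = e * δ := by field_simp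
    _ = e := ENNReal.ofReal_coe_nnreal

/-- **One orbit inequality (ORB').** -/
theorem orb_glue {η X2 L c c0 : ℝ} (hη : 0 < η) (hη1 : η ≤ 1/10) (hX2 : 1 ≤ X2) (hL : 1 ≤ L)
    (hc0 : 0 < c0) (hc : 0 < c) (hc1 : c ≤ 1) :
    ∃ T : ℝ, 0 < T ∧ ∀ T' : ℝ, 0 ≤ T' → ∃ ε0 : ℝ, 0 < ε0 ∧ ∀ ε : ℝ, 0 < ε → ε ≤ ε0 →
      ∀ (X ρ v : ℝ → ℝ) (B : Set ℝ), Orb ε X ρ v B → HA η L X2 X ρ v B → HC η L X2 T T' c X ρ v B →
      (∃ τ0, X τ0 = η/8) →
      ∫⁻ t, ENNReal.ofReal (lo η X ρ B t) ≤ ∫⁻ t, ENNReal.ofReal (ro η L c0 (η/64) X ρ v t) := by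
  set δ := η^2/128 with hδ
  have hδ0 : 0 < δ := by positivity
  set m0 := min (Phi (-(L + 16/5 * X2))) c0 with hm0
  have hm : 0 < m0 := lt_min (Phi_pos _) hc0
  set Λ := 1 + 1/(δ^2*c0) with hΛ
  have hΛ0 : 0 < Λ := by positivity
  set T := 1 + 1/(δ^2*m0) with hT
  have hT0 : 0 < T := by positivity
  refine ⟨T, hT0, fun T' hT' => ?_⟩
  set A1 := 8*T + 34/δ with hA1
  have hA10 : 0 < A1 := by positivity
  set A2 := 1/(2*δ^2) + 2*T/δ + 16/δ^2 with hA2
  have hA20 : 0 < A2 := by positivity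
  refine ⟨min (min (1/1000) (δ/4)) (min (min (c/(2*A1)) (c0/(2*A2))) (1/(4*Λ))), by positivity, ?_⟩
  intro ε hε hεle X ρ v B h hA hC ⟨τ0, hτ0⟩
  have e1 : ε ≤ 1/1000 := hεle.trans ((min_le_left _ _).trans (min_le_left _ _))
  have e2 : ε ≤ δ/4 := hεle.trans ((min_le_left _ _).trans (min_le_right _ _))
  have e3 : ε ≤ c/(2*A1) := hεle.trans ((min_le_right _ _).trans ((min_le_left _ _).trans (min_le_left _ _)))
  have e4 : ε ≤ c0/(2*A2) := hεle.trans ((min_le_right _ _).trans ((min_le_left _ _).trans (min_le_right _ _)))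
  have e5 : ε ≤ 1/(4*Λ) := hεle.trans ((min_le_right _ _).trans (min_le_right _ _))
  refine h.final hη hη1 hX2 hL hc0 hc hc1 hT' hδ hm0 le_rfl le_rfl hε e1 (by linarith) ?_ ?_ ?_ ?_ hA hC hτ0
  · calc ε * A1 ≤ c/(2*A1) * A1 := by gcongr
      _ = c/2 := by field_simp
  · calc ε * A2 ≤ c0/(2*A2) * A2 := by gcongr
      _ = c0/2 := by field_simp
  · rw [hδ] at e2; linarith
  · calc 2*ε*Λ ≤ 2*(1/(4*Λ))*Λ := by gcongr
      _ = 1/2 := by field_simp; norm_num

end Crest.Agent.R239.Glue
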