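import Crest.Agent.R239.Flat974

/-!
Row 239 (S0370), helper861: gluing of the near zone (Lemma G) and the far zone (line inequality)
for the passenger inequality with consumption constant one (posts #11342, #11481, #11572).

Part 1: the one-dimensional statement on one orbit (`orb_sum`).
-/

set_option autoImplicit false
open MeasureTheory Set Filter Topology
open scoped NNReal ENNReal

namespace Crest.Agent.R239.Glue861

open Crest.Agent.Lib.Ehrhard

/-- combinatorial lemma: one bad wall, all the others have a surplus. -/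
lemma comb {N : ℕ} (b n : Fin N → ℝ≥0∞) (i0 : Fin N) {A C c3 : ℝ≥0∞} (hA : C * A ≠ ∞)
    (h0 : b i0 ≤ n i0 + C * A) (h : ∀ i, i ≠ i0 → b i + c3 * A ≤ n i)
    (hN : C ≤ (N - 1 : ℕ) * c3) : ∑ i, b i ≤ ∑ i, n i := by
  classical
  have e1 : ∑ i, b i = b i0 + ∑ i ∈ Finset.univ.erase i0, b i :=
    (Finset.add_sum_erase _ _ (Finset.mem_univ i0)).symm
  have e2 : ∑ i, n i = n i0 + ∑ i ∈ Finset.univ.erase i0, n i :=
    (Finset.add_sum_erase _ _ (Finset.mem_univ i0)).symm
  have hcard : (Finset.univ.erase i0).card = N - 1 := by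
    rw [Finset.card_erase_of_mem (Finset.mem_univ _), Finset.card_univ, Fintype.card_fin]
  have h1 : ∑ i ∈ Finset.univ.erase i0, b i + C * A ≤ ∑ i ∈ Finset.univ.erase i0, n i := by
    calc ∑ i ∈ Finset.univ.erase i0, b i + C * A
        ≤ ∑ i ∈ Finset.univ.erase i0, b i + ((N - 1 : ℕ) * c3) * A := by gcongr
      _ = ∑ i ∈ Finset.univ.erase i0, (b i + c3 * A) := by
          rw [Finset.sum_add_distrib, Finset.sum_const, hcard, nsmul_eq_mul, mul_assoc]
      _ ≤ ∑ i ∈ Finset.univ.erase i0, n i :=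
          Finset.sum_le_sum fun i hi => h i (Finset.ne_of_mem_erase hi)
  have h2 : b i0 + ∑ i ∈ Finset.univ.erase i0, b i + C * A
      ≤ n i0 + ∑ i ∈ Finset.univ.erase i0, n i + C * A := by
    calc _ = b i0 + (∑ i ∈ Finset.univ.erase i0, b i + C * A) := by ring
      _ ≤ (n i0 + C * A) + ∑ i ∈ Finset.univ.erase i0, n i := add_le_add h0 h1
      _ = _ := by ring
  rw [e1, e2]
  exact (ENNReal.add_le_add_iff_right hA).1 h2

/-- `Φ(v) ≤ exp (-c1 v₋)` -/
lemma Phi_le_expneg {c1 : ℝ} (h0 : 0 ≤ c1) (h1 : c1 ≤ 1) (v : ℝ) :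
    Phi v ≤ Real.exp (-(c1 * max 0 (-v))) := by
  rcases le_total 0 v with hv | hv
  · rw [max_eq_left (by linarith)]
    simpa using (Phi_lt_one v).le
  · rw [max_eq_right (by linarith)]
    have := Flat.Phi_neg_le (a := -v) (by linarith)
    rw [neg_neg] at this
    refine this.trans ?_
    have h3 : Real.exp (-(-v) ^ 2 / 2) ≤ Real.exp (1/2) * Real.exp (-(c1 * -v)) := by
      rw [← Real.exp_add]
      apply Real.exp_le_exp.2
      nlinarith [sq_nonneg (v + c1), sq_nonneg (v+1)]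
    have h4 : Real.exp (1/2) ≤ 2 := by
      have := Real.exp_one_lt_d9
      have h5 : Real.exp (1/2) ^ 2 = Real.exp 1 := by
        rw [← Real.exp_nat_mul]; norm_num
      nlinarith [Real.exp_pos (1/2)]
    nlinarith [Real.exp_pos (-(c1 * -v))]

/-- Data on one orbit. -/
structure Orb (κ c c1 L t0 tN : ℝ) (ρ v ℓ : ℝ → ℝ) (B : Set ℝ) : Prop where
  cρ : Continuous ρ
  cv : Continuous v
  cℓ : Continuous ℓ
  ρpos : ∀ t, 0 < ρ t
  ℓ0 : ∀ t, t0 ≤ t → t ≤ tN → L ≤ ℓ t
  ℓ1 : ∀ t, t0 ≤ t → t ≤ tN → ℓ t ≤ L + 1/4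
  dec : ∀ s t, t0 ≤ s → s ≤ t → ρ t * Real.exp (-(c1 * max 0 (-(v t)))) ≤
    Real.exp (-(κ * (t - s))) * (ρ s * Real.exp (-(c1 * max 0 (-(v s)))))
  locρ : ∀ s, t0 ≤ s → s ≤ tN → ∀ h, 0 ≤ h → h ≤ 1 → ρ s / 2 ≤ ρ (s + h)
  locv : ∀ s, t0 ≤ s → s ≤ tN → ∀ h, 0 ≤ h → h ≤ 1 → |v (s + h) - v s| ≤ 1/4
  line : ∀ α t, t0 ≤ α → α ≤ tN → α ≤ t → ℓ α ≤ v α → t ∈ B →
    ∫⁻ s in Ioi t, ENNReal.ofReal (ρ s) ≤
      ENNReal.ofReal (1 - c) * ∫⁻ s in Ioi α, ENNReal.ofReal (ρ s * Phi (-(v s)))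

variable {κ c c1 L t0 tN : ℝ} {ρ v ℓ : ℝ → ℝ} {B : Set ℝ}

lemma lint_exp {κ s : ℝ} (hκ : 0 < κ) :
    ∫⁻ t in Ioi s, ENNReal.ofReal (Real.exp (-(κ * (t - s)))) = ENNReal.ofReal (1 / κ) := by
  have e : ∀ t, Real.exp (-(κ * (t - s))) = Real.exp (κ * s) * Real.exp (-κ * t) := by
    intro t; rw [← Real.exp_add]; congr 1; ring
  simp_rw [e]
  have h1 : IntegrableOn (fun t => Real.exp (κ * s) * Real.exp (-κ * t)) (Ioi s) :=
    (integrableOn_exp_mul_Ioi (a := -κ) (by linarith) s).const_mul (Real.exp (κ * s))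
  rw [← ofReal_integral_eq_lintegral_ofReal h1 (ae_of_all _ fun t => by positivity)]
  congr 1
  rw [integral_const_mul, integral_exp_mul_Ioi (by linarith)]
  have h2 : Real.exp (κ * s) * Real.exp (-κ * s) = 1 := by
    rw [← Real.exp_add]; simp
  have h3 : Real.exp (κ * s) * (-Real.exp (-κ * s) / -κ) =
      (Real.exp (κ * s) * Real.exp (-κ * s)) / κ := by
    rw [neg_div_neg_eq, mul_div_assoc]
  rw [h3, h2]

/-- the weighted density -/
noncomputable def gg (c1 : ℝ) (ρ v : ℝ → ℝ) (t : ℝ) : ℝ :=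
  ρ t * Real.exp (-(c1 * max 0 (-(v t))))

/-- tail of the density on `B` -/
noncomputable def tb (ρ : ℝ → ℝ) (B : Set ℝ) (s : ℝ) : ℝ≥0∞ :=
  ∫⁻ t in B ∩ Ioi s, ENNReal.ofReal (ρ t)

/-- tail of `ρ Φ(-v)` -/
noncomputable def tn (ρ v : ℝ → ℝ) (s : ℝ) : ℝ≥0∞ :=
  ∫⁻ t in Ioi s, ENNReal.ofReal (ρ t * Phi (-(v t)))

/-- the gain -/
noncomputable def gn (c1 L : ℝ) (ρ v : ℝ → ℝ) (t0 s : ℝ) : ℝ≥0∞ :=
  ∫⁻ t in Ioc t0 s ∩ {t | v t < L + 1}, ENNReal.ofReal (gg c1 ρ v t)

lemma charge (hκ : 0 < κ) (hc1 : 0 ≤ c1) (hc1' : c1 ≤ 1) (H : Orb κ c c1 L t0 tN ρ v ℓ B)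
    {s : ℝ} (hs : t0 ≤ s) :
    tb ρ B s ≤ tn ρ v s + ENNReal.ofReal (1 / κ) * ENNReal.ofReal (gg c1 ρ v s) := by
  unfold tb tn
  have m1 : Measurable fun t => ENNReal.ofReal (ρ t * Phi (-(v t))) :=
    (H.cρ.mul (continuous_Phi.comp H.cv.neg)).measurable.ennreal_ofReal
  calc ∫⁻ t in B ∩ Ioi s, ENNReal.ofReal (ρ t)
      ≤ ∫⁻ t in Ioi s, ENNReal.ofReal (ρ t) := lintegral_mono_set inter_subset_right
    _ = ∫⁻ t in Ioi s, (ENNReal.ofReal (ρ t * Phi (-(v t))) + ENNReal.ofReal (ρ t * Phi (v t))) := by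
        refine lintegral_congr fun t => ?_
        rw [← ENNReal.ofReal_add (mul_nonneg (H.ρpos t).le (Phi_nonneg _))
          (mul_nonneg (H.ρpos t).le (Phi_nonneg _)), Phi_neg]
        congr 1; ring
    _ = (∫⁻ t in Ioi s, ENNReal.ofReal (ρ t * Phi (-(v t)))) +
        ∫⁻ t in Ioi s, ENNReal.ofReal (ρ t * Phi (v t)) := lintegral_add_left m1 _
    _ ≤ _ := by
        gcongr
        calc ∫⁻ t in Ioi s, ENNReal.ofReal (ρ t * Phi (v t))
            ≤ ∫⁻ t in Ioi s, ENNReal.ofReal (Real.exp (-(κ * (t - s)))) *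
                ENNReal.ofReal (gg c1 ρ v s) := by
              refine setLIntegral_mono' measurableSet_Ioi fun t ht => ?_
              rw [← ENNReal.ofReal_mul (Real.exp_pos _).le]
              apply ENNReal.ofReal_le_ofReal
              refine le_trans ?_ (H.dec s t hs (le_of_lt ht))
              exact mul_le_mul_of_nonneg_left (Phi_le_expneg hc1 hc1' _) (H.ρpos t).le
          _ = _ := by
              rw [lintegral_mul_const' _ _ ENNReal.ofReal_ne_top, lint_exp hκ]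

/-- tail over `B` -/
lemma deep_wall (hc0 : 0 ≤ c) (hc : c ≤ 1) (H : Orb κ c c1 L t0 tN ρ v ℓ B) {s : ℝ} (hs : t0 ≤ s)
    (hs' : s ≤ tN) (hd : ℓ s ≤ v s) :
    tb ρ B s + ENNReal.ofReal c * tn ρ v s ≤ tn ρ v s := by
  have key : tb ρ B s ≤ ENNReal.ofReal (1 - c) * tn ρ v s := by
    unfold tb
    rcases (B ∩ Ioi s).eq_empty_or_nonempty with he | hne
    · rw [he]; simp
    have hbd : BddBelow (B ∩ Ioi s) := ⟨s, fun x hx => le_of_lt hx.2⟩
    set m := sInf (B ∩ Ioi s) with hm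
    obtain ⟨u, hu1, hu2, hu3⟩ := exists_seq_tendsto_sInf hne hbd
    have hsub : B ∩ Ioi s ⊆ insert m (Ioi m) := by
      intro x hx
      rcases (csInf_le hbd hx).eq_or_lt with h | h
      · left; exact h.symm
      · right; exact h
    have h1 : ∫⁻ t in B ∩ Ioi s, ENNReal.ofReal (ρ t) ≤ ∫⁻ t in Ioi m, ENNReal.ofReal (ρ t) := by
      refine (lintegral_mono_set hsub).trans (le_of_eq ?_)
      refine setLIntegral_congr ?_
      exact insert_ae_eq_self _ _
    refine h1.trans ?_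
    have h2 : (Ioi m) = ⋃ k, Ioi (u k) := by
      ext x
      simp only [mem_Ioi, mem_iUnion]
      constructor
      · intro hx
        have := (tendsto_order.1 hu2).2 x hx
        exact this.exists
      · rintro ⟨k, hk⟩
        exact lt_of_le_of_lt (csInf_le hbd (hu3 k)) hk
    rw [h2]
    have hmono : Monotone fun k => Ioi (u k) := fun a b hab => Ioi_subset_Ioi (hu1 hab)
    rw [setLIntegral_iUnion_of_directed _ hmono.directed_le]
    refine iSup_le fun k => ?_
    exact H.line s (u k) hs hs' (le_of_lt (hu3 k).2) hd (hu3 k).1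
  calc _ ≤ ENNReal.ofReal (1 - c) * tn ρ v s + ENNReal.ofReal c * tn ρ v s := by gcongr
    _ = tn ρ v s := by
      rw [← add_mul, ← ENNReal.ofReal_add (by linarith) hc0]
      simp

lemma gg_nonneg (H : Orb κ c c1 L t0 tN ρ v ℓ B) (t : ℝ) : 0 ≤ gg c1 ρ v t :=
  mul_nonneg (H.ρpos t).le (Real.exp_pos _).le

lemma gg_anti (hκ : 0 < κ) (H : Orb κ c c1 L t0 tN ρ v ℓ B) {s t : ℝ} (hs : t0 ≤ s)
    (hst : s ≤ t) : gg c1 ρ v t ≤ gg c1 ρ v s := by
  refine (H.dec s t hs hst).trans ?_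
  have : Real.exp (-(κ * (t - s))) ≤ 1 := Real.exp_le_one_iff.2 (by nlinarith)
  calc _ ≤ 1 * gg c1 ρ v s := mul_le_mul_of_nonneg_right this (gg_nonneg H s)
    _ = _ := one_mul _

/-- gain over a unit interval after a time at the threshold -/
lemma gain_unit (hL : 1 ≤ L) (H : Orb κ c c1 L t0 tN ρ v ℓ B) {a s : ℝ} (ha : t0 ≤ a)
    (ha' : a ≤ tN) (h1 : v a = ℓ a) (hs : a + 1 ≤ s) :
    ENNReal.ofReal (1 / 2) * ENNReal.ofReal (gg c1 ρ v a) ≤ gn c1 L ρ v t0 s := by
  have b0 := H.ℓ0 a ha ha'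
  have b1 := H.ℓ1 a ha ha'
  have hga : gg c1 ρ v a = ρ a := by
    unfold gg
    rw [max_eq_left (by linarith)]; simp
  have hsub : Ioc a (a + 1) ⊆ Ioc t0 s ∩ {t | v t < L + 1} := by
    intro t ht
    have := abs_le.1 (H.locv a ha ha' (t - a) (by linarith [ht.1]) (by linarith [ht.2]))
    rw [add_sub_cancel] at this
    refine ⟨⟨by linarith [ht.1], by linarith [ht.2]⟩, ?_⟩
    simp only [mem_ofPred_eq]
    linarith [this.2]
  calc ENNReal.ofReal (1 / 2) * ENNReal.ofReal (gg c1 ρ v a)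
      = ∫⁻ _ in Ioc a (a + 1), ENNReal.ofReal (1 / 2) * ENNReal.ofReal (gg c1 ρ v a) := by
        simp
    _ ≤ ∫⁻ t in Ioc a (a + 1), ENNReal.ofReal (gg c1 ρ v t) := by
        refine setLIntegral_mono' measurableSet_Ioc fun t ht => ?_
        rw [← ENNReal.ofReal_mul (by norm_num)]
        apply ENNReal.ofReal_le_ofReal
        have h2 := H.locρ a ha ha' (t - a) (by linarith [ht.1]) (by linarith [ht.2])
        have h3 := abs_le.1 (H.locv a ha ha' (t - a) (by linarith [ht.1]) (by linarith [ht.2]))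
        rw [add_sub_cancel] at h2 h3
        rw [hga]
        unfold gg
        rw [max_eq_left (by linarith [h3.1])]
        simp only [mul_zero, neg_zero, Real.exp_zero, mul_one]
        linarith
    _ ≤ _ := lintegral_mono_set hsub

/-- gain of a wall which is not fresh -/
lemma gain_own (hκ : 0 < κ) (H : Orb κ c c1 L t0 tN ρ v ℓ B) {T D0 : ℝ} (ha : t0 ≤ T - D0) (hT : T ≤ tN) (h1 : ∀ t, T - D0 ≤ t → t ≤ T → v t < ℓ t) :
    ENNReal.ofReal D0 * ENNReal.ofReal (gg c1 ρ v T) ≤ gn c1 L ρ v t0 T := by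
  have hsub : Ioc (T - D0) T ⊆ Ioc t0 T ∩ {t | v t < L + 1} := by
    intro t ht
    refine ⟨⟨by linarith [ht.1], ht.2⟩, ?_⟩
    simp only [mem_ofPred_eq]
    have := h1 t ht.1.le ht.2
    have := H.ℓ1 t (by linarith [ht.1]) (by linarith [ht.2])
    linarith
  calc ENNReal.ofReal D0 * ENNReal.ofReal (gg c1 ρ v T)
      = ∫⁻ _ in Ioc (T - D0) T, ENNReal.ofReal (gg c1 ρ v T) := by
        simp [mul_comm]
    _ ≤ ∫⁻ t in Ioc (T - D0) T, ENNReal.ofReal (gg c1 ρ v t) := by
        refine setLIntegral_mono' measurableSet_Ioc fun t ht => ?_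
        exact ENNReal.ofReal_le_ofReal (gg_anti hκ H (by linarith [ht.1]) ht.2)
    _ ≤ _ := lintegral_mono_set hsub

/-- slack of a deep wall -/
lemma slack_unit (hL : 1 ≤ L) (H : Orb κ c c1 L t0 tN ρ v ℓ B) {a s : ℝ} (ha : t0 ≤ a)
    (ha' : a ≤ tN) (h1 : v a = ℓ a) (hs : s ≤ a) :
    ENNReal.ofReal (Phi (-(L + 1)) / 2) * ENNReal.ofReal (gg c1 ρ v a) ≤ tn ρ v s := by
  have b0 := H.ℓ0 a ha ha'
  have b1 := H.ℓ1 a ha ha'
  have hga : gg c1 ρ v a = ρ a := by
    unfold gg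
    rw [max_eq_left (by linarith)]; simp
  calc ENNReal.ofReal (Phi (-(L + 1)) / 2) * ENNReal.ofReal (gg c1 ρ v a)
      = ∫⁻ _ in Ioc a (a + 1), ENNReal.ofReal (Phi (-(L + 1)) / 2) *
          ENNReal.ofReal (gg c1 ρ v a) := by
        simp
    _ ≤ ∫⁻ t in Ioc a (a + 1), ENNReal.ofReal (ρ t * Phi (-(v t))) := by
        refine setLIntegral_mono' measurableSet_Ioc fun t ht => ?_
        rw [← ENNReal.ofReal_mul (by have := Phi_nonneg (-(L+1)); positivity)]
        apply ENNReal.ofReal_le_ofReal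
        have h2 := H.locρ a ha ha' (t - a) (by linarith [ht.1]) (by linarith [ht.2])
        have h3 := abs_le.1 (H.locv a ha ha' (t - a) (by linarith [ht.1]) (by linarith [ht.2]))
        rw [add_sub_cancel] at h2 h3
        rw [hga]
        have h4 : Phi (-(L+1)) ≤ Phi (-(v t)) := strictMono_Phi.monotone (by linarith [h3.2])
        have h5 := Phi_pos (-(L+1))
        have h6 := H.ρpos a
        nlinarith
    _ ≤ _ := lintegral_mono_set (fun t ht => by
        simp only [mem_Ioi]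
        linarith [ht.1])

/-- last deep time -/
lemma last_deep (H : Orb κ c c1 L t0 tN ρ v ℓ B) {T D0 : ℝ}
    (hT : v T < ℓ T) (h : ∃ t, T - D0 ≤ t ∧ t ≤ T ∧ ℓ t ≤ v t) :
    ∃ a, T - D0 ≤ a ∧ a < T ∧ v a = ℓ a := by
  set S := {t | T - D0 ≤ t ∧ t ≤ T ∧ ℓ t ≤ v t} with hS
  have hne : S.Nonempty := h
  have hcl : IsClosed S := by
    have : S = Icc (T - D0) T ∩ {t | ℓ t ≤ v t} := by
      ext t; simp [hS, and_assoc]
    rw [this]
    exact isClosed_Icc.inter (isClosed_le H.cℓ H.cv)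
  have hbd : BddAbove S := ⟨T, fun t ht => ht.2.1⟩
  have ha := hcl.csSup_mem hne hbd
  set a := sSup S
  have haT : a < T := by
    rcases ha.2.1.eq_or_lt with h1 | h1
    · have := ha.2.2; rw [h1] at this; linarith
    · exact h1
  refine ⟨a, ha.1, haT, le_antisymm ?_ ha.2.2⟩
  have h2 : ∀ᶠ t in 𝓝[>] a, v t ≤ ℓ t := by
    filter_upwards [Ioc_mem_nhdsGT haT] with t ht
    by_contra hc
    have : t ∈ S := ⟨by linarith [ht.1, ha.1], ht.2, by linarith [not_le.1 hc]⟩
    exact absurd (le_csSup hbd this) (not_le.2 ht.1)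
  exact le_of_tendsto_of_tendsto (H.cv.continuousAt.tendsto.mono_left nhdsWithin_le_nhds)
    (H.cℓ.continuousAt.tendsto.mono_left nhdsWithin_le_nhds) h2

/-- **the orbit inequality** summed over the walls -/
theorem orb_sum (hκ : 0 < κ) (hκ1 : κ ≤ 1) (hc : 0 < c) (hc' : c ≤ 1) (hc1 : 0 ≤ c1)
    (hc1' : c1 ≤ 1) (hL : 1 ≤ L) (H : Orb κ c c1 L t0 tN ρ v ℓ B)
    {N : ℕ} {D : ℝ} (T : Fin N → ℝ) (hT0 : ∀ i, t0 + D ≤ T i) (hTN : ∀ i, T i ≤ tN)
    (hsp : ∀ i j, i < j → T i + D ≤ T j) (hD : 4 / (κ ^ 2 * c) ≤ D)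
    (hN : 4 / (κ * c * Phi (-(L + 1))) ≤ (N - 1 : ℕ)) :
    ∑ i, tb ρ B (T i) ≤ ∑ i, (tn ρ v (T i) + ENNReal.ofReal c * gn c1 L ρ v t0 (T i)) := by
  classical
  have hP := Phi_pos (-(L + 1))
  have hP1 := Phi_lt_one (-(L + 1))
  set D0 : ℝ := 2 / (κ * c) with hD0
  have hD0p : 0 < D0 := by positivity
  have hκc : κ * c ≤ 1 := by nlinarith
  have hD1 : 4 ≤ D := by
    refine le_trans ?_ hD
    rw [le_div_iff₀ (by positivity)]
    nlinarith
  have hDD0 : D0 ≤ D := by
    refine le_trans ?_ hD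
    rw [hD0, div_le_div_iff₀ (by positivity) (by positivity)]
    nlinarith [mul_pos hκ hc, mul_nonneg (mul_pos hκ hc).le (sub_nonneg.2 hκ1)]
  set C : ℝ := 1 / κ with hC
  have hCp : 0 < C := by positivity
  set c3 : ℝ := c * Phi (-(L + 1)) / 4 with hc3
  have hc3p : 0 < c3 := by positivity
  have hc3a : c3 ≤ c / 4 := by
    rw [hc3]; nlinarith
  -- the inequality at a deep wall, at a non fresh wall, and at every wall
  have hdeep : ∀ i, ℓ (T i) ≤ v (T i) →
      tb ρ B (T i) + ENNReal.ofReal c * tn ρ v (T i) ≤ tn ρ v (T i) := fun i hi =>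
    deep_wall hc.le hc' H (by linarith [hT0 i]) (hTN i) hi
  have hch : ∀ i, tb ρ B (T i) ≤ tn ρ v (T i) + ENNReal.ofReal C * ENNReal.ofReal (gg c1 ρ v (T i)) :=
    fun i => charge hκ hc1 hc1' H (by linarith [hT0 i])
  set fresh : Fin N → Prop := fun i => v (T i) < ℓ (T i) ∧
    ∃ t, T i - D0 ≤ t ∧ t ≤ T i ∧ ℓ t ≤ v t with hfresh
  have hnf : ∀ i, v (T i) < ℓ (T i) → ¬ fresh i →
      tb ρ B (T i) + ENNReal.ofReal C * ENNReal.ofReal (gg c1 ρ v (T i)) ≤
        tn ρ v (T i) + ENNReal.ofReal c * gn c1 L ρ v t0 (T i) := by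
    intro i hi hf
    have h1 : ∀ t, T i - D0 ≤ t → t ≤ T i → v t < ℓ t := by
      intro t ht1 ht2
      by_contra hcon
      exact hf ⟨hi, t, ht1, ht2, not_lt.1 hcon⟩
    have h2 := gain_own (D0 := D0) hκ H (by linarith [hT0 i]) (hTN i) h1
    calc tb ρ B (T i) + ENNReal.ofReal C * ENNReal.ofReal (gg c1 ρ v (T i))
        ≤ (tn ρ v (T i) + ENNReal.ofReal C * ENNReal.ofReal (gg c1 ρ v (T i))) +
          ENNReal.ofReal C * ENNReal.ofReal (gg c1 ρ v (T i)) := by gcongr; exact hch i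
      _ = tn ρ v (T i) + ENNReal.ofReal c * (ENNReal.ofReal D0 *
          ENNReal.ofReal (gg c1 ρ v (T i))) := by
          rw [add_assoc, ← add_mul, ← ENNReal.ofReal_add hCp.le hCp.le, ← mul_assoc,
            ← ENNReal.ofReal_mul hc.le]
          congr 3
          rw [hC, hD0]; field_simp; ring
      _ ≤ _ := by gcongr
  by_cases hex : ∃ i, fresh i
  swap
  · -- no fresh wall
    push Not at hex
    refine Finset.sum_le_sum fun i _ => ?_
    rcases lt_or_ge (v (T i)) (ℓ (T i)) with hi | hi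
    · exact le_trans le_self_add (hnf i hi (hex i))
    · exact (le_trans le_self_add (hdeep i hi)).trans le_self_add
  obtain ⟨i0, hi0, hmin⟩ : ∃ i0, fresh i0 ∧ ∀ j, j < i0 → ¬ fresh j := by
    obtain ⟨i0, h1, h2⟩ := WellFounded.has_min (wellFounded_lt (α := Fin N)) {i | fresh i} hex
    exact ⟨i0, h1, fun j hj hf => h2 j hf hj⟩
  obtain ⟨al, hal1, hal2, hal3⟩ := last_deep H hi0.1 hi0.2
  have halt : t0 ≤ al := by linarith [hT0 i0]
  have halN : al ≤ tN := by linarith [hTN i0]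
  set A : ℝ≥0∞ := ENNReal.ofReal (gg c1 ρ v al) with hA
  refine comb (A := A) (C := ENNReal.ofReal C) (c3 := ENNReal.ofReal c3) _ _ i0
    (ENNReal.mul_ne_top ENNReal.ofReal_ne_top ENNReal.ofReal_ne_top) ?_ ?_ ?_
  · refine (hch i0).trans ?_
    calc _ ≤ tn ρ v (T i0) + ENNReal.ofReal C * A := by
          gcongr
          exact ENNReal.ofReal_le_ofReal (gg_anti hκ H halt hal2.le)
      _ ≤ _ := by
          gcongr
          exact le_self_add
  · intro k hk
    rcases lt_or_gt_of_ne hk with hlt | hgt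
    · -- earlier wall
      have hTk : T k ≤ al := by linarith [hsp k i0 hlt]
      rcases lt_or_ge (v (T k)) (ℓ (T k)) with hi | hi
      · refine le_trans ?_ (hnf k hi (hmin k hlt))
        gcongr
        · have : c3 ≤ C := by
            refine hc3a.trans ?_
            rw [hC, le_div_iff₀ hκ]; nlinarith
          exact this
        · exact ENNReal.ofReal_le_ofReal (gg_anti hκ H (by linarith [hT0 k]) hTk)
      · refine le_trans ?_ ((hdeep k hi).trans le_self_add)
        refine add_le_add le_rfl ?_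
        calc ENNReal.ofReal c3 * A ≤ ENNReal.ofReal (c * (Phi (-(L + 1)) / 2)) * A := by
              gcongr
              rw [hc3]; nlinarith
          _ = ENNReal.ofReal c * (ENNReal.ofReal (Phi (-(L + 1)) / 2) * A) := by
              rw [ENNReal.ofReal_mul hc.le, mul_assoc]
          _ ≤ _ := by
              gcongr
              exact slack_unit hL H halt halN hal3 hTk
    · -- later wall
      have hTk : al + D ≤ T k := by linarith [hsp i0 k hgt]
      have hgain := gain_unit hL H halt halN hal3 (s := T k) (by linarith)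
      rcases lt_or_ge (v (T k)) (ℓ (T k)) with hi | hi
      · have h1 : ENNReal.ofReal C * ENNReal.ofReal (gg c1 ρ v (T k)) ≤ ENNReal.ofReal (c / 4) * A := by
          rw [hA, ← ENNReal.ofReal_mul hCp.le, ← ENNReal.ofReal_mul (by positivity)]
          apply ENNReal.ofReal_le_ofReal
          have h2 := H.dec al (T k) halt (by linarith)
          have h3 : Real.exp (-(κ * (T k - al))) ≤ κ * c / 4 := by
            have h4 : 4 / (κ * c) ≤ κ * (T k - al) := by
              calc 4 / (κ * c) = κ * (4 / (κ ^ 2 * c)) := by field_simp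
                _ ≤ κ * (T k - al) := by
                  apply mul_le_mul_of_nonneg_left _ hκ.le
                  linarith
            have h5 : 0 < 4 / (κ * c) := by positivity
            have h6 : Real.exp (-(κ * (T k - al))) ≤ (κ * (T k - al))⁻¹ := by
              rw [Real.exp_neg]
              apply inv_anti₀ (by linarith)
              linarith [Real.add_one_le_exp (κ * (T k - al))]
            refine h6.trans ?_
            calc (κ * (T k - al))⁻¹ ≤ (4 / (κ * c))⁻¹ := inv_anti₀ h5 h4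
              _ = κ * c / 4 := by rw [inv_div]
          have h7 : gg c1 ρ v (T k) ≤ (κ * c / 4) * gg c1 ρ v al :=
            h2.trans (mul_le_mul_of_nonneg_right h3 (gg_nonneg H al))
          calc C * gg c1 ρ v (T k) ≤ C * ((κ * c / 4) * gg c1 ρ v al) :=
                mul_le_mul_of_nonneg_left h7 hCp.le
            _ = c / 4 * gg c1 ρ v al := by rw [hC]; field_simp
        calc tb ρ B (T k) + ENNReal.ofReal c3 * A
            ≤ (tn ρ v (T k) + ENNReal.ofReal (c / 4) * A) + ENNReal.ofReal (c / 4) * A := by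
              gcongr
              exact (hch k).trans (by gcongr)
          _ = tn ρ v (T k) + ENNReal.ofReal c * (ENNReal.ofReal (1 / 2) * A) := by
              rw [add_assoc, ← add_mul, ← ENNReal.ofReal_add (by positivity) (by positivity),
                ← mul_assoc, ← ENNReal.ofReal_mul hc.le]
              congr 3
              ring
          _ ≤ _ := by gcongr
      · calc tb ρ B (T k) + ENNReal.ofReal c3 * A
            ≤ tn ρ v (T k) + ENNReal.ofReal c * (ENNReal.ofReal (1 / 2) * A) := by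
              refine add_le_add (le_trans le_self_add (hdeep k hi)) ?_
              rw [← mul_assoc, ← ENNReal.ofReal_mul hc.le]
              gcongr
              linarith
          _ ≤ _ := by gcongr
  · -- the number of walls
    rw [← ENNReal.ofReal_natCast, ← ENNReal.ofReal_mul (by positivity)]
    apply ENNReal.ofReal_le_ofReal
    calc C = 4 / (κ * c * Phi (-(L + 1))) * c3 := by
          rw [hC, hc3]; field_simp
      _ ≤ _ := mul_le_mul_of_nonneg_right hN hc3p.le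

end Crest.Agent.R239.Glue861
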