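import Crest.Agent.Lib.Ehrhard.Gain

/-!
# One orbit: the far region when the wall point is not deep (R239, (F1)/(PW'))
-/

open MeasureTheory Set Real
open scoped ENNReal

namespace Crest.Agent.R239.Glue996

open Crest.Agent.Lib.Ehrhard

lemma Phi_le_exp_neg_sq {v : ℝ} (hv : v ≤ 0) : Phi v ≤ exp (-v ^ 2 / 2) := by
  have hhalf : Phi 0 = 1 / 2 := by
    have := Phi_neg 0
    simp only [neg_zero] at this
    linarith
  rcases le_or_gt v (-1) with h | h
  · have h1 := mills hv
    have h2 : Phi v ≤ phi v := by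
      have h3 : Phi v ≤ -v * Phi v := by
        have := Phi_nonneg v
        nlinarith
      exact h3.trans h1
    refine h2.trans ?_
    unfold phi
    have := c_le_one
    have he := exp_pos (-v ^ 2 / 2)
    nlinarith
  · have h1 : Phi v ≤ 1 / 2 := by
      rw [← hhalf]; exact strictMono_Phi.monotone hv
    have h2 : (1:ℝ) / 2 ≤ exp (-v ^ 2 / 2) := by
      have h3 : -v ^ 2 / 2 + 1 ≤ exp (-v ^ 2 / 2) := add_one_le_exp _
      nlinarith
    exact h1.trans h2

lemma Phi_le_exp {c : ℝ} (hc : 0 ≤ c) (v : ℝ) : Phi v ≤ exp (c ^ 2 / 2 + c * v) := by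
  rcases le_or_gt v 0 with h | h
  · refine (Phi_le_exp_neg_sq h).trans (exp_le_exp.2 ?_)
    nlinarith [sq_nonneg (v + c)]
  · refine (Phi_lt_one v).le.trans ?_
    rw [← exp_zero]
    exact exp_le_exp.2 (by positivity)

lemma lintegral_exp_tail {A k T : ℝ} (hA : 0 ≤ A) (hk : 0 < k) :
    ∫⁻ t in Ioi T, ENNReal.ofReal (A * exp (-(k * (t - T)))) = ENNReal.ofReal (A / k) := by
  have h1 : IntegrableOn (fun t => exp (-k * t)) (Ioi T) := exp_neg_integrableOn_Ioi T hk
  have h2 : ∀ t, A * exp (-(k * (t - T))) = (A * exp (k * T)) * exp (-k * t) := by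
    intro t
    rw [mul_assoc, ← exp_add]
    congr 2
    ring
  have h3 : IntegrableOn (fun t => A * exp (-(k * (t - T)))) (Ioi T) := by
    simp_rw [h2]
    exact h1.const_mul _
  rw [← ofReal_integral_eq_lintegral_ofReal h3
    (Filter.Eventually.of_forall fun t => by positivity)]
  congr 1
  simp_rw [h2]
  rw [integral_const_mul, integral_exp_mul_Ioi (by linarith)]
  have : exp (k * T) * exp (-(k * T)) = 1 := by
    rw [← exp_add]; simp
  rw [neg_mul]
  field_simp
  linear_combination A * this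

/-- everything beyond a wall point which is not deep is an error controlled at the wall -/
theorem fo_nondeep {M c1 Λ T : ℝ} {v ρ : ℝ → ℝ} (hM : 0 < M) (hc1 : 0 < c1)
    (hc : 11 / 10 * c1 ≤ M / 10) (hρT : 0 ≤ ρ T)
    (hD : ∀ t, T < t → ∃ D, M * (t - T) ≤ D ∧ ρ t ≤ ρ T * exp (-(2 / 5 * M * D)) ∧
      |v t - v T| ≤ 11 / 10 * D)
    (hv : v T ≤ Λ) (hΛ : 0 ≤ Λ) :
    ∫⁻ t in Ioi T, ENNReal.ofReal ((Phi (v t) + exp (c1 * min (v t) 0)) * ρ t) ≤
      ENNReal.ofReal ((exp (c1 ^ 2 / 2 + c1 * Λ) + 1) * (exp (c1 * min (v T) 0) * ρ T) /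
        (3 / 10 * M ^ 2)) := by
  set K := exp (c1 ^ 2 / 2 + c1 * Λ) + 1 with hK
  have hKpos : 0 < K := by positivity
  set G := exp (c1 * min (v T) 0) * ρ T with hG
  have hG0 : 0 ≤ G := by positivity
  rw [← lintegral_exp_tail (T := T) (mul_nonneg hKpos.le hG0) (by positivity)]
  refine setLIntegral_mono' measurableSet_Ioi fun t ht => ENNReal.ofReal_le_ofReal ?_
  obtain ⟨D, hD1, hD2, hD3⟩ := hD t ht
  have hD0 : 0 ≤ D := le_trans (mul_nonneg hM.le (sub_nonneg.2 (le_of_lt ht))) hD1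
  have hvt := (abs_le.1 hD3).2
  have hmin : v T ≤ Λ + min (v T) 0 := by
    rcases le_total (v T) 0 with h | h
    · rw [min_eq_left h]; linarith
    · rw [min_eq_right h]; linarith
  have h1 : Phi (v t) ≤ exp (c1 ^ 2 / 2 + c1 * Λ) * (exp (c1 * min (v T) 0) *
      exp (11 / 10 * c1 * D)) := by
    refine (Phi_le_exp hc1.le (v t)).trans ?_
    rw [← exp_add, ← exp_add]
    apply exp_le_exp.2
    have : c1 * v t ≤ c1 * (Λ + min (v T) 0 + 11 / 10 * D) :=
      mul_le_mul_of_nonneg_left (by linarith) hc1.le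
    linarith
  have h2 : exp (c1 * min (v t) 0) ≤ exp (c1 * min (v T) 0) * exp (11 / 10 * c1 * D) := by
    rw [← exp_add]
    apply exp_le_exp.2
    have : min (v t) 0 ≤ min (v T) 0 + 11 / 10 * D := by
      rcases le_total (v T) 0 with h | h
      · rw [min_eq_left h]; exact (min_le_left _ _).trans (by linarith)
      · rw [min_eq_right h]; exact (min_le_right _ _).trans (by linarith)
    nlinarith
  have h3 : Phi (v t) + exp (c1 * min (v t) 0) ≤
      K * (exp (c1 * min (v T) 0) * exp (11 / 10 * c1 * D)) := by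
    rw [hK, add_mul]; linarith
  have h4 : 0 ≤ Phi (v t) + exp (c1 * min (v t) 0) := add_nonneg (Phi_nonneg _) (exp_pos _).le
  calc (Phi (v t) + exp (c1 * min (v t) 0)) * ρ t
      ≤ (Phi (v t) + exp (c1 * min (v t) 0)) * (ρ T * exp (-(2 / 5 * M * D))) :=
        mul_le_mul_of_nonneg_left hD2 h4
    _ ≤ (K * (exp (c1 * min (v T) 0) * exp (11 / 10 * c1 * D))) *
        (ρ T * exp (-(2 / 5 * M * D))) :=
        mul_le_mul_of_nonneg_right h3 (by positivity)
    _ = K * G * (exp (11 / 10 * c1 * D) * exp (-(2 / 5 * M * D))) := by rw [hG]; ring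
    _ ≤ K * G * exp (-(3 / 10 * M ^ 2 * (t - T))) := by
        refine mul_le_mul_of_nonneg_left ?_ (mul_nonneg hKpos.le hG0)
        rw [← exp_add]
        apply exp_le_exp.2
        have e1 : 11 / 10 * c1 * D ≤ M / 10 * D := mul_le_mul_of_nonneg_right hc hD0
        have e2 : 3 / 10 * M * (M * (t - T)) ≤ 3 / 10 * M * D :=
          mul_le_mul_of_nonneg_left hD1 (by positivity)
        nlinarith

/-- the error at the wall is paid by the unit interval before the wall -/
theorem fo_back {c1 Λ δ T : ℝ} {v ρ : ℝ → ℝ} (hc1 : 0 < c1)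
    (hρ : ∀ t ∈ Ioc (T - 1) T, ρ T ≤ ρ t) (hρT : 0 ≤ ρ T)
    (hv : ∀ t ∈ Ioc (T - 1) T, |v t - v T| ≤ δ) (hvT : v T + δ < Λ) :
    ENNReal.ofReal (exp (c1 * min (v T) 0) * ρ T) ≤ ENNReal.ofReal (exp (c1 * δ)) *
      ∫⁻ t in Ioc (T - 1) T,
        ENNReal.ofReal ((if v t < Λ then exp (c1 * min (v t) 0) else 0) * ρ t) := by
  rw [← lintegral_const_mul' _ _ ENNReal.ofReal_ne_top]
  have hvol : ∫⁻ _ in Ioc (T - 1) T, ENNReal.ofReal (exp (c1 * min (v T) 0) * ρ T) =
      ENNReal.ofReal (exp (c1 * min (v T) 0) * ρ T) := by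
    rw [setLIntegral_const, Real.volume_Ioc]
    simp
  rw [← hvol]
  refine setLIntegral_mono' measurableSet_Ioc fun t ht => ?_
  rw [← ENNReal.ofReal_mul (exp_pos _).le]
  apply ENNReal.ofReal_le_ofReal
  have h1 := abs_le.1 (hv t ht)
  rw [if_pos (by linarith)]
  have h2 : min (v T) 0 ≤ δ + min (v t) 0 := by
    rcases le_total (v t) 0 with h | h
    · rw [min_eq_left h]; exact (min_le_left _ _).trans (by linarith)
    · rw [min_eq_right h]
      have : 0 ≤ δ := le_trans (abs_nonneg _) (hv t ht)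
      exact (min_le_right _ _).trans (by linarith)
  have h3 : exp (c1 * min (v T) 0) ≤ exp (c1 * δ) * exp (c1 * min (v t) 0) := by
    rw [← exp_add]; apply exp_le_exp.2; nlinarith
  calc exp (c1 * min (v T) 0) * ρ T ≤ (exp (c1 * δ) * exp (c1 * min (v t) 0)) * ρ T :=
        mul_le_mul_of_nonneg_right h3 hρT
    _ ≤ (exp (c1 * δ) * exp (c1 * min (v t) 0)) * ρ t :=
        mul_le_mul_of_nonneg_left (hρ t ht) (by positivity)
    _ = _ := by ring

end Crest.Agent.R239.Glue996
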