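import Crest.Agent.R239.OrbData723
import Crest.Agent.R239.Glue996a

/-!
# Facts about orbits `t ↦ fl b r t y` (R239, (F1)/(PW'))
-/

set_option autoImplicit false
set_option linter.unusedSectionVars false
open MeasureTheory ProbabilityTheory Set Filter Topology Real
open scoped ENNReal NNReal RealInnerProductSpace

namespace Crest.Agent.R239.Glue996

open Crest.Agent.Lib.Ehrhard (Phi Psi Phi_pos Phi_lt_one strictMono_Phi Phi_neg continuous_Phi
  Phi_Psi Psi_Phi Phi_nonneg Psi_le_iff le_Psi_iff)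
open Crest.Agent.R239 Crest.Agent.R239.PW Crest.Agent.R239.Orb

variable {F : Type*} [NormedAddCommGroup F] [InnerProductSpace ℝ F] [FiniteDimensional ℝ F]
  [MeasurableSpace F] [BorelSpace F]
variable {ι : Type*} [Fintype ι]

/-- `X² ` along the orbit in coordinates -/
lemma norm_dg_fl_sq (b : OrthonormalBasis ι ℝ F) (a r : ι → ℝ) (t : ℝ) (y : F) :
    ‖dg b a (fl b r t y)‖ ^ 2 = ∑ i, a i ^ 2 * (exp (t * r i) * ⟪b i, y⟫) ^ 2 := by
  rw [norm_dg_sq]
  simp_rw [inner_fl]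

/-- the chord vector: `fl t y = fl T y + dg b a (chord T t y)` -/
noncomputable def chord (b : OrthonormalBasis ι ℝ F) (a r : ι → ℝ) (T t : ℝ) (y : F) : F :=
  ∑ i, ((exp (t * r i) - exp (T * r i)) * ⟪b i, y⟫ / a i) • b i

lemma inner_chord (b : OrthonormalBasis ι ℝ F) (a r : ι → ℝ) (T t : ℝ) (y : F) (i : ι) :
    ⟪b i, chord b a r T t y⟫ = (exp (t * r i) - exp (T * r i)) * ⟪b i, y⟫ / a i := by
  classical
  unfold chord
  rw [inner_sum]
  simp_rw [inner_smul_right, orthonormal_iff_ite.1 b.orthonormal]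
  simp

lemma norm_chord_sq (b : OrthonormalBasis ι ℝ F) (a r : ι → ℝ) (T t : ℝ) (y : F) :
    ‖chord b a r T t y‖ ^ 2 = ∑ i, ((exp (t * r i) - exp (T * r i)) * ⟪b i, y⟫ / a i) ^ 2 := by
  rw [norm_sq_basis b]
  simp_rw [inner_chord]

lemma norm_chord_symm (b : OrthonormalBasis ι ℝ F) (a r : ι → ℝ) (T t : ℝ) (y : F) :
    ‖chord b a r T t y‖ = ‖chord b a r t T y‖ := by
  rw [← abs_of_nonneg (norm_nonneg (chord b a r T t y)),
    ← abs_of_nonneg (norm_nonneg (chord b a r t T y)), ← sq_eq_sq_iff_abs_eq_abs,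
    norm_chord_sq, norm_chord_sq]
  refine Finset.sum_congr rfl fun i _ => ?_
  ring

/-- rates compared with `a²` -/
structure Rates (a r : ι → ℝ) (δ : ℝ) : Prop where
  nonneg : ∀ i, 0 ≤ a i
  lower : ∀ i, a i ^ 2 ≤ r i
  upper : ∀ i, r i ≤ 11 / 10 * a i ^ 2
  sum_le : ∑ i, r i ≤ δ

lemma Rates.r_nonneg {a r : ι → ℝ} {δ : ℝ} (h : Rates a r δ) (i : ι) : 0 ≤ r i :=
  (sq_nonneg _).trans (h.lower i)

lemma Rates.r_le {a r : ι → ℝ} {δ : ℝ} (h : Rates a r δ) (i : ι) : r i ≤ δ :=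
  (Finset.single_le_sum (fun j _ => h.r_nonneg j) (Finset.mem_univ i)).trans h.sum_le

lemma Rates.delta_nonneg {a r : ι → ℝ} {δ : ℝ} (h : Rates a r δ) : 0 ≤ δ :=
  (Finset.sum_nonneg fun j _ => h.r_nonneg j).trans h.sum_le

lemma Rates.r_zero {a r : ι → ℝ} {δ : ℝ} (h : Rates a r δ) {i : ι} (hi : a i = 0) : r i = 0 :=
  le_antisymm (by have := h.upper i; rw [hi] at this; simpa using this) (h.r_nonneg i)

lemma fl_chord (b : OrthonormalBasis ι ℝ F) {a r : ι → ℝ} {δ : ℝ} (h : Rates a r δ) (T t : ℝ)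
    (y : F) : fl b r t y = fl b r T y + dg b a (chord b a r T t y) := by
  apply ext_basis b
  intro i
  rw [inner_add_right, inner_fl, inner_fl, inner_dg, inner_chord]
  by_cases hi : a i = 0
  · rw [hi, h.r_zero hi]; simp
  · field_simp
    ring

/-- chord length at least `X(T) (t-T)` -/
lemma chord_ge (b : OrthonormalBasis ι ℝ F) {a r : ι → ℝ} {δ : ℝ} (h : Rates a r δ) {T t : ℝ}
    (hT : T ≤ t) (y : F) : ‖dg b a (fl b r T y)‖ * (t - T) ≤ ‖chord b a r T t y‖ := by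
  have h0 : 0 ≤ t - T := sub_nonneg.2 hT
  rw [← abs_of_nonneg (norm_nonneg (chord b a r T t y)),
    ← abs_of_nonneg (mul_nonneg (norm_nonneg (dg b a (fl b r T y))) h0), ← sq_le_sq, mul_pow,
    norm_dg_fl_sq, norm_chord_sq, Finset.sum_mul]
  refine Finset.sum_le_sum fun i _ => ?_
  by_cases hi : a i = 0
  · rw [hi]; simp
  have hai : 0 < a i := lt_of_le_of_ne (h.nonneg i) (Ne.symm hi)
  have h1 : exp (T * r i) * ((t - T) * a i ^ 2) ≤ exp (t * r i) - exp (T * r i) := by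
    have e1 : exp (t * r i) = exp (T * r i) * exp ((t - T) * r i) := by
      rw [← exp_add]; congr 1; ring
    have e2 : (t - T) * r i + 1 ≤ exp ((t - T) * r i) := add_one_le_exp _
    have e3 : (t - T) * a i ^ 2 ≤ (t - T) * r i := mul_le_mul_of_nonneg_left (h.lower i) h0
    rw [e1]
    have := exp_pos (T * r i)
    nlinarith
  have h2 : exp (T * r i) * ((t - T) * a i) ≤ (exp (t * r i) - exp (T * r i)) / a i := by
    rw [le_div_iff₀ hai]
    calc exp (T * r i) * ((t - T) * a i) * a i = exp (T * r i) * ((t - T) * a i ^ 2) := by ring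
      _ ≤ _ := h1
  have h3 : 0 ≤ exp (T * r i) * ((t - T) * a i) := by positivity
  calc a i ^ 2 * (exp (T * r i) * ⟪b i, y⟫) ^ 2 * (t - T) ^ 2
      = (exp (T * r i) * ((t - T) * a i)) ^ 2 * ⟪b i, y⟫ ^ 2 := by ring
    _ ≤ ((exp (t * r i) - exp (T * r i)) / a i) ^ 2 * ⟪b i, y⟫ ^ 2 :=
        mul_le_mul_of_nonneg_right (pow_le_pow_left₀ h3 h2 2) (sq_nonneg _)
    _ = _ := by ring

/-- chord length at most `1.1 X(t) (t-T)` -/
lemma chord_le (b : OrthonormalBasis ι ℝ F) {a r : ι → ℝ} {δ : ℝ} (h : Rates a r δ) {T t : ℝ}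
    (hT : T ≤ t) (y : F) : ‖chord b a r T t y‖ ≤ 11 / 10 * (t - T) * ‖dg b a (fl b r t y)‖ := by
  have h0 : 0 ≤ t - T := sub_nonneg.2 hT
  rw [← abs_of_nonneg (norm_nonneg (chord b a r T t y)),
    ← abs_of_nonneg (mul_nonneg (mul_nonneg (by norm_num : (0:ℝ) ≤ 11 / 10) h0)
      (norm_nonneg (dg b a (fl b r t y)))), ← sq_le_sq, mul_pow,
    norm_dg_fl_sq, norm_chord_sq, Finset.mul_sum]
  refine Finset.sum_le_sum fun i _ => ?_
  by_cases hi : a i = 0
  · rw [hi]; simp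
  have hai : 0 < a i := lt_of_le_of_ne (h.nonneg i) (Ne.symm hi)
  have e1 : exp (T * r i) = exp (t * r i) * exp (-((t - T) * r i)) := by
    rw [← exp_add]; congr 1; ring
  have h1 : exp (t * r i) - exp (T * r i) ≤ exp (t * r i) * (11 / 10 * (t - T) * a i ^ 2) := by
    have e2 : -((t - T) * r i) + 1 ≤ exp (-((t - T) * r i)) := add_one_le_exp _
    have e3 : (t - T) * r i ≤ (t - T) * (11 / 10 * a i ^ 2) :=
      mul_le_mul_of_nonneg_left (h.upper i) h0
    rw [e1]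
    have := exp_pos (t * r i)
    nlinarith
  have h1' : 0 ≤ exp (t * r i) - exp (T * r i) := by
    have : exp (T * r i) ≤ exp (t * r i) :=
      exp_le_exp.2 (mul_le_mul_of_nonneg_right hT (h.r_nonneg i))
    linarith
  have h2 : (exp (t * r i) - exp (T * r i)) / a i ≤ exp (t * r i) * (11 / 10 * (t - T) * a i) := by
    rw [div_le_iff₀ hai]
    calc exp (t * r i) - exp (T * r i) ≤ exp (t * r i) * (11 / 10 * (t - T) * a i ^ 2) := h1
      _ = _ := by ring
  have h3 : 0 ≤ (exp (t * r i) - exp (T * r i)) / a i := div_nonneg h1' hai.le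
  calc ((exp (t * r i) - exp (T * r i)) * ⟪b i, y⟫ / a i) ^ 2
      = ((exp (t * r i) - exp (T * r i)) / a i) ^ 2 * ⟪b i, y⟫ ^ 2 := by ring
    _ ≤ (exp (t * r i) * (11 / 10 * (t - T) * a i)) ^ 2 * ⟪b i, y⟫ ^ 2 :=
        mul_le_mul_of_nonneg_right (pow_le_pow_left₀ h3 h2 2) (sq_nonneg _)
    _ = _ := by ring

/-- main decay estimate, in the form `τ * (|y(t)|² - |y(T)|²)/2 ≥ D²/2.2` -/
lemma sq_chord_le (b : OrthonormalBasis ι ℝ F) {a r : ι → ℝ} {δ : ℝ} (h : Rates a r δ) {T t : ℝ}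
    (hT : T ≤ t) (y : F) :
    ‖chord b a r T t y‖ ^ 2 ≤ 11 / 10 * (t - T) *
      ∑ i, (exp (t * r i) ^ 2 - exp (T * r i) ^ 2) * ⟪b i, y⟫ ^ 2 := by
  have h0 : 0 ≤ t - T := sub_nonneg.2 hT
  rw [norm_chord_sq, Finset.mul_sum]
  refine Finset.sum_le_sum fun i _ => ?_
  have hmono : exp (T * r i) ≤ exp (t * r i) :=
      exp_le_exp.2 (mul_le_mul_of_nonneg_right hT (h.r_nonneg i))
  have hpT := exp_pos (T * r i)
  have hpt := exp_pos (t * r i)
  by_cases hi : a i = 0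
  · rw [hi]
    simp only [div_zero, ne_eq, OfNat.ofNat_ne_zero, not_false_eq_true, zero_pow]
    have : 0 ≤ exp (t * r i) ^ 2 - exp (T * r i) ^ 2 := by nlinarith
    positivity
  have hai : 0 < a i := lt_of_le_of_ne (h.nonneg i) (Ne.symm hi)
  have e1 : exp (T * r i) = exp (t * r i) * exp (-((t - T) * r i)) := by
    rw [← exp_add]; congr 1; ring
  have h1 : exp (t * r i) - exp (T * r i) ≤ exp (t * r i) * ((t - T) * r i) := by
    have e2 : -((t - T) * r i) + 1 ≤ exp (-((t - T) * r i)) := add_one_le_exp _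
    rw [e1]
    nlinarith
  have h2 : (exp (t * r i) - exp (T * r i)) ^ 2 ≤
      11 / 10 * (t - T) * (exp (t * r i) ^ 2 - exp (T * r i) ^ 2) * a i ^ 2 := by
    have h3 : (t - T) * r i ≤ (t - T) * (11 / 10 * a i ^ 2) :=
      mul_le_mul_of_nonneg_left (h.upper i) h0
    have h4 : 0 ≤ (t - T) * r i := mul_nonneg h0 (h.r_nonneg i)
    have h5 : exp (t * r i) * ((t - T) * r i) ≤
        (exp (t * r i) + exp (T * r i)) * ((t - T) * (11 / 10 * a i ^ 2)) := by
      have : exp (t * r i) * ((t - T) * r i) ≤ (exp (t * r i) + exp (T * r i)) * ((t - T) * r i) := by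
        nlinarith
      exact this.trans (mul_le_mul_of_nonneg_left h3 (by positivity))
    have h6 : 0 ≤ exp (t * r i) - exp (T * r i) := by linarith
    calc (exp (t * r i) - exp (T * r i)) ^ 2
        = (exp (t * r i) - exp (T * r i)) * (exp (t * r i) - exp (T * r i)) := by ring
      _ ≤ (exp (t * r i) - exp (T * r i)) *
          ((exp (t * r i) + exp (T * r i)) * ((t - T) * (11 / 10 * a i ^ 2))) :=
          mul_le_mul_of_nonneg_left (h1.trans h5) h6
      _ = _ := by ring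
  calc ((exp (t * r i) - exp (T * r i)) * ⟪b i, y⟫ / a i) ^ 2
      = (exp (t * r i) - exp (T * r i)) ^ 2 * (⟪b i, y⟫ ^ 2 / a i ^ 2) := by ring
    _ ≤ (11 / 10 * (t - T) * (exp (t * r i) ^ 2 - exp (T * r i) ^ 2) * a i ^ 2) *
        (⟪b i, y⟫ ^ 2 / a i ^ 2) := mul_le_mul_of_nonneg_right h2 (by positivity)
    _ = _ := by field_simp

lemma J_ratio (b : OrthonormalBasis ι ℝ F) (r : ι → ℝ) (T t : ℝ) (y : F) :
    J b r t y = J b r T y * exp (-(∑ i, (exp (t * r i) ^ 2 - exp (T * r i) ^ 2) * ⟪b i, y⟫ ^ 2) / 2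
      + (t - T) * ∑ i, r i) := by
  unfold J
  rw [← exp_add]
  congr 1
  have : ∑ i, (exp (t * r i) ^ 2 - 1) * ⟪b i, y⟫ ^ 2 =
      ∑ i, (exp (T * r i) ^ 2 - 1) * ⟪b i, y⟫ ^ 2 +
      ∑ i, (exp (t * r i) ^ 2 - exp (T * r i) ^ 2) * ⟪b i, y⟫ ^ 2 := by
    rw [← Finset.sum_add_distrib]
    exact Finset.sum_congr rfl fun i _ => by ring
  rw [this]
  ring

/-- decay of the orbit density in terms of the chord -/
lemma J_decay (b : OrthonormalBasis ι ℝ F) {a r : ι → ℝ} {δ : ℝ} (h : Rates a r δ) {T t : ℝ}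
    (hT : T < t) (y : F) (hδ : δ ≤ 1 / 20 * ‖dg b a (fl b r T y)‖ ^ 2) :
    J b r t y ≤ J b r T y *
      exp (-(2 / 5 * ‖dg b a (fl b r T y)‖ * ‖chord b a r T t y‖)) := by
  rw [J_ratio b r T t y]
  refine mul_le_mul_of_nonneg_left (exp_le_exp.2 ?_) (J_pos b r T y).le
  set M := ‖dg b a (fl b r T y)‖
  set D := ‖chord b a r T t y‖
  set W := ∑ i, (exp (t * r i) ^ 2 - exp (T * r i) ^ 2) * ⟪b i, y⟫ ^ 2
  have hM : 0 ≤ M := norm_nonneg _
  have hD : 0 ≤ D := norm_nonneg _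
  have h0 : 0 < t - T := sub_pos.2 hT
  have h1 : M * (t - T) ≤ D := chord_ge b h hT.le y
  have h2 : D ^ 2 ≤ 11 / 10 * (t - T) * W := sq_chord_le b h hT.le y
  have h3 : M * D * (t - T) ≤ D ^ 2 := by nlinarith
  have h4 : M * D ≤ 11 / 10 * W := by
    have : M * D * (t - T) ≤ 11 / 10 * W * (t - T) := by linarith
    exact le_of_mul_le_mul_right this h0
  have h5 : (t - T) * ∑ i, r i ≤ 1 / 20 * M * D := by
    calc (t - T) * ∑ i, r i ≤ (t - T) * (1 / 20 * M ^ 2) :=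
          mul_le_mul_of_nonneg_left (h.sum_le.trans hδ) h0.le
      _ = 1 / 20 * M * (M * (t - T)) := by ring
      _ ≤ 1 / 20 * M * D := mul_le_mul_of_nonneg_left h1 (by positivity)
  have h6 : 0 ≤ M * D := mul_nonneg hM hD
  linarith

/-- growth of `X` along the orbit -/
lemma X_mono (b : OrthonormalBasis ι ℝ F) {a r : ι → ℝ} {δ : ℝ} (h : Rates a r δ) {T t : ℝ}
    (hT : T ≤ t) (y : F) : ‖dg b a (fl b r T y)‖ ≤ ‖dg b a (fl b r t y)‖ := by
  rw [← abs_of_nonneg (norm_nonneg (dg b a (fl b r T y))),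
    ← abs_of_nonneg (norm_nonneg (dg b a (fl b r t y))), ← sq_le_sq, norm_dg_fl_sq, norm_dg_fl_sq]
  refine Finset.sum_le_sum fun i _ => mul_le_mul_of_nonneg_left ?_ (sq_nonneg _)
  rw [mul_pow, mul_pow]
  refine mul_le_mul_of_nonneg_right ?_ (sq_nonneg _)
  exact pow_le_pow_left₀ (exp_pos _).le
    (exp_le_exp.2 (mul_le_mul_of_nonneg_right hT (h.r_nonneg i))) 2

lemma X_growth (b : OrthonormalBasis ι ℝ F) {a r : ι → ℝ} {δ : ℝ} (h : Rates a r δ) {T t : ℝ}
    (hT : T ≤ t) (y : F) :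
    ‖dg b a (fl b r t y)‖ ≤ exp (δ * (t - T)) * ‖dg b a (fl b r T y)‖ := by
  rw [← abs_of_nonneg (norm_nonneg (dg b a (fl b r t y))),
    ← abs_of_nonneg (mul_nonneg (exp_pos (δ * (t - T))).le (norm_nonneg (dg b a (fl b r T y)))),
    ← sq_le_sq, mul_pow, norm_dg_fl_sq, norm_dg_fl_sq, Finset.mul_sum]
  refine Finset.sum_le_sum fun i _ => ?_
  have h1 : exp (t * r i) ≤ exp (δ * (t - T)) * exp (T * r i) := by
    rw [← exp_add]
    apply exp_le_exp.2
    have := mul_le_mul_of_nonneg_right (h.r_le i) (sub_nonneg.2 hT)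
    linarith
  have h2 := pow_le_pow_left₀ (exp_pos _).le h1 2
  calc a i ^ 2 * (exp (t * r i) * ⟪b i, y⟫) ^ 2
      = exp (t * r i) ^ 2 * (a i ^ 2 * ⟪b i, y⟫ ^ 2) := by ring
    _ ≤ (exp (δ * (t - T)) * exp (T * r i)) ^ 2 * (a i ^ 2 * ⟪b i, y⟫ ^ 2) :=
        mul_le_mul_of_nonneg_right h2 (by positivity)
    _ = _ := by ring

lemma continuous_X (b : OrthonormalBasis ι ℝ F) (a r : ι → ℝ) (y : F) :
    Continuous fun t => ‖dg b a (fl b r t y)‖ :=
  ((dg b a).continuous.comp ((continuous_fl b r).comp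
    (Continuous.prodMk continuous_id continuous_const))).norm

/-- strict monotonicity of `X` on orbits outside the kernel -/
lemma X_strictMono (b : OrthonormalBasis ι ℝ F) {a r : ι → ℝ} {δ : ℝ} (h : Rates a r δ)
    {y : F} (hy : 0 < ‖dg b a y‖) : StrictMono fun t => ‖dg b a (fl b r t y)‖ := by
  intro T t hT
  have hne : ∃ i, a i ^ 2 * ⟪b i, y⟫ ^ 2 ≠ 0 := by
    by_contra hcon
    push Not at hcon
    have : ‖dg b a y‖ ^ 2 = 0 := by
      rw [norm_dg_sq]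
      exact Finset.sum_eq_zero fun i _ => hcon i
    nlinarith
  obtain ⟨i0, hi0⟩ := hne
  have ha0 : a i0 ≠ 0 := fun h0 => hi0 (by rw [h0]; simp)
  have hc0 : ⟪b i0, y⟫ ≠ 0 := fun h0 => hi0 (by rw [h0]; simp)
  have hr0 : 0 < r i0 := lt_of_lt_of_le (by positivity) (h.lower i0)
  show ‖dg b a (fl b r T y)‖ < ‖dg b a (fl b r t y)‖
  rw [← abs_of_nonneg (norm_nonneg (dg b a (fl b r T y))),
    ← abs_of_nonneg (norm_nonneg (dg b a (fl b r t y))), ← sq_lt_sq, norm_dg_fl_sq, norm_dg_fl_sq]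
  refine Finset.sum_lt_sum (fun i _ => mul_le_mul_of_nonneg_left ?_ (sq_nonneg _))
    ⟨i0, Finset.mem_univ _, ?_⟩
  · rw [mul_pow, mul_pow]
    refine mul_le_mul_of_nonneg_right ?_ (sq_nonneg _)
    exact pow_le_pow_left₀ (exp_pos _).le
      (exp_le_exp.2 (mul_le_mul_of_nonneg_right hT.le (h.r_nonneg i))) 2
  · rw [mul_pow, mul_pow]
    refine mul_lt_mul_of_pos_left ?_ (by positivity)
    refine mul_lt_mul_of_pos_right ?_ (by positivity)
    exact pow_lt_pow_left₀ (exp_lt_exp.2 (mul_lt_mul_of_pos_right hT hr0)) (exp_pos _).le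
      two_ne_zero

/-- the wall time -/
lemma exists_wall (b : OrthonormalBasis ι ℝ F) {a r : ι → ℝ} {δ : ℝ} (h : Rates a r δ)
    {y : F} (hy : 0 < ‖dg b a y‖) {M : ℝ} (hM : 0 < M) :
    ∃ T, ‖dg b a (fl b r T y)‖ = M := by
  have hcont : Continuous fun t => ‖dg b a (fl b r t y)‖ := continuous_X b a r y
  have hne : ∃ i, a i ^ 2 * ⟪b i, y⟫ ^ 2 ≠ 0 := by
    by_contra hcon
    push Not at hcon
    have : ‖dg b a y‖ ^ 2 = 0 := by
      rw [norm_dg_sq]
      exact Finset.sum_eq_zero fun i _ => hcon i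
    nlinarith
  obtain ⟨i0, hi0⟩ := hne
  have ha0 : a i0 ≠ 0 := fun h0 => hi0 (by rw [h0]; simp)
  have hc0 : ⟪b i0, y⟫ ≠ 0 := fun h0 => hi0 (by rw [h0]; simp)
  have hr0 : 0 < r i0 := lt_of_lt_of_le (by positivity) (h.lower i0)
  have htop : Tendsto (fun t => ‖dg b a (fl b r t y)‖ ^ 2) atTop atTop := by
    have h1 : Tendsto (fun t : ℝ => (a i0 ^ 2 * ⟪b i0, y⟫ ^ 2) * exp (t * r i0)) atTop atTop := by
      refine Tendsto.const_mul_atTop (by positivity) ?_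
      exact tendsto_exp_atTop.comp (tendsto_id.atTop_mul_const hr0)
    refine tendsto_atTop_mono' _ ?_ h1
    filter_upwards [eventually_ge_atTop 0] with t ht
    rw [norm_dg_fl_sq]
    refine le_trans ?_ (Finset.single_le_sum (fun i _ => by positivity) (Finset.mem_univ i0))
    have h2 : 1 ≤ exp (t * r i0) := by
      rw [← exp_zero]; exact exp_le_exp.2 (by positivity)
    have h3 : exp (t * r i0) ≤ exp (t * r i0) ^ 2 := by nlinarith
    calc a i0 ^ 2 * ⟪b i0, y⟫ ^ 2 * exp (t * r i0)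
        ≤ a i0 ^ 2 * ⟪b i0, y⟫ ^ 2 * exp (t * r i0) ^ 2 :=
          mul_le_mul_of_nonneg_left h3 (by positivity)
      _ = _ := by ring
  have hbot : Tendsto (fun t => ‖dg b a (fl b r t y)‖ ^ 2) atBot (𝓝 0) := by
    simp_rw [norm_dg_fl_sq]
    have : Tendsto (fun t : ℝ => ∑ i, a i ^ 2 * (exp (t * r i) * ⟪b i, y⟫) ^ 2) atBot
        (𝓝 (∑ _i : ι, (0:ℝ))) := by
      refine tendsto_finsetSum _ fun i _ => ?_
      by_cases hi : a i = 0
      · rw [hi]; simp
      · have hri : 0 < r i := lt_of_lt_of_le (by positivity) (h.lower i)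
        have h1 : Tendsto (fun t : ℝ => exp (t * r i)) atBot (𝓝 0) :=
          tendsto_exp_atBot.comp (tendsto_id.atBot_mul_const hri)
        have h2 : Tendsto (fun t : ℝ => a i ^ 2 * (exp (t * r i) * ⟪b i, y⟫) ^ 2) atBot
            (𝓝 (a i ^ 2 * (0 * ⟪b i, y⟫) ^ 2)) :=
          ((h1.mul_const _).pow 2).const_mul _
        simpa using h2
    simpa using this
  have hM2 : 0 < M ^ 2 := by positivity
  obtain ⟨t1, ht1⟩ := ((hbot.eventually (gt_mem_nhds hM2))).exists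
  obtain ⟨t2, ht2⟩ := (htop.eventually (eventually_ge_atTop (M ^ 2))).exists
  have h1 : ‖dg b a (fl b r t1 y)‖ ≤ M :=
    le_of_lt (lt_of_pow_lt_pow_left₀ 2 hM.le ht1)
  have h2 : M ≤ ‖dg b a (fl b r t2 y)‖ :=
    le_of_not_gt fun hlt => absurd ht2 (not_le.2 (pow_lt_pow_left₀ hlt (norm_nonneg _) two_ne_zero))
  have := mem_range_of_exists_le_of_exists_ge hcont ⟨t1, h1⟩ ⟨t2, h2⟩
  exact this

/-- the density decreases along the orbit when `X` is not too small -/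
lemma J_anti (b : OrthonormalBasis ι ℝ F) {a r : ι → ℝ} {δ : ℝ} (h : Rates a r δ) {T t : ℝ}
    (hT : T ≤ t) (y : F) (hδ : δ ≤ 1 / 20 * ‖dg b a (fl b r T y)‖ ^ 2) :
    J b r t y ≤ J b r T y := by
  rcases hT.eq_or_lt with rfl | hlt
  · exact le_rfl
  refine (J_decay b h hlt y hδ).trans ?_
  have : exp (-(2 / 5 * ‖dg b a (fl b r T y)‖ * ‖chord b a r T t y‖)) ≤ 1 := by
    rw [← exp_zero]; apply exp_le_exp.2
    have : 0 ≤ 2 / 5 * ‖dg b a (fl b r T y)‖ * ‖chord b a r T t y‖ := by positivity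
    linarith
  calc J b r T y * _ ≤ J b r T y * 1 := mul_le_mul_of_nonneg_left this (J_pos b r T y).le
    _ = _ := mul_one _

end Crest.Agent.R239.Glue996
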