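import Crest.Agent.R239.LemG462
import Crest.Agent.R239.PWdef690

/-!
# R239 : the NEAR block of #11572 (1) on `OrbData` (helper462)
-/

set_option autoImplicit false
set_option linter.unusedSectionVars false

open MeasureTheory ProbabilityTheory Set Filter Topology Metric
open scoped ENNReal NNReal RealInnerProductSpace

namespace Crest.Agent.R239.G462

open Crest.Agent.Lib.Ehrhard Crest.Agent.R239 Crest.Agent.R239.Pass690 Crest.Agent.R239.PW

variable {F : Type*} [NormedAddCommGroup F] [InnerProductSpace ℝ F] [FiniteDimensional ℝ F]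
  [MeasurableSpace F] [BorelSpace F]
variable {ι : Type*} [Fintype ι]

/-- the weight `1{V < l} min(1, e^{c₁ V})` as a function of `x = Φ(V)`. -/
noncomputable def wt (c1 l x : ℝ) : ℝ :=
  if 0 < x ∧ x < Phi l then min 1 (Real.exp (c1 * Psi x)) else 0

lemma wt_nonneg (c1 l x : ℝ) : 0 ≤ wt c1 l x := by
  unfold wt
  split_ifs
  · exact le_min zero_le_one (Real.exp_pos _).le
  · exact le_rfl

lemma wt_le_one (c1 l x : ℝ) : wt c1 l x ≤ 1 := by
  unfold wt
  split_ifs
  · exact min_le_left _ _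
  · exact zero_le_one

/-- layer cake for `wt` -/
lemma wt_eq {c1 l : ℝ} (hc1 : 0 < c1) (x : ℝ) :
    wt c1 l x = ∫ t in Iic 0, c1 * Real.exp (c1 * t) *
      ({p : ℝ × ℝ | Phi p.2 ≤ p.1 ∧ p.1 < Phi l}.indicator (fun _ => (1:ℝ)) (x, t)) := by
  unfold wt
  split_ifs with h
  · obtain ⟨hx0, hxl⟩ := h
    have hx1 : x < 1 := hxl.trans (Phi_lt_one l)
    have e : ∀ t ∈ Iic (0:ℝ), c1 * Real.exp (c1 * t) *
        ({p : ℝ × ℝ | Phi p.2 ≤ p.1 ∧ p.1 < Phi l}.indicator (fun _ => (1:ℝ)) (x, t))
        = (Iic (Psi x)).indicator (fun t => c1 * Real.exp (c1 * t)) t := by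
      intro t _
      by_cases ht : t ≤ Psi x
      · rw [indicator_of_mem (show t ∈ Iic (Psi x) from ht), indicator_of_mem, mul_one]
        exact ⟨(le_Psi_iff hx0 hx1).1 ht, hxl⟩
      · rw [indicator_of_notMem (show t ∉ Iic (Psi x) from ht), indicator_of_notMem, mul_zero]
        rintro ⟨h1, _⟩
        exact ht ((le_Psi_iff hx0 hx1).2 h1)
    rw [setIntegral_congr_fun measurableSet_Iic e, setIntegral_indicator measurableSet_Iic,
      Iic_inter_Iic, integral_const_mul, integral_exp_mul_Iic hc1]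
    rcases le_total 0 (Psi x) with h | h
    · rw [inf_of_le_left h, min_eq_left]
      · rw [mul_zero, Real.exp_zero]; field_simp
      · exact Real.one_le_exp (by positivity)
    · rw [inf_of_le_right h, min_eq_right]
      · field_simp
      · exact Real.exp_le_one_iff.2 (by nlinarith)
  · have e : ∀ t ∈ Iic (0:ℝ), c1 * Real.exp (c1 * t) *
        ({p : ℝ × ℝ | Phi p.2 ≤ p.1 ∧ p.1 < Phi l}.indicator (fun _ => (1:ℝ)) (x, t)) = 0 := by
      intro t _
      rw [indicator_of_notMem, mul_zero]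
      rintro ⟨h1, h2⟩
      exact h ⟨(Phi_pos t).trans_le h1, h2⟩
    rw [setIntegral_congr_fun measurableSet_Iic e]
    simp

section level

variable {f : F → ℝ}

lemma isClosed_lev (h : IsClosed {p : X2 F | Phi (p1 F p) ≤ f (p0 F p)}) (t : ℝ) :
    IsClosed {y | Phi t ≤ f y} := by
  have hc : Continuous fun y : F => i0 F y + i1 F t := (i0 F).continuous.add continuous_const
  have h2 := h.preimage hc
  have e : (fun y : F => i0 F y + i1 F t) ⁻¹' {p : X2 F | Phi (p1 F p) ≤ f (p0 F p)}
      = {y | Phi t ≤ f y} := by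
    ext y
    simp
  rwa [e] at h2

lemma lev_comb (h : Convex ℝ {p : X2 F | Phi (p1 F p) ≤ f (p0 F p)}) {s t l : ℝ} (hl0 : 0 ≤ l)
    (hl1 : l ≤ 1) {x y : F} (hx : Phi s ≤ f x) (hy : Phi t ≤ f y) :
    Phi ((1 - l) * s + l * t) ≤ f ((1 - l) • x + l • y) := by
  have hx' : i0 F x + i1 F s ∈ {p : X2 F | Phi (p1 F p) ≤ f (p0 F p)} := by simpa using hx
  have hy' : i0 F y + i1 F t ∈ {p : X2 F | Phi (p1 F p) ≤ f (p0 F p)} := by simpa using hy
  have h2 := h hx' hy' (sub_nonneg.2 hl1) hl0 (by ring)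
  simpa using h2

lemma measurable_of_hyp (h : IsClosed {p : X2 F | Phi (p1 F p) ≤ f (p0 F p)}) (h0 : ∀ y, 0 ≤ f y)
    (h1 : ∀ y, f y ≤ 1) : Measurable f := by
  refine measurable_of_Ici fun c => ?_
  rcases le_or_gt c 0 with hc | hc
  · have : f ⁻¹' Ici c = univ := by
      ext y
      simp only [mem_preimage, mem_Ici, mem_univ, iff_true]
      exact hc.trans (h0 y)
    rw [this]
    exact MeasurableSet.univ
  · rcases lt_trichotomy c 1 with hc1 | hc1 | hc1
    · have : f ⁻¹' Ici c = {y | Phi (Psi c) ≤ f y} := by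
        ext y
        rw [Phi_Psi hc hc1]
        rfl
      rw [this]
      exact (isClosed_lev h _).measurableSet
    · have : f ⁻¹' Ici c = ⋂ n : ℕ, {y | Phi n ≤ f y} := by
        ext y
        simp only [mem_preimage, mem_Ici, mem_iInter]
        constructor
        · intro hy n
          exact (Phi_lt_one n).le.trans (hc1 ▸ hy)
        · intro hy
          rw [hc1]
          exact le_of_tendsto' (tendsto_Phi_atTop.comp tendsto_natCast_atTop_atTop) hy
      rw [this]
      exact MeasurableSet.iInter fun n => (isClosed_lev h _).measurableSet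
    · have : f ⁻¹' Ici c = ∅ := by
        ext y
        simp only [mem_preimage, mem_Ici, mem_empty_iff_false, iff_false, not_le]
        exact (h1 y).trans_lt hc1
      rw [this]
      exact MeasurableSet.empty

end level

lemma lintegral_inner_sq (e : F) (he : ‖e‖ = 1) : ∫ y, ⟪e, y⟫ ^ 2 ∂(stdGaussian F) = 1 := by
  have h := integral_norm_sq_gau (ContinuousLinearMap.id ℝ F) e
  rw [gau_id] at h
  rw [h, adjoint_id']
  simp [he]

lemma integrable_inner_sq (e : F) : Integrable (fun y => ⟪e, y⟫ ^ 2) (stdGaussian F) := by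
  rcases eq_or_ne e 0 with h | h
  · simp [h]
  · by_contra hne
    have h2 := integral_norm_sq_gau (ContinuousLinearMap.id ℝ F) e
    rw [gau_id, integral_undef hne, adjoint_id'] at h2
    exact h (norm_eq_zero.1 (pow_eq_zero_iff (two_ne_zero) |>.1 h2.symm))

/-- `E ‖dg b a y‖² = ∑ a i ²` -/
lemma integral_norm_dg_sq (b : OrthonormalBasis ι ℝ F) (a : ι → ℝ) :
    ∫ y, ‖dg b a y‖ ^ 2 ∂(stdGaussian F) = ∑ i, a i ^ 2 := by
  simp_rw [norm_dg_sq]
  rw [integral_finsetSum _ fun i _ => (integrable_inner_sq (b i)).const_mul _]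
  refine Finset.sum_congr rfl fun i _ => ?_
  rw [integral_const_mul, lintegral_inner_sq _ (b.orthonormal.1 i), mul_one]

lemma integrable_norm_dg_sq (b : OrthonormalBasis ι ℝ F) (a : ι → ℝ) :
    Integrable (fun y => ‖dg b a y‖ ^ 2) (stdGaussian F) := by
  simp_rw [norm_dg_sq]
  exact integrable_finsetSum _ fun i _ => (integrable_inner_sq (b i)).const_mul _

/-- mass outside the wall -/
lemma wall_mass (b : OrthonormalBasis ι ℝ F) (a : ι → ℝ) {M : ℝ} (hM : 0 < M) :
    (stdGaussian F).real {y | ‖dg b a y‖ ≤ M}ᶜ ≤ (∑ i, a i ^ 2) / M ^ 2 := by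
  have h := mul_meas_ge_le_integral_of_nonneg (μ := stdGaussian F)
    (f := fun y => ‖dg b a y‖ ^ 2) (Eventually.of_forall fun y => by positivity)
    (integrable_norm_dg_sq b a) (M ^ 2)
  rw [integral_norm_dg_sq] at h
  rw [le_div_iff₀ (by positivity), mul_comm]
  refine le_trans (mul_le_mul_of_nonneg_left (measureReal_mono ?_ (measure_ne_top _ _))
    (by positivity)) h
  intro y hy
  simp only [mem_compl_iff, mem_ofPred_eq, not_le] at hy ⊢
  exact pow_le_pow_left₀ hM.le hy.le 2

/-- the gain constant -/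
noncomputable def cG (η c1 l : ℝ) : ℝ := (50 / (η * c1) + 2 / (Phi (l + η / 5) - Phi l))⁻¹

lemma cG_pos {η c1 l : ℝ} (hη : 0 < η) (hc1 : 0 < c1) : 0 < cG η c1 l := by
  unfold cG
  have : 0 < Phi (l + η / 5) - Phi l := sub_pos.2 (strictMono_Phi (by linarith))
  positivity

variable {b : OrthonormalBasis ι ℝ F} {a : ι → ℝ} {η η' κ : ℝ} {f : F → ℝ} {B : Set F}

theorem OrbData.measurable (h : OrbData b a η η' κ f B) : Measurable f :=
  measurable_of_hyp h.isClosed h.nonneg h.le_one

/-- **NEAR block**. -/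
theorem near (h : OrbData b a η η' κ f B) (hη : 0 < η) (hη1 : η ≤ 1 / 10)
    {c1 l M : ℝ} (hc1 : 0 < c1) (hl : 0 ≤ l) (hs : ∑ i, a i ^ 2 ≤ η ^ 3 / 12800)
    (hM : η / 4 ≤ M) (hM' : M ≤ η / 2) :
    (stdGaussian F).real (B ∩ {y | ‖dg b a y‖ ≤ M})
      + cG η c1 l * ∫ y in {y | ‖dg b a y‖ ≤ M}, wt c1 l (f y) ∂(stdGaussian F)
      ≤ ∫ y in {y | ‖dg b a y‖ ≤ M}, (1 - f y) ∂(stdGaussian F) := by
  set γ := stdGaussian F with hγ
  set W : Set F := {y | ‖dg b a y‖ ≤ M} with hW
  have hM0 : 0 < M := by linarith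
  have hWc : IsClosed W := isClosed_le (dg b a).continuous.norm continuous_const
  have hWm : MeasurableSet W := hWc.measurableSet
  have hWcv : Convex ℝ W := by
    have h1 : W = (dg b a) ⁻¹' closedBall 0 M := by
      ext y; simp [hW]
    rw [h1]
    exact (convex_closedBall 0 M).linear_preimage (dg b a : F →ₗ[ℝ] F)
  have hf : Measurable f := OrbData.measurable h
  have hlevm : ∀ t, MeasurableSet {y | Phi t ≤ f y} := fun t => (isClosed_lev h.isClosed t).measurableSet
  set G : ℝ → ℝ := fun t => γ.real (W ∩ {y | Phi t ≤ f y}) with hG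
  have hG0 : ∀ t, 0 ≤ G t := fun t => measureReal_nonneg
  have hG1 : ∀ t, G t ≤ 1 := fun t => measureReal_le_one
  have hanti : Antitone G := by
    intro s t hst
    refine measureReal_mono ?_ (measure_ne_top _ _)
    rintro y ⟨hy1, hy2⟩
    exact ⟨hy1, (strictMono_Phi.monotone hst).trans hy2⟩
  have hE : ∀ s t a b l : ℝ, 0 ≤ l → l ≤ 1 → Phi a ≤ G s → Phi b ≤ G t →
      Phi ((1 - l) * a + l * b) ≤ G ((1 - l) * s + l * t) := by
    intro s t a' b' l' hl0 hl1 ha hb
    refine ehrhard_sets (hWc.inter (isClosed_lev h.isClosed s)) (hWc.inter (isClosed_lev h.isClosed t))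
      ?_ ?_ (hWc.inter (isClosed_lev h.isClosed _)) hl0 hl1 ?_ ha hb
    · intro x hx y hy p q hp hq hpq
      refine ⟨hWcv hx.1 hy.1 hp hq hpq, ?_⟩
      have h2 := lev_comb h.convex (s := s) (t := s) hq (by linarith) hx.2 hy.2
      have e1 : (1 - q) = p := by linarith
      rw [e1] at h2
      have e2 : p * s + q * s = s := by rw [← add_mul, hpq, one_mul]
      rwa [e2] at h2
    · intro x hx y hy p q hp hq hpq
      refine ⟨hWcv hx.1 hy.1 hp hq hpq, ?_⟩
      have h2 := lev_comb h.convex (s := t) (t := t) hq (by linarith) hx.2 hy.2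
      have e1 : (1 - q) = p := by linarith
      rw [e1] at h2
      have e2 : p * t + q * t = t := by rw [← add_mul, hpq, one_mul]
      rwa [e2] at h2
    · intro x hx y hy
      exact ⟨hWcv hx.1 hy.1 (sub_nonneg.2 hl1) hl0 (by ring), lev_comb h.convex hl0 hl1 hx.2 hy.2⟩
  have hfint : Integrable f γ := by
    refine Integrable.of_bound hf.aestronglyMeasurable 1 (Eventually.of_forall fun y => ?_)
    rw [Real.norm_of_nonneg (h.nonneg y)]
    exact h.le_one y
  -- `∫ G dγ₁ = ∫_W f`
  have hGint : ∫ z, G z ∂(gaussianReal 0 1) = ∫ y in W, f y ∂γ := by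
    have h1 := integral_eq_integral_Phi_level γ (f := W.indicator f) (hf.indicator hWm)
      (fun y => by
        by_cases hy : y ∈ W
        · rw [indicator_of_mem hy]; exact h.nonneg y
        · rw [indicator_of_notMem hy])
      (fun y => by
        by_cases hy : y ∈ W
        · rw [indicator_of_mem hy]; exact h.le_one y
        · rw [indicator_of_notMem hy]; exact zero_le_one)
    rw [← integral_indicator hWm, h1]
    refine integral_congr_ae (Eventually.of_forall fun z => ?_)
    simp only [hG]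
    congr 1
    ext y
    simp only [mem_inter_iff, mem_ofPred_eq]
    by_cases hy : y ∈ W
    · rw [indicator_of_mem hy]; simp [hy]
    · rw [indicator_of_notMem hy]
      simp only [hy, false_and, false_iff, not_le]
      exact Phi_pos z
  have hθ : 1 / 2 - η / 10 / 80 ≤ ∫ z, G z ∂(gaussianReal 0 1) := by
    rw [hGint]
    have h1 : ∫ y, f y ∂γ = (∫ y in W, f y ∂γ) + ∫ y in Wᶜ, f y ∂γ :=
      (integral_add_compl hWm hfint).symm
    have h2 : ∫ y in Wᶜ, f y ∂γ ≤ γ.real Wᶜ := by
      calc ∫ y in Wᶜ, f y ∂γ ≤ ∫ y in Wᶜ, (1:ℝ) ∂γ :=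
            setIntegral_mono_on hfint.integrableOn (integrableOn_const (measure_ne_top _ _))
              hWm.compl fun y _ => h.le_one y
        _ = γ.real Wᶜ := by simp
    have h3 := wall_mass b a hM0
    have h4 : (∑ i, a i ^ 2) / M ^ 2 ≤ η / 10 / 80 := by
      rw [div_le_iff₀ (by positivity)]
      have : (η / 4) ^ 2 ≤ M ^ 2 := pow_le_pow_left₀ (by positivity) hM 2
      nlinarith
    have h5 := h.half
    linarith
  have hlem := lemG hanti hG0 hG1 hE (d := η / 10) (c1 := c1) (l := l) (θ := η / 10 / 80)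
    (by positivity) (by linarith) hc1 hl le_rfl hθ
  have e5 : 5 / (η / 10 * c1) + 2 / (Phi (l + 2 * (η / 10)) - Phi l) = (cG η c1 l)⁻¹ := by
    have e6 : 2 * (η / 10) = η / 5 := by ring
    have e7 : 5 / (η / 10 * c1) = 50 / (η * c1) := by
      field_simp
      norm_num
    unfold cG
    rw [inv_inv, e6, e7]
  rw [e5] at hlem
  -- Fubini for the weight
  have hwt : ∫ y in W, wt c1 l (f y) ∂γ
      = ∫ t in Iic 0, c1 * Real.exp (c1 * t) * (G t - G l) := by
    have hexp : IntegrableOn (fun t => c1 * Real.exp (c1 * t)) (Iic 0) :=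
      (integrableOn_exp_mul_Iic hc1 0).const_mul _
    have hS : MeasurableSet {p : ℝ × ℝ | Phi p.2 ≤ p.1 ∧ p.1 < Phi l} :=
      (measurableSet_le (continuous_Phi.measurable.comp measurable_snd) measurable_fst).inter
        (measurableSet_lt measurable_fst measurable_const)
    have hint : Integrable (Function.uncurry fun (y : F) (t : ℝ) => c1 * Real.exp (c1 * t) *
        ({p : ℝ × ℝ | Phi p.2 ≤ p.1 ∧ p.1 < Phi l}.indicator (fun _ => (1:ℝ)) (f y, t)))
        ((γ.restrict W).prod (volume.restrict (Iic 0))) := by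
      have hdom : Integrable (fun p : F × ℝ => c1 * Real.exp (c1 * p.2))
          ((γ.restrict W).prod (volume.restrict (Iic 0))) := by
        have := (integrable_const (1:ℝ) (μ := γ.restrict W)).mul_prod (μ := γ.restrict W)
          (ν := volume.restrict (Iic (0:ℝ))) (g := fun t => c1 * Real.exp (c1 * t)) hexp
        simpa using this
      refine hdom.mono' ?_ (Eventually.of_forall fun p => ?_)
      · refine Measurable.aestronglyMeasurable ?_
        refine Measurable.mul (by fun_prop) ?_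
        exact (measurable_const.indicator hS).comp ((hf.comp measurable_fst).prodMk measurable_snd)
      · simp only [Function.uncurry]
        rw [Real.norm_eq_abs, abs_mul, abs_of_nonneg (by positivity : 0 ≤ c1 * Real.exp (c1 * p.2))]
        refine mul_le_of_le_one_right (by positivity) ?_
        by_cases hp : (f p.1, p.2) ∈ {p : ℝ × ℝ | Phi p.2 ≤ p.1 ∧ p.1 < Phi l}
        · rw [indicator_of_mem hp]; simp
        · rw [indicator_of_notMem hp]; simp
    simp_rw [wt_eq (l := l) hc1]
    rw [integral_integral_swap hint]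
    refine setIntegral_congr_fun measurableSet_Iic fun t ht => ?_
    have ht0 : t ≤ 0 := ht
    rw [integral_const_mul]
    congr 1
    have e1 : (fun y => {p : ℝ × ℝ | Phi p.2 ≤ p.1 ∧ p.1 < Phi l}.indicator (fun _ => (1:ℝ)) (f y, t))
        = ({y | Phi t ≤ f y} \ {y | Phi l ≤ f y}).indicator (fun _ => (1:ℝ)) := by
      ext y
      by_cases hy : Phi t ≤ f y ∧ f y < Phi l
      · rw [indicator_of_mem (show (f y, t) ∈ {p : ℝ × ℝ | Phi p.2 ≤ p.1 ∧ p.1 < Phi l} from hy),
          indicator_of_mem]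
        exact ⟨hy.1, not_le.2 hy.2⟩
      · rw [indicator_of_notMem (show (f y, t) ∉ {p : ℝ × ℝ | Phi p.2 ≤ p.1 ∧ p.1 < Phi l} from hy),
          indicator_of_notMem]
        rintro ⟨h1, h2⟩
        exact hy ⟨h1, not_le.1 h2⟩
    rw [e1, integral_indicator_const _ ((hlevm t).diff (hlevm l)), smul_eq_mul, mul_one,
      measureReal_restrict_apply ((hlevm t).diff (hlevm l))]
    change γ.real (({y | Phi t ≤ f y} \ {y | Phi l ≤ f y}) ∩ W)
      = γ.real (W ∩ {y | Phi t ≤ f y}) - γ.real (W ∩ {y | Phi l ≤ f y})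
    rw [← measureReal_sdiff]
    · congr 1
      ext y
      simp only [mem_inter_iff, Set.mem_sdiff, mem_ofPred_eq, not_and]
      tauto
    · rintro y ⟨hy1, hy2⟩
      exact ⟨hy1, (strictMono_Phi.monotone (ht0.trans hl)).trans hy2⟩
    · exact hWm.inter (hlevm l)
  rw [← hwt] at hlem
  have hc := cG_pos (η := η) (c1 := c1) (l := l) hη hc1
  have h6 : cG η c1 l * ∫ y in W, wt c1 l (f y) ∂γ ≤ G (-(η / 10)) - ∫ y in W, f y ∂γ := by
    rw [← hGint]
    have h7 := mul_le_mul_of_nonneg_left hlem hc.le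
    rwa [← mul_assoc, mul_inv_cancel₀ hc.ne', one_mul] at h7
  have h8 : γ.real (B ∩ W) ≤ γ.real W - G (-(η / 10)) := by
    simp only [hG]
    rw [← measureReal_sdiff (inter_subset_left) (hWm.inter (hlevm _))]
    refine measureReal_mono ?_ (measure_ne_top _ _)
    rintro y ⟨hyB, hyW⟩
    refine ⟨hyW, fun hy => ?_⟩
    exact absurd hy.2 (not_le.2 (h.near y hyB (le_trans hyW hM')))
  have h9 : ∫ y in W, (1 - f y) ∂γ = γ.real W - ∫ y in W, f y ∂γ := by
    rw [integral_sub (integrable_const _) hfint.integrableOn]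
    simp
  rw [h9]
  linarith

lemma measurable_wt (c1 l : ℝ) : Measurable (wt c1 l) := by
  have hS : MeasurableSet {x : ℝ | 0 < x ∧ x < Phi l} :=
    (measurableSet_lt measurable_const measurable_id).inter
      (measurableSet_lt measurable_id measurable_const)
  have hPsi : Measurable fun x : ℝ => (Ioo (0:ℝ) 1).indicator Psi x := by
    have hc : ContinuousOn Psi (Ioo (0:ℝ) 1) := fun x hx =>
      (continuousAt_Psi hx.1 hx.2).continuousWithinAt
    have h9 := hc.measurable_piecewise (g := (0 : ℝ → ℝ)) continuousOn_const measurableSet_Ioo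
    rwa [piecewise_eq_indicator] at h9
  have e : wt c1 l = {x : ℝ | 0 < x ∧ x < Phi l}.indicator
      (fun x => min 1 (Real.exp (c1 * (Ioo (0:ℝ) 1).indicator Psi x))) := by
    ext x
    unfold wt
    split_ifs with h
    · rw [indicator_of_mem (show x ∈ {x : ℝ | 0 < x ∧ x < Phi l} from h),
        indicator_of_mem (show x ∈ Ioo (0:ℝ) 1 from ⟨h.1, h.2.trans (Phi_lt_one l)⟩)]
    · rw [indicator_of_notMem (show x ∉ {x : ℝ | 0 < x ∧ x < Phi l} from h)]
  rw [e]
  exact ((measurable_const.min (Real.measurable_exp.comp (hPsi.const_mul c1))).indicator hS)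

/-- **NEAR block**, `lintegral` form. -/
theorem near_lintegral (h : OrbData b a η η' κ f B) (hη : 0 < η) (hη1 : η ≤ 1 / 10)
    {c1 l M : ℝ} (hc1 : 0 < c1) (hl : 0 ≤ l) (hs : ∑ i, a i ^ 2 ≤ η ^ 3 / 12800)
    (hM : η / 4 ≤ M) (hM' : M ≤ η / 2) :
    stdGaussian F (B ∩ {y | ‖dg b a y‖ ≤ M})
      + ENNReal.ofReal (cG η c1 l) *
        ∫⁻ y in {y | ‖dg b a y‖ ≤ M}, ENNReal.ofReal (wt c1 l (f y)) ∂(stdGaussian F)
      ≤ ∫⁻ y in {y | ‖dg b a y‖ ≤ M}, ENNReal.ofReal (1 - f y) ∂(stdGaussian F) := by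
  have h1 := near h hη hη1 hc1 hl hs hM hM'
  have hf : Measurable f := OrbData.measurable h
  have hi1 : Integrable (fun y => wt c1 l (f y))
      ((stdGaussian F).restrict {y | ‖dg b a y‖ ≤ M}) := by
    refine Integrable.of_bound ((measurable_wt c1 l).comp hf).aestronglyMeasurable 1
      (Eventually.of_forall fun y => ?_)
    rw [Real.norm_of_nonneg (wt_nonneg _ _ _)]
    exact wt_le_one _ _ _
  have hi2 : Integrable (fun y => 1 - f y) ((stdGaussian F).restrict {y | ‖dg b a y‖ ≤ M}) := by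
    refine Integrable.of_bound (measurable_const.sub hf).aestronglyMeasurable 1
      (Eventually.of_forall fun y => ?_)
    rw [Real.norm_of_nonneg (by linarith [h.le_one y])]
    linarith [h.nonneg y]
  rw [← ofReal_integral_eq_lintegral_ofReal hi1 (Eventually.of_forall fun y => wt_nonneg _ _ _),
    ← ofReal_integral_eq_lintegral_ofReal hi2
      (Eventually.of_forall fun y => by have := h.le_one y; simp only [Pi.zero_apply]; linarith),
    ← ENNReal.ofReal_mul (cG_pos hη hc1).le, ← ENNReal.ofReal_toReal (measure_ne_top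
      (stdGaussian F) (B ∩ {y | ‖dg b a y‖ ≤ M})), ← ENNReal.ofReal_add ENNReal.toReal_nonneg
      (mul_nonneg (cG_pos hη hc1).le (integral_nonneg fun y => wt_nonneg _ _ _))]
  exact ENNReal.ofReal_le_ofReal h1

end Crest.Agent.R239.G462
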