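import Crest.Agent.R239.Glue996b
import Crest.Agent.R239.Near462

/-!
# One-orbit far inequality on `OrbData` (R239, (PW'))
-/

set_option autoImplicit false
set_option linter.unusedSectionVars false
open MeasureTheory ProbabilityTheory Set Filter Topology Real
open scoped ENNReal NNReal RealInnerProductSpace

namespace Crest.Agent.R239.Glue996

open Crest.Agent.Lib.Ehrhard (Phi Psi Phi_pos Phi_lt_one strictMono_Phi Phi_neg continuous_Phi
  Phi_Psi Psi_Phi Phi_nonneg Psi_le_iff le_Psi_iff tendsto_Phi_atTop tendsto_Phi_atBot)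
open Crest.Agent.R239 Crest.Agent.R239.PW Crest.Agent.R239.Orb
open Crest.Agent.R239.OD (rr)
open Crest.Agent.R239.G462 (wt cG wt_nonneg wt_le_one measurable_wt cG_pos)

variable {F : Type*} [NormedAddCommGroup F] [InnerProductSpace ℝ F] [FiniteDimensional ℝ F]
  [MeasurableSpace F] [BorelSpace F]
variable {ι : Type*} [Fintype ι]
variable {b : OrthonormalBasis ι ℝ F} {a r : ι → ℝ} {η η' κ δ : ℝ} {f : F → ℝ} {B : Set F}

lemma rates_rr {ε : ℝ} (ha : ∀ i, 0 ≤ a i) (hs : ∑ i, a i ^ 2 ≤ ε) (hε : ε ≤ 1 / 100) :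
    Rates a (rr a) (2 * ε) where
  nonneg := ha
  lower := fun i => OD.rr_ge hs hε i
  upper := fun i => (OD.rr_le hs hε i).trans
    (mul_le_mul_of_nonneg_right (by linarith) (sq_nonneg _))
  sum_le := OD.sum_rr_le hs hε

/-- Lipschitz property along orbits -/
lemma lip_orbit (h : OrbData b a η η' κ f B) (R : Rates a r δ) (y : F) (T t : ℝ) {q : ℝ}
    (hq : Phi q ≤ f (fl b r T y)) : Phi (q - κ * ‖chord b a r T t y‖) ≤ f (fl b r t y) := by
  rw [fl_chord b R T t y]
  exact h.lip _ _ _ hq

lemma orbit_zero (h : OrbData b a η η' κ f B) (R : Rates a r δ) (y : F) (T t : ℝ)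
    (h0 : f (fl b r T y) = 0) : f (fl b r t y) = 0 := by
  by_contra hne
  have hpos : 0 < f (fl b r t y) := lt_of_le_of_ne (h.nonneg _) (Ne.symm hne)
  obtain ⟨q, hq⟩ := (tendsto_Phi_atBot.eventually (gt_mem_nhds hpos)).exists
  have := lip_orbit h R y t T (le_of_lt hq)
  rw [h0] at this
  exact absurd this (not_le.2 (Phi_pos _))

lemma orbit_lt_one (h : OrbData b a η η' κ f B) (R : Rates a r δ) (y : F) (T t : ℝ)
    (h1 : f (fl b r T y) < 1) : f (fl b r t y) < 1 := by
  by_contra hne
  have hone : f (fl b r t y) = 1 := le_antisymm (h.le_one _) (not_lt.1 hne)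
  obtain ⟨q, hq⟩ := (tendsto_Phi_atTop.eventually (lt_mem_nhds h1)).exists
  have := lip_orbit h R y t T (q := q + κ * ‖chord b a r t T y‖)
    (by rw [hone]; exact (Phi_lt_one _).le)
  rw [add_sub_cancel_right] at this
  linarith

/-- `V` along the orbit -/
lemma orbit_v (h : OrbData b a η η' κ f B) (hκ : κ ≤ 11 / 10) (R : Rates a r δ) (y : F) (T : ℝ)
    (h0 : 0 < f (fl b r T y)) (h1 : f (fl b r T y) < 1) (t : ℝ) :
    0 < f (fl b r t y) ∧ f (fl b r t y) < 1 ∧
      |Psi (f (fl b r t y)) - Psi (f (fl b r T y))| ≤ 11 / 10 * ‖chord b a r T t y‖ := by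
  have ht0 : 0 < f (fl b r t y) := by
    refine lt_of_le_of_ne (h.nonneg _) fun h2 => ?_
    exact absurd (orbit_zero h R y t T h2.symm) h0.ne'
  have ht1 := orbit_lt_one h R y T t h1
  refine ⟨ht0, ht1, ?_⟩
  have e1 := lip_orbit h R y T t (q := Psi (f (fl b r T y))) (by rw [Phi_Psi h0 h1])
  have e2 := lip_orbit h R y t T (q := Psi (f (fl b r t y))) (by rw [Phi_Psi ht0 ht1])
  rw [← le_Psi_iff ht0 ht1] at e1
  rw [← le_Psi_iff h0 h1] at e2
  have e3 := norm_chord_symm b a r T t y
  have e4 : κ * ‖chord b a r T t y‖ ≤ 11 / 10 * ‖chord b a r T t y‖ :=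
    mul_le_mul_of_nonneg_right hκ (norm_nonneg _)
  rw [abs_le]
  rw [← e3] at e2
  constructor <;> linarith

/-- line inequality (LI'') -/
def LIpp (b : OrthonormalBasis ι ℝ F) (a : ι → ℝ) (f : F → ℝ) (B : Set F) (η c L : ℝ) : Prop :=
  ∀ (y : F) (α t1 : ℝ), α ≤ t1 → η / 4 ≤ ‖dg b a (fl b (rr a) α y)‖ →
    ‖dg b a (fl b (rr a) α y)‖ ≤ η / 2 →
    Phi (L + 4 * ‖dg b a (fl b (rr a) α y)‖) ≤ f (fl b (rr a) α y) →
    fl b (rr a) t1 y ∈ B →
    ∫⁻ t in Ioi t1, ENNReal.ofReal (J b (rr a) t y) ≤
      ENNReal.ofReal (1 - c) * ∫⁻ t in Ioi α,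
        ENNReal.ofReal (1 - f (fl b (rr a) t y)) * ENNReal.ofReal (J b (rr a) t y)

/-- from (LI'') to the integral over all bad times -/
lemma deep_all {c : ℝ} {S : Set ℝ} {ρ : ℝ → ℝ≥0∞} {α : ℝ} {I : ℝ≥0∞}
    (hline : ∀ t1 ∈ S, α < t1 → ∫⁻ t in Ioi t1, ρ t ≤ ENNReal.ofReal (1 - c) * I) :
    ∫⁻ t in S ∩ Ioi α, ρ t ≤ ENNReal.ofReal (1 - c) * I := by
  rcases (S ∩ Ioi α).eq_empty_or_nonempty with he | hne
  · rw [he]; simp
  have hbd : BddBelow (S ∩ Ioi α) := ⟨α, fun x hx => le_of_lt hx.2⟩
  set m := sInf (S ∩ Ioi α) with hm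
  obtain ⟨u, hu1, hu2, hu3⟩ := exists_seq_tendsto_sInf hne hbd
  have hsub : S ∩ Ioi α ⊆ insert m (Ioi m) := by
    intro x hx
    rcases (csInf_le hbd hx).eq_or_lt with h | h
    · left; exact h.symm
    · right; exact h
  have h1 : ∫⁻ t in S ∩ Ioi α, ρ t ≤ ∫⁻ t in Ioi m, ρ t := by
    refine (lintegral_mono_set hsub).trans (le_of_eq ?_)
    refine setLIntegral_congr ?_
    exact insert_ae_eq_self _ _
  refine h1.trans ?_
  have h2 : (Ioi m) = ⋃ k, Ioi (u k) := by
    ext x
    simp only [mem_Ioi, mem_iUnion]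
    constructor
    · intro hx
      have := (tendsto_order.1 hu2).2 x hx
      exact this.exists
    · rintro ⟨k, hk⟩
      exact lt_of_le_of_lt (csInf_le hbd (hu3 k)) hk
  rw [h2]
  have hmono : Monotone fun k => Ioi (u k) := fun a b hab => Ioi_subset_Ioi (hu1 hab)
  rw [setLIntegral_iUnion_of_directed _ hmono.directed_le]
  refine iSup_le fun k => ?_
  exact hline (u k) (hu3 k).1 (hu3 k).2

/-- the constant in front of the slab integral -/
noncomputable def CC (η L : ℝ) : ℝ :=
  (exp ((η / 64) ^ 2 / 2 + η / 64 * (L + 1)) + 1) / (3 / 10 * (η / 4) ^ 2) * exp (η / 64 * (1 / 10))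

lemma CC_pos {η L : ℝ} (hη : 0 < η) : 0 < CC η L := by unfold CC; positivity

lemma wt_eq_exp {c1 l x : ℝ} (hc1 : 0 < c1) (h0 : 0 < x) (h1 : x < 1) :
    wt c1 l x = if Psi x < l then exp (c1 * min (Psi x) 0) else 0 := by
  unfold wt
  have e : x < Phi l ↔ Psi x < l := by
    rw [← not_le, ← not_le, le_Psi_iff h0 h1]
  have e2 : min 1 (exp (c1 * Psi x)) = exp (c1 * min (Psi x) 0) := by
    rcases le_total (Psi x) 0 with h | h
    · rw [min_eq_left h, min_eq_right]
      rw [← exp_zero]; exact exp_le_exp.2 (mul_nonpos_of_nonneg_of_nonpos hc1.le h)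
    · rw [min_eq_right h, min_eq_left, mul_zero, exp_zero]
      rw [← exp_zero]; exact exp_le_exp.2 (mul_nonneg hc1.le h)
  by_cases hx : x < Phi l
  · rw [if_pos ⟨h0, hx⟩, if_pos (e.1 hx), e2]
  · rw [if_neg (fun hh => hx hh.2), if_neg (fun hh => hx (e.2 hh))]

set_option maxHeartbeats 1000000 in
/-- the one-orbit far inequality -/
theorem fo (h : OrbData b a η η' κ f B) (hκ : κ ≤ 11 / 10) (hη : 0 < η) (hη1 : η ≤ 1 / 10)
    {c L : ℝ} (hc : 0 < c) (hc1 : c ≤ 1) (hL : 0 ≤ L) (R : Rates a (rr a) δ)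
    (hδ : δ ≤ η ^ 2 / 400) (hLI : LIpp b a f B η c L) (hB : MeasurableSet B) (y : F) {T M : ℝ}
    (hX : ‖dg b a (fl b (rr a) T y)‖ = M) (hM : η / 4 ≤ M) (hM' : M ≤ η / 2) :
    ∫⁻ t in Ioi T, (B.indicator 1 (fl b (rr a) t y) +
        ENNReal.ofReal (c * Phi (-(L + 1))) *
          ENNReal.ofReal (wt (η / 64) (L + 1) (f (fl b (rr a) t y)))) *
        ENNReal.ofReal (J b (rr a) t y) ≤
      (∫⁻ t in Ioi T, ENNReal.ofReal (1 - f (fl b (rr a) t y)) *
        ENNReal.ofReal (J b (rr a) t y)) +
      ENNReal.ofReal (CC η L) * ∫⁻ t in Ioc (T - 1) T,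
        ENNReal.ofReal (wt (η / 64) (L + 1) (f (fl b (rr a) t y))) *
        ENNReal.ofReal (J b (rr a) t y) := by
  have hf : Measurable f := G462.OrbData.measurable h
  have hflm : Measurable fun t => fl b (rr a) t y := measurable_fl_time b (rr a) y
  have hJm : Measurable fun t => ENNReal.ofReal (J b (rr a) t y) := measurable_J_time b (rr a) y
  have hwm : Measurable fun t => ENNReal.ofReal (wt (η / 64) (L + 1) (f (fl b (rr a) t y))) :=
    ((measurable_wt _ _).comp (hf.comp hflm)).ennreal_ofReal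
  have hfm : Measurable fun t => ENNReal.ofReal (1 - f (fl b (rr a) t y)) :=
    (measurable_const.sub (hf.comp hflm)).ennreal_ofReal
  have hm1 : Measurable fun t => (ENNReal.ofReal (c * Phi (-(L + 1))) *
      ENNReal.ofReal (wt (η / 64) (L + 1) (f (fl b (rr a) t y)))) *
      ENNReal.ofReal (J b (rr a) t y) := (measurable_const.mul hwm).mul hJm
  have hm2 : Measurable fun t => ENNReal.ofReal (1 - f (fl b (rr a) t y)) *
      ENNReal.ofReal (J b (rr a) t y) := hfm.mul hJm
  have hM0 : 0 < M := by linarith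
  have hc2 : c * Phi (-(L + 1)) ≤ 1 := by
    have := Phi_lt_one (-(L + 1))
    have := Phi_pos (-(L + 1))
    nlinarith
  by_cases hdeep : Phi (L + 4 * M) ≤ f (fl b (rr a) T y)
  · -- deep
    have hline : ∀ t1 ∈ {t | fl b (rr a) t y ∈ B}, T < t1 →
        ∫⁻ t in Ioi t1, ENNReal.ofReal (J b (rr a) t y) ≤ ENNReal.ofReal (1 - c) *
        ∫⁻ t in Ioi T, ENNReal.ofReal (1 - f (fl b (rr a) t y)) *
          ENNReal.ofReal (J b (rr a) t y) := by
      intro t1 ht1 hlt
      have a1 : η / 4 ≤ ‖dg b a (fl b (rr a) T y)‖ := by rw [hX]; exact hM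
      have a2 : ‖dg b a (fl b (rr a) T y)‖ ≤ η / 2 := by rw [hX]; exact hM'
      have a3 : Phi (L + 4 * ‖dg b a (fl b (rr a) T y)‖) ≤ f (fl b (rr a) T y) := by
        rw [hX]; exact hdeep
      exact hLI y T t1 hlt.le a1 a2 a3 ht1
    have key := deep_all hline
    have e1 : ∫⁻ t in Ioi T, (B.indicator 1 (fl b (rr a) t y) +
        ENNReal.ofReal (c * Phi (-(L + 1))) *
          ENNReal.ofReal (wt (η / 64) (L + 1) (f (fl b (rr a) t y)))) *
        ENNReal.ofReal (J b (rr a) t y) =
        (∫⁻ t in Ioi T, B.indicator 1 (fl b (rr a) t y) * ENNReal.ofReal (J b (rr a) t y)) +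
        ∫⁻ t in Ioi T, (ENNReal.ofReal (c * Phi (-(L + 1))) *
          ENNReal.ofReal (wt (η / 64) (L + 1) (f (fl b (rr a) t y)))) *
        ENNReal.ofReal (J b (rr a) t y) := by
      rw [← lintegral_add_right _ hm1]
      refine lintegral_congr fun t => ?_
      rw [add_mul]
    have e2 : ∫⁻ t in Ioi T, B.indicator 1 (fl b (rr a) t y) * ENNReal.ofReal (J b (rr a) t y) =
        ∫⁻ t in {t | fl b (rr a) t y ∈ B} ∩ Ioi T, ENNReal.ofReal (J b (rr a) t y) := by
      have hms : MeasurableSet {t | fl b (rr a) t y ∈ B} := hflm hB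
      rw [← Measure.restrict_restrict hms, ← lintegral_indicator hms]
      refine lintegral_congr fun t => ?_
      by_cases ht : fl b (rr a) t y ∈ B
      · rw [indicator_of_mem ht, indicator_of_mem (show t ∈ {t | fl b (rr a) t y ∈ B} from ht)]
        simp
      · rw [indicator_of_notMem ht,
          indicator_of_notMem (show t ∉ {t | fl b (rr a) t y ∈ B} from ht)]
        simp
    have e3 : ∫⁻ t in Ioi T, (ENNReal.ofReal (c * Phi (-(L + 1))) *
          ENNReal.ofReal (wt (η / 64) (L + 1) (f (fl b (rr a) t y)))) *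
        ENNReal.ofReal (J b (rr a) t y) ≤ ENNReal.ofReal c *
        ∫⁻ t in Ioi T, ENNReal.ofReal (1 - f (fl b (rr a) t y)) *
        ENNReal.ofReal (J b (rr a) t y) := by
      rw [← lintegral_const_mul _ hm2]
      refine lintegral_mono fun t => ?_
      rw [← mul_assoc]
      refine mul_le_mul' ?_ le_rfl
      rw [← ENNReal.ofReal_mul (mul_nonneg hc.le (Phi_nonneg _)), ← ENNReal.ofReal_mul hc.le]
      apply ENNReal.ofReal_le_ofReal
      rw [mul_assoc]
      refine mul_le_mul_of_nonneg_left ?_ hc.le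
      by_cases hw : 0 < f (fl b (rr a) t y) ∧ f (fl b (rr a) t y) < Phi (L + 1)
      · calc Phi (-(L + 1)) * wt (η / 64) (L + 1) (f (fl b (rr a) t y))
            ≤ Phi (-(L + 1)) * 1 := mul_le_mul_of_nonneg_left (wt_le_one _ _ _) (Phi_pos _).le
          _ = 1 - Phi (L + 1) := by rw [mul_one, Phi_neg]
          _ ≤ _ := by linarith [hw.2]
      · have : wt (η / 64) (L + 1) (f (fl b (rr a) t y)) = 0 := by unfold wt; rw [if_neg hw]
        rw [this, mul_zero]
        linarith [h.le_one (fl b (rr a) t y)]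
    rw [e1, e2]
    refine le_trans (add_le_add key e3) (le_trans (le_of_eq ?_) le_self_add)
    rw [← add_mul, ← ENNReal.ofReal_add (by linarith) hc.le]
    simp
  · -- not deep
    rw [not_le] at hdeep
    rcases (h.nonneg (fl b (rr a) T y)).eq_or_lt with h0 | h0
    · -- f = 0 on the orbit
      refine le_trans (lintegral_mono fun t => ?_) le_self_add
      have hz := orbit_zero h R y T t h0.symm
      simp only [hz]
      have hw0 : wt (η / 64) (L + 1) 0 = 0 := by unfold wt; rw [if_neg]; simp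
      rw [hw0]
      simp only [ENNReal.ofReal_zero, mul_zero, add_zero, sub_zero, ENNReal.ofReal_one]
      refine mul_le_mul' ?_ le_rfl
      by_cases ht : fl b (rr a) t y ∈ B
      · rw [indicator_of_mem ht]; simp
      · rw [indicator_of_notMem ht]; simp
    · have hT1 : f (fl b (rr a) T y) < 1 := hdeep.trans (Phi_lt_one _)
      have hv := orbit_v h hκ R y T h0 hT1
      set v : ℝ → ℝ := fun t => Psi (f (fl b (rr a) t y)) with hvdef
      have hvT : v T < L + 4 * M := by
        rw [hvdef, ← not_le]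
        simp only
        rw [le_Psi_iff h0 hT1]
        exact not_le.2 hdeep
      have hδM : δ ≤ 1 / 25 * M ^ 2 := by nlinarith
      have hfP : ∀ t, f (fl b (rr a) t y) = Phi (v t) := fun t => (Phi_Psi (hv t).1 (hv t).2.1).symm
      have hwv : ∀ t, wt (η / 64) (L + 1) (f (fl b (rr a) t y)) =
          if v t < L + 1 then exp (η / 64 * min (v t) 0) else 0 := fun t =>
        wt_eq_exp (by positivity) (hv t).1 (hv t).2.1
      -- error beyond the wall
      have err := fo_nondeep (M := M) (c1 := η / 64) (Λ := L + 1) (T := T) (v := v)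
        (ρ := fun t => J b (rr a) t y) hM0 (by positivity) (by linarith) (J_pos b (rr a) T y).le
        (fun t ht => ⟨‖chord b a (rr a) T t y‖, by
          rw [← hX]; exact chord_ge b R ht.le y, by
          have := J_decay b R ht y (by rw [hX]; linarith [sq_nonneg M])
          rw [hX] at this; exact this, (hv t).2.2⟩)
        (by linarith) (by linarith)
      -- unit interval before the wall
      have hXt : ∀ t ∈ Ioc (T - 1) T, M ≤ 21 / 20 * ‖dg b a (fl b (rr a) t y)‖ := by
        intro t ht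
        have h1 := X_growth b R ht.2 y
        rw [hX] at h1
        refine h1.trans (mul_le_mul_of_nonneg_right ?_ (norm_nonneg _))
        have h2 : δ * (T - t) ≤ 1 / 40 := by
          have h3 : δ ≤ 1 / 40 := hδ.trans (by nlinarith)
          have h4 : T - t ≤ 1 := by linarith [ht.1]
          have h5 : 0 ≤ T - t := by linarith [ht.2]
          nlinarith [R.delta_nonneg]
        have h3 : exp (δ * (T - t)) ≤ exp (1 / 40) := exp_le_exp.2 h2
        have h4 : exp (1 / 40 : ℝ) ≤ 21 / 20 := by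
          have := Real.exp_bound' (x := 1 / 40) (by norm_num) (by norm_num) (n := 2) (by norm_num)
          norm_num [Finset.sum_range_succ] at this
          linarith
        linarith
      have back := fo_back (c1 := η / 64) (Λ := L + 1) (δ := 1 / 10) (T := T) (v := v)
        (ρ := fun t => J b (rr a) t y) (by positivity)
        (fun t ht => J_anti b R ht.2 y (by
          have h1 := hXt t ht
          have h2 : M ^ 2 ≤ (21 / 20 * ‖dg b a (fl b (rr a) t y)‖) ^ 2 :=
            pow_le_pow_left₀ hM0.le h1 2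
          nlinarith))
        (J_pos b (rr a) T y).le
        (fun t ht => by
          have h1 := (hv t).2.2
          have h2 := chord_le b R ht.2 y
          rw [hX, ← norm_chord_symm b a (rr a) T t y] at h2
          have h3 : T - t ≤ 1 := by linarith [ht.1]
          have h4 : 11 / 10 * (T - t) * M ≤ 11 / 10 * 1 * M :=
            mul_le_mul_of_nonneg_right (by linarith) hM0.le
          refine h1.trans ?_
          linarith)
        (by linarith)
      have hsum : ∫⁻ t in Ioi T, (B.indicator 1 (fl b (rr a) t y) +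
          ENNReal.ofReal (c * Phi (-(L + 1))) *
          ENNReal.ofReal (wt (η / 64) (L + 1) (f (fl b (rr a) t y)))) *
          ENNReal.ofReal (J b (rr a) t y) ≤
          (∫⁻ t in Ioi T, ENNReal.ofReal (1 - f (fl b (rr a) t y)) *
            ENNReal.ofReal (J b (rr a) t y)) +
          ∫⁻ t in Ioi T, ENNReal.ofReal ((Phi (v t) + exp (η / 64 * min (v t) 0)) *
            J b (rr a) t y) := by
        rw [← lintegral_add_left hm2]
        refine lintegral_mono fun t => ?_
        rw [ENNReal.ofReal_mul (add_nonneg (Phi_nonneg _) (exp_pos _).le), ← add_mul]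
        refine mul_le_mul' ?_ le_rfl
        rw [← ENNReal.ofReal_add (by linarith [h.le_one (fl b (rr a) t y)])
          (add_nonneg (Phi_nonneg _) (exp_pos _).le), hfP t]
        have e1 : B.indicator 1 (fl b (rr a) t y) ≤ (1 : ℝ≥0∞) := by
          by_cases ht : fl b (rr a) t y ∈ B
          · rw [indicator_of_mem ht]; simp
          · rw [indicator_of_notMem ht]; simp
        have e2 : ENNReal.ofReal (c * Phi (-(L + 1))) *
            ENNReal.ofReal (wt (η / 64) (L + 1) (Phi (v t))) ≤
            ENNReal.ofReal (exp (η / 64 * min (v t) 0)) := by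
          rw [← hfP t, hwv t, ← ENNReal.ofReal_mul (mul_nonneg hc.le (Phi_nonneg _))]
          apply ENNReal.ofReal_le_ofReal
          split_ifs with h3
          · have := exp_pos (η / 64 * min (v t) 0)
            nlinarith
          · rw [mul_zero]; exact (exp_pos _).le
        refine (add_le_add e1 e2).trans (le_of_eq ?_)
        rw [← ENNReal.ofReal_one, ← ENNReal.ofReal_add zero_le_one (exp_pos _).le]
        congr 1
        ring
      refine hsum.trans (add_le_add le_rfl (err.trans ?_))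
      have hback : ENNReal.ofReal (exp (η / 64 * min (v T) 0) * J b (rr a) T y) ≤
          ENNReal.ofReal (exp (η / 64 * (1 / 10))) * ∫⁻ t in Ioc (T - 1) T,
            ENNReal.ofReal (wt (η / 64) (L + 1) (f (fl b (rr a) t y))) *
            ENNReal.ofReal (J b (rr a) t y) := by
        refine back.trans (le_of_eq ?_)
        congr 1
        refine lintegral_congr fun t => ?_
        rw [← hwv t, ENNReal.ofReal_mul (wt_nonneg _ _ _)]
      have hK : (exp ((η / 64) ^ 2 / 2 + η / 64 * (L + 1)) + 1) *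
          (exp (η / 64 * min (v T) 0) * J b (rr a) T y) / (3 / 10 * M ^ 2) ≤
          ((exp ((η / 64) ^ 2 / 2 + η / 64 * (L + 1)) + 1) / (3 / 10 * (η / 4) ^ 2)) *
          (exp (η / 64 * min (v T) 0) * J b (rr a) T y) := by
        have hG : 0 ≤ exp (η / 64 * min (v T) 0) * J b (rr a) T y :=
          mul_nonneg (exp_pos _).le (J_pos b (rr a) T y).le
        have hKp : 0 < exp ((η / 64) ^ 2 / 2 + η / 64 * (L + 1)) + 1 := by positivity
        rw [mul_div_right_comm]
        refine mul_le_mul_of_nonneg_right ?_ hG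
        refine div_le_div_of_nonneg_left hKp.le (by positivity) ?_
        have : (η / 4) ^ 2 ≤ M ^ 2 := pow_le_pow_left₀ (by positivity) hM 2
        linarith
      calc ENNReal.ofReal _ ≤ ENNReal.ofReal
            (((exp ((η / 64) ^ 2 / 2 + η / 64 * (L + 1)) + 1) / (3 / 10 * (η / 4) ^ 2)) *
            (exp (η / 64 * min (v T) 0) * J b (rr a) T y)) := ENNReal.ofReal_le_ofReal hK
        _ = ENNReal.ofReal ((exp ((η / 64) ^ 2 / 2 + η / 64 * (L + 1)) + 1) /
            (3 / 10 * (η / 4) ^ 2)) *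
            ENNReal.ofReal (exp (η / 64 * min (v T) 0) * J b (rr a) T y) :=
            ENNReal.ofReal_mul (by positivity)
        _ ≤ ENNReal.ofReal ((exp ((η / 64) ^ 2 / 2 + η / 64 * (L + 1)) + 1) /
            (3 / 10 * (η / 4) ^ 2)) * (ENNReal.ofReal (exp (η / 64 * (1 / 10))) *
            ∫⁻ t in Ioc (T - 1) T,
            ENNReal.ofReal (wt (η / 64) (L + 1) (f (fl b (rr a) t y))) *
            ENNReal.ofReal (J b (rr a) t y)) := by gcongr
        _ = _ := by
            unfold CC
            rw [ENNReal.ofReal_mul (by positivity), mul_assoc]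

end Crest.Agent.R239.Glue996
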