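import Crest.Agent.R239.Glue996c

/-!
# Gluing near and far zone on `OrbData` (R239, (PW'))
-/

set_option autoImplicit false
set_option linter.unusedSectionVars false
open MeasureTheory ProbabilityTheory Set Filter Topology Real
open scoped ENNReal NNReal RealInnerProductSpace

namespace Crest.Agent.R239.Glue996

open Crest.Agent.Lib.Ehrhard (Phi Psi Phi_pos Phi_lt_one strictMono_Phi Phi_neg continuous_Phi
  Phi_Psi Psi_Phi Phi_nonneg Psi_le_iff le_Psi_iff tendsto_Phi_atTop tendsto_Phi_atBot)
open Crest.Agent.R239 Crest.Agent.R239.PW Crest.Agent.R239.Orb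
open Crest.Agent.R239.OD (rr)
open Crest.Agent.R239.G462 (wt cG wt_nonneg wt_le_one measurable_wt cG_pos)

variable {F : Type*} [NormedAddCommGroup F] [InnerProductSpace ℝ F] [FiniteDimensional ℝ F]
  [MeasurableSpace F] [BorelSpace F]
variable {ι : Type*} [Fintype ι]
variable {b : OrthonormalBasis ι ℝ F} {a r : ι → ℝ} {η η' κ δ ε : ℝ} {f : F → ℝ} {B : Set F}

lemma measurable_X : Measurable fun y : F => ‖dg b a y‖ := (dg b a).continuous.norm.measurable

/-- far comparison for the wall `X = m1` with the slab `m0 < X ≤ m1` -/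
theorem far_wall (h : OrbData b a η η' κ f B) (hκ : κ ≤ 11 / 10) (hη : 0 < η) (hη1 : η ≤ 1 / 10)
    {c L : ℝ} (hc : 0 < c) (hc1 : c ≤ 1) (hL : 0 ≤ L) (ha : ∀ i, 0 ≤ a i) (ha' : ∃ i, a i ≠ 0)
    (hs : ∑ i, a i ^ 2 ≤ ε) (hε : ε ≤ η ^ 2 / 800) (hLI : LIpp b a f B η c L)
    (hB : MeasurableSet B) {m0 m1 : ℝ} (h1 : η / 4 ≤ m1) (h2 : m1 ≤ η / 2)
    (h01 : m0 < m1 * (1 - 2 * ε)) :
    stdGaussian F (B ∩ {y | m1 < ‖dg b a y‖}) +
      ENNReal.ofReal (c * Phi (-(L + 1))) * ∫⁻ y in {y | m1 < ‖dg b a y‖ ∧ ‖dg b a y‖ ≤ η / 2},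
        ENNReal.ofReal (wt (η / 64) (L + 1) (f y)) ∂(stdGaussian F) ≤
    (∫⁻ y in {y | m1 < ‖dg b a y‖}, ENNReal.ofReal (1 - f y) ∂(stdGaussian F)) +
      ENNReal.ofReal (CC η L) * ∫⁻ y in {y | m0 < ‖dg b a y‖ ∧ ‖dg b a y‖ ≤ m1},
        ENNReal.ofReal (wt (η / 64) (L + 1) (f y)) ∂(stdGaussian F) := by
  have hε' : ε ≤ 1 / 100 := hε.trans (by nlinarith)
  have hε0 : 0 ≤ ε := (Finset.sum_nonneg fun i _ => sq_nonneg _).trans hs
  have R : Rates a (rr a) (2 * ε) := rates_rr ha hs hε'
  have hf : Measurable f := G462.OrbData.measurable h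
  have hXm : Measurable fun y : F => ‖dg b a y‖ := measurable_X
  have hwm : Measurable fun y => ENNReal.ofReal (wt (η / 64) (L + 1) (f y)) :=
    ((measurable_wt _ _).comp hf).ennreal_ofReal
  have hfm : Measurable fun y => ENNReal.ofReal (1 - f y) :=
    (measurable_const.sub hf).ennreal_ofReal
  have mS1 : MeasurableSet {y : F | m1 < ‖dg b a y‖} := measurableSet_lt measurable_const hXm
  have mS2 : MeasurableSet {y : F | m1 < ‖dg b a y‖ ∧ ‖dg b a y‖ ≤ η / 2} :=
    mS1.inter (measurableSet_le hXm measurable_const)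
  have mS3 : MeasurableSet {y : F | m0 < ‖dg b a y‖ ∧ ‖dg b a y‖ ≤ m1} :=
    (measurableSet_lt measurable_const hXm).inter (measurableSet_le hXm measurable_const)
  set S1 : Set F := {y : F | m1 < ‖dg b a y‖} with hS1
  set S2 : Set F := {y : F | m1 < ‖dg b a y‖ ∧ ‖dg b a y‖ ≤ η / 2} with hS2
  set S3 : Set F := {y : F | m0 < ‖dg b a y‖ ∧ ‖dg b a y‖ ≤ m1} with hS3
  set w : F → ℝ≥0∞ := fun y => ENNReal.ofReal (wt (η / 64) (L + 1) (f y)) with hw
  set g : F → ℝ≥0∞ := fun y => ENNReal.ofReal (1 - f y) with hg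
  set c2 : ℝ≥0∞ := ENNReal.ofReal (c * Phi (-(L + 1))) with hc2
  set C2 : ℝ≥0∞ := ENNReal.ofReal (CC η L) with hC2
  have mI1 : Measurable (S1.indicator (B.indicator (1 : F → ℝ≥0∞))) :=
    (measurable_one.indicator hB).indicator mS1
  have mI2 : Measurable (S2.indicator w) := hwm.indicator mS2
  have mI3 : Measurable (S1.indicator g) := hfm.indicator mS1
  have mI4 : Measurable (S3.indicator w) := hwm.indicator mS3
  have m1' : Measurable fun y => S1.indicator (B.indicator (1 : F → ℝ≥0∞)) y +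
      c2 * S2.indicator w y := mI1.add (mI2.const_mul c2)
  have m2' : Measurable fun y => S1.indicator g y + C2 * S3.indicator w y :=
    mI3.add (mI4.const_mul C2)
  have key := OD.compare b ha' hs hε' m1' m2' (by
    intro y hy
    obtain ⟨T, hT⟩ := OD.exists_wall b hs hε' hy (show 0 < m1 by linarith)
    have hsm := X_strictMono b R hy
    have hIoi : ∀ t, m1 < ‖dg b a (fl b (rr a) t y)‖ ↔ T < t := by
      intro t
      rw [← hT]
      exact hsm.lt_iff_lt
    have hmain := fo h hκ hη hη1 hc hc1 hL R (by linarith) hLI hB y hT h1 h2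
    have hJm : Measurable fun t => ENNReal.ofReal (J b (rr a) t y) := measurable_J_time b (rr a) y
    have hflm : Measurable fun t => fl b (rr a) t y := measurable_fl_time b (rr a) y
    calc ∫⁻ t : ℝ, (S1.indicator (B.indicator (1 : F → ℝ≥0∞)) (fl b (rr a) t y) +
          c2 * S2.indicator w (fl b (rr a) t y)) * ENNReal.ofReal (J b (rr a) t y)
        ≤ ∫⁻ t in Ioi T, (B.indicator 1 (fl b (rr a) t y) + c2 * w (fl b (rr a) t y)) *
          ENNReal.ofReal (J b (rr a) t y) := by
          rw [← lintegral_indicator measurableSet_Ioi]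
          refine lintegral_mono fun t => ?_
          by_cases ht : T < t
          · rw [indicator_of_mem (show t ∈ Ioi T from ht),
              indicator_of_mem (show fl b (rr a) t y ∈ S1 from (hIoi t).2 ht)]
            refine mul_le_mul' (add_le_add le_rfl (mul_le_mul' le_rfl ?_)) le_rfl
            exact indicator_le_self _ _ _
          · have e1 : fl b (rr a) t y ∉ S1 := fun hh => ht ((hIoi t).1 hh)
            have e2 : fl b (rr a) t y ∉ S2 := fun hh => e1 hh.1
            rw [indicator_of_notMem e1, indicator_of_notMem e2]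
            simp
      _ ≤ (∫⁻ t in Ioi T, g (fl b (rr a) t y) * ENNReal.ofReal (J b (rr a) t y)) +
          C2 * ∫⁻ t in Ioc (T - 1) T, w (fl b (rr a) t y) * ENNReal.ofReal (J b (rr a) t y) :=
          hmain
      _ ≤ (∫⁻ t : ℝ, S1.indicator g (fl b (rr a) t y) * ENNReal.ofReal (J b (rr a) t y)) +
          C2 * ∫⁻ t : ℝ, S3.indicator w (fl b (rr a) t y) * ENNReal.ofReal (J b (rr a) t y) := by
          refine add_le_add ?_ (mul_le_mul' le_rfl ?_)
          · rw [← lintegral_indicator measurableSet_Ioi]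
            refine lintegral_mono fun t => ?_
            by_cases ht : T < t
            · rw [indicator_of_mem (show t ∈ Ioi T from ht),
                indicator_of_mem (show fl b (rr a) t y ∈ S1 from (hIoi t).2 ht)]
            · rw [indicator_of_notMem (show t ∉ Ioi T from ht)]
              exact zero_le
          · rw [← lintegral_indicator measurableSet_Ioc]
            refine lintegral_mono fun t => ?_
            by_cases ht : t ∈ Ioc (T - 1) T
            · have hle : ‖dg b a (fl b (rr a) t y)‖ ≤ m1 := by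
                rw [← hT]; exact hsm.monotone ht.2
              have hgt : m0 < ‖dg b a (fl b (rr a) t y)‖ := by
                have e1 := X_growth b R ht.2 y
                rw [hT] at e1
                have e2 : 1 - 2 * ε ≤ exp (-(2 * ε * (T - t))) := by
                  have e3 : -(2 * ε * (T - t)) + 1 ≤ exp (-(2 * ε * (T - t))) := add_one_le_exp _
                  have e4 : 2 * ε * (T - t) ≤ 2 * ε * 1 :=
                    mul_le_mul_of_nonneg_left (by linarith [ht.1]) (by linarith)
                  linarith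
                have e5 : m1 * exp (-(2 * ε * (T - t))) ≤ ‖dg b a (fl b (rr a) t y)‖ := by
                  calc m1 * exp (-(2 * ε * (T - t)))
                      ≤ (exp (2 * ε * (T - t)) * ‖dg b a (fl b (rr a) t y)‖) *
                        exp (-(2 * ε * (T - t))) :=
                        mul_le_mul_of_nonneg_right e1 (exp_pos _).le
                    _ = ‖dg b a (fl b (rr a) t y)‖ *
                        (exp (2 * ε * (T - t)) * exp (-(2 * ε * (T - t)))) := by ring
                    _ = ‖dg b a (fl b (rr a) t y)‖ := by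
                        rw [← exp_add]; simp
                have e6 : m1 * (1 - 2 * ε) ≤ m1 * exp (-(2 * ε * (T - t))) :=
                  mul_le_mul_of_nonneg_left e2 (by linarith)
                linarith
              rw [indicator_of_mem ht,
                indicator_of_mem (show fl b (rr a) t y ∈ S3 from ⟨hgt, hle⟩)]
            · rw [indicator_of_notMem ht]
              exact zero_le
      _ = ∫⁻ t : ℝ, (S1.indicator g (fl b (rr a) t y) + C2 * S3.indicator w (fl b (rr a) t y)) *
          ENNReal.ofReal (J b (rr a) t y) := by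
          have hA : Measurable fun t => S1.indicator g (fl b (rr a) t y) *
              ENNReal.ofReal (J b (rr a) t y) := (mI3.comp hflm).mul hJm
          have hBm : Measurable fun t => S3.indicator w (fl b (rr a) t y) *
              ENNReal.ofReal (J b (rr a) t y) := (mI4.comp hflm).mul hJm
          rw [← lintegral_const_mul _ hBm, ← lintegral_add_left hA]
          refine lintegral_congr fun t => ?_
          rw [add_mul, mul_assoc])
  rw [lintegral_add_left mI1, lintegral_add_left mI3, lintegral_const_mul _ mI2,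
    lintegral_const_mul _ mI4, lintegral_indicator mS1, lintegral_indicator mS2,
    lintegral_indicator mS1, lintegral_indicator mS3, lintegral_indicator_one hB,
    Measure.restrict_apply hB] at key
  exact key

/-- smallness required of the trace -/
noncomputable def eps0 (η : ℝ) (N : ℕ) : ℝ :=
  min (min (η ^ 3 / 12800) (η ^ 2 / 800)) (1 / (16 * N))

/-- **GLUING**: near zone + far zone -/
theorem glue_core (h : OrbData b a η η' κ f B) (hκ : κ ≤ 11 / 10) (hη : 0 < η) (hη1 : η ≤ 1 / 10)
    {c L : ℝ} (hc : 0 < c) (hc1 : c ≤ 1) (hL : 0 ≤ L) (ha : ∀ i, 0 ≤ a i)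
    {N : ℕ} (hN0 : 0 < N)
    (hN : CC η L ≤ min (cG η (η / 64) (L + 1)) (c * Phi (-(L + 1))) * N)
    (hs : ∑ i, a i ^ 2 ≤ eps0 η N) (hLI : LIpp b a f B η c L)
    (hB : MeasurableSet B) :
    stdGaussian F B ≤ ∫⁻ y, ENNReal.ofReal (1 - f y) ∂(stdGaussian F) := by
  set ε := eps0 η N with hεdef
  have hε1 : ε ≤ η ^ 3 / 12800 := (min_le_left _ _).trans (min_le_left _ _)
  have hε2 : ε ≤ η ^ 2 / 800 := (min_le_left _ _).trans (min_le_right _ _)
  have hε3 : ε ≤ 1 / (16 * N) := min_le_right _ _
  have hε0 : 0 ≤ ε := (Finset.sum_nonneg fun i _ => sq_nonneg _).trans hs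
  have hf : Measurable f := G462.OrbData.measurable h
  have hXm : Measurable fun y : F => ‖dg b a y‖ := measurable_X
  have hNr : (0:ℝ) < N := by exact_mod_cast hN0
  by_cases ha' : ∃ i, a i ≠ 0
  swap
  · -- all `a i = 0`: the near zone is everything
    push Not at ha'
    have hX0 : ∀ y : F, ‖dg b a y‖ = 0 := by
      intro y
      have : ‖dg b a y‖ ^ 2 = 0 := by
        rw [norm_dg_sq]
        exact Finset.sum_eq_zero fun i _ => by rw [ha' i]; ring
      exact pow_eq_zero_iff (two_ne_zero) |>.1 this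
    have hn := G462.near_lintegral h hη hη1 (c1 := η / 64) (l := L + 1) (M := η / 4)
      (by positivity) (by linarith) (hs.trans hε1) le_rfl (by linarith)
    have huniv : {y : F | ‖dg b a y‖ ≤ η / 4} = univ := by
      ext y; simp only [mem_ofPred_eq, mem_univ, iff_true]; rw [hX0]; positivity
    rw [huniv, inter_univ, Measure.restrict_univ] at hn
    exact le_trans le_self_add hn
  -- notation
  set γ := stdGaussian F
  set w : F → ℝ≥0∞ := fun y => ENNReal.ofReal (wt (η / 64) (L + 1) (f y)) with hw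
  set g : F → ℝ≥0∞ := fun y => ENNReal.ofReal (1 - f y) with hg
  have hwm : Measurable w := ((measurable_wt _ _).comp hf).ennreal_ofReal
  set m : ℕ → ℝ := fun k => η / 4 * (1 + k / N) with hm
  set Q : ℝ≥0∞ := ∫⁻ y in {y | ‖dg b a y‖ ≤ η / 2}, w y ∂γ with hQ
  set q : ℕ → ℝ≥0∞ := fun k =>
    ∫⁻ y in {y | m k < ‖dg b a y‖ ∧ ‖dg b a y‖ ≤ m (k + 1)}, w y ∂γ with hq
  have hmono : Monotone m := by
    intro i j hij
    have : (i:ℝ) ≤ j := by exact_mod_cast hij
    simp only [hm]
    gcongr
  have mS : ∀ k, MeasurableSet {y : F | m k < ‖dg b a y‖ ∧ ‖dg b a y‖ ≤ m (k + 1)} := fun k =>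
    (measurableSet_lt measurable_const hXm).inter (measurableSet_le hXm measurable_const)
  have hQfin : Q ≠ ∞ := by
    have : Q ≤ 1 := by
      calc Q ≤ ∫⁻ y, 1 ∂γ := by
            refine (setLIntegral_le_lintegral _ _).trans (lintegral_mono fun y => ?_)
            rw [hw]
            simp only
            rw [← ENNReal.ofReal_one]
            exact ENNReal.ofReal_le_ofReal (wt_le_one _ _ _)
        _ = 1 := by simp
    exact ne_top_of_le_ne_top ENNReal.one_ne_top this
  -- pigeonhole
  have hsumq : ∑ k ∈ Finset.range N, q k ≤ Q := by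
    have hdisj : Set.PairwiseDisjoint (↑(Finset.range N) : Set ℕ)
        (fun k => {y : F | m k < ‖dg b a y‖ ∧ ‖dg b a y‖ ≤ m (k + 1)}) := by
      intro i _ j _ hij
      rw [Function.onFun, Set.disjoint_left]
      rintro y ⟨h1, h2⟩ ⟨h3, h4⟩
      rcases lt_or_gt_of_ne hij with hlt | hlt
      · have := hmono (Nat.succ_le_of_lt hlt)
        simp only [Nat.succ_eq_add_one] at this
        linarith
      · have := hmono (Nat.succ_le_of_lt hlt)
        simp only [Nat.succ_eq_add_one] at this
        linarith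
    rw [hq, hQ]
    simp only
    rw [← lintegral_biUnion_finset hdisj (fun k _ => mS k)]
    refine lintegral_mono_set ?_
    intro y hy
    simp only [mem_iUnion] at hy
    obtain ⟨k, hk, hy⟩ := hy
    refine hy.2.trans ?_
    have hk' : k + 1 ≤ N := Finset.mem_range.1 hk
    have : m (k + 1) ≤ m N := hmono hk'
    refine this.trans (le_of_eq ?_)
    simp only [hm]
    rw [div_self hNr.ne']; ring
  obtain ⟨k, hk, hkmin⟩ := Finset.exists_min_image (Finset.range N) q
    ⟨0, Finset.mem_range.2 hN0⟩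
  have hNq : (N : ℝ≥0∞) * q k ≤ Q := by
    calc (N : ℝ≥0∞) * q k = (Finset.range N).card • q k := by
          rw [Finset.card_range, nsmul_eq_mul]
      _ ≤ ∑ j ∈ Finset.range N, q j := Finset.card_nsmul_le_sum _ _ _ hkmin
      _ ≤ Q := hsumq
  have hkN : (k:ℝ) + 1 ≤ N := by
    have : k + 1 ≤ N := Finset.mem_range.1 hk
    exact_mod_cast this
  have hm1 : η / 4 ≤ m (k + 1) := by
    simp only [hm]
    have : 0 ≤ ((k + 1 : ℕ) : ℝ) / N := by positivity
    nlinarith
  have hm2 : m (k + 1) ≤ η / 2 := by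
    simp only [hm]
    have : ((k + 1 : ℕ) : ℝ) / N ≤ 1 := by
      rw [div_le_one hNr]; push_cast; exact hkN
    nlinarith
  have hm3 : m k < m (k + 1) * (1 - 2 * ε) := by
    have e1 : m (k + 1) = m k + η / (4 * N) := by
      simp only [hm]; push_cast; field_simp; ring
    have e2 : m (k + 1) * (2 * ε) ≤ η / 2 * (2 * (1 / (16 * N))) :=
      mul_le_mul hm2 (by linarith) (by positivity) (by positivity)
    have e3 : η / 2 * (2 * (1 / (16 * N))) = η / (16 * N) := by field_simp
    have e4 : η / (16 * N) < η / (4 * N) := by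
      apply div_lt_div_of_pos_left hη (by positivity)
      linarith
    linarith
  -- near and far
  have hnear := G462.near_lintegral h hη hη1 (c1 := η / 64) (l := L + 1) (M := m (k + 1))
      (by positivity) (by linarith) (hs.trans hε1) hm1 hm2
  have hfar := far_wall h hκ hη hη1 hc hc1 hL ha ha' hs hε2 hLI hB hm1 hm2 hm3
  set cm : ℝ := min (cG η (η / 64) (L + 1)) (c * Phi (-(L + 1))) with hcm
  have hcm0 : 0 < cm := lt_min (cG_pos hη (by positivity)) (mul_pos hc (Phi_pos _))
  have mW : MeasurableSet {y : F | ‖dg b a y‖ ≤ m (k + 1)} :=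
    measurableSet_le hXm measurable_const
  have mW' : MeasurableSet {y : F | m (k + 1) < ‖dg b a y‖} :=
    measurableSet_lt measurable_const hXm
  have hcompl : {y : F | m (k + 1) < ‖dg b a y‖} = {y : F | ‖dg b a y‖ ≤ m (k + 1)}ᶜ := by
    ext y; simp
  have hBsplit : γ B = γ (B ∩ {y | ‖dg b a y‖ ≤ m (k + 1)}) +
      γ (B ∩ {y | m (k + 1) < ‖dg b a y‖}) := by
    rw [hcompl, ← sdiff_eq]
    exact (measure_inter_add_sdiff B mW).symm
  have hgsplit : ∫⁻ y, g y ∂γ = (∫⁻ y in {y | ‖dg b a y‖ ≤ m (k + 1)}, g y ∂γ) +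
      ∫⁻ y in {y | m (k + 1) < ‖dg b a y‖}, g y ∂γ := by
    rw [hcompl]
    exact (lintegral_add_compl _ mW).symm
  have hQsplit : Q = (∫⁻ y in {y | ‖dg b a y‖ ≤ m (k + 1)}, w y ∂γ) +
      ∫⁻ y in {y | m (k + 1) < ‖dg b a y‖ ∧ ‖dg b a y‖ ≤ η / 2}, w y ∂γ := by
    have mS2 : MeasurableSet {y : F | m (k + 1) < ‖dg b a y‖ ∧ ‖dg b a y‖ ≤ η / 2} :=
      (measurableSet_lt measurable_const hXm).inter (measurableSet_le hXm measurable_const)
    have hdis : Disjoint {y : F | ‖dg b a y‖ ≤ m (k + 1)}
        {y : F | m (k + 1) < ‖dg b a y‖ ∧ ‖dg b a y‖ ≤ η / 2} := by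
      rw [Set.disjoint_left]
      intro y h1 h2
      exact absurd h2.1 (not_lt.2 h1)
    rw [hQ, ← lintegral_union mS2 hdis]
    congr 2
    ext y
    simp only [mem_ofPred_eq, mem_union]
    constructor
    · intro hy
      by_cases h' : ‖dg b a y‖ ≤ m (k + 1)
      · exact Or.inl h'
      · exact Or.inr ⟨not_le.1 h', hy⟩
    · rintro (hy | hy)
      · exact hy.trans hm2
      · exact hy.2
  have htot : γ B + ENNReal.ofReal cm * Q ≤ (∫⁻ y, g y ∂γ) + ENNReal.ofReal cm * Q := by
    calc γ B + ENNReal.ofReal cm * Q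
        = (γ (B ∩ {y | ‖dg b a y‖ ≤ m (k + 1)}) + ENNReal.ofReal cm *
            (∫⁻ y in {y | ‖dg b a y‖ ≤ m (k + 1)}, w y ∂γ)) +
          (γ (B ∩ {y | m (k + 1) < ‖dg b a y‖}) + ENNReal.ofReal cm *
            ∫⁻ y in {y | m (k + 1) < ‖dg b a y‖ ∧ ‖dg b a y‖ ≤ η / 2}, w y ∂γ) := by
          rw [hBsplit, hQsplit, mul_add]
          exact add_add_add_comm _ _ _ _
      _ ≤ (γ (B ∩ {y | ‖dg b a y‖ ≤ m (k + 1)}) + ENNReal.ofReal (cG η (η / 64) (L + 1)) *
            (∫⁻ y in {y | ‖dg b a y‖ ≤ m (k + 1)}, w y ∂γ)) +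
          (γ (B ∩ {y | m (k + 1) < ‖dg b a y‖}) + ENNReal.ofReal (c * Phi (-(L + 1))) *
            ∫⁻ y in {y | m (k + 1) < ‖dg b a y‖ ∧ ‖dg b a y‖ ≤ η / 2}, w y ∂γ) := by
          refine add_le_add (add_le_add le_rfl (mul_le_mul' ?_ le_rfl))
            (add_le_add le_rfl (mul_le_mul' ?_ le_rfl))
          · exact ENNReal.ofReal_le_ofReal (min_le_left _ _)
          · exact ENNReal.ofReal_le_ofReal (min_le_right _ _)
      _ ≤ (∫⁻ y in {y | ‖dg b a y‖ ≤ m (k + 1)}, g y ∂γ) +
          ((∫⁻ y in {y | m (k + 1) < ‖dg b a y‖}, g y ∂γ) + ENNReal.ofReal (CC η L) * q k) :=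
          add_le_add hnear hfar
      _ = (∫⁻ y, g y ∂γ) + ENNReal.ofReal (CC η L) * q k := by
          rw [hgsplit, add_assoc]
      _ ≤ (∫⁻ y, g y ∂γ) + ENNReal.ofReal cm * Q := by
          refine add_le_add le_rfl ?_
          calc ENNReal.ofReal (CC η L) * q k ≤ ENNReal.ofReal (cm * N) * q k :=
                mul_le_mul' (ENNReal.ofReal_le_ofReal hN) le_rfl
            _ = ENNReal.ofReal cm * (N * q k) := by
                rw [ENNReal.ofReal_mul hcm0.le, ENNReal.ofReal_natCast, mul_assoc]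
            _ ≤ ENNReal.ofReal cm * Q := mul_le_mul' le_rfl hNq
  have hfin : ENNReal.ofReal cm * Q ≠ ∞ := ENNReal.mul_ne_top ENNReal.ofReal_ne_top hQfin
  exact (ENNReal.add_le_add_iff_right hfin).1 htot

/-- number of walls -/
noncomputable def NN (η c L : ℝ) : ℕ :=
  ⌈CC η L / min (cG η (η / 64) (L + 1)) (c * Phi (-(L + 1)))⌉₊ + 1

/-- admissible trace, depending only on `η` and the constants `c`, `L` of (LI'') -/
noncomputable def epsG (η c L : ℝ) : ℝ := eps0 η (NN η c L)

lemma epsG_pos {η c L : ℝ} (hη : 0 < η) : 0 < epsG η c L := by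
  unfold epsG eps0
  have : (0:ℝ) < NN η c L := by
    have : 0 < NN η c L := Nat.succ_pos _
    exact_mod_cast this
  refine lt_min (lt_min (by positivity) (by positivity)) (by positivity)

/-- **GLUING, final form**: (LI'') on `OrbData` gives the measure inequality -/
theorem glue (h : OrbData b a η η' κ f B) (hκ : κ ≤ 11 / 10) (hη : 0 < η) (hη1 : η ≤ 1 / 10)
    {c L : ℝ} (hc : 0 < c) (hc1 : c ≤ 1) (hL : 0 ≤ L) (ha : ∀ i, 0 ≤ a i)
    (hs : ∑ i, a i ^ 2 ≤ epsG η c L) (hLI : LIpp b a f B η c L) (hB : MeasurableSet B) :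
    (stdGaussian F).real B ≤ ∫ y, (1 - f y) ∂(stdGaussian F) := by
  have hcm0 : 0 < min (cG η (η / 64) (L + 1)) (c * Phi (-(L + 1))) :=
    lt_min (cG_pos hη (by positivity)) (mul_pos hc (Phi_pos _))
  have hN : CC η L ≤ min (cG η (η / 64) (L + 1)) (c * Phi (-(L + 1))) * (NN η c L : ℕ) := by
    have h1 : CC η L / min (cG η (η / 64) (L + 1)) (c * Phi (-(L + 1))) ≤ (NN η c L : ℕ) := by
      unfold NN
      push_cast
      exact (Nat.le_ceil _).trans (by linarith)
    rwa [div_le_iff₀' hcm0] at h1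
  have key := glue_core h hκ hη hη1 hc hc1 hL ha (Nat.succ_pos _) hN hs hLI hB
  have hf : Measurable f := G462.OrbData.measurable h
  have hint : Integrable (fun y => 1 - f y) (stdGaussian F) := by
    refine Integrable.of_bound (measurable_const.sub hf).aestronglyMeasurable 1
      (Eventually.of_forall fun y => ?_)
    rw [Real.norm_of_nonneg (by linarith [h.le_one y])]
    linarith [h.nonneg y]
  rw [← ofReal_integral_eq_lintegral_ofReal hint
    (Eventually.of_forall fun y => by simp only [Pi.zero_apply]; linarith [h.le_one y])] at key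
  have h0 : 0 ≤ ∫ y, (1 - f y) ∂(stdGaussian F) :=
    integral_nonneg fun y => by simp only [Pi.zero_apply]; linarith [h.le_one y]
  exact ENNReal.toReal_le_of_le_ofReal h0 key

end Crest.Agent.R239.Glue996
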