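import Mathlib
import Crest.Agent.R239.Shell876

/-! R239: LINE INEQUALITY = case (C) of helper861's #11342 / #11481 (helper916).
Pure real analysis: `a² ∫_{-j}^{T} e^{-a² s} Φ(λ s - θ) ds ≥ 1 + c(η)`. -/

set_option autoImplicit false
open MeasureTheory Set Filter Topology

namespace Crest.Agent.R239.LineC

open Crest.Agent.Lib.Ehrhard
open Crest.Agent.R239.Shell876 (Phi_neg_le_exp Phi_zero)

/-- Mills type comparison of tails. -/
lemma tail_shift {k : ℝ} (x : ℝ) (hk : 0 ≤ k) :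
    Real.exp (k ^ 2 / 2 + k * x) * Phi (-(x + k)) ≤ Phi (-x) := by
  have h : ∀ b, Phi (b + k) ≤ Phi (x + k) + Real.exp (-(k * x) - k ^ 2 / 2) * (Phi b - Phi x) :=
    fun b => Phi_add_le k b x hk
  have lim1 : Tendsto (fun b : ℝ => Phi (b + k)) atTop (𝓝 1) :=
    tendsto_Phi_atTop.comp (tendsto_atTop_add_const_right _ _ tendsto_id)
  have lim2 : Tendsto (fun b => Phi (x + k) + Real.exp (-(k * x) - k ^ 2 / 2) * (Phi b - Phi x))
      atTop (𝓝 (Phi (x + k) + Real.exp (-(k * x) - k ^ 2 / 2) * (1 - Phi x))) :=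
    ((tendsto_Phi_atTop.sub_const _).const_mul _).const_add _
  have key := le_of_tendsto_of_tendsto' lim1 lim2 h
  rw [Phi_neg, Phi_neg]
  have e : Real.exp (k ^ 2 / 2 + k * x) * Real.exp (-(k * x) - k ^ 2 / 2) = 1 := by
    rw [← Real.exp_add]
    have : k ^ 2 / 2 + k * x + (-(k * x) - k ^ 2 / 2) = 0 := by ring
    rw [this, Real.exp_zero]
  have p : 0 < Real.exp (k ^ 2 / 2 + k * x) := Real.exp_pos _
  have h1 : 1 - Phi (x + k) ≤ Real.exp (-(k * x) - k ^ 2 / 2) * (1 - Phi x) := by linarith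
  have h2 := mul_le_mul_of_nonneg_left h1 p.le
  rw [← mul_assoc, e, one_mul] at h2
  exact h2

/-- the antiderivative -/
lemma hasDerivAt_anti {a lam th k : ℝ} (hk : k * lam = a ^ 2) (s : ℝ) :
    HasDerivAt (fun s => Real.exp (k ^ 2 / 2 - k * th) * Phi (lam * s - th + k)
      - Real.exp (-(a ^ 2 * s)) * Phi (lam * s - th))
      (a ^ 2 * (Real.exp (-(a ^ 2 * s)) * Phi (lam * s - th))) s := by
  have l0 : HasDerivAt (fun s : ℝ => lam * s - th) lam s := by
    simpa using ((hasDerivAt_id s).const_mul lam).sub_const th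
  have l1 : HasDerivAt (fun s : ℝ => lam * s - th + k) lam s := by
    simpa using l0.add_const k
  have d1 := HasDerivAt.comp (h := fun s : ℝ => lam * s - th + k) s
    (hasDerivAt_Phi (lam * s - th + k)) l1
  have d2 := HasDerivAt.comp (h := fun s : ℝ => lam * s - th) s (hasDerivAt_Phi (lam * s - th)) l0
  simp only [Function.comp_def] at d1 d2
  have d3 : HasDerivAt (fun s : ℝ => Real.exp (-(a ^ 2 * s)))
      (Real.exp (-(a ^ 2 * s)) * (-(a ^ 2))) s := by
    have : HasDerivAt (fun s : ℝ => -(a ^ 2 * s)) (-(a ^ 2)) s := by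
      simpa using ((hasDerivAt_id s).const_mul (a ^ 2)).fun_neg
    exact this.exp
  have d4 := (d1.const_mul (Real.exp (k ^ 2 / 2 - k * th))).fun_sub (d3.fun_mul d2)
  refine d4.congr_deriv ?_
  rw [phi_add]
  have e : Real.exp (k ^ 2 / 2 - k * th) * Real.exp (-(k * (lam * s - th)) - k ^ 2 / 2)
      = Real.exp (-(a ^ 2 * s)) := by
    rw [← Real.exp_add]
    congr 1
    rw [← hk]; ring
  have : Real.exp (k ^ 2 / 2 - k * th) *
      (phi (lam * s - th) * Real.exp (-(k * (lam * s - th)) - k ^ 2 / 2) * lam)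
      = Real.exp (-(a ^ 2 * s)) * phi (lam * s - th) * lam := by
    rw [← e]; ring
  rw [this]; ring

/-- exact lower bound of the line integral -/
lemma core {a lam th k j T : ℝ} (hk0 : 0 ≤ k) (hk : k * lam = a ^ 2) :
    Real.exp (k ^ 2 / 2 - k * th) * Phi (lam * j + th - k) + Real.exp (a ^ 2 * j) * Phi (-(lam * j + th))
      - Real.exp (-(a ^ 2 * T))
    ≤ a ^ 2 * ∫ s in (-j)..T, Real.exp (-(a ^ 2 * s)) * Phi (lam * s - th) := by
  have cont : Continuous fun s => a ^ 2 * (Real.exp (-(a ^ 2 * s)) * Phi (lam * s - th)) := by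
    have := continuous_Phi
    fun_prop
  have h := intervalIntegral.integral_eq_sub_of_hasDerivAt (a := -j) (b := T)
    (fun s _ => hasDerivAt_anti (a := a) (th := th) hk s) (cont.intervalIntegrable _ _)
  rw [intervalIntegral.integral_const_mul] at h
  rw [h]
  have ts := tail_shift (lam * T - th) hk0
  have e : Real.exp (k ^ 2 / 2 - k * th) = Real.exp (-(a ^ 2 * T)) * Real.exp (k ^ 2 / 2 + k * (lam * T - th)) := by
    rw [← Real.exp_add]
    congr 1
    rw [← hk]; ring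
  have h1 : Real.exp (k ^ 2 / 2 - k * th) * Phi (-(lam * T - th + k)) ≤
      Real.exp (-(a ^ 2 * T)) * Phi (-(lam * T - th)) := by
    rw [e, mul_assoc]
    exact mul_le_mul_of_nonneg_left ts (Real.exp_pos _).le
  rw [Phi_neg, Phi_neg (lam * T - th)] at h1
  have e2 : lam * (-j) - th + k = -(lam * j + th - k) := by ring
  have e3 : lam * (-j) - th = -(lam * j + th) := by ring
  have e4 : -(a ^ 2 * (-j)) = a ^ 2 * j := by ring
  rw [e2, e3, e4, Phi_neg (lam * j + th - k)]
  linarith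

lemma c_ge : 39/100 ≤ (Real.sqrt (2 * Real.pi))⁻¹ := by
  rw [le_inv_comm₀ (by norm_num) (by positivity)]
  apply Real.sqrt_le_iff.2
  constructor
  · norm_num
  · have := Real.pi_lt_d2
    norm_num
    linarith

/-- crude lower bound of the tail -/
lemma Phi_neg_ge {w : ℝ} (hw : 0 ≤ w) : phi (w + 1) ≤ Phi (-w) := by
  have h1 : Phi (-w) - Phi (-w - 1) = ∫ s in (-w-1)..(-w), phi s :=
    (intervalIntegral.integral_eq_sub_of_hasDerivAt (fun x _ => hasDerivAt_Phi x)
      (continuous_phi.intervalIntegrable _ _)).symm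
  have h2 : ∫ s in (-w-1)..(-w), phi (w + 1) ≤ ∫ s in (-w-1)..(-w), phi s := by
    apply intervalIntegral.integral_mono_on (by linarith) (by simp)
      (continuous_phi.intervalIntegrable _ _)
    intro s hs
    unfold phi
    apply mul_le_mul_of_nonneg_left _ c_pos.le
    apply Real.exp_le_exp.2
    have : s ^ 2 ≤ (w + 1) ^ 2 := by
      apply sq_le_sq.2
      rw [abs_of_nonneg (show 0 ≤ w + 1 by linarith)]
      apply abs_le.2
      constructor
      · linarith [hs.1]
      · linarith [hs.2]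
    linarith
  rw [intervalIntegral.integral_const] at h2
  simp at h2
  have := Phi_nonneg (-w - 1)
  linarith

/-- the number `L0` -/
noncomputable def L0 (eta X2 : ℝ) : ℝ := 8 * X2 + 100 + 4000 / eta ^ 2

lemma one_sub_exp {x d : ℝ} (hd : 0 < d) (h : 1 / d ≤ x) : Real.exp (-x) ≤ d := by
  have hx : 0 < x := lt_of_lt_of_le (by positivity) h
  have h1 := Real.add_one_le_exp x
  rw [Real.exp_neg]
  rw [inv_le_comm₀ (Real.exp_pos _) hd]
  have : d⁻¹ = 1 / d := by simp
  rw [this]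
  linarith

/-- the numerical inequality -/
lemma num {eta X2 a lam th k j : ℝ} (he : 0 < eta) (he1 : eta ≤ 1/10) (ha : eta / 8 ≤ a)
    (haX : a ≤ X2) (hl : 0 < lam) (hk : k * lam = a ^ 2) (hE : eta ^ 2 / 128 ≤ k ^ 2 / 2 - k * th)
    (hth : th ≤ a) (hj : 0 ≤ j) (hw : L0 eta X2 + 3 * a ≤ lam * j + th) :
    1 + eta ^ 2 / 200 ≤ Real.exp (k ^ 2 / 2 - k * th) * Phi (lam * j + th - k)
      + Real.exp (a ^ 2 * j) * Phi (-(lam * j + th)) := by
  have ha0 : 0 < a := lt_of_lt_of_le (by positivity) ha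
  have hk0 : 0 < k := by
    by_contra hc
    push Not at hc
    have : k * lam ≤ 0 := mul_nonpos_of_nonpos_of_nonneg hc hl.le
    have : 0 < a ^ 2 := by positivity
    linarith
  set w := lam * j + th with hwdef
  have hq : 0 < 4000 / eta ^ 2 := by positivity
  unfold L0 at hw
  have hw100 : 100 + 8 * a + 3 * a ≤ w := by nlinarith
  have hwq : 4000 / eta ^ 2 ≤ w := by nlinarith
  have heta2 : eta ^ 2 ≤ 1/100 := by nlinarith
  rcases le_total k (w / 2) with h1 | h1
  · -- case 1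
    have hE1 : 1 + eta ^ 2 / 128 ≤ Real.exp (k ^ 2 / 2 - k * th) := by
      have := Real.add_one_le_exp (k ^ 2 / 2 - k * th)
      linarith
    have hP : 1 - eta ^ 2 / 2000 ≤ Phi (w - k) := by
      have m1 : Phi (w / 2) ≤ Phi (w - k) := strictMono_Phi.monotone (by linarith)
      have m2 : Phi (-(w/2)) ≤ Real.exp (-(w/2)) := Phi_neg_le_exp _
      have m3 : Real.exp (-(w/2)) ≤ eta ^ 2 / 2000 := by
        apply one_sub_exp (by positivity)
        have : 1 / (eta ^ 2 / 2000) = 4000 / eta ^ 2 / 2 := by field_simp; norm_num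
        rw [this]
        linarith
      rw [Phi_neg] at m2
      linarith
    have p1 : 0 < Real.exp (a ^ 2 * j) * Phi (-w) := mul_pos (Real.exp_pos _) (Phi_pos _)
    have hx : (1 + eta ^ 2 / 128) * (1 - eta ^ 2 / 2000) ≤
        Real.exp (k ^ 2 / 2 - k * th) * Phi (w - k) :=
      mul_le_mul hE1 hP (by nlinarith) (Real.exp_pos _).le
    nlinarith [sq_nonneg eta]
  rcases le_total k w with h2 | h2
  · -- case 2
    have hP : 1/2 ≤ Phi (w - k) := by
      rw [← Phi_zero]
      exact strictMono_Phi.monotone (by linarith)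
    have hexp : 4 ≤ Real.exp (k ^ 2 / 2 - k * th) := by
      have h3 : k * th ≤ k * a := mul_le_mul_of_nonneg_left hth hk0.le
      have h4 : 3 ≤ k ^ 2 / 2 - k * th := by nlinarith
      have := Real.add_one_le_exp (k ^ 2 / 2 - k * th)
      linarith
    have p1 : 0 < Real.exp (a ^ 2 * j) * Phi (-w) := mul_pos (Real.exp_pos _) (Phi_pos _)
    nlinarith
  · -- case 3
    have hwt : w - th = lam * j := by rw [hwdef]; ring
    have hwt0 : 0 ≤ w - th := by rw [hwt]; positivity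
    have hj2 : w * (w - a) ≤ a ^ 2 * j := by
      have e : a ^ 2 * j = k * (w - th) := by rw [hwt, ← hk]; ring
      rw [e]
      have hw0 : 0 ≤ w := by linarith
      calc w * (w - a) ≤ w * (w - th) := mul_le_mul_of_nonneg_left (by linarith) hw0
        _ ≤ k * (w - th) := mul_le_mul_of_nonneg_right h2 hwt0
    have hw0 : 0 ≤ w := by linarith
    have t1 := Phi_neg_ge hw0
    have t2 : phi (w + 1) = (Real.sqrt (2 * Real.pi))⁻¹ * Real.exp (-(w + 1) ^ 2 / 2) := rfl
    have t3 : 2 ≤ Real.exp (a ^ 2 * j) * Phi (-w) := by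
      have s1 : Real.exp (w * (w - a)) * phi (w + 1) ≤ Real.exp (a ^ 2 * j) * Phi (-w) :=
        mul_le_mul (Real.exp_le_exp.2 hj2) t1 (phi_nonneg _) (Real.exp_pos _).le
      have s2 : Real.exp (w * (w - a)) * phi (w + 1) =
          (Real.sqrt (2 * Real.pi))⁻¹ * Real.exp (w * (w - a) + -(w + 1) ^ 2 / 2) := by
        rw [t2, Real.exp_add]; ring
      have s3 : 10 ≤ w * (w - a) + -(w + 1) ^ 2 / 2 := by nlinarith
      have s4 := Real.add_one_le_exp (w * (w - a) + -(w + 1) ^ 2 / 2)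
      have s5 : (39/100 : ℝ) * 11 ≤ (Real.sqrt (2 * Real.pi))⁻¹ * Real.exp (w * (w - a) + -(w + 1) ^ 2 / 2) :=
        mul_le_mul c_ge (by linarith) (by norm_num) c_pos.le
      rw [← s2] at s5
      norm_num at s5
      linarith
    have p1 : 0 < Real.exp (k ^ 2 / 2 - k * th) * Phi (w - k) := mul_pos (Real.exp_pos _) (Phi_pos _)
    linarith

/-- **line inequality**, abstract form with a finite upper end `T`. -/
theorem line_fin {eta X2 a lam th k j T : ℝ} (he : 0 < eta) (he1 : eta ≤ 1/10) (ha : eta / 8 ≤ a)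
    (haX : a ≤ X2) (hl : 0 < lam) (hk : k * lam = a ^ 2) (hE : eta ^ 2 / 128 ≤ k ^ 2 / 2 - k * th)
    (hth : th ≤ a) (hj : 0 ≤ j) (hw : L0 eta X2 + 3 * a ≤ lam * j + th)
    (hT : 64000 / eta ^ 4 ≤ T) :
    1 + eta ^ 2 / 300 ≤ a ^ 2 * ∫ s in (-j)..T, Real.exp (-(a ^ 2 * s)) * Phi (lam * s - th) := by
  have ha0 : 0 < a := lt_of_lt_of_le (by positivity) ha
  have hk0 : 0 ≤ k := by
    by_contra hc
    push Not at hc
    have : k * lam < 0 := mul_neg_of_neg_of_pos hc hl
    have : 0 < a ^ 2 := by positivity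
    linarith
  have h1 := num he he1 ha haX hl hk hE hth hj hw
  have h2 := core (a := a) (lam := lam) (th := th) (j := j) (T := T) hk0 hk
  have h3 : Real.exp (-(a ^ 2 * T)) ≤ eta ^ 2 / 1000 := by
    apply one_sub_exp (by positivity)
    have a2 : eta ^ 2 / 64 ≤ a ^ 2 := by
      have := pow_le_pow_left₀ (by positivity) ha 2
      have e : (eta / 8) ^ 2 = eta ^ 2 / 64 := by ring
      linarith
    have hT0 : 0 < 64000 / eta ^ 4 := by positivity
    calc 1 / (eta ^ 2 / 1000) = eta ^ 2 / 64 * (64000 / eta ^ 4) := by field_simp; norm_num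
      _ ≤ a ^ 2 * T := mul_le_mul a2 hT hT0.le (by positivity)
  nlinarith [sq_nonneg eta]

/-- exponent bound, tied case (#11481 (C)) -/
lemma exponent_tied {eta a P lam th k : ℝ} (he : 0 < eta) (ha : eta / 8 ≤ a) (hP : 1 ≤ P)
    (hl : 0 < lam) (hl2 : lam ≤ a * Real.sqrt (1 - 1 / P ^ 2)) (hth : th ≤ (a - eta) / P)
    (hk : k * lam = a ^ 2) : eta ^ 2 / 128 ≤ k ^ 2 / 2 - k * th ∧ th ≤ a := by
  have ha0 : 0 < a := lt_of_lt_of_le (by positivity) ha
  have hP0 : 0 < P := by linarith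
  have hk0 : 0 < k := by
    by_contra hc
    push Not at hc
    have : k * lam ≤ 0 := mul_nonpos_of_nonpos_of_nonneg hc hl.le
    have : 0 < a ^ 2 := by positivity
    linarith
  have hr : 0 ≤ 1 - 1 / P ^ 2 := by
    have : 1 / P ^ 2 ≤ 1 := by
      rw [div_le_one (by positivity)]
      nlinarith
    linarith
  -- lam^2 ≤ a^2 (1 - 1/P^2)
  have hl3 : lam ^ 2 ≤ a ^ 2 * (1 - 1 / P ^ 2) := by
    have := pow_le_pow_left₀ hl.le hl2 2
    rw [mul_pow, Real.sq_sqrt hr] at this
    exact this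
  -- t = k / P
  set t := k / P with ht
  have ht0 : 0 ≤ t := by positivity
  have ht2 : t ^ 2 + a ^ 2 ≤ k ^ 2 := by
    have h1 : (k * lam) ^ 2 ≤ k ^ 2 * (a ^ 2 * (1 - 1 / P ^ 2)) := by
      rw [mul_pow]
      exact mul_le_mul_of_nonneg_left hl3 (by positivity)
    rw [hk] at h1
    have h2 : k ^ 2 * (a ^ 2 * (1 - 1 / P ^ 2)) = a ^ 2 * (k ^ 2 - t ^ 2) := by
      rw [ht]; field_simp
    rw [h2] at h1
    have h3 : a ^ 2 * a ^ 2 ≤ a ^ 2 * (k ^ 2 - t ^ 2) := by
      have : (a ^ 2) ^ 2 = a ^ 2 * a ^ 2 := by ring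
      linarith
    have h4 := le_of_mul_le_mul_left h3 (by positivity : (0:ℝ) < a ^ 2)
    linarith
  have hkth : k * th ≤ (a - eta) * t := by
    have := mul_le_mul_of_nonneg_left hth hk0.le
    have e : k * ((a - eta) / P) = (a - eta) * t := by rw [ht]; ring
    rw [e] at this
    exact this
  have ha2 : eta ^ 2 / 64 ≤ a ^ 2 := by
    have := pow_le_pow_left₀ (by positivity) ha 2
    have e : (eta / 8) ^ 2 = eta ^ 2 / 64 := by ring
    linarith
  constructor
  · rcases le_total a eta with h | h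
    · have : (a - eta) * t ≤ 0 := mul_nonpos_of_nonpos_of_nonneg (by linarith) ht0
      nlinarith [sq_nonneg t]
    · nlinarith [sq_nonneg (t - (a - eta)), mul_nonneg he.le (sub_nonneg.2 h)]
  · rcases le_total a eta with h | h
    · have : (a - eta) / P ≤ 0 := div_nonpos_of_nonpos_of_nonneg (by linarith) hP0.le
      linarith
    · have : (a - eta) / P ≤ a - eta := div_le_self (by linarith) hP
      linarith

/-- **line inequality**, tied case, finite end. -/
theorem line_ineq {eta X2 a P lam th j T : ℝ} (he : 0 < eta) (he1 : eta ≤ 1/10) (ha : eta / 8 ≤ a)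
    (haX : a ≤ X2) (hP : 1 ≤ P) (hl : 0 < lam) (hl2 : lam ≤ a * Real.sqrt (1 - 1 / P ^ 2))
    (hth : th ≤ (a - eta) / P) (hj : 0 ≤ j) (hw : L0 eta X2 + 3 * a ≤ lam * j + th)
    (hT : 64000 / eta ^ 4 ≤ T) :
    1 + eta ^ 2 / 300 ≤ a ^ 2 * ∫ s in (-j)..T, Real.exp (-(a ^ 2 * s)) * Phi (lam * s - th) := by
  have hk : a ^ 2 / lam * lam = a ^ 2 := by field_simp
  obtain ⟨h1, h2⟩ := exponent_tied he ha hP hl hl2 hth hk
  exact line_fin he he1 ha haX hl hk h1 h2 hj hw hT

/-- **line inequality**, untied case (#11342 (C)): `-u ≥ η + h (s - 1/2)`, `0 < h ≤ a`, `h j ≥ L`. -/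
theorem line_ineq0 {eta X2 a h j T : ℝ} (he : 0 < eta) (he1 : eta ≤ 1/10) (ha : eta / 8 ≤ a)
    (haX : a ≤ X2) (hh : 0 < h) (hha : h ≤ a) (hj : 0 ≤ j) (hw : L0 eta X2 + 3 * a + 1 ≤ h * j)
    (hT : 64000 / eta ^ 4 ≤ T) :
    1 + eta ^ 2 / 300 ≤ a ^ 2 * ∫ s in (-j)..T, Real.exp (-(a ^ 2 * s)) * Phi (eta + h * (s - 1/2)) := by
  have ha0 : 0 < a := by linarith
  have hk : a ^ 2 / h * h = a ^ 2 := by field_simp
  have hka : a ≤ a ^ 2 / h := by
    rw [le_div_iff₀ hh]
    nlinarith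
  have e : ∀ s : ℝ, eta + h * (s - 1/2) = h * s - (h / 2 - eta) := fun s => by ring
  simp only [e]
  have hE : eta ^ 2 / 128 ≤ (a ^ 2 / h) ^ 2 / 2 - (a ^ 2 / h) * (h / 2 - eta) := by
    have e1 : (a ^ 2 / h) ^ 2 / 2 - (a ^ 2 / h) * (h / 2 - eta) =
        ((a ^ 2 / h) ^ 2 - a ^ 2) / 2 + (a ^ 2 / h) * eta := by
      field_simp
      ring
    rw [e1]
    nlinarith
  refine line_fin he he1 ha haX hh hk hE ?_ hj ?_ hT
  · linarith
  · linarith

end Crest.Agent.R239.LineC
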