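import Mathlib
import Crest.Agent.R239.LineC916

/-! R239: line inequality (case (C)) in helper690's normal form `c ∈ [0,1]` instead of `1/P` (helper916). -/

set_option autoImplicit false
open MeasureTheory Set Filter Topology

namespace Crest.Agent.R239.LineC

open Crest.Agent.Lib.Ehrhard

/-- exponent bound in the normal form with `c = 1/P`, `c = 0` allowed -/
lemma exponent_c {eta a c lam th k : ℝ} (he : 0 < eta) (ha : eta / 8 ≤ a) (hc0 : 0 ≤ c) (hc1 : c ≤ 1)
    (hl : 0 < lam) (hl2 : lam ^ 2 ≤ (1 - c ^ 2) * a ^ 2) (hth : th ≤ c * (a - eta))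
    (hk : k * lam = a ^ 2) : eta ^ 2 / 128 ≤ k ^ 2 / 2 - k * th ∧ th ≤ a := by
  have ha0 : 0 < a := lt_of_lt_of_le (by positivity) ha
  have hk0 : 0 < k := by
    by_contra hc
    push Not at hc
    have : k * lam ≤ 0 := mul_nonpos_of_nonpos_of_nonneg hc hl.le
    have : 0 < a ^ 2 := by positivity
    linarith
  set t := k * c with ht
  have ht0 : 0 ≤ t := by positivity
  have ht2 : t ^ 2 + a ^ 2 ≤ k ^ 2 := by
    have h1 : (k * lam) ^ 2 ≤ k ^ 2 * ((1 - c ^ 2) * a ^ 2) := by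
      rw [mul_pow]
      exact mul_le_mul_of_nonneg_left hl2 (by positivity)
    rw [hk] at h1
    have h2 : k ^ 2 * ((1 - c ^ 2) * a ^ 2) = a ^ 2 * (k ^ 2 - t ^ 2) := by
      rw [ht]; ring
    rw [h2] at h1
    have h3 : a ^ 2 * a ^ 2 ≤ a ^ 2 * (k ^ 2 - t ^ 2) := by
      have : (a ^ 2) ^ 2 = a ^ 2 * a ^ 2 := by ring
      linarith
    have h4 := le_of_mul_le_mul_left h3 (by positivity : (0:ℝ) < a ^ 2)
    linarith
  have hkth : k * th ≤ (a - eta) * t := by
    have := mul_le_mul_of_nonneg_left hth hk0.le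
    have e : k * (c * (a - eta)) = (a - eta) * t := by rw [ht]; ring
    rw [e] at this
    exact this
  have ha2 : eta ^ 2 / 64 ≤ a ^ 2 := by
    have := pow_le_pow_left₀ (by positivity) ha 2
    have e : (eta / 8) ^ 2 = eta ^ 2 / 64 := by ring
    linarith
  constructor
  · rcases le_total a eta with h | h
    · have : (a - eta) * t ≤ 0 := mul_nonpos_of_nonpos_of_nonneg (by linarith) ht0
      nlinarith [sq_nonneg t]
    · nlinarith [sq_nonneg (t - (a - eta)), mul_nonneg he.le (sub_nonneg.2 h)]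
  · rcases le_total a eta with h | h
    · have : c * (a - eta) ≤ 0 := mul_nonpos_of_nonneg_of_nonpos hc0 (by linarith)
      linarith
    · nlinarith

/-- **line inequality**, normal form with `c`. -/
theorem line_ineq_c {eta X2 a c lam th j T : ℝ} (he : 0 < eta) (he1 : eta ≤ 1/10) (ha : eta / 8 ≤ a)
    (haX : a ≤ X2) (hc0 : 0 ≤ c) (hc1 : c ≤ 1) (hl : 0 < lam) (hl2 : lam ^ 2 ≤ (1 - c ^ 2) * a ^ 2)
    (hth : th ≤ c * (a - eta)) (hj : 0 ≤ j) (hw : L0 eta X2 + 3 * a ≤ lam * j + th)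
    (hT : 64000 / eta ^ 4 ≤ T) :
    1 + eta ^ 2 / 300 ≤ a ^ 2 * ∫ s in (-j)..T, Real.exp (-(a ^ 2 * s)) * Phi (lam * s - th) := by
  have hk : a ^ 2 / lam * lam = a ^ 2 := by field_simp
  obtain ⟨h1, h2⟩ := exponent_c he ha hc0 hc1 hl hl2 hth hk
  exact line_fin he he1 ha haX hl hk h1 h2 hj hw hT

end Crest.Agent.R239.LineC
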