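import Mathlib
import Crest.Agent.R239.PWdef690
import Crest.Agent.R239.LineC916b
import Crest.Agent.R239.Orb723

/-! R239: case (C) of the orbit inequality (#11481), flat approximation on top of the line
inequality (helper29). -/

set_option autoImplicit false
set_option linter.unusedVariables false
set_option linter.unusedSectionVars false
open MeasureTheory Set
namespace Crest.Agent.R239.HC
open Crest.Agent.Lib.Ehrhard (phi Phi)

lemma Phi_sub_le {x d : ℝ} (hd : 0 ≤ d) : Phi x - d ≤ Phi (x - d) := by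
  have h := Convex.image_sub_le_mul_sub_of_deriv_le (D := univ) convex_univ
    (f := Phi) Crest.Agent.Lib.Ehrhard.continuous_Phi.continuousOn
    (fun y _ => (Crest.Agent.Lib.Ehrhard.hasDerivAt_Phi y).differentiableAt.differentiableWithinAt)
    (C := 1) (fun y _ => by
      rw [(Crest.Agent.Lib.Ehrhard.hasDerivAt_Phi y).deriv]
      exact Crest.Agent.Lib.Ehrhard.phi_le_one y)
    (x - d) (mem_univ _) x (mem_univ _) (by linarith)
  linarith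

/-- `-log(1-z)` is between `z` and `z+2z²`. -/
lemma rz {z : ℝ} (h0 : 0 ≤ z) (h1 : z ≤ 1/4) :
    z ≤ -Real.log (1 - z) ∧ -Real.log (1 - z) ≤ z + 2 * z ^ 2 := by
  constructor
  · have := Real.log_le_sub_one_of_pos (show (0:ℝ) < 1 - z by linarith)
    linarith
  · have := Real.one_sub_inv_le_log_of_pos (show (0:ℝ) < 1 - z by linarith)
    have h2 : (1 - z)⁻¹ ≤ 1 + z + 2 * z ^ 2 := by
      rw [inv_le_iff_one_le_mul₀ (by linarith)]
      nlinarith [mul_nonneg h0 h0, mul_nonneg (mul_nonneg h0 h0) h0]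
    linarith

lemma exp_flat {z s S : ℝ} (h0 : 0 ≤ z) (hS : 1 ≤ S) (hs : |s| ≤ S) (h1 : 4 * S * z ≤ 1) :
    |Real.exp (s * (-Real.log (1 - z))) - 1 - s * z| ≤ 6 * S ^ 2 * z ^ 2 := by
  have hz : z ≤ 1/4 := by nlinarith
  obtain ⟨r1, r2⟩ := rz h0 hz
  set r := -Real.log (1 - z)
  have hr0 : 0 ≤ r := h0.trans r1
  have hr2 : r ≤ 2 * z := by nlinarith
  have hsr : |s * r| ≤ 1 := by
    rw [abs_mul, abs_of_nonneg hr0]
    nlinarith [abs_nonneg s]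
  have h := Real.abs_exp_sub_one_sub_id_le hsr
  have e1 : Real.exp (s * r) - 1 - s * z = (Real.exp (s * r) - 1 - s * r) + s * (r - z) := by ring
  rw [e1]
  refine (abs_add_le _ _).trans ?_
  have h3 : (s * r) ^ 2 ≤ 4 * S ^ 2 * z ^ 2 := by
    have : |s * r| ≤ S * (2 * z) := by
      rw [abs_mul, abs_of_nonneg hr0]
      exact mul_le_mul hs hr2 hr0 (by linarith)
    calc (s * r) ^ 2 = |s * r| ^ 2 := (sq_abs _).symm
      _ ≤ (S * (2 * z)) ^ 2 := pow_le_pow_left₀ (abs_nonneg _) this 2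
      _ = 4 * S ^ 2 * z ^ 2 := by ring
  have h4 : |s * (r - z)| ≤ S * (2 * z ^ 2) := by
    rw [abs_mul, abs_of_nonneg (by linarith : 0 ≤ r - z)]
    exact mul_le_mul hs (by linarith) (by linarith) (by linarith)
  have h5 : S * (2 * z ^ 2) ≤ 2 * S ^ 2 * z ^ 2 := by
    nlinarith [mul_nonneg (sq_nonneg z) (by nlinarith : (0:ℝ) ≤ S * (S - 1))]
  linarith

/-- abstract flat approximation: replaces the exact orbit data by the line. -/
lemma int_flat {a X2 T T' j lam th δ κ : ℝ} {g rr : ℝ → ℝ} (ha : 0 ≤ a) (haX : a ≤ X2)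
    (hj0 : 0 < j) (hj : j ≤ T) (hT' : 0 ≤ T') (hδ : 0 ≤ δ)
    (hg0 : ∀ s, 0 ≤ g s) (hg1 : ∀ s, g s ≤ 1) (mg : Measurable g) (crr : Continuous rr)
    (hg : ∀ s ∈ Ioc (-j) T', Phi (lam * s - th) - δ ≤ g s)
    (hrr : ∀ s ∈ Ioc (-j) T', Real.exp (-κ) * Real.exp (-s * a ^ 2) ≤ rr s) :
    Real.exp (-κ) * ((∫ s in Ioc (-j) T', Real.exp (-s * a ^ 2) * Phi (lam * s - th))
      - δ * Real.exp (T * X2 ^ 2) * (T' + T)) ≤ ∫ s in Ioc (-j) T', g s * rr s := by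
  have hX0 : 0 ≤ X2 := ha.trans haX
  have cPhi : Continuous fun s : ℝ => Real.exp (-s * a ^ 2) * Phi (lam * s - th) :=
    (by fun_prop : Continuous fun s : ℝ => Real.exp (-s * a ^ 2)).mul
      (Crest.Agent.Lib.Ehrhard.continuous_Phi.comp (by fun_prop))
  have i1 : IntegrableOn (fun s : ℝ => Real.exp (-s * a ^ 2) * Phi (lam * s - th)) (Ioc (-j) T') :=
    (cPhi.integrableOn_Icc).mono_set Ioc_subset_Icc_self
  have i2 : IntegrableOn (fun s => g s * rr s) (Ioc (-j) T') := by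
    have hb : IntegrableOn rr (Ioc (-j) T') := (crr.integrableOn_Icc).mono_set Ioc_subset_Icc_self
    refine Integrable.mono' hb.norm (mg.mul crr.measurable).aestronglyMeasurable
      (Filter.Eventually.of_forall fun s => ?_)
    rw [norm_mul, Real.norm_eq_abs, abs_of_nonneg (hg0 s)]
    exact mul_le_of_le_one_left (norm_nonneg _) (hg1 s)
  have i3 : IntegrableOn (fun _ : ℝ => δ * Real.exp (T * X2 ^ 2)) (Ioc (-j) T') :=
    integrableOn_const (by simp)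
  have key : ∫ s in Ioc (-j) T', Real.exp (-κ) * (Real.exp (-s * a ^ 2) * Phi (lam * s - th)
      - δ * Real.exp (T * X2 ^ 2)) ≤ ∫ s in Ioc (-j) T', g s * rr s := by
    refine setIntegral_mono_on ((i1.sub i3).const_mul _) i2 measurableSet_Ioc fun s hs => ?_
    have h1 := hg s hs
    have h2 := hrr s hs
    have h3 : Real.exp (-s * a ^ 2) ≤ Real.exp (T * X2 ^ 2) := by
      apply Real.exp_le_exp.2
      have : -s ≤ T := by linarith [hs.1]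
      have h4 : a ^ 2 ≤ X2 ^ 2 := pow_le_pow_left₀ ha haX 2
      have h5 : 0 ≤ T := by linarith
      nlinarith [sq_nonneg a]
    have e0 := Real.exp_pos (-κ)
    have e1 := Real.exp_pos (-s * a ^ 2)
    calc Real.exp (-κ) * (Real.exp (-s * a ^ 2) * Phi (lam * s - th) - δ * Real.exp (T * X2 ^ 2))
        ≤ Real.exp (-κ) * (Real.exp (-s * a ^ 2) * (Phi (lam * s - th) - δ)) := by
          apply mul_le_mul_of_nonneg_left _ e0.le
          nlinarith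
      _ ≤ Real.exp (-κ) * (Real.exp (-s * a ^ 2) * g s) := by gcongr
      _ = g s * (Real.exp (-κ) * Real.exp (-s * a ^ 2)) := by ring
      _ ≤ g s * rr s := mul_le_mul_of_nonneg_left h2 (hg0 s)
  refine le_trans ?_ key
  rw [integral_const_mul]
  apply mul_le_mul_of_nonneg_left _ (Real.exp_pos _).le
  rw [integral_sub i1 i3, setIntegral_const]
  simp only [smul_eq_mul, Measure.real, Real.volume_Ioc]
  rw [ENNReal.toReal_ofReal (by linarith)]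
  have h6 : 0 ≤ δ * Real.exp (T * X2 ^ 2) := by positivity
  nlinarith

section sums

variable {ι : Type*} [Fintype ι] {w y α μ : ι → ℝ} {S ε s : ℝ}

lemma w2_le (hw : ∑ i, w i ^ 2 ≤ ε) (i : ι) : w i ^ 2 ≤ ε :=
  (Finset.single_le_sum (f := fun i => w i ^ 2) (fun i _ => sq_nonneg _) (Finset.mem_univ i)).trans hw

lemma sum_alpha (hw : ∑ i, w i ^ 2 ≤ ε) (hS : 1 ≤ S) (hs : |s| ≤ S) (h1 : 8 * S * ε ≤ 1) :
    |∑ i, α i * y i * (Real.exp (s * (-Real.log (1 - w i ^ 2))) - 1)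
      - s * ∑ i, (w i * α i) * (w i * y i)|
      ≤ 3 * S ^ 2 * ε * (∑ i, (w i * α i) ^ 2 + ∑ i, (w i * y i) ^ 2) := by
  rw [Finset.mul_sum, ← Finset.sum_sub_distrib, ← Finset.sum_add_distrib, Finset.mul_sum]
  refine (Finset.abs_sum_le_sum_abs _ _).trans (Finset.sum_le_sum fun i _ => ?_)
  have hz := w2_le hw i
  have h0 : 0 ≤ w i ^ 2 := sq_nonneg _
  have h := exp_flat (z := w i ^ 2) h0 hS hs (by nlinarith)
  have e1 : α i * y i * (Real.exp (s * (-Real.log (1 - w i ^ 2))) - 1)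
      - s * ((w i * α i) * (w i * y i))
      = (α i * y i) * (Real.exp (s * (-Real.log (1 - w i ^ 2))) - 1 - s * w i ^ 2) := by ring
  rw [e1, abs_mul]
  have h2 : |α i * y i| * (6 * S ^ 2 * (w i ^ 2) ^ 2)
      = 6 * S ^ 2 * w i ^ 2 * |(w i * α i) * (w i * y i)| := by
    have : (w i * α i) * (w i * y i) = w i ^ 2 * (α i * y i) := by ring
    rw [this, abs_mul (w i ^ 2), abs_of_nonneg h0]
    ring
  have h3 : |(w i * α i) * (w i * y i)| ≤ ((w i * α i) ^ 2 + (w i * y i) ^ 2) / 2 := by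
    rw [abs_le]
    constructor <;> nlinarith [sq_nonneg (w i * α i + w i * y i), sq_nonneg (w i * α i - w i * y i)]
  calc |α i * y i| * |Real.exp (s * (-Real.log (1 - w i ^ 2))) - 1 - s * w i ^ 2|
      ≤ |α i * y i| * (6 * S ^ 2 * (w i ^ 2) ^ 2) := mul_le_mul_of_nonneg_left h (abs_nonneg _)
    _ = 6 * S ^ 2 * w i ^ 2 * |(w i * α i) * (w i * y i)| := h2
    _ ≤ 6 * S ^ 2 * ε * (((w i * α i) ^ 2 + (w i * y i) ^ 2) / 2) := by
        apply mul_le_mul (by nlinarith [sq_nonneg S]) h3 (abs_nonneg _)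
        have : 0 ≤ ε := h0.trans hz
        positivity
    _ = 3 * S ^ 2 * ε * ((w i * α i) ^ 2 + (w i * y i) ^ 2) := by ring

lemma sum_mu (hw : ∑ i, w i ^ 2 ≤ ε) (hS : 1 ≤ S) (hs : |s| ≤ S) (h1 : 8 * S * ε ≤ 1) :
    |∑ i, μ i * (w i * y i) * Real.exp (s * (-Real.log (1 - w i ^ 2))) - ∑ i, μ i * (w i * y i)|
      ≤ 2 * S * ε * (∑ i, μ i ^ 2 + ∑ i, (w i * y i) ^ 2) := by
  rw [← Finset.sum_sub_distrib, ← Finset.sum_add_distrib, Finset.mul_sum]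
  refine (Finset.abs_sum_le_sum_abs _ _).trans (Finset.sum_le_sum fun i _ => ?_)
  have hz := w2_le hw i
  have h0 : 0 ≤ w i ^ 2 := sq_nonneg _
  have hε : 0 ≤ ε := h0.trans hz
  have h := exp_flat (z := w i ^ 2) h0 hS hs (by nlinarith)
  have h2 : |Real.exp (s * (-Real.log (1 - w i ^ 2))) - 1| ≤ 4 * S * ε := by
    have e1 : Real.exp (s * (-Real.log (1 - w i ^ 2))) - 1
        = (Real.exp (s * (-Real.log (1 - w i ^ 2))) - 1 - s * w i ^ 2) + s * w i ^ 2 := by ring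
    rw [e1]
    refine (abs_add_le _ _).trans ?_
    have h3 : |s * w i ^ 2| ≤ S * w i ^ 2 := by
      rw [abs_mul, abs_of_nonneg h0]
      exact mul_le_mul_of_nonneg_right hs h0
    have h4 : 6 * S ^ 2 * (w i ^ 2) ^ 2 ≤ 6 / 8 * (S * w i ^ 2) := by
      have : 8 * S * w i ^ 2 ≤ 1 := by nlinarith
      nlinarith [mul_nonneg (by linarith : (0:ℝ) ≤ S) h0]
    have h5 : S * w i ^ 2 ≤ S * ε := mul_le_mul_of_nonneg_left hz (by linarith)
    linarith [mul_nonneg (by linarith : (0:ℝ) ≤ S) hε]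
  have e2 : μ i * (w i * y i) * Real.exp (s * (-Real.log (1 - w i ^ 2))) - μ i * (w i * y i)
      = (μ i * (w i * y i)) * (Real.exp (s * (-Real.log (1 - w i ^ 2))) - 1) := by ring
  rw [e2, abs_mul]
  have h3 : |μ i * (w i * y i)| ≤ (μ i ^ 2 + (w i * y i) ^ 2) / 2 := by
    rw [abs_le]
    constructor <;> nlinarith [sq_nonneg (μ i + w i * y i), sq_nonneg (μ i - w i * y i)]
  calc |μ i * (w i * y i)| * |Real.exp (s * (-Real.log (1 - w i ^ 2))) - 1|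
      ≤ ((μ i ^ 2 + (w i * y i) ^ 2) / 2) * (4 * S * ε) :=
        mul_le_mul h3 h2 (abs_nonneg _) (by positivity)
    _ = 2 * S * ε * (μ i ^ 2 + (w i * y i) ^ 2) := by ring

lemma sum_rho (hw : ∑ i, w i ^ 2 ≤ ε) (hS : 1 ≤ S) (hs : |s| ≤ S) (h1 : 8 * S * ε ≤ 1) :
    -s * (∑ i, (w i * y i) ^ 2) - (12 * S ^ 2 * ε * (∑ i, (w i * y i) ^ 2) + 2 * S * ε)
      ≤ -(1/2) * (∑ i, y i ^ 2 * (Real.exp (2 * s * (-Real.log (1 - w i ^ 2))) - 1))
        + s * ∑ i, (-Real.log (1 - w i ^ 2)) := by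
  have hsum : 0 ≤ ∑ i, w i ^ 2 := Finset.sum_nonneg fun i _ => sq_nonneg _
  have hε : 0 ≤ ε := hsum.trans hw
  have A : |∑ i, y i ^ 2 * (Real.exp (2 * s * (-Real.log (1 - w i ^ 2))) - 1)
      - 2 * s * ∑ i, (w i * y i) ^ 2| ≤ 24 * S ^ 2 * ε * ∑ i, (w i * y i) ^ 2 := by
    rw [Finset.mul_sum, ← Finset.sum_sub_distrib, Finset.mul_sum]
    refine (Finset.abs_sum_le_sum_abs _ _).trans (Finset.sum_le_sum fun i _ => ?_)
    have hz := w2_le hw i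
    have h0 : 0 ≤ w i ^ 2 := sq_nonneg _
    have h := exp_flat (z := w i ^ 2) (s := 2 * s) (S := 2 * S) h0 (by linarith)
      (by rw [abs_mul, abs_two]; linarith) (by nlinarith)
    have e1 : y i ^ 2 * (Real.exp (2 * s * (-Real.log (1 - w i ^ 2))) - 1)
        - 2 * s * (w i * y i) ^ 2
        = y i ^ 2 * (Real.exp (2 * s * (-Real.log (1 - w i ^ 2))) - 1 - 2 * s * w i ^ 2) := by ring
    rw [e1, abs_mul, abs_of_nonneg (sq_nonneg (y i))]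
    calc y i ^ 2 * |Real.exp (2 * s * (-Real.log (1 - w i ^ 2))) - 1 - 2 * s * w i ^ 2|
        ≤ y i ^ 2 * (6 * (2 * S) ^ 2 * (w i ^ 2) ^ 2) := mul_le_mul_of_nonneg_left h (sq_nonneg _)
      _ = 24 * S ^ 2 * w i ^ 2 * (w i * y i) ^ 2 := by ring
      _ ≤ 24 * S ^ 2 * ε * (w i * y i) ^ 2 := by
          apply mul_le_mul_of_nonneg_right _ (sq_nonneg _)
          nlinarith [sq_nonneg S]
  have B : |s * ∑ i, (-Real.log (1 - w i ^ 2))| ≤ 2 * S * ε := by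
    rw [abs_mul]
    have h2 : ∀ i, 0 ≤ -Real.log (1 - w i ^ 2) ∧ -Real.log (1 - w i ^ 2) ≤ 2 * w i ^ 2 := by
      intro i
      have hz := w2_le hw i
      have h0 : 0 ≤ w i ^ 2 := sq_nonneg _
      have hz4 : w i ^ 2 ≤ 1/4 := by nlinarith
      obtain ⟨r1, r2⟩ := rz h0 hz4
      exact ⟨h0.trans r1, by nlinarith⟩
    have h3 : 0 ≤ ∑ i, (-Real.log (1 - w i ^ 2)) := Finset.sum_nonneg fun i _ => (h2 i).1
    have h4 : ∑ i, (-Real.log (1 - w i ^ 2)) ≤ 2 * ε := by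
      calc _ ≤ ∑ i, 2 * w i ^ 2 := Finset.sum_le_sum fun i _ => (h2 i).2
        _ = 2 * ∑ i, w i ^ 2 := by rw [Finset.mul_sum]
        _ ≤ 2 * ε := by linarith
    rw [abs_of_nonneg h3]
    calc |s| * _ ≤ S * (2 * ε) := mul_le_mul hs h4 h3 (by linarith)
      _ = 2 * S * ε := by ring
  rw [abs_le] at A B
  linarith [A.1, A.2, B.1, B.2]

end sums


section main

open scoped RealInnerProductSpace
open Crest.Agent.R239.PW Crest.Agent.R239.Orb ProbabilityTheory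

variable {F : Type*} [NormedAddCommGroup F] [InnerProductSpace ℝ F] [FiniteDimensional ℝ F]
  [MeasurableSpace F] [BorelSpace F] {ι : Type*} [Fintype ι]

/-- `r i = -log (1 - a i ^ 2)` -/
noncomputable def rr (a : ι → ℝ) : ι → ℝ := fun i => -Real.log (1 - a i ^ 2)

/-- the support alternative of `OrbData` at a point `z` -/
def Supp (b : OrthonormalBasis ι ℝ F) (a : ι → ℝ) (η' : ℝ) (f : F → ℝ) (z : F) : Prop :=
  (∀ w, f (z + dg b a w) = 0) ∨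
    ∃ (c : ℝ) (α β : F), 0 ≤ c ∧ ‖dg b (qq a) β‖ ≤ c ∧ c ^ 2 + ‖dg b a α‖ ^ 2 = 1 ∧
      ∀ y, f y ≤ Phi (-(c * η' + ⟪α, y - z⟫ - ⟪β, dg b a y⟫))

lemma cont_fl_z (b : OrthonormalBasis ι ℝ F) (r : ι → ℝ) (z : F) :
    Continuous fun s : ℝ => fl b r s z := by
  unfold fl; fun_prop

lemma cont_J_z (b : OrthonormalBasis ι ℝ F) (r : ι → ℝ) (z : F) :
    Continuous fun s : ℝ => J b r s z := by
  unfold J; fun_prop

/-- the orbit stays in `z + range (dg b a)` -/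
lemma fl_eq_add (b : OrthonormalBasis ι ℝ F) (a : ι → ℝ) (s : ℝ) (z : F) :
    ∃ w, fl b (rr a) s z = z + dg b a w := by
  refine ⟨dg b (fun i => (Real.exp (s * rr a i) - 1) / a i) z, ?_⟩
  apply ext_basis b
  intro i
  rw [inner_fl, inner_add_right, dg_dg, inner_dg]
  by_cases h : a i = 0
  · simp [h, rr]
  · field_simp
    ring

variable {η X2 T T' : ℝ}

/-- parameters -/
noncomputable def MM (X2 T T' : ℝ) : ℝ := X2 ^ 2 * Real.exp (T * X2 ^ 2) * (T' + T) + 1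

noncomputable def eps0 (η X2 T T' : ℝ) : ℝ :=
  η ^ 2 / (10 ^ 6 * MM X2 T T' * (T + T') ^ 2 * (1 + X2 ^ 2))


lemma params {η ε S M X2 : ℝ} (hη : 0 < η) (hη1 : η ≤ 1/10) (hS1 : 1 ≤ S) (hM1 : 1 ≤ M)
    (hX0 : 0 ≤ X2) (hε0 : 0 ≤ ε) (h : ε * (10 ^ 6 * M * S ^ 2 * (1 + X2 ^ 2)) ≤ η ^ 2) :
    S ^ 2 * (1 + X2 ^ 2) * ε * M ≤ η ^ 2 / 10 ^ 6 ∧ S ^ 2 * (1 + X2 ^ 2) * ε ≤ η ^ 2 / 10 ^ 6 ∧
    S * ε ≤ η ^ 2 / 10 ^ 6 ∧ ε ≤ η ^ 2 / 10 ^ 6 ∧ X2 * ε ≤ η ^ 2 / 10 ^ 6 ∧ 8 * S * ε ≤ 1 := by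
  have hQ : 0 ≤ S ^ 2 * (1 + X2 ^ 2) * ε := by positivity
  have h1 : S ^ 2 * (1 + X2 ^ 2) * ε * M ≤ η ^ 2 / 10 ^ 6 := by
    rw [le_div_iff₀ (by positivity)]
    linarith
  have h2 : S ^ 2 * (1 + X2 ^ 2) * ε ≤ η ^ 2 / 10 ^ 6 :=
    (le_mul_of_one_le_right hQ hM1).trans h1
  have hS2 : S ≤ S ^ 2 := by nlinarith
  have hP : 0 ≤ S ^ 2 * X2 ^ 2 := by positivity
  have hSX : S ≤ S ^ 2 * (1 + X2 ^ 2) := by linarith
  have h3 : S * ε ≤ η ^ 2 / 10 ^ 6 := (mul_le_mul_of_nonneg_right hSX hε0).trans h2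
  have h4 : ε ≤ η ^ 2 / 10 ^ 6 := (le_mul_of_one_le_left hε0 hS1).trans h3
  have h5 : X2 * ε ≤ η ^ 2 / 10 ^ 6 := by
    have h6 : 1 + X2 ^ 2 ≤ S ^ 2 * (1 + X2 ^ 2) := le_mul_of_one_le_left (by positivity) (by nlinarith)
    have : X2 ≤ S ^ 2 * (1 + X2 ^ 2) := by nlinarith [sq_nonneg (X2 - 1)]
    exact (mul_le_mul_of_nonneg_right this hε0).trans h2
  have hη2 : η ^ 2 ≤ 1 / 100 := by nlinarith
  exact ⟨h1, h2, h3, h4, h5, by linarith⟩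

lemma beta_num {ε c b2 : ℝ} (hε0 : 0 ≤ ε) (hε1 : ε ≤ 1/2) (hb : 0 ≤ b2)
    (h : (1 - ε) * b2 ≤ c ^ 2) : b2 ≤ (c * (1 + ε)) ^ 2 := by
  have h3 : (1 + ε) ^ 2 * ((1 - ε) * b2) ≤ (1 + ε) ^ 2 * c ^ 2 :=
    mul_le_mul_of_nonneg_left h (sq_nonneg _)
  have h4 : 1 ≤ (1 + ε) ^ 2 * (1 - ε) := by
    nlinarith [mul_nonneg hε0 hε0, mul_nonneg hε0 (mul_nonneg hε0 hε0)]
  have h5 : b2 ≤ (1 + ε) ^ 2 * (1 - ε) * b2 := le_mul_of_one_le_left hb h4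
  calc b2 ≤ (1 + ε) ^ 2 * (1 - ε) * b2 := h5
    _ = (1 + ε) ^ 2 * ((1 - ε) * b2) := by ring
    _ ≤ (1 + ε) ^ 2 * c ^ 2 := h3
    _ = _ := by ring

lemma th_num {c ε A η η' X2 q : ℝ} (hc0 : 0 ≤ c) (hη : 0 < η) (hη1 : η ≤ 1/10) (hε0 : 0 ≤ ε)
    (hη' : 9/10 * η ≤ η') (hA : A ≤ X2) (hA0 : 0 ≤ A) (h : X2 * ε ≤ η ^ 2 / 10 ^ 6)
    (hq : q ≤ c * (1 + ε) * A) : q - c * η' ≤ c * (A - η / 2) := by
  have h1 : A * ε ≤ X2 * ε := mul_le_mul_of_nonneg_right hA hε0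
  have hη2 : η ^ 2 ≤ η / 10 := by nlinarith
  have h2 : A * ε - η' ≤ - (η / 2) := by linarith
  have h3 := mul_le_mul_of_nonneg_left h2 hc0
  linarith

lemma err_num {S ε A X2 a2 b2 : ℝ} (hS1 : 1 ≤ S) (hε0 : 0 ≤ ε) (hA : A ^ 2 ≤ X2 ^ 2)
    (ha2 : a2 ≤ 1) (hb2 : b2 ≤ 2) :
    3 * S ^ 2 * ε * (a2 + A ^ 2) + 2 * S * ε * (b2 + A ^ 2) ≤ 7 * (S ^ 2 * (1 + X2 ^ 2) * ε) := by
  have hS2 : S ≤ S ^ 2 := by nlinarith
  have g5 : 3 * S ^ 2 * ε * (a2 + A ^ 2) ≤ 3 * (S ^ 2 * (1 + X2 ^ 2) * ε) := by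
    have : 3 * S ^ 2 * ε * (a2 + A ^ 2) ≤ 3 * S ^ 2 * ε * (1 + X2 ^ 2) := by
      apply mul_le_mul_of_nonneg_left _ (by positivity)
      linarith
    linarith
  have g6 : 2 * S * ε * (b2 + A ^ 2) ≤ 4 * (S ^ 2 * (1 + X2 ^ 2) * ε) := by
    have h1 : 2 * S * ε * (b2 + A ^ 2) ≤ 2 * S * ε * (2 * (1 + X2 ^ 2)) := by
      apply mul_le_mul_of_nonneg_left _ (by positivity)
      nlinarith [sq_nonneg X2]
    have h2 : S * (ε * (1 + X2 ^ 2)) ≤ S ^ 2 * (ε * (1 + X2 ^ 2)) :=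
      mul_le_mul_of_nonneg_right hS2 (by positivity)
    linarith
  linarith

lemma err_num2 {S ε A X2 : ℝ} (hS1 : 1 ≤ S) (hε0 : 0 ≤ ε) (hA : A ^ 2 ≤ X2 ^ 2) :
    12 * S ^ 2 * ε * A ^ 2 + 2 * S * ε ≤ 14 * (S ^ 2 * (1 + X2 ^ 2) * ε) := by
  have hS2 : S ≤ S ^ 2 := by nlinarith
  have h1 : 12 * S ^ 2 * ε * A ^ 2 ≤ 12 * S ^ 2 * ε * X2 ^ 2 :=
    mul_le_mul_of_nonneg_left hA (by positivity)
  have h2 : S * ε ≤ S ^ 2 * ε := mul_le_mul_of_nonneg_right hS2 hε0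
  have h3 : 0 ≤ S ^ 2 * ε * X2 ^ 2 := by positivity
  have h4 : 0 ≤ S ^ 2 * ε := by positivity
  linarith

lemma exp_num {z S j e η : ℝ} (h0 : 0 ≤ z) (hS1 : 1 ≤ S) (hj : j ≤ S) (hη1 : η ^ 2 ≤ 1/100)
    (hz : S * z ≤ η ^ 2 / 10 ^ 6) (h : |e - 1 - (-j) * z| ≤ 6 * S ^ 2 * z ^ 2) : 99/100 ≤ e := by
  have h5 := (abs_le.1 h).1
  have h7 : 6 * S ^ 2 * z ^ 2 = 6 * (S * z) ^ 2 := by ring
  rw [h7] at h5
  have h9 : 0 ≤ S * z := by positivity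
  have h10 : (S * z) ^ 2 ≤ 1 * (S * z) := by nlinarith
  have h11 : j * z ≤ S * z := mul_le_mul_of_nonneg_right hj h0
  linarith

lemma fin_num {η κ : ℝ} (hη : 0 < η) (hη1 : η ≤ 1/10) (hκ0 : 0 ≤ κ) (hκ1 : κ ≤ 14 * (η ^ 2 / 10 ^ 6)) :
    1 + η ^ 2 / 2000 ≤ (1 - κ) * (1 + (η/2) ^ 2 / 300 - η ^ 2 / 12000) := by
  have h1 : 0 ≤ η ^ 2 := sq_nonneg _
  have h2 : η ^ 2 ≤ 1/100 := by nlinarith
  have h3 : κ * (1 + (η/2) ^ 2 / 300 - η ^ 2 / 12000) ≤ κ * 2 := by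
    apply mul_le_mul_of_nonneg_left _ hκ0
    nlinarith
  nlinarith

set_option maxHeartbeats 1000000 in
theorem hC (hη : 0 < η) (hη1 : η ≤ 1/10) (hT : 0 ≤ T) (hT' : 64000 / (η/2) ^ 4 ≤ T')
    (b : OrthonormalBasis ι ℝ F) (a : ι → ℝ) (hε : ∑ i, a i ^ 2 ≤ eps0 η X2 T T')
    {f : F → ℝ} (mf : Measurable f) (f0 : ∀ y, 0 ≤ f y) (f1 : ∀ y, f y ≤ 1) {η' : ℝ}
    (hη' : 9/10 * η ≤ η') {z : F} (hz : Supp b a η' f z) (hX1 : η / 8 ≤ ‖dg b a z‖)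
    (hX2 : ‖dg b a z‖ ≤ X2) {j : ℝ} (hj0 : 0 < j) (hj : j ≤ T)
    (deep : Phi (LineC.L0 (η/2) X2 + 16/5 * ‖dg b a (fl b (rr a) (-j) z)‖)
      ≤ f (fl b (rr a) (-j) z)) :
    1 + η ^ 2 / 2000 ≤ ‖dg b a z‖ ^ 2 *
      ∫ s in (-j)..T', (1 - f (fl b (rr a) s z)) * J b (rr a) s z := by
  -- parameters
  have hT'1 : 1 ≤ T' := by
    refine le_trans ?_ hT'
    rw [le_div_iff₀ (by positivity)]
    have : (η/2)^4 ≤ 1 := pow_le_one₀ (by positivity) (by linarith)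
    linarith
  obtain ⟨S, hS⟩ : ∃ S, S = T + T' := ⟨_, rfl⟩
  have hS1 : 1 ≤ S := by linarith
  have hX0 : 0 ≤ X2 := (norm_nonneg _).trans hX2
  obtain ⟨M, hM⟩ : ∃ M, M = MM X2 T T' := ⟨_, rfl⟩
  have hM1 : 1 ≤ M := by
    rw [hM, MM]
    have : 0 ≤ X2 ^ 2 * Real.exp (T * X2 ^ 2) * (T' + T) := by positivity
    linarith
  obtain ⟨ε, hεd⟩ : ∃ ε, ε = ∑ i, a i ^ 2 := ⟨_, rfl⟩
  rw [← hεd] at hε
  have hε0 : 0 ≤ ε := hεd ▸ Finset.sum_nonneg fun i _ => sq_nonneg _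
  have hεM : ε * (10 ^ 6 * M * S ^ 2 * (1 + X2 ^ 2)) ≤ η ^ 2 := by
    rw [eps0, le_div_iff₀ (by rw [← hM, ← hS]; positivity), ← hM, ← hS] at hε
    exact hε
  obtain ⟨p1, p2, p3, p4, p5, h8⟩ := params hη hη1 hS1 hM1 hX0 hε0 hεM
  have hη2 : η ^ 2 ≤ 1 / 100 := by nlinarith
  -- the point
  obtain ⟨A, hA⟩ : ∃ A, A = ‖dg b a z‖ := ⟨_, rfl⟩
  rw [← hA] at hX1 hX2 ⊢
  have hA0 : 0 < A := lt_of_lt_of_le (by positivity) hX1
  have hAX : A ^ 2 ≤ X2 ^ 2 := pow_le_pow_left₀ hA0.le hX2 2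
  have hB2 : ∑ i, (a i * ⟪b i, z⟫) ^ 2 = A ^ 2 := by
    rw [hA, norm_dg_sq]
    exact Finset.sum_congr rfl fun i _ => by ring
  rcases hz with hz | ⟨c, α, β, hc0, hβ, hcα, hsupp⟩
  · exfalso
    obtain ⟨w, hw⟩ := fl_eq_add b a (-j) z
    rw [hw, hz w] at deep
    exact absurd deep (not_le.2 (Crest.Agent.Lib.Ehrhard.Phi_pos _))
  have hc2 : c ^ 2 ≤ 1 := by linarith [sq_nonneg ‖dg b a α‖]
  have hc1 : c ≤ 1 := by nlinarith only [hc0, hc2]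
  have hA2 : ∑ i, (a i * ⟪b i, α⟫) ^ 2 = ‖dg b a α‖ ^ 2 := by
    rw [norm_dg_sq]
    exact Finset.sum_congr rfl fun i _ => by ring
  have hA21 : ∑ i, (a i * ⟪b i, α⟫) ^ 2 ≤ 1 := by
    rw [hA2]; linarith [sq_nonneg c]
  -- β
  obtain ⟨b2, hb2⟩ : ∃ b2, b2 = ∑ i, ⟪b i, β⟫ ^ 2 := ⟨_, rfl⟩
  have hβ1 : (1 - ε) * b2 ≤ c ^ 2 := by
    have h1 : ‖dg b (qq a) β‖ ^ 2 ≤ c ^ 2 := pow_le_pow_left₀ (norm_nonneg _) hβ 2
    rw [norm_dg_sq] at h1
    refine le_trans ?_ h1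
    rw [hb2, Finset.mul_sum]
    refine Finset.sum_le_sum fun i _ => mul_le_mul_of_nonneg_right ?_ (sq_nonneg _)
    have h2 := w2_le (w := a) (ε := ε) hεd.ge i
    rw [qq, Real.sq_sqrt (by linarith)]
    linarith
  have hb20 : 0 ≤ b2 := hb2 ▸ Finset.sum_nonneg fun i _ => sq_nonneg _
  have hb21 := beta_num hε0 (by linarith) hb20 hβ1
  have hb22 : b2 ≤ 2 := by
    have : (c * (1 + ε)) ^ 2 ≤ 2 := by
      have h1 : c * (1 + ε) ≤ 1 * (1 + 1/1000) := mul_le_mul hc1 (by linarith) (by linarith) (by norm_num)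
      have h2 : 0 ≤ c * (1 + ε) := by positivity
      nlinarith only [h1, h2]
    linarith
  have hbn : ‖β‖ ≤ c * (1 + ε) := by
    have h1 : ‖β‖ ^ 2 = b2 := by rw [hb2]; exact norm_sq_basis b β
    refine le_of_abs_le (abs_le_of_sq_le_sq ?_ (by positivity)) |>.trans le_rfl
    rw [h1]; exact hb21
  -- the line
  obtain ⟨lam, hlam⟩ : ∃ l, l = ⟪dg b a α, dg b a z⟫ := ⟨_, rfl⟩
  obtain ⟨th, hth⟩ : ∃ th, th = ⟪β, dg b a z⟫ - c * η' := ⟨_, rfl⟩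
  have hlam2 : lam ^ 2 ≤ (1 - c ^ 2) * A ^ 2 := by
    have h1 : |lam| ≤ ‖dg b a α‖ * A := by rw [hlam, hA]; exact abs_real_inner_le_norm _ _
    have h2 : lam ^ 2 ≤ (‖dg b a α‖ * A) ^ 2 := by
      rw [← sq_abs lam]; exact pow_le_pow_left₀ (abs_nonneg _) h1 2
    rw [mul_pow] at h2
    have h3 : ‖dg b a α‖ ^ 2 = 1 - c ^ 2 := by linarith
    rw [h3] at h2
    exact h2
  have hthle : th ≤ c * (A - η / 2) := by
    have h1 : ⟪β, dg b a z⟫ ≤ ‖β‖ * A := by rw [hA]; exact real_inner_le_norm _ _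
    have h2 : ‖β‖ * A ≤ c * (1 + ε) * A := mul_le_mul_of_nonneg_right hbn hA0.le
    rw [hth]
    exact th_num hc0 hη hη1 hε0 hη' hX2 hA0.le p5 (h1.trans h2)
  -- expansions
  have innlam : ∑ i, (a i * ⟪b i, α⟫) * (a i * ⟪b i, z⟫) = lam := by
    rw [hlam, inner_basis b]
    exact Finset.sum_congr rfl fun i _ => by rw [inner_dg, inner_dg]
  have innβ : ∑ i, ⟪b i, β⟫ * (a i * ⟪b i, z⟫) = ⟪β, dg b a z⟫ := by
    rw [inner_basis b β]
    exact Finset.sum_congr rfl fun i _ => by rw [inner_dg]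
  have hflα : ∀ s, ⟪α, fl b (rr a) s z - z⟫
      = ∑ i, ⟪b i, α⟫ * ⟪b i, z⟫ * (Real.exp (s * (-Real.log (1 - a i ^ 2))) - 1) := by
    intro s
    rw [inner_basis b]
    refine Finset.sum_congr rfl fun i _ => ?_
    rw [inner_sub_right, inner_fl, rr]
    ring
  have hflβ : ∀ s, ⟪β, dg b a (fl b (rr a) s z)⟫
      = ∑ i, ⟪b i, β⟫ * (a i * ⟪b i, z⟫) * Real.exp (s * (-Real.log (1 - a i ^ 2))) := by
    intro s
    rw [inner_basis b]
    refine Finset.sum_congr rfl fun i _ => ?_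
    rw [inner_dg, inner_fl, rr]
    ring
  obtain ⟨δ, hδ⟩ : ∃ δ, δ = η ^ 2 / (12000 * M) := ⟨_, rfl⟩
  have hδ0 : 0 ≤ δ := by rw [hδ]; positivity
  have hδM : δ * M = η ^ 2 / 12000 := by rw [hδ]; field_simp
  have hδ1 : δ ≤ η ^ 2 / 12000 := by rw [← hδM]; exact le_mul_of_one_le_right hδ0 hM1
  have h7δ : 7 * (S ^ 2 * (1 + X2 ^ 2) * ε) ≤ δ := by
    rw [hδ, le_div_iff₀ (by positivity)]
    linarith
  have hlo : ∀ s, |s| ≤ S → lam * s - th - δ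
      ≤ c * η' + ⟪α, fl b (rr a) s z - z⟫ - ⟪β, dg b a (fl b (rr a) s z)⟫ := by
    intro s hs
    have g1 := sum_alpha (w := a) (y := fun i => ⟪b i, z⟫) (α := fun i => ⟪b i, α⟫) (ε := ε)
      hεd.ge hS1 hs h8
    have g2 := sum_mu (w := a) (y := fun i => ⟪b i, z⟫) (μ := fun i => ⟪b i, β⟫) (ε := ε)
      hεd.ge hS1 hs h8
    rw [innlam, hB2] at g1
    rw [innβ, hB2, ← hb2] at g2
    rw [hflα, hflβ]
    have g3 := (abs_le.1 g1).1
    have g4 := (abs_le.1 g2).2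
    have g5 := err_num hS1 hε0 hAX hA21 hb22
    rw [hth]
    linarith
  have hJ : ∀ s, |s| ≤ S → Real.exp (-(14 * (S ^ 2 * (1 + X2 ^ 2) * ε))) * Real.exp (-(A ^ 2 * s))
      ≤ J b (rr a) s z := by
    intro s hs
    have g := sum_rho (w := a) (y := fun i => ⟪b i, z⟫) (ε := ε) hεd.ge hS1 hs h8
    rw [hB2] at g
    rw [J, ← Real.exp_add]
    apply Real.exp_le_exp.2
    have e1 : -(∑ i, (Real.exp (s * rr a i) ^ 2 - 1) * ⟪b i, z⟫ ^ 2) / 2 + s * ∑ i, rr a i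
        = -(1/2) * (∑ i, ⟪b i, z⟫ ^ 2 * (Real.exp (2 * s * (-Real.log (1 - a i ^ 2))) - 1))
        + s * ∑ i, (-Real.log (1 - a i ^ 2)) := by
      have : ∀ i, (Real.exp (s * rr a i) ^ 2 - 1) * ⟪b i, z⟫ ^ 2
          = ⟪b i, z⟫ ^ 2 * (Real.exp (2 * s * (-Real.log (1 - a i ^ 2))) - 1) := by
        intro i
        rw [← Real.exp_nat_mul, rr]
        push_cast
        ring_nf
      simp_rw [this]
      simp only [rr]
      ring
    rw [e1]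
    have g1 := err_num2 hS1 hε0 hAX
    linarith
  -- deepness
  have hjS : |(-j)| ≤ S := by rw [abs_neg, abs_of_pos hj0]; linarith
  have hXj : 99/100 * A ≤ ‖dg b a (fl b (rr a) (-j) z)‖ := by
    refine le_of_abs_le (abs_le_of_sq_le_sq ?_ (norm_nonneg _)) |>.trans le_rfl
    rw [norm_dg_sq, mul_pow, ← hB2, Finset.mul_sum]
    refine Finset.sum_le_sum fun i _ => ?_
    rw [inner_fl, rr]
    have h2 := w2_le (w := a) (ε := ε) hεd.ge i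
    have h0 : 0 ≤ a i ^ 2 := sq_nonneg _
    have h2' : S * a i ^ 2 ≤ S * ε := mul_le_mul_of_nonneg_left h2 (by linarith)
    have h3 := exp_flat (z := a i ^ 2) h0 hS1 hjS (by linarith)
    have h4 : 99/100 ≤ Real.exp (-j * (-Real.log (1 - a i ^ 2))) :=
      exp_num h0 hS1 (by linarith) hη2 (h2'.trans p3) h3
    have h5 : (99/100:ℝ) ^ 2 ≤ Real.exp (-j * (-Real.log (1 - a i ^ 2))) ^ 2 :=
      pow_le_pow_left₀ (by norm_num) h4 2
    calc (99/100:ℝ) ^ 2 * (a i * ⟪b i, z⟫) ^ 2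
        ≤ Real.exp (-j * (-Real.log (1 - a i ^ 2))) ^ 2 * (a i * ⟪b i, z⟫) ^ 2 :=
          mul_le_mul_of_nonneg_right h5 (sq_nonneg _)
      _ = _ := by ring
  have hL0 : 0 < LineC.L0 (η/2) X2 := by
    unfold LineC.L0
    positivity
  have hδA : δ ≤ A / 10 := by
    have : η ^ 2 ≤ η / 10 := by nlinarith only [hη, hη1]
    linarith
  have hdeep : LineC.L0 (η/2) X2 + 3 * A ≤ lam * j + th := by
    have h1 := deep.trans (hsupp _)
    have h2 := Crest.Agent.Lib.Ehrhard.strictMono_Phi.le_iff_le.1 h1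
    have h3 := hlo (-j) hjS
    linarith
  have hthA : th ≤ A := by
    have h1 : c * (A - η / 2) ≤ c * A := mul_le_mul_of_nonneg_left (by linarith) hc0
    have h2 : c * A ≤ 1 * A := mul_le_mul_of_nonneg_right hc1 hA0.le
    linarith
  have hlam0 : 0 < lam := by
    have : 0 < lam * j := by linarith
    exact pos_of_mul_pos_left this hj0.le
  have hline := LineC.line_ineq_c (eta := η/2) (X2 := X2) (a := A) (c := c) (lam := lam) (th := th)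
    (j := j) (T := T') (by positivity) (by linarith) (by linarith) hX2 hc0 hc1 hlam0 hlam2 hthle
    hj0.le hdeep hT'
  -- integrate
  obtain ⟨κ, hκ⟩ : ∃ κ, κ = 14 * (S ^ 2 * (1 + X2 ^ 2) * ε) := ⟨_, rfl⟩
  rw [← hκ] at hJ
  have q0 : ∀ s, 0 ≤ 1 - f (fl b (rr a) s z) := fun s => by linarith [f1 (fl b (rr a) s z)]
  have q1 : ∀ s, 1 - f (fl b (rr a) s z) ≤ 1 := fun s => by linarith [f0 (fl b (rr a) s z)]
  have q2 : Measurable fun s : ℝ => 1 - f (fl b (rr a) s z) :=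
    measurable_const.sub (mf.comp (cont_fl_z b (rr a) z).measurable)
  have q3 : Continuous fun s : ℝ => J b (rr a) s z := cont_J_z b (rr a) z
  have q4 : ∀ s ∈ Ioc (-j) T', Phi (lam * s - th) - δ ≤ 1 - f (fl b (rr a) s z) := by
    intro s hs
    have hsS : |s| ≤ S := abs_le.2 ⟨by linarith [hs.1], by linarith [hs.2]⟩
    have h1 := hlo s hsS
    have h2 := hsupp (fl b (rr a) s z)
    rw [Crest.Agent.Lib.Ehrhard.Phi_neg] at h2
    have h3 := Phi_sub_le (x := lam * s - th) hδ0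
    have h4 := Crest.Agent.Lib.Ehrhard.strictMono_Phi.monotone h1
    linarith
  have q5 : ∀ s ∈ Ioc (-j) T', Real.exp (-κ) * Real.exp (-s * A ^ 2) ≤ J b (rr a) s z := by
    intro s hs
    have hsS : |s| ≤ S := abs_le.2 ⟨by linarith [hs.1], by linarith [hs.2]⟩
    have := hJ s hsS
    have e : -(A ^ 2 * s) = -s * A ^ 2 := by ring
    rw [e] at this
    exact this
  clear hlo hJ hsupp hflα hflβ innlam innβ deep
  have hint := int_flat (a := A) (X2 := X2) (T := T) (T' := T') (j := j) (lam := lam) (th := th)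
    (δ := δ) (κ := κ) hA0.le hX2 hj0 hj (by linarith) hδ0 q0 q1 q2 q3 q4 q5
  rw [intervalIntegral.integral_of_le (by linarith)] at hline ⊢
  have e : ∀ s : ℝ, -(A ^ 2 * s) = -s * A ^ 2 := fun s => by ring
  simp_rw [e] at hline
  obtain ⟨G, hG⟩ : ∃ G, G = ∫ s in Ioc (-j) T', Real.exp (-s * A ^ 2) * Phi (lam * s - th) := ⟨_, rfl⟩
  obtain ⟨H, hH⟩ : ∃ H, H = ∫ s in Ioc (-j) T', (1 - f (fl b (rr a) s z)) * J b (rr a) s z := ⟨_, rfl⟩
  rw [← hG] at hline hint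
  rw [← hH] at hint ⊢
  have hκ0 : 0 ≤ κ := by rw [hκ]; positivity
  have hκ1 : κ ≤ 14 * (η ^ 2 / 10 ^ 6) := by rw [hκ]; linarith
  have hexp : 1 - κ ≤ Real.exp (-κ) := by linarith [Real.add_one_le_exp (-κ)]
  have hsub : A ^ 2 * (δ * Real.exp (T * X2 ^ 2) * (T' + T)) ≤ η ^ 2 / 12000 := by
    have h2 : A ^ 2 * (δ * Real.exp (T * X2 ^ 2) * (T' + T))
        ≤ X2 ^ 2 * (δ * Real.exp (T * X2 ^ 2) * (T' + T)) :=
      mul_le_mul_of_nonneg_right hAX (by positivity)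
    have h3 : X2 ^ 2 * (δ * Real.exp (T * X2 ^ 2) * (T' + T)) = δ * (M - 1) := by
      rw [hM, MM]; ring
    linarith
  have hR : 1 + (η/2) ^ 2 / 300 - η ^ 2 / 12000
      ≤ A ^ 2 * (G - δ * Real.exp (T * X2 ^ 2) * (T' + T)) := by
    rw [mul_sub]; linarith
  have hfin : (1 - κ) * (1 + (η/2) ^ 2 / 300 - η ^ 2 / 12000) ≤ A ^ 2 * H := by
    calc (1 - κ) * (1 + (η/2) ^ 2 / 300 - η ^ 2 / 12000)
        ≤ Real.exp (-κ) * (1 + (η/2) ^ 2 / 300 - η ^ 2 / 12000) :=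
          mul_le_mul_of_nonneg_right hexp (by linarith [sq_nonneg η, sq_nonneg (η/2)])
      _ ≤ Real.exp (-κ) * (A ^ 2 * (G - δ * Real.exp (T * X2 ^ 2) * (T' + T))) :=
          mul_le_mul_of_nonneg_left hR (Real.exp_pos _).le
      _ = A ^ 2 * (Real.exp (-κ) * (G - δ * Real.exp (T * X2 ^ 2) * (T' + T))) := by ring
      _ ≤ A ^ 2 * H := mul_le_mul_of_nonneg_left hint (sq_nonneg _)
  exact (fin_num hη hη1 hκ0 hκ1).trans hfin

end main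

end Crest.Agent.R239.HC
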