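import Mathlib
import Crest.Agent.R239.FarLI992
import Crest.Agent.R239.OrbData723

/-! R239 (helper723): assembly of the line inequality (LI'') of 861 (#11342, #11481, #11572) from
case (A) (helper992, `FarA.far_LI`), case (B) (here) and case (C) (helper29, hypothesis `HCprop`). -/

set_option autoImplicit false
set_option linter.unusedSectionVars false
open MeasureTheory ProbabilityTheory Set Filter Topology
open scoped RealInnerProductSpace ENNReal NNReal

namespace Crest.Agent.R239.LI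

open Crest.Agent.Lib.Ehrhard (Phi Phi_pos Phi_lt_one strictMono_Phi Phi_neg continuous_Phi)
open Crest.Agent.R239 Crest.Agent.R239.PW Crest.Agent.R239.Orb Crest.Agent.R239.OD
open Crest.Agent.R239.FarA (CA)

universe u v

/-- the line inequality between the times `α` and `t1` with constant `c` -/
def LIne {ι : Type v} [Fintype ι] {E : Type u} [NormedAddCommGroup E] [InnerProductSpace ℝ E]
    [FiniteDimensional ℝ E] [MeasurableSpace E] [BorelSpace E] (b : OrthonormalBasis ι ℝ E)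
    (a : ι → ℝ) (f : E → ℝ) (c : ℝ) (y : E) (α t1 : ℝ) : Prop :=
  ∫⁻ t in Ioi t1, ENNReal.ofReal (J b (rr a) t y) ≤ ENNReal.ofReal (1 - c) *
    ∫⁻ t in Ioi α, ENNReal.ofReal (1 - f (fl b (rr a) t y)) * ENNReal.ofReal (J b (rr a) t y)

/-- case (C) of (LI''), to be supplied -/
def HCprop (η : ℝ) : Prop :=
  ∃ L0 : ℝ, 0 ≤ L0 ∧ ∀ T0 : ℝ, 1 ≤ T0 → ∃ c : ℝ, 0 < c ∧ c ≤ 1 ∧ ∃ ε : ℝ, 0 < ε ∧
    ∀ {ι : Type v} [Fintype ι] {E : Type u} [NormedAddCommGroup E] [InnerProductSpace ℝ E]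
      [FiniteDimensional ℝ E] [MeasurableSpace E] [BorelSpace E] (b : OrthonormalBasis ι ℝ E)
      (a : ι → ℝ) (f : E → ℝ) (B : Set E), (∀ i, 0 ≤ a i) → ∑ i, a i ^ 2 ≤ ε →
      OrbData b a η (9/10 * η) (101/100) f B → ∀ (y : E) (α t1 : ℝ), α < t1 → t1 - α ≤ T0 →
      η / 4 ≤ ‖dg b a (fl b (rr a) α y)‖ → ‖dg b a (fl b (rr a) t1 y)‖ ≤ CA η →
      Phi (L0 + 16/5 * ‖dg b a (fl b (rr a) α y)‖) ≤ f (fl b (rr a) α y) →
      fl b (rr a) t1 y ∈ B → LIne b a f c y α t1

/-- the line inequality (LI''), 996's interface #11727 -/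
def LIprop (η : ℝ) : Prop :=
  ∃ c : ℝ, 0 < c ∧ c ≤ 1 ∧ ∃ L : ℝ, 0 ≤ L ∧ ∃ ε : ℝ, 0 < ε ∧
    ∀ {ι : Type v} [Fintype ι] {E : Type u} [NormedAddCommGroup E] [InnerProductSpace ℝ E]
      [FiniteDimensional ℝ E] [MeasurableSpace E] [BorelSpace E] (b : OrthonormalBasis ι ℝ E)
      (a : ι → ℝ) (f : E → ℝ) (B : Set E), (∀ i, 0 ≤ a i) → ∑ i, a i ^ 2 ≤ ε →
      OrbData b a η (9/10 * η) (101/100) f B → ∀ (y : E) (α t1 : ℝ), α ≤ t1 →
      η / 4 ≤ ‖dg b a (fl b (rr a) α y)‖ → ‖dg b a (fl b (rr a) α y)‖ ≤ η / 2 →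
      Phi (L + 4 * ‖dg b a (fl b (rr a) α y)‖) ≤ f (fl b (rr a) α y) →
      fl b (rr a) t1 y ∈ B → LIne b a f c y α t1

section
variable {ι : Type v} [Fintype ι]
variable {E : Type u} [NormedAddCommGroup E] [InnerProductSpace ℝ E] [FiniteDimensional ℝ E]
  [MeasurableSpace E] [BorelSpace E]
variable {b : OrthonormalBasis ι ℝ E} {a : ι → ℝ} {η η' κ : ℝ} {f : E → ℝ} {B : Set E}

lemma LIne.mono {c c' : ℝ} {y : E} {α α' t1 : ℝ} (h : LIne b a f c y α t1) (hc : c' ≤ c)
    (hα : α' ≤ α) : LIne b a f c' y α' t1 := by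
  refine le_trans h ?_
  refine mul_le_mul' (ENNReal.ofReal_le_ofReal (by linarith)) ?_
  exact lintegral_mono_set (Ioi_subset_Ioi hα)

/-- exponential tail of the orbit density, general rate -/
lemma tail_gen {ε l : ℝ} (hs : ∑ i, a i ^ 2 ≤ ε) (hε : ε ≤ 1/100) {y : E} {t1 : ℝ} (hl : 0 < l)
    (hX : l ≤ ‖dg b a (fl b (rr a) t1 y)‖ ^ 2 - 2 * ε) :
    ∫⁻ t in Ioi t1, ENNReal.ofReal (J b (rr a) t y) ≤ ENNReal.ofReal (J b (rr a) t1 y / l) := by
  have hJ := J_pos b (rr a) t1 y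
  calc ∫⁻ t in Ioi t1, ENNReal.ofReal (J b (rr a) t y)
      ≤ ∫⁻ t in Ioi t1, ENNReal.ofReal (J b (rr a) t1 y * Real.exp (l * t1) *
          Real.exp (-(l * t))) := by
        apply setLIntegral_mono' measurableSet_Ioi
        intro t ht
        apply ENNReal.ofReal_le_ofReal
        refine (J_le b hs hε y (le_of_lt ht)).trans ?_
        rw [mul_assoc, ← Real.exp_add]
        refine mul_le_mul_of_nonneg_left (Real.exp_le_exp.2 ?_) hJ.le
        have := mul_le_mul_of_nonneg_right hX (sub_nonneg.2 (le_of_lt ht))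
        linarith
    _ = ENNReal.ofReal (∫ t in Ioi t1, J b (rr a) t1 y * Real.exp (l * t1) *
          Real.exp (-(l * t))) := by
        rw [ofReal_integral_eq_lintegral_ofReal]
        · refine (Integrable.const_mul ?_ _)
          have := (exp_neg_integrableOn_Ioi t1 hl)
          simp only [neg_mul] at this
          exact this
        · filter_upwards with t
          positivity
    _ = ENNReal.ofReal (J b (rr a) t1 y / l) := by
        congr 1
        rw [integral_const_mul]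
        have h := integral_exp_mul_Ioi (a := -l) (by linarith) t1
        have e : ∀ t : ℝ, Real.exp (-(l * t)) = Real.exp (-l * t) := fun t => by
          congr 1; ring
        simp_rw [e]
        rw [h]
        have h2 : Real.exp (l * t1) * Real.exp (-l * t1) = 1 := by
          rw [← Real.exp_add]; simp
        calc J b (rr a) t1 y * Real.exp (l * t1) * (-Real.exp (-l * t1) / -l)
            = (Real.exp (l * t1) * Real.exp (-l * t1)) * (J b (rr a) t1 y) / l := by
              rw [neg_div_neg_eq]; ring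
          _ = _ := by rw [h2]; ring

/-- not deep at `s` ⟹ not much deeper at `t ∈ [s, s+1]` -/
lemma not_deep {ε : ℝ} (hs : ∑ i, a i ^ 2 ≤ ε) (hε : ε ≤ 1/100)
    (hf : OrbData b a η η' (101/100) f B) {y : E} {s t X2 q : ℝ} (hst : s ≤ t) (hts : t ≤ s + 1)
    (hX : ‖dg b a (fl b (rr a) t y)‖ ≤ X2) (hq : f (fl b (rr a) s y) < Phi q) :
    f (fl b (rr a) t y) ≤ Phi (q + 11/10 * X2) := by
  by_contra hcon
  rw [not_le] at hcon
  obtain ⟨v, hv1, _, hv3, _⟩ := step b hs hε y hst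
  have h0 := eps_nonneg hs
  have hv : ‖v‖ ≤ 102/100 * X2 := by
    refine hv3.trans ?_
    have hX0 := norm_nonneg (dg b a (fl b (rr a) t y))
    have h1 : (1 + 2 * ε) * (t - s) ≤ 102/100 := by nlinarith
    calc (1 + 2 * ε) * (t - s) * ‖dg b a (fl b (rr a) t y)‖
        ≤ 102/100 * ‖dg b a (fl b (rr a) t y)‖ := mul_le_mul_of_nonneg_right h1 hX0
      _ ≤ _ := by linarith
  have h2 := hf.lip (fl b (rr a) t y) (-v) _ hcon.le
  rw [norm_neg, map_neg] at h2
  have h3 : fl b (rr a) t y + -dg b a v = fl b (rr a) s y := by rw [hv1]; abel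
  rw [h3] at h2
  have h4 := strictMono_Phi.lt_iff_lt.1 (h2.trans_lt hq)
  have hX0 := (norm_nonneg _).trans hX
  linarith

/-- **case (B)** -/
theorem caseB {ε X2 L0 T0 : ℝ} (hη : 0 < η) (hs : ∑ i, a i ^ 2 ≤ ε) (hε : ε ≤ 1/100)
    (hε2 : ε ≤ η ^ 2 / 64) (hf : OrbData b a η η' (101/100) f B)
    (hT1 : 1 ≤ T0)
    (hT : Real.exp (-(η ^ 2 / 32 * (T0 - 1))) / (η ^ 2 / 32) ≤ Phi (-(L0 + 5 * X2)) / 2)
    {y : E} {α t1 : ℝ} (hα : α + T0 = t1)
    (hXα : η / 4 ≤ ‖dg b a (fl b (rr a) α y)‖) (hX1 : ‖dg b a (fl b (rr a) t1 y)‖ ≤ X2)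
    (hnd : f (fl b (rr a) α y) < Phi (L0 + 16/5 * ‖dg b a (fl b (rr a) α y)‖)) :
    LIne b a f (1/2) y α t1 := by
  have hk : 0 < η ^ 2 / 32 := by positivity
  have hXge : ∀ t, α ≤ t → η ^ 2 / 32 ≤ ‖dg b a (fl b (rr a) t y)‖ ^ 2 - 2 * ε := by
    intro t ht
    have h1 := hXα.trans (X_mono b hs hε y ht)
    have h2 : (η / 4) ^ 2 ≤ ‖dg b a (fl b (rr a) t y)‖ ^ 2 :=
      pow_le_pow_left₀ (by positivity) h1 2
    linarith
  have hX2 : 0 ≤ X2 := (norm_nonneg _).trans hX1
  have hJm := J_pos b (rr a) (α + 1) y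
  set p0 := Phi (-(L0 + 5 * X2)) with hp0
  have hp0' := Phi_pos (-(L0 + 5 * X2))
  -- lower bound on the window
  have hlow : ENNReal.ofReal (p0 * J b (rr a) (α + 1) y) ≤ ∫⁻ t in Ioi α,
      ENNReal.ofReal (1 - f (fl b (rr a) t y)) * ENNReal.ofReal (J b (rr a) t y) := by
    calc ENNReal.ofReal (p0 * J b (rr a) (α + 1) y)
        = ∫⁻ _ in Ioc α (α + 1), ENNReal.ofReal (p0 * J b (rr a) (α + 1) y) := by
          rw [setLIntegral_const, Real.volume_Ioc]
          simp
      _ ≤ ∫⁻ t in Ioc α (α + 1),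
          ENNReal.ofReal (1 - f (fl b (rr a) t y)) * ENNReal.ofReal (J b (rr a) t y) := by
          apply setLIntegral_mono' measurableSet_Ioc
          intro t ht
          have h1 : ‖dg b a (fl b (rr a) t y)‖ ≤ X2 :=
            (X_mono b hs hε y (by linarith [ht.2])).trans hX1
          have hXα2 : ‖dg b a (fl b (rr a) α y)‖ ≤ X2 :=
            (X_mono b hs hε y (by linarith)).trans hX1
          have h2 := not_deep hs hε hf ht.1.le ht.2 h1 hnd
          have h3 : f (fl b (rr a) t y) ≤ Phi (L0 + 5 * X2) :=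
            h2.trans (strictMono_Phi.monotone (by linarith))
          have h4 : p0 ≤ 1 - f (fl b (rr a) t y) := by
            rw [hp0, Phi_neg]; linarith
          have h5 : J b (rr a) (α + 1) y ≤ J b (rr a) t y := by
            refine (J_le b hs hε y ht.2).trans ?_
            refine mul_le_of_le_one_right (J_pos b (rr a) t y).le ?_
            rw [Real.exp_le_one_iff, neg_nonpos]
            exact mul_nonneg (hk.le.trans (hXge t ht.1.le)) (by linarith [ht.2])
          rw [← ENNReal.ofReal_mul (hp0'.le.trans h4)]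
          exact ENNReal.ofReal_le_ofReal (mul_le_mul h4 h5 hJm.le (hp0'.le.trans h4))
      _ ≤ _ := lintegral_mono_set fun t ht => ht.1
  -- upper bound for the tail
  have hup : ∫⁻ t in Ioi t1, ENNReal.ofReal (J b (rr a) t y)
      ≤ ENNReal.ofReal (1/2) * ENNReal.ofReal (p0 * J b (rr a) (α + 1) y) := by
    refine (tail_gen hs hε hk (hXge t1 (by linarith))).trans ?_
    rw [← ENNReal.ofReal_mul (by norm_num)]
    apply ENNReal.ofReal_le_ofReal
    have h1 := J_le b hs hε y (show α + 1 ≤ t1 by linarith)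
    have h2 : Real.exp (-((‖dg b a (fl b (rr a) (α + 1) y)‖ ^ 2 - 2 * ε) * (t1 - (α + 1))))
        ≤ Real.exp (-(η ^ 2 / 32 * (T0 - 1))) := by
      rw [Real.exp_le_exp, neg_le_neg_iff]
      have := mul_le_mul_of_nonneg_right (hXge (α + 1) (by linarith))
        (show 0 ≤ T0 - 1 by linarith)
      have e : t1 - (α + 1) = T0 - 1 := by linarith
      rw [e]; exact this
    have h3 : J b (rr a) t1 y ≤ J b (rr a) (α + 1) y * Real.exp (-(η ^ 2 / 32 * (T0 - 1))) :=
      h1.trans (mul_le_mul_of_nonneg_left h2 hJm.le)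
    calc J b (rr a) t1 y / (η ^ 2 / 32)
        ≤ J b (rr a) (α + 1) y * Real.exp (-(η ^ 2 / 32 * (T0 - 1))) / (η ^ 2 / 32) :=
          div_le_div_of_nonneg_right h3 hk.le
      _ = J b (rr a) (α + 1) y * (Real.exp (-(η ^ 2 / 32 * (T0 - 1))) / (η ^ 2 / 32)) := by ring
      _ ≤ J b (rr a) (α + 1) y * (p0 / 2) := mul_le_mul_of_nonneg_left hT hJm.le
      _ = 1 / 2 * (p0 * J b (rr a) (α + 1) y) := by ring
  unfold LIne
  refine hup.trans ?_
  rw [show (1:ℝ) - 1/2 = 1/2 by norm_num]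
  exact mul_le_mul' le_rfl hlow

end

/-- **(LI'')** from case (C). -/
theorem LI_of_HC {η : ℝ} (h0 : 0 < η) (h1 : η ≤ 1/10) (hC : HCprop.{u, v} η) : LIprop.{u, v} η := by
  obtain ⟨L0, hL0, hC⟩ := hC
  have hk : 0 < η ^ 2 / 32 := by positivity
  have hp : 0 < Phi (-(L0 + 5 * CA η)) := Phi_pos _
  obtain ⟨T0, hT1, hT⟩ : ∃ T0 : ℝ, 1 ≤ T0 ∧
      Real.exp (-(η ^ 2 / 32 * (T0 - 1))) / (η ^ 2 / 32) ≤ Phi (-(L0 + 5 * CA η)) / 2 := by
    have l1 : Tendsto (fun T : ℝ => Real.exp (-(η ^ 2 / 32 * (T - 1))) / (η ^ 2 / 32)) atTop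
        (𝓝 0) := by
      have : Tendsto (fun T : ℝ => -(η ^ 2 / 32 * (T - 1))) atTop atBot :=
        tendsto_neg_atTop_atBot.comp
          ((tendsto_atTop_add_const_right _ _ tendsto_id).const_mul_atTop hk)
      have := (Real.tendsto_exp_atBot.comp this).div_const (η ^ 2 / 32)
      simpa using this
    obtain ⟨T0, h1, h2⟩ := ((l1.eventually (ge_mem_nhds (half_pos hp))).and
      (eventually_ge_atTop 1)).exists
    exact ⟨T0, h2, h1⟩
  obtain ⟨c, hc0, hc1, ε, hε0, H⟩ := hC T0 hT1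
  refine ⟨min c (1/2), lt_min hc0 (by norm_num), (min_le_left _ _).trans hc1, L0, hL0,
    min ε (min (1/100) (η ^ 2 / 64)), by positivity, ?_⟩
  intro ι _ E _ _ _ _ _ b a f B ha hs hf y α t1 hα hX1 hX2 hdeep hz
  have hs1 : ∑ i, a i ^ 2 ≤ ε := hs.trans (min_le_left _ _)
  have hs2 : ∑ i, a i ^ 2 ≤ 1/100 := hs.trans ((min_le_right _ _).trans (min_le_left _ _))
  have hs3 : ∑ i, a i ^ 2 ≤ η ^ 2 / 64 := hs.trans ((min_le_right _ _).trans (min_le_right _ _))
  have hXα0 := norm_nonneg (dg b a (fl b (rr a) α y))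
  have hη' : η / 2 ≤ 9/10 * η := by linarith
  rcases le_total (CA η) ‖dg b a (fl b (rr a) t1 y)‖ with hfar | hnear
  · have h := FarA.far_LI h0 h1 hη' hs2 hf hα hX2 hz hfar
    have h' : LIne b a f (1/2) y α t1 := by
      unfold LIne
      rw [show (1:ℝ) - 1/2 = 1/2 by norm_num]
      exact h
    exact h'.mono (min_le_right _ _) le_rfl
  · have hlt : α < t1 := by
      rcases hα.eq_or_lt with h | h
      · exfalso
        rw [← h] at hz
        have h2 := hf.near _ hz hX2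
        have h3 := strictMono_Phi.lt_iff_lt.1 (hdeep.trans_lt h2)
        linarith
      · exact h
    rcases le_total (t1 - α) T0 with hj | hj
    · refine (H b a f B ha hs1 hf y α t1 hlt hj hX1 hnear ?_ hz).mono (min_le_left _ _) le_rfl
      exact (strictMono_Phi.monotone (by linarith)).trans hdeep
    · set α' := t1 - T0 with hα'
      have hαα' : α ≤ α' := by linarith
      have hX1' : η / 4 ≤ ‖dg b a (fl b (rr a) α' y)‖ := hX1.trans (X_mono b hs2 le_rfl y hαα')
      rcases le_or_gt (Phi (L0 + 16/5 * ‖dg b a (fl b (rr a) α' y)‖)) (f (fl b (rr a) α' y))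
        with hd | hd
      · exact (H b a f B ha hs1 hf y α' t1 (by linarith) (by linarith) hX1' hnear hd hz).mono
          (min_le_left _ _) hαα'
      · have hB := caseB (X2 := CA η) (L0 := L0) (T0 := T0) h0
          (le_refl (∑ i, a i ^ 2)) hs2 hs3 hf hT1 hT (y := y)
          (α := α') (t1 := t1) (by linarith) hX1' hnear hd
        exact hB.mono (min_le_right _ _) hαα'

end Crest.Agent.R239.LI
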