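import Mathlib
import Crest.Agent.R239.HC29
import Crest.Agent.R239.LI723
import Crest.Agent.R239.Near462

/-! R239: case (C) in the form `HCprop` of helper723 (helper29). -/

set_option autoImplicit false
set_option linter.unusedVariables false
set_option linter.unusedSectionVars false
open MeasureTheory ProbabilityTheory Set Filter Topology
open scoped RealInnerProductSpace ENNReal NNReal

namespace Crest.Agent.R239.HC

open Crest.Agent.Lib.Ehrhard (Phi Phi_pos Phi_lt_one strictMono_Phi Phi_neg continuous_Phi)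
open Crest.Agent.R239 Crest.Agent.R239.PW Crest.Agent.R239.Orb
open Crest.Agent.R239.FarA (CA)
open Crest.Agent.R239.LI (LIne HCprop)

universe u v

lemma rr_eq {ι : Type*} (a : ι → ℝ) : rr a = OD.rr a := rfl

lemma eps0_pos {η X2 T T' : ℝ} (hη : 0 < η) (hT : 0 < T + T') (h0 : 0 ≤ T' + T) : 0 < eps0 η X2 T T' := by
  have hM : 0 < MM X2 T T' := by
    unfold MM
    positivity
  unfold eps0
  positivity

lemma num_c {η X : ℝ} (hη : 0 < η) (hη1 : η ≤ 1/10) (hX : 0 < X) :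
    1 / (X ^ 2 * (1 - η ^ 2 / 10 ^ 4)) ≤ (1 - η ^ 2 / 5000) * ((1 + η ^ 2 / 2000) / X ^ 2) := by
  have h1 : η ^ 2 ≤ 1/100 := by nlinarith
  have h0 : 0 < η ^ 2 := by positivity
  rw [div_le_iff₀ (by apply mul_pos (by positivity); linarith)]
  have e : (1 - η ^ 2 / 5000) * ((1 + η ^ 2 / 2000) / X ^ 2) * (X ^ 2 * (1 - η ^ 2 / 10 ^ 4))
      = (1 - η ^ 2 / 5000) * (1 + η ^ 2 / 2000) * (1 - η ^ 2 / 10 ^ 4) := by
    field_simp
  rw [e]
  nlinarith [mul_pos h0 h0, mul_pos (mul_pos h0 h0) h0]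

theorem hcprop {η : ℝ} (hη : 0 < η) (hη1 : η ≤ 1/10) : HCprop.{u, v} η := by
  have hCA : 0 < CA η := by unfold CA; positivity
  have hL0 : 0 < LineC.L0 (η/2) (CA η) := by
    unfold LineC.L0
    positivity
  refine ⟨LineC.L0 (η/2) (CA η), hL0.le, fun T0 hT0 => ?_⟩
  obtain ⟨T', hT'⟩ : ∃ T', T' = 64000 / (η/2) ^ 4 := ⟨_, rfl⟩
  have hT'0 : 0 < T' := by rw [hT']; positivity
  have hη2 : η ^ 2 ≤ 1/100 := by nlinarith
  refine ⟨η ^ 2 / 5000, by positivity, by linarith, min (eps0 η (CA η) T0 T') (η ^ 4 / 10 ^ 6),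
    lt_min (eps0_pos hη (by linarith) (by linarith)) (by positivity), ?_⟩
  intro ι _ E _ _ _ _ _ b a f B ha hε hf y α t1 hαt ht1 hXα hX1 hdeep hz
  have hε1 : ∑ i, a i ^ 2 ≤ eps0 η (CA η) T0 T' := hε.trans (min_le_left _ _)
  have hε2 : ∑ i, a i ^ 2 ≤ η ^ 4 / 10 ^ 6 := hε.trans (min_le_right _ _)
  have hη4 : η ^ 4 ≤ 1 := pow_le_one₀ hη.le (by linarith)
  have hε3 : η ^ 4 / 10 ^ 6 ≤ 1/100 := by linarith
  obtain ⟨z, hzd⟩ : ∃ z, z = fl b (OD.rr a) t1 y := ⟨_, rfl⟩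
  obtain ⟨X, hXd⟩ : ∃ X, X = ‖dg b a z‖ := ⟨_, rfl⟩
  have hXm : η / 4 ≤ X := by
    rw [hXd, hzd]
    exact hXα.trans (OD.X_mono b hε2 hε3 y hαt.le)
  have hX0 : 0 < X := lt_of_lt_of_le (by positivity) hXm
  rw [← hzd, ← hXd] at hX1
  -- the window estimate
  have hflα : fl b (OD.rr a) α y = fl b (OD.rr a) (-(t1 - α)) z := by
    rw [hzd, fl_fl]
    congr 1
    ring
  have mf := G462.OrbData.measurable hf
  have hmain := hC (X2 := CA η) (T := T0) (T' := T') hη hη1 (by linarith) hT'.ge b a hε1 mf hf.nonneg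
    hf.le_one (η' := 9/10 * η) le_rfl (z := z) (hf.supp z (hzd ▸ hz)) (by rw [← hXd]; linarith)
    (by rw [← hXd]; exact hX1) (j := t1 - α) (by linarith) ht1 (by
      rw [rr_eq, ← hflα]; exact hdeep)
  rw [← hXd, rr_eq] at hmain
  obtain ⟨I, hI⟩ : ∃ I, I = ∫ s in (-(t1 - α))..T', (1 - f (fl b (OD.rr a) s z)) * J b (OD.rr a) s z :=
    ⟨_, rfl⟩
  rw [← hI] at hmain
  have hJ1 := J_pos b (OD.rr a) t1 y
  -- the integrand
  have cfl : Continuous fun t : ℝ => fl b (OD.rr a) t y := cont_fl_z b (OD.rr a) y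
  have cJ : Continuous fun t : ℝ => J b (OD.rr a) t y := cont_J_z b (OD.rr a) y
  have hint : IntegrableOn (fun t => (1 - f (fl b (OD.rr a) t y)) * J b (OD.rr a) t y)
      (Ioc α (t1 + T')) := by
    have hb : IntegrableOn (fun t : ℝ => J b (OD.rr a) t y) (Ioc α (t1 + T')) :=
      (cJ.integrableOn_Icc).mono_set Ioc_subset_Icc_self
    refine Integrable.mono' hb.norm
      ((measurable_const.sub (mf.comp cfl.measurable)).mul cJ.measurable).aestronglyMeasurable
      (Filter.Eventually.of_forall fun s => ?_)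
    rw [norm_mul, Real.norm_eq_abs, abs_of_nonneg (by linarith [hf.le_one (fl b (OD.rr a) s y)])]
    exact mul_le_of_le_one_left (norm_nonneg _) (by linarith [hf.nonneg (fl b (OD.rr a) s y)])
  have hwin : ∫ t in Ioc α (t1 + T'), (1 - f (fl b (OD.rr a) t y)) * J b (OD.rr a) t y
      = J b (OD.rr a) t1 y * I := by
    rw [← intervalIntegral.integral_of_le (by linarith)]
    have h1 := intervalIntegral.integral_comp_add_right
      (fun t => (1 - f (fl b (OD.rr a) t y)) * J b (OD.rr a) t y) t1 (a := -(t1 - α)) (b := T')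
    have e1 : -(t1 - α) + t1 = α := by ring
    have e2 : T' + t1 = t1 + T' := by ring
    rw [e1, e2] at h1
    rw [← h1, hI, ← intervalIntegral.integral_const_mul]
    refine intervalIntegral.integral_congr fun s _ => ?_
    rw [J_add, ← fl_fl, ← hzd]
    ring
  unfold LI.LIne
  have hlow : ENNReal.ofReal (J b (OD.rr a) t1 y * I) ≤ ∫⁻ t in Ioi α,
      ENNReal.ofReal (1 - f (fl b (OD.rr a) t y)) * ENNReal.ofReal (J b (OD.rr a) t y) := by
    rw [← hwin, ofReal_integral_eq_lintegral_ofReal hint (Filter.Eventually.of_forall fun t =>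
      mul_nonneg (by linarith [hf.le_one (fl b (OD.rr a) t y)]) (J_pos b (OD.rr a) t y).le)]
    calc ∫⁻ t in Ioc α (t1 + T'), ENNReal.ofReal ((1 - f (fl b (OD.rr a) t y)) * J b (OD.rr a) t y)
        = ∫⁻ t in Ioc α (t1 + T'), ENNReal.ofReal (1 - f (fl b (OD.rr a) t y)) *
          ENNReal.ofReal (J b (OD.rr a) t y) := by
          refine lintegral_congr fun t => ?_
          rw [ENNReal.ofReal_mul (by linarith [hf.le_one (fl b (OD.rr a) t y)])]
      _ ≤ _ := lintegral_mono_set Ioc_subset_Ioi_self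
  have hl : 0 < X ^ 2 * (1 - η ^ 2 / 10 ^ 4) := by
    apply mul_pos (by positivity)
    linarith
  have htail := LI.tail_gen (b := b) (a := a) (l := X ^ 2 * (1 - η ^ 2 / 10 ^ 4)) hε2 hε3 (y := y)
    (t1 := t1) hl (by
      rw [← hzd, ← hXd]
      have h1 : (η/4)^2 ≤ X ^ 2 := pow_le_pow_left₀ (by positivity) hXm 2
      have h2 : (η/4)^2 * (η ^ 2 / 10 ^ 4) ≤ X ^ 2 * (η ^ 2 / 10 ^ 4) :=
        mul_le_mul_of_nonneg_right h1 (by positivity)
      have h3 : 0 ≤ η ^ 4 := by positivity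
      have h4 : (η/4)^2 * (η ^ 2 / 10 ^ 4) = η ^ 4 / 160000 := by ring
      linarith)
  refine htail.trans ?_
  calc ENNReal.ofReal (J b (OD.rr a) t1 y / (X ^ 2 * (1 - η ^ 2 / 10 ^ 4)))
      ≤ ENNReal.ofReal ((1 - η ^ 2 / 5000) * (J b (OD.rr a) t1 y * I)) := by
        apply ENNReal.ofReal_le_ofReal
        have h1 := num_c hη hη1 hX0
        have h2 : (1 + η ^ 2 / 2000) / X ^ 2 ≤ I := by
          rw [div_le_iff₀ (by positivity)]
          linarith
        have h3 : 0 ≤ 1 - η ^ 2 / 5000 := by linarith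
        calc J b (OD.rr a) t1 y / (X ^ 2 * (1 - η ^ 2 / 10 ^ 4))
            = J b (OD.rr a) t1 y * (1 / (X ^ 2 * (1 - η ^ 2 / 10 ^ 4))) := by ring
          _ ≤ J b (OD.rr a) t1 y * ((1 - η ^ 2 / 5000) * ((1 + η ^ 2 / 2000) / X ^ 2)) :=
              mul_le_mul_of_nonneg_left h1 hJ1.le
          _ ≤ J b (OD.rr a) t1 y * ((1 - η ^ 2 / 5000) * I) := by
              gcongr
          _ = _ := by ring
    _ = ENNReal.ofReal (1 - η ^ 2 / 5000) * ENNReal.ofReal (J b (OD.rr a) t1 y * I) :=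
        ENNReal.ofReal_mul (by linarith)
    _ ≤ _ := mul_le_mul' le_rfl hlow

end Crest.Agent.R239.HC
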