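import Crest.Agent.R239.PrekA675
import Crest.Agent.Lib.PrekopaLeindler

/-!
# R239, log-concavity tools for the chain (helper419; `LC.A`, `Law.A` are in `PrekA675`)

* `LC.trans`.
* `PL_fd` : Prékopa–Leindler on every finite dimensional inner product space.
* `LC.mul`, `LC.comp_linear`, `LC.lintegral_right` (marginals), `LC.conv`, `LC_dE`,
  `LC_indicator`, `LC_const`.
-/

set_option autoImplicit false
set_option linter.unusedSectionVars false
open MeasureTheory ProbabilityTheory Set
open scoped RealInnerProductSpace ENNReal NNReal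

namespace Crest.Agent.R239

namespace Chain

open Crest.Agent.Lib.PrekopaLeindler

/-! ### Prékopa–Leindler on finite dimensional inner product spaces -/

section PLfd

variable {V : Type*} [NormedAddCommGroup V] [InnerProductSpace ℝ V] [FiniteDimensional ℝ V]
  [MeasurableSpace V] [BorelSpace V]

/-- Prékopa–Leindler on `V` -/
theorem PL_fd : PL V (volume : Measure V) := by
  refine PL.of_measurePreserving (fun x => (stdOrthonormalBasis ℝ V).repr.symm x)
    (LinearIsometryEquiv.measurePreserving (stdOrthonormalBasis ℝ V).repr.symm) ?_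
    (PL_euclidean (Module.finrank ℝ V))
  intro a b x y
  simp

end PLfd

/-! ### log-concave functions on vector spaces -/

section LCgen

/-- log-concavity on a real vector space (the `LC` of `Chain201c` is the same formula) -/
def LCg {X : Type*} [AddCommGroup X] [Module ℝ X] (W : X → ℝ≥0∞) : Prop :=
  ∀ (x y : X) (a b : ℝ), 0 ≤ a → 0 ≤ b → a + b = 1 → W x ^ a * W y ^ b ≤ W (a • x + b • y)

variable {X Y : Type*} [AddCommGroup X] [Module ℝ X] [AddCommGroup Y] [Module ℝ Y]

lemma LCg.mul {W W' : X → ℝ≥0∞} (h : LCg W) (h' : LCg W') : LCg fun x => W x * W' x := by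
  intro x y a b ha hb hab
  simp only
  rw [ENNReal.mul_rpow_of_nonneg _ _ ha, ENNReal.mul_rpow_of_nonneg _ _ hb]
  calc W x ^ a * W' x ^ a * (W y ^ b * W' y ^ b)
      = (W x ^ a * W y ^ b) * (W' x ^ a * W' y ^ b) := by ring
    _ ≤ _ := by gcongr
                · exact h x y a b ha hb hab
                · exact h' x y a b ha hb hab

lemma LCg.comp_linear {W : Y → ℝ≥0∞} (h : LCg W) (L : X →ₗ[ℝ] Y) : LCg fun x => W (L x) := by
  intro x y a b ha hb hab
  simp only
  rw [map_add, map_smul, map_smul]
  exact h _ _ a b ha hb hab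

lemma LCg.add_right {W : X → ℝ≥0∞} (h : LCg W) (z : X) : LCg fun x => W (x + z) := by
  intro x y a b ha hb hab
  simp only
  have : a • x + b • y + z = a • (x + z) + b • (y + z) := by
    have : z = (a + b) • z := by rw [hab, one_smul]
    nth_rewrite 1 [this]
    module
  rw [this]
  exact h _ _ a b ha hb hab

lemma LCg_const (C : ℝ≥0∞) : LCg fun _ : X => C := by
  intro x y a b ha hb hab
  simp only
  rw [← ENNReal.rpow_add_of_nonneg _ _ ha hb, hab, ENNReal.rpow_one]

lemma LCg_indicator {K : Set X} (hK : Convex ℝ K) : LCg (K.indicator (1 : X → ℝ≥0∞)) := by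
  intro x y a b ha hb hab
  rcases eq_or_lt_of_le ha with h0 | h0
  · have hb1 : b = 1 := by linarith
    rw [← h0, hb1]; simp
  rcases eq_or_lt_of_le hb with h1 | h1
  · have ha1 : a = 1 := by linarith
    rw [← h1, ha1]; simp
  by_cases hx : x ∈ K
  · by_cases hy : y ∈ K
    · have : a • x + b • y ∈ K := hK hx hy ha hb hab
      simp [hx, hy, this]
    · rw [indicator_of_notMem hy, ENNReal.zero_rpow_of_pos h1, mul_zero]
      exact bot_le
  · rw [indicator_of_notMem hx, ENNReal.zero_rpow_of_pos h0, zero_mul]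
    exact bot_le

/-- `exp (-q)` with `q` convex -/
lemma LCg_exp {q : X → ℝ} (hq : ∀ (x y : X) (a b : ℝ), 0 ≤ a → 0 ≤ b → a + b = 1 →
    q (a • x + b • y) ≤ a * q x + b * q y) :
    LCg fun x => ENNReal.ofReal (Real.exp (-q x)) := by
  intro x y a b ha hb hab
  simp only
  rw [ENNReal.ofReal_rpow_of_pos (Real.exp_pos _), ENNReal.ofReal_rpow_of_pos (Real.exp_pos _),
    ← ENNReal.ofReal_mul (by positivity), ← Real.exp_mul, ← Real.exp_mul, ← Real.exp_add]
  refine ENNReal.ofReal_le_ofReal (Real.exp_le_exp.2 ?_)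
  have := hq x y a b ha hb hab
  linarith

/-- marginals of log-concave functions are log-concave -/
theorem LCg.lintegral_right [MeasurableSpace X] [MeasurableSpace Y] {μ : Measure Y}
    (hμ : PL Y μ) {W : X × Y → ℝ≥0∞} (hm : Measurable W) (h : LCg W) :
    LCg fun x => ∫⁻ y, W (x, y) ∂μ := by
  intro x y a b ha hb hab
  rcases eq_or_lt_of_le ha with h0 | h0
  · have hb1 : b = 1 := by linarith
    rw [← h0, hb1]; simp
  rcases eq_or_lt_of_le hb with h1 | h1
  · have ha1 : a = 1 := by linarith
    rw [← h1, ha1]; simp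
  have ha' : a = 1 - b := by linarith
  simp only
  rw [ha']
  refine hμ b h1 (by linarith) _ _ _ (hm.comp measurable_prodMk_left)
    (hm.comp measurable_prodMk_left) (hm.comp measurable_prodMk_left) ?_
  intro z w
  exact h (x, z) (y, w) (1 - b) b (by linarith) hb (by ring)

end LCgen

/-! ### the letter operator -/

section letter

variable {V : Type*} [NormedAddCommGroup V] [InnerProductSpace ℝ V] [FiniteDimensional ℝ V]
  [MeasurableSpace V] [BorelSpace V]

lemma LC_iff {W : V → ℝ≥0∞} : LC W ↔ LCg W := Iff.rfl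

lemma LC.mul {W W' : V → ℝ≥0∞} (h : LC W) (h' : LC W') : LC fun x => W x * W' x :=
  LCg.mul h h'

lemma LC.comp_linear {W : V → ℝ≥0∞} (h : LC W) (L : V →ₗ[ℝ] V) : LC fun x => W (L x) :=
  LCg.comp_linear h L

lemma LC_indicator {K : Set V} (hK : Convex ℝ K) : LC (K.indicator (1 : V → ℝ≥0∞)) :=
  LCg_indicator hK

lemma gaussianPDF_LC : LCg (gaussianPDF 0 1) := by
  have h1 : LCg fun x : ℝ => ENNReal.ofReal (Real.exp (-(x ^ 2 / 2))) := by
    refine LCg_exp ?_
    intro x y a b ha hb hab
    simp only [smul_eq_mul]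
    have hb' : b = 1 - a := by linarith
    subst hb'
    nlinarith [mul_nonneg (mul_nonneg ha hb) (sq_nonneg (x - y))]
  have h2 : gaussianPDF 0 1 = fun x : ℝ => ENNReal.ofReal ((Real.sqrt (2 * Real.pi))⁻¹) *
      ENNReal.ofReal (Real.exp (-(x ^ 2 / 2))) := by
    funext x
    unfold gaussianPDF gaussianPDFReal
    rw [← ENNReal.ofReal_mul (by positivity)]
    congr 2
    · simp
    · congr 1
      simp only [sub_zero, NNReal.coe_one, mul_one]
      ring
  rw [h2]
  exact (LCg_const _).mul h1

lemma PL_gaussian_aux {f : ℝ → ℝ≥0∞} (hf : Measurable f) :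
    ∫⁻ g, f g ∂(gaussianReal 0 1) = ∫⁻ g, f g * gaussianPDF 0 1 g := by
  rw [gaussianReal_of_var_ne_zero 0 one_ne_zero,
    lintegral_withDensity_eq_lintegral_mul _ (measurable_gaussianPDF 0 1) hf]
  refine lintegral_congr fun g => ?_
  simp only [Pi.mul_apply]
  ring

/-- the linear map `(x, g) ↦ x + disp x g • v` -/
noncomputable def shiftL (κ : ℝ) (E : Submodule ℝ V) (v : V) : (V × ℝ) →ₗ[ℝ] V :=
  (LinearMap.fst ℝ V ℝ) ∘ₗ (Tinv κ E v)

lemma shiftL_apply (κ : ℝ) (E : Submodule ℝ V) (v x : V) (g : ℝ) :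
    shiftL κ E v (x, g) = x + disp κ E v x g • v := rfl

theorem LC.trans {κ : ℝ} {E : Submodule ℝ V} (u : List V) {f : V → ℝ≥0∞} (hm : Measurable f)
    (h : LC f) : LC (trans κ E u f) := by
  induction u with
  | nil => exact h
  | cons v u ih => exact LC.A (measurable_trans hm) ih

lemma LC_dE (E : Submodule ℝ V) : LC (dE E) := by
  have h1 : LCg fun x : V => ENNReal.ofReal (Real.exp (-(‖E.starProjection x‖ ^ 2 / 2))) := by
    refine LCg_exp ?_
    intro x y a b ha hb hab
    rw [map_add, map_smul, map_smul]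
    have h2 := norm_add_le (a • E.starProjection x) (b • E.starProjection y)
    rw [norm_smul, norm_smul, Real.norm_of_nonneg ha, Real.norm_of_nonneg hb] at h2
    set s := ‖E.starProjection x‖
    set t := ‖E.starProjection y‖
    have hs : 0 ≤ s := norm_nonneg _
    have ht : 0 ≤ t := norm_nonneg _
    have h3 : ‖a • E.starProjection x + b • E.starProjection y‖ ^ 2 ≤ (a * s + b * t) ^ 2 :=
      pow_le_pow_left₀ (norm_nonneg _) h2 2
    have hb' : b = 1 - a := by linarith
    subst hb'
    nlinarith [mul_nonneg (mul_nonneg ha hb) (sq_nonneg (s - t))]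
  intro x y a b ha hb hab
  have := h1 x y a b ha hb hab
  unfold dE
  simp only [neg_div]
  exact this

lemma disp_add_smul (κ : ℝ) (E : Submodule ℝ V) (v w x : V) (s g : ℝ) :
    (x + s • w) + disp κ E v (x + s • w) g • v =
      (x + disp κ E v x g • v) + s • (w - (κ * ⟪E.starProjection v, w⟫) • v) := by
  unfold disp
  rw [inner_add_right, inner_smul_right]
  module

/-- masses of convex sets along a family: the marginal form used for window levels -/
theorem LC.mass_translate {E : Submodule ℝ V} {W : V → ℝ≥0∞} (hm : Measurable W) (h : LC W)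
    {K : Set V} (hK : Convex ℝ K) (hKm : MeasurableSet K) :
    LC fun C => ∫⁻ x, dE E x * (W (x - C) * K.indicator 1 x) := by
  have h1 : LCg fun p : V × V => dE E p.2 * (W (p.2 - p.1) * K.indicator 1 p.2) := by
    refine (LCg.comp_linear (X := V × V) (LC_dE E) (LinearMap.snd ℝ V V)).mul (LCg.mul ?_ ?_)
    · exact LCg.comp_linear (X := V × V) h (LinearMap.snd ℝ V V - LinearMap.fst ℝ V V)
    · exact (LCg_indicator hK).comp_linear (LinearMap.snd ℝ V V)
  refine h1.lintegral_right PL_fd ?_
  exact ((measurable_dE E).comp measurable_snd).mul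
    ((hm.comp (measurable_snd.sub measurable_fst)).mul
      ((measurable_one.indicator hKm).comp measurable_snd))

end letter

end Chain

end Crest.Agent.R239
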