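import Crest.Agent.R239.Chain201c
import Crest.Agent.R239.Cross201c

/-!
# R239, the leaf (SL_W) of the chain, part a (helper622): long chords

On chords of length `≥ 2` the mass entering `K` from outside `K * v` is at most `1/8` of the mass
leaving `K` inside `K * v` (all tilts of the Gaussian weight are allowed): the affine involution
`(x, x') ↦ (x' - σ v/2, x + σ v/2)` multiplies the density by at least `exp (1/(4κ) - ρ/2)`.
-/

set_option autoImplicit false
set_option linter.unusedSectionVars false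
open MeasureTheory ProbabilityTheory Set
open scoped RealInnerProductSpace ENNReal NNReal

namespace Crest.Agent.R239

namespace Chain

variable {V : Type*} [NormedAddCommGroup V] [InnerProductSpace ℝ V] [FiniteDimensional ℝ V]
  [MeasurableSpace V] [BorelSpace V]

section aux

variable {κ : ℝ} {E : Submodule ℝ V} {v : V}

lemma tau_pos (hκ : 0 < κ) (h : κ * ‖E.starProjection v‖ ^ 2 < 2) : 0 < tau κ E v := by
  unfold tau
  apply Real.sqrt_pos.2
  exact mul_pos hκ (by linarith)

/-- the reversed displacement -/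
lemma disp_rev (hκ : 0 ≤ κ) (h : OK κ E v) (x : V) (g : ℝ) :
    disp κ E v (x + disp κ E v x g • v)
      (tau κ E v * ⟪E.starProjection v, x⟫ - (1 - κ * ‖E.starProjection v‖ ^ 2) * g) =
      - disp κ E v x g := by
  have ht := tau_sq hκ h
  have h2 := disp_inner (κ := κ) (E := E) (v := v) x g
  unfold disp at h2 ⊢
  rw [h2]
  linear_combination (⟪E.starProjection v, x⟫) * ht

/-- norm of the projection along a line -/
lemma norm_proj_add (E : Submodule ℝ V) (v x : V) (s : ℝ) :
    ‖E.starProjection (x + s • v)‖ ^ 2 =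
      ‖E.starProjection x‖ ^ 2 + 2 * s * ⟪E.starProjection v, x⟫ +
        s ^ 2 * ‖E.starProjection v‖ ^ 2 := by
  rw [map_add, map_smul, norm_add_sq_real, norm_smul, inner_smul_right, real_inner_comm,
    inner_proj_proj, mul_pow, Real.norm_eq_abs, sq_abs]
  ring

/-- the density of the reference measure along a line -/
lemma dE_add (E : Submodule ℝ V) (v x : V) (s : ℝ) :
    dE E (x + s • v) = ENNReal.ofReal (Real.exp (-(s * ⟪E.starProjection v, x⟫) -
      s ^ 2 * ‖E.starProjection v‖ ^ 2 / 2)) * dE E x := by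
  unfold dE
  rw [← ENNReal.ofReal_mul (Real.exp_pos _).le, ← Real.exp_add, norm_proj_add]
  congr 2
  ring

end aux

section E1

/-- the affine involution: swap and shift by `σ v / 2` -/
noncomputable def Rinv (κ : ℝ) (E : Submodule ℝ V) (v : V) (σ : ℝ) (p : V × ℝ) : V × ℝ :=
  Tinv κ E v p + (-(σ / 2) • v, σ * (tau κ E v / (2 * κ)))

variable {κ : ℝ} {E : Submodule ℝ V} {v : V}

lemma measurePreserving_Rinv (hκ : 0 ≤ κ) (h : OK κ E v) (σ : ℝ) :
    MeasurePreserving (Rinv κ E v σ) ((volume : Measure V).prod (volume : Measure ℝ))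
      ((volume : Measure V).prod (volume : Measure ℝ)) := by
  have h1 := measurePreserving_Tinv hκ h
  have h2 := measurePreserving_add_right ((volume : Measure V).prod (volume : Measure ℝ))
    ((-(σ / 2) • v, σ * (tau κ E v / (2 * κ))) : V × ℝ)
  exact h2.comp h1

lemma Rinv_fst (σ : ℝ) (p : V × ℝ) :
    (Rinv κ E v σ p).1 = p.1 + (disp κ E v p.1 p.2 - σ / 2) • v := by
  obtain ⟨x, g⟩ := p
  unfold Rinv
  rw [Tinv_apply]
  simp only [Prod.mk_add_mk]
  module

/-- the second point of the image -/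
lemma Rinv_snd (hκ : 0 < κ) (h : OK κ E v) (σ : ℝ) (p : V × ℝ) :
    (Rinv κ E v σ p).1 + disp κ E v (Rinv κ E v σ p).1 (Rinv κ E v σ p).2 • v =
      p.1 + (σ / 2) • v := by
  obtain ⟨x, g⟩ := p
  have h1 := disp_rev hκ.le h x g
  have e : disp κ E v (Rinv κ E v σ (x, g)).1 (Rinv κ E v σ (x, g)).2 =
      - disp κ E v x g + σ := by
    unfold Rinv
    rw [Tinv_apply]
    simp only [Prod.mk_add_mk]
    rw [← h1]
    unfold disp
    rw [inner_add_right, inner_smul_right, inner_proj_self]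
    have ht := tau_sq hκ.le h
    have : tau κ E v * (tau κ E v / (2 * κ)) = (2 - κ * ‖E.starProjection v‖ ^ 2) / 2 := by
      rw [← mul_div_assoc, ← sq, ht]
      field_simp
    linear_combination σ * this
  rw [e, Rinv_fst]
  module

lemma gaussianPDF_shift (k η : ℝ) : gaussianPDF 0 1 (k + η) =
    ENNReal.ofReal (Real.exp (-(k * η) - η ^ 2 / 2)) * gaussianPDF 0 1 k := by
  unfold gaussianPDF gaussianPDFReal
  rw [← ENNReal.ofReal_mul (Real.exp_pos _).le, mul_left_comm, ← Real.exp_add]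
  congr 3
  simp only [NNReal.coe_one, sub_zero, mul_one]
  ring

/-- the density of the image -/
lemma rho_Rinv (hκ : 0 < κ) (h : OK κ E v) {σ : ℝ} (hσ : σ ^ 2 = 1) (p : V × ℝ) :
    rho E (Rinv κ E v σ p) =
      ENNReal.ofReal (Real.exp ((2 * σ * disp κ E v p.1 p.2 - 1) / (4 * κ))) * rho E p := by
  obtain ⟨x, g⟩ := p
  have h1 := disp_rev hκ.le h x g
  rw [← rho_Tinv hκ.le h (x, g)]
  unfold Rinv
  rw [Tinv_apply]
  set y := x + disp κ E v x g • v with hy
  set k := tau κ E v * ⟪E.starProjection v, x⟫ - (1 - κ * ‖E.starProjection v‖ ^ 2) * g with hk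
  simp only [Prod.mk_add_mk]
  unfold rho
  simp only
  rw [dE_add E v y (-(σ / 2)), gaussianPDF_shift]
  have ht := tau_sq hκ.le h
  have e3 : disp κ E v x g = -disp κ E v y k := by rw [h1]; ring
  have key : Real.exp (-(-(σ / 2) * ⟪E.starProjection v, y⟫) -
        (-(σ / 2)) ^ 2 * ‖E.starProjection v‖ ^ 2 / 2) *
      Real.exp (-(k * (σ * (tau κ E v / (2 * κ)))) - (σ * (tau κ E v / (2 * κ))) ^ 2 / 2) =
      Real.exp ((2 * σ * disp κ E v x g - 1) / (4 * κ)) := by
    rw [← Real.exp_add]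
    congr 1
    rw [e3]
    unfold disp
    set a := ‖E.starProjection v‖ ^ 2
    set b := ⟪E.starProjection v, y⟫
    set t := tau κ E v
    have h2 : (σ * (t / (2 * κ))) ^ 2 = (2 - κ * a) / (4 * κ) := by
      rw [mul_pow, hσ, one_mul, div_pow, ht]
      field_simp
      ring
    rw [h2]
    field_simp
    linear_combination (-(4 * a * κ)) * hσ
  rw [← key, ENNReal.ofReal_mul (Real.exp_pos _).le]
  ring

/-- crossing mass of one letter as an integral over `V × ℝ` -/
lemma cross_letter (κ : ℝ) (E : Submodule ℝ V) (v : V) {W : V → ℝ≥0∞} (hW : Measurable W)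
    {U L : Set V} (hU : MeasurableSet U) (hL : MeasurableSet L) :
    cross κ E [v] W U L = ∫⁻ p : V × ℝ, rho E p * (L.indicator 1 (p.1 + disp κ E v p.1 p.2 • v) *
      U.indicator W p.1) ∂(volume.prod volume) := by
  have h := lintegral_A_mul (κ := κ) (E := E) (v := v) (f := L.indicator 1) (h := U.indicator W)
    (measurable_one.indicator hL) (hW.indicator hU)
  have e : ∀ p : V × ℝ, (Tinv κ E v p).1 = p.1 + disp κ E v p.1 p.2 • v := fun p => rfl
  simp only [e] at h
  rw [← h]
  unfold cross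
  rw [trans_cons, trans_nil, ← lintegral_indicator hU]
  refine lintegral_congr fun x => ?_
  by_cases hx : x ∈ U
  · simp [hx, mul_comm]
  · simp [hx]

lemma exp_three : (16 : ℝ) ≤ Real.exp 3 := by
  have h := Real.exp_one_gt_d9
  have h2 : Real.exp 3 = Real.exp 1 ^ 3 := by rw [← Real.exp_nat_mul]; norm_num
  rw [h2]
  calc (16:ℝ) ≤ (2.7182818283:ℝ) ^ 3 := by norm_num
    _ ≤ _ := by gcongr

/-- pointwise comparison -/
lemma long_pt {K : Set V} (cK : Convex ℝ K) (hκ : 0 < κ) (hκ1 : κ ≤ 1 / 16) (h : OK κ E v)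
    {ρ : ℝ} (hρ0 : 0 ≤ ρ) (hρ : ρ ≤ 1 / 10) {W : V → ℝ≥0∞} (hWl : LogLip ρ v W) {σ : ℝ}
    (hσ : σ ^ 2 = 1) (p : V × ℝ) (hd : 1 < σ * disp κ E v p.1 p.2) :
    rho E p * (K.indicator 1 (p.1 + disp κ E v p.1 p.2 • v) *
      ((star K v)ᶜ ∩ {x | chordGe K v 2 x}).indicator W p.1) ≤
    ENNReal.ofReal (1 / 16) * (rho E (Rinv κ E v σ p) *
      (Kᶜ.indicator 1 ((Rinv κ E v σ p).1 +
        disp κ E v (Rinv κ E v σ p).1 (Rinv κ E v σ p).2 • v) *
      (star K v).indicator W (Rinv κ E v σ p).1)) := by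
  set d := disp κ E v p.1 p.2 with hdd
  by_cases hin : p.1 + d • v ∈ K ∧ p.1 ∈ (star K v)ᶜ ∩ {x | chordGe K v 2 x}
  swap
  · have : K.indicator (1 : V → ℝ≥0∞) (p.1 + d • v) *
      ((star K v)ᶜ ∩ {x | chordGe K v 2 x}).indicator W p.1 = 0 := by
      rw [not_and_or] at hin
      rcases hin with h1 | h1
      · rw [indicator_of_notMem h1, zero_mul]
      · rw [indicator_of_notMem h1, mul_zero]
    rw [this, mul_zero]
    exact zero_le
  obtain ⟨h1, h2⟩ := hin
  have hσa : |σ| = 1 := by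
    rw [← sq_abs] at hσ
    nlinarith [abs_nonneg σ, hσ]
  have hns : p.1 ∉ star K v := h2.1
  have hch : chordGe K v 2 p.1 := h2.2
  have hmem : ∀ x : V, chordGe K v 2 x → (∃ u : ℝ, |u| ≤ 1 ∧ x + u • v ∈ K) → x ∈ star K v := by
    intro x hx hu
    have := Cross.mem_star_of_chord cK one_pos (e := v) (h := 1) (by rwa [mul_one]) hu
    rwa [one_smul] at this
  have e1 : (Rinv κ E v σ p).1 = p.1 + (d - σ / 2) • v := Rinv_fst σ p
  have e2 := Rinv_snd hκ h σ p
  have m1 : (Rinv κ E v σ p).1 ∈ star K v := by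
    rw [e1]
    refine hmem _ ((chordGe_add K v 2 p.1 _).2 hch) ⟨σ / 2, ?_, ?_⟩
    · rw [abs_div, hσa]; norm_num
    · have : p.1 + (d - σ / 2) • v + (σ / 2) • v = p.1 + d • v := by module
      rwa [this]
  have m2 : p.1 + (σ / 2) • v ∉ K := by
    intro hcon
    exact hns (hmem _ hch ⟨σ / 2, by rw [abs_div, hσa]; norm_num, hcon⟩)
  rw [e2, indicator_of_mem h1, indicator_of_mem h2, indicator_of_mem m1,
    indicator_of_mem (show p.1 + (σ / 2) • v ∈ Kᶜ from m2), rho_Rinv hκ h hσ p, ← hdd]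
  simp only [Pi.one_apply, one_mul]
  have hW1 : W p.1 ≤ ENNReal.ofReal (Real.exp (ρ * (σ * d - 1 / 2))) * W (Rinv κ E v σ p).1 := by
    have := hWl (Rinv κ E v σ p).1 (-(d - σ / 2))
    have e3 : (Rinv κ E v σ p).1 + (-(d - σ / 2)) • v = p.1 := by rw [e1]; module
    rw [e3, abs_neg] at this
    refine this.trans ?_
    have e4 : |d - σ / 2| = σ * d - 1 / 2 := by
      have e5 : |d - σ / 2| = |σ| * |d - σ / 2| := by rw [hσa, one_mul]
      rw [e5, ← abs_mul, abs_of_pos]
      · linear_combination (-1 / 2 : ℝ) * hσ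
      · have : σ * (d - σ / 2) = σ * d - 1 / 2 := by linear_combination (-1 / 2 : ℝ) * hσ
        rw [this]; linarith
    rw [e4]
  calc rho E p * W p.1 ≤ rho E p *
        (ENNReal.ofReal (Real.exp (ρ * (σ * d - 1 / 2))) * W (Rinv κ E v σ p).1) := by gcongr
    _ = ENNReal.ofReal (Real.exp (ρ * (σ * d - 1 / 2))) *
        (rho E p * W (Rinv κ E v σ p).1) := by ring
    _ ≤ (ENNReal.ofReal (1 / 16) * ENNReal.ofReal (Real.exp ((2 * σ * d - 1) / (4 * κ)))) *
        (rho E p * W (Rinv κ E v σ p).1) := by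
      gcongr
      rw [← ENNReal.ofReal_mul (by norm_num)]
      apply ENNReal.ofReal_le_ofReal
      have h5 : Real.exp (ρ * (σ * d - 1 / 2)) * Real.exp 3 ≤
          Real.exp ((2 * σ * d - 1) / (4 * κ)) := by
        rw [← Real.exp_add]
        apply Real.exp_le_exp.2
        rw [le_div_iff₀ (by positivity)]
        have h6 : 4 * κ * (ρ * (σ * d - 1 / 2) + 3) ≤
            1 / 4 * (1 / 10 * (σ * d - 1 / 2) + 3) := by
          have : 0 ≤ σ * d - 1 / 2 := by linarith
          have h7 : ρ * (σ * d - 1 / 2) + 3 ≤ 1 / 10 * (σ * d - 1 / 2) + 3 := by gcongr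
          have h8 : 0 ≤ ρ * (σ * d - 1 / 2) + 3 := by positivity
          nlinarith
        nlinarith
      have h6 := exp_three
      have h7 := Real.exp_pos (ρ * (σ * d - 1 / 2))
      nlinarith
    _ = _ := by ring

/-- **long chords** : entering mass at most `1/8` of the leaving mass -/
theorem long_le {K : Set V} (hK : IsClosed K) (cK : Convex ℝ K) (hκ : 0 < κ) (hκ1 : κ ≤ 1 / 16)
    (h : OK κ E v) {ρ : ℝ} (hρ0 : 0 ≤ ρ) (hρ : ρ ≤ 1 / 10) {W : V → ℝ≥0∞} (hW : Measurable W)
    (hWl : LogLip ρ v W) :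
    cross κ E [v] W ((star K v)ᶜ ∩ {x | chordGe K v 2 x}) K ≤
      ENNReal.ofReal (1 / 8) * cross κ E [v] W (star K v) Kᶜ := by
  have mS := (isClosed_star hK v).measurableSet
  have mG := measurableSet_chordGe hK v 2
  have mK := hK.measurableSet
  rw [cross_letter κ E v hW (mS.compl.inter mG) mK, cross_letter κ E v hW mS mK.compl]
  set G : V × ℝ → ℝ≥0∞ := fun p => rho E p * (Kᶜ.indicator 1 (p.1 + disp κ E v p.1 p.2 • v) *
      (star K v).indicator W p.1) with hG
  set F : V × ℝ → ℝ≥0∞ := fun p => rho E p * (K.indicator 1 (p.1 + disp κ E v p.1 p.2 • v) *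
      ((star K v)ᶜ ∩ {x | chordGe K v 2 x}).indicator W p.1) with hF
  have mrho : Measurable (rho E : V × ℝ → ℝ≥0∞) := by
    unfold rho
    exact ((measurable_dE E).comp measurable_fst).mul
      ((measurable_gaussianPDF 0 1).comp measurable_snd)
  have mGm : Measurable G := by
    refine mrho.mul (Measurable.mul ?_ ?_)
    · exact (measurable_one.indicator mK.compl).comp (measurable_disp κ E v)
    · exact (hW.indicator mS).comp measurable_fst
  have hmem : ∀ x : V, chordGe K v 2 x → (∃ u : ℝ, |u| ≤ 1 ∧ x + u • v ∈ K) → x ∈ star K v := by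
    intro x hx hu
    have := Cross.mem_star_of_chord cK one_pos (e := v) (h := 1) (by rwa [mul_one]) hu
    rwa [one_smul] at this
  have hpt : ∀ p, F p ≤ ENNReal.ofReal (1 / 16) * G (Rinv κ E v 1 p) +
      ENNReal.ofReal (1 / 16) * G (Rinv κ E v (-1) p) := by
    intro p
    by_cases h1 : 1 < 1 * disp κ E v p.1 p.2
    · exact (long_pt cK hκ hκ1 h hρ0 hρ hWl (by norm_num) p h1).trans le_self_add
    by_cases h2 : 1 < (-1) * disp κ E v p.1 p.2
    · exact (long_pt cK hκ hκ1 h hρ0 hρ hWl (by norm_num) p h2).trans le_add_self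
    have h3 : |disp κ E v p.1 p.2| ≤ 1 := by
      rw [abs_le]; constructor <;> linarith
    have : F p = 0 := by
      rw [hF]
      simp only
      by_cases h4 : p.1 + disp κ E v p.1 p.2 • v ∈ K
      · by_cases h5 : p.1 ∈ (star K v)ᶜ ∩ {x | chordGe K v 2 x}
        · exact absurd (hmem _ h5.2 ⟨_, h3, h4⟩) h5.1
        · rw [indicator_of_notMem h5, mul_zero, mul_zero]
      · rw [indicator_of_notMem h4, zero_mul, mul_zero]
    rw [this]
    exact zero_le
  have e1 := (measurePreserving_Rinv hκ.le h 1).lintegral_comp mGm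
  have e2 := (measurePreserving_Rinv hκ.le h (-1)).lintegral_comp mGm
  calc ∫⁻ p, F p ∂(volume.prod volume)
      ≤ ∫⁻ p, (ENNReal.ofReal (1 / 16) * G (Rinv κ E v 1 p) +
          ENNReal.ofReal (1 / 16) * G (Rinv κ E v (-1) p)) ∂(volume.prod volume) :=
        lintegral_mono hpt
    _ = ENNReal.ofReal (1 / 16) * ∫⁻ p, G p ∂(volume.prod volume) +
        ENNReal.ofReal (1 / 16) * ∫⁻ p, G p ∂(volume.prod volume) := by
        have m1 : Measurable fun p => G (Rinv κ E v 1 p) :=
          mGm.comp (measurePreserving_Rinv hκ.le h 1).measurable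
        have m2 : Measurable fun p => G (Rinv κ E v (-1) p) :=
          mGm.comp (measurePreserving_Rinv hκ.le h (-1)).measurable
        rw [lintegral_add_left (m1.const_mul _), lintegral_const_mul _ m1,
          lintegral_const_mul _ m2, e1, e2]
    _ = ENNReal.ofReal (1 / 8) * ∫⁻ p, G p ∂(volume.prod volume) := by
        rw [← add_mul, ← ENNReal.ofReal_add (by norm_num) (by norm_num)]
        norm_num

end E1

end Chain

end Crest.Agent.R239
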