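import Crest.Agent.R239.Leaf622a

/-!
# R239, the leaf (SL_W) of the chain, part b (helper622): lines

* `lintegral_slab` : Fubini along `v` over the slab `0 ≤ ⟪v, x⟫ ≤ ‖v‖²`.
* `sup_ch` : supremum of a weight over the rational points of a chord.
-/

set_option autoImplicit false
set_option linter.unusedSectionVars false
open MeasureTheory ProbabilityTheory Set Filter Topology
open scoped RealInnerProductSpace ENNReal NNReal

namespace Crest.Agent.R239

namespace Chain

variable {V : Type*} [NormedAddCommGroup V] [InnerProductSpace ℝ V] [FiniteDimensional ℝ V]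
  [MeasurableSpace V] [BorelSpace V]

/-- the slab -/
def Sl (v : V) : Set V := {x | 0 ≤ ⟪v, x⟫ ∧ ⟪v, x⟫ ≤ ‖v‖ ^ 2}

lemma isClosed_Sl (v : V) : IsClosed (Sl v) := by
  have h1 : IsClosed {x : V | 0 ≤ ⟪v, x⟫} := isClosed_le continuous_const (by fun_prop)
  have h2 : IsClosed {x : V | ⟪v, x⟫ ≤ ‖v‖ ^ 2} := isClosed_le (by fun_prop) continuous_const
  exact h1.inter h2

lemma convex_Sl (v : V) : Convex ℝ (Sl v) := by
  rintro x ⟨h1, h2⟩ y ⟨h3, h4⟩ a b ha hb hab
  constructor
  · rw [inner_add_right, inner_smul_right, inner_smul_right]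
    positivity
  · rw [inner_add_right, inner_smul_right, inner_smul_right]
    calc a * ⟪v, x⟫ + b * ⟪v, y⟫ ≤ a * ‖v‖ ^ 2 + b * ‖v‖ ^ 2 := by gcongr
      _ = ‖v‖ ^ 2 := by rw [← add_mul, hab, one_mul]

/-- **Fubini along `v`** -/
theorem lintegral_slab {v : V} (hv : v ≠ 0) {F : V → ℝ≥0∞} (hF : Measurable F) :
    ∫⁻ x, F x = ∫⁻ x in Sl v, ∫⁻ s : ℝ, F (x + s • v) := by
  have hv2 : 0 < ‖v‖ ^ 2 := by positivity
  have mS := (isClosed_Sl v).measurableSet
  rw [← lintegral_indicator mS]
  have e1 : ∀ x, (Sl v).indicator (fun x => ∫⁻ s : ℝ, F (x + s • v)) x =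
      ∫⁻ s : ℝ, (Sl v).indicator 1 x * F (x + s • v) := by
    intro x
    by_cases hx : x ∈ Sl v
    · simp [hx]
    · simp [hx]
  simp_rw [e1]
  have mF : Measurable fun p : V × ℝ => (Sl v).indicator (1 : V → ℝ≥0∞) p.1 * F (p.1 + p.2 • v) :=
    ((measurable_one.indicator mS).comp measurable_fst).mul (hF.comp (by fun_prop))
  rw [lintegral_lintegral_swap mF.aemeasurable]
  have e2 : ∀ s : ℝ, ∫⁻ x : V, (Sl v).indicator (1 : V → ℝ≥0∞) x * F (x + s • v) =
      ∫⁻ x : V, (Sl v).indicator 1 (x - s • v) * F x := by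
    intro s
    have := lintegral_add_right_eq_self (μ := (volume : Measure V))
      (fun x => (Sl v).indicator (1 : V → ℝ≥0∞) (x - s • v) * F x) (s • v)
    rw [← this]
    simp
  simp_rw [e2]
  have mG : Measurable fun p : ℝ × V => (Sl v).indicator (1 : V → ℝ≥0∞) (p.2 - p.1 • v) * F p.2 :=
    ((measurable_one.indicator mS).comp (by fun_prop)).mul (hF.comp measurable_snd)
  rw [lintegral_lintegral_swap mG.aemeasurable]
  refine lintegral_congr fun x => ?_
  rw [lintegral_mul_const]
  · have e3 : (fun s : ℝ => (Sl v).indicator (1 : V → ℝ≥0∞) (x - s • v)) =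
        (Icc (⟪v, x⟫ / ‖v‖ ^ 2 - 1) (⟪v, x⟫ / ‖v‖ ^ 2)).indicator 1 := by
      funext s
      have hiff : x - s • v ∈ Sl v ↔ s ∈ Icc (⟪v, x⟫ / ‖v‖ ^ 2 - 1) (⟪v, x⟫ / ‖v‖ ^ 2) := by
        unfold Sl
        have h5 : ⟪v, x⟫ / ‖v‖ ^ 2 - 1 ≤ s ↔ ⟪v, x⟫ ≤ (s + 1) * ‖v‖ ^ 2 := by
          rw [sub_le_iff_le_add, div_le_iff₀ hv2]
        rw [mem_ofPred_eq, inner_sub_right, inner_smul_right, real_inner_self_eq_norm_sq, mem_Icc,
          h5, le_div_iff₀ hv2]
        constructor
        · rintro ⟨h1, h2⟩; constructor <;> linarith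
        · rintro ⟨h1, h2⟩; constructor <;> linarith
      by_cases h : x - s • v ∈ Sl v
      · rw [indicator_of_mem h, indicator_of_mem (hiff.1 h)]; rfl
      · rw [indicator_of_notMem h, indicator_of_notMem (fun h' => h (hiff.2 h'))]
    rw [e3, lintegral_indicator measurableSet_Icc]
    simp
  · exact (measurable_one.indicator mS).comp (by fun_prop)

/-- supremum of `h` over the rational points of the chord -/
noncomputable def supch (K : Set V) (v : V) (h : V → ℝ≥0∞) (x : V) : ℝ≥0∞ :=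
  ⨆ q : ℚ, K.indicator h (x + (q : ℝ) • v)

lemma measurable_supch {K : Set V} (hK : MeasurableSet K) (v : V) {h : V → ℝ≥0∞}
    (hh : Measurable h) : Measurable (supch K v h) :=
  Measurable.iSup fun _ => (hh.indicator hK).comp (by fun_prop)

/-- local continuity along `v` -/
def Lip1 (v : V) (h : V → ℝ≥0∞) : Prop :=
  ∀ x : V, ∃ C : ℝ, ∀ u : ℝ, |u| ≤ 1 → h x ≤ ENNReal.ofReal (Real.exp (C * |u|)) * h (x + u • v)

lemma le_supch {K : Set V} (cK : Convex ℝ K) {v : V} {h : V → ℝ≥0∞} (hh : Lip1 v h) {x : V}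
    {t : ℝ} (ht : 0 < t) (hx : chordGe K v t x) {s : ℝ} (hs : x + s • v ∈ K) :
    h (x + s • v) ≤ supch K v h x := by
  obtain ⟨C, hC⟩ := hh (x + s • v)
  obtain ⟨b, hb1, hb2⟩ := hx
  -- rational points near `s`
  have key : ∀ ε : ℝ, 0 < ε → ε ≤ 1 → ∃ q : ℚ, |(q : ℝ) - s| ≤ ε ∧ x + (q : ℝ) • v ∈ K := by
    intro ε hε _
    obtain ⟨r, hr, hrs⟩ : ∃ r : ℝ, r ≠ s ∧ x + r • v ∈ K := by
      by_cases h1 : b = s
      · exact ⟨b + t, by intro hcon; linarith, hb2⟩
      · exact ⟨b, h1, hb1⟩
    rcases lt_or_gt_of_ne hr with h1 | h1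
    · obtain ⟨q, hq1, hq2⟩ := exists_rat_btwn (show max r (s - ε) < s from max_lt h1 (by linarith))
      have h2 := (le_max_left _ _).trans_lt hq1
      have h3 := (le_max_right _ _).trans_lt hq1
      refine ⟨q, ?_, mem_chord cK hrs hs h2.le hq2.le⟩
      rw [abs_le]; constructor <;> linarith
    · obtain ⟨q, hq1, hq2⟩ := exists_rat_btwn (show s < min r (s + ε) from lt_min h1 (by linarith))
      have h2 := hq2.trans_le (min_le_left _ _)
      have h3 := hq2.trans_le (min_le_right _ _)
      refine ⟨q, ?_, mem_chord cK hs hrs hq1.le h2.le⟩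
      rw [abs_le]; constructor <;> linarith
  have hbd : ∀ ε : ℝ, 0 < ε → ε ≤ 1 →
      h (x + s • v) ≤ ENNReal.ofReal (Real.exp (|C| * ε)) * supch K v h x := by
    intro ε hε hε1
    obtain ⟨q, hq1, hq2⟩ := key ε hε hε1
    have h1 := hC (q - s) (hq1.trans hε1)
    have e1 : x + s • v + ((q : ℝ) - s) • v = x + (q : ℝ) • v := by module
    rw [e1] at h1
    have h2 : h (x + (q : ℝ) • v) ≤ supch K v h x := by
      have := le_iSup (fun q : ℚ => K.indicator h (x + (q : ℝ) • v)) q
      rwa [indicator_of_mem hq2] at this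
    refine h1.trans ?_
    gcongr
    exact le_abs_self C
  have hlim : Tendsto (fun ε : ℝ => ENNReal.ofReal (Real.exp (|C| * ε)) * supch K v h x)
      (𝓝[>] 0) (𝓝 (ENNReal.ofReal (Real.exp (|C| * 0)) * supch K v h x)) := by
    apply Tendsto.mono_left _ nhdsWithin_le_nhds
    refine ENNReal.Tendsto.mul_const ?_ (Or.inl ?_)
    · exact ENNReal.tendsto_ofReal (Continuous.tendsto (by fun_prop) 0)
    · simp
  rw [mul_zero, Real.exp_zero, ENNReal.ofReal_one, one_mul] at hlim
  refine ge_of_tendsto hlim ?_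
  filter_upwards [Ioc_mem_nhdsGT (show (0:ℝ) < 1 by norm_num)] with ε hε
  exact hbd ε hε.1 hε.2

/-- the chord as a set of reals -/
def chd (K : Set V) (v x : V) : Set ℝ := {s | x + s • v ∈ K}

lemma isClosed_chd {K : Set V} (hK : IsClosed K) (v x : V) : IsClosed (chd K v x) :=
  hK.preimage (by fun_prop : Continuous fun s : ℝ => x + s • v)

lemma convex_chd {K : Set V} (cK : Convex ℝ K) (v x : V) : Convex ℝ (chd K v x) := by
  intro s hs t ht a b ha hb hab
  have := cK hs ht ha hb hab
  simp only [chd, mem_ofPred_eq] at *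
  have e : x + (a • s + b • t) • v = a • (x + s • v) + b • (x + t • v) := by
    rw [smul_add, smul_add, add_add_add_comm, ← add_smul a b x, hab, one_smul, smul_smul, smul_smul,
      ← add_smul]
    rfl
  rwa [e]

/-- mass of a chord -/
lemma chord_le {K : Set V} (hK : IsClosed K) (cK : Convex ℝ K) {v : V} {h : V → ℝ≥0∞}
    (hh : Lip1 v h) (x : V) :
    ∫⁻ s : ℝ, K.indicator h (x + s • v) ≤ supch K v h x * volume (chd K v x) := by
  have mI := (isClosed_chd hK v x).measurableSet
  have e1 : ∀ s : ℝ, K.indicator h (x + s • v) =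
      (chd K v x).indicator (fun s => h (x + s • v)) s := by
    intro s
    by_cases hs : x + s • v ∈ K
    · rw [indicator_of_mem hs, indicator_of_mem (show s ∈ chd K v x from hs)]
    · rw [indicator_of_notMem hs, indicator_of_notMem (show s ∉ chd K v x from hs)]
  simp_rw [e1]
  rw [lintegral_indicator mI]
  by_cases h0 : ∃ t, 0 < t ∧ chordGe K v t x
  · obtain ⟨t, ht, hx⟩ := h0
    rw [← setLIntegral_const]
    exact setLIntegral_mono' mI fun s hs => le_supch cK hh ht hx hs
  · have hsub : (chd K v x).Subsingleton := by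
      intro a ha b hb
      by_contra hne
      rcases lt_or_gt_of_ne hne with h1 | h1
      · exact h0 ⟨b - a, by linarith, a, ha, by rw [add_sub_cancel]; exact hb⟩
      · exact h0 ⟨a - b, by linarith, b, hb, by rw [add_sub_cancel]; exact ha⟩
    have hz : volume (chd K v x) = 0 := hsub.measure_zero _
    rw [setLIntegral_measure_zero _ _ hz]
    exact zero_le

lemma chordGe_iff {K : Set V} {v x : V} {t : ℝ} :
    chordGe K v t x ↔ ∃ s, s ∈ chd K v x ∧ s + t ∈ chd K v x := Iff.rfl

/-- length of a chord which is shorter than `t` -/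
lemma volume_chd_le {K : Set V} (hK : IsClosed K) (cK : Convex ℝ K) {v x : V} {t : ℝ} (ht : 0 < t)
    (h : ¬ chordGe K v t x) : volume (chd K v x) ≤ ENNReal.ofReal t := by
  rcases (chd K v x).eq_empty_or_nonempty with h0 | h0
  · rw [h0, measure_empty]; exact zero_le
  obtain ⟨a, b, hab, hbt, hI⟩ := Rank1.exists_Icc (isClosed_chd hK v x) (convex_chd cK v x) h0 h ht
  rw [hI, Real.volume_Icc]
  exact ENNReal.ofReal_le_ofReal (by linarith)

/-- length of a chord as a sum -/
lemma volume_chd_le_tsum {K : Set V} (hK : IsClosed K) (cK : Convex ℝ K) {v x : V} {L : ℝ}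
    (hL : 0 < L) : volume (chd K v x) ≤
      ∑' j : ℕ, ENNReal.ofReal L * {y | chordGe K v (j * L) y}.indicator 1 x := by
  by_cases hall : ∀ j : ℕ, chordGe K v (j * L) x
  · have : ∀ j : ℕ, ENNReal.ofReal L * {y | chordGe K v (j * L) y}.indicator (1 : V → ℝ≥0∞) x =
        ENNReal.ofReal L := by
      intro j
      rw [indicator_of_mem (show x ∈ {y | chordGe K v (j * L) y} from hall j)]
      simp
    simp_rw [this]
    rw [ENNReal.tsum_const_eq_top_of_ne_zero]
    · exact le_top
    · rw [ne_eq, ENNReal.ofReal_eq_zero]; linarith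
  · push Not at hall
    obtain ⟨j, hj⟩ := hall
    rcases (chd K v x).eq_empty_or_nonempty with h0 | h0
    · rw [h0, measure_empty]; exact zero_le
    have hjpos : (0:ℝ) < (j:ℝ) * L := by
      rcases Nat.eq_zero_or_pos j with h1 | h1
      · subst h1
        exfalso
        apply hj
        obtain ⟨s, hs⟩ := h0
        exact ⟨s, hs, by simpa [chd] using hs⟩
      · positivity
    obtain ⟨a, b, hab, hbt, hI⟩ := Rank1.exists_Icc (isClosed_chd hK v x) (convex_chd cK v x) h0 hj
      hjpos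
    set n := ⌊(b - a) / L⌋₊ with hn
    have h1 : ∀ i ∈ Finset.range (n + 1), chordGe K v ((i:ℝ) * L) x := by
      intro i hi
      rw [Finset.mem_range] at hi
      have h2 : (i:ℝ) ≤ (b - a) / L := by
        have h3 : (n:ℝ) ≤ (b - a) / L := Nat.floor_le (by
          apply div_nonneg _ hL.le; linarith)
        have h4 : (i:ℝ) ≤ n := by exact_mod_cast Nat.lt_succ_iff.1 hi
        linarith
      rw [le_div_iff₀ hL] at h2
      rw [chordGe_iff, hI]
      exact ⟨a, ⟨le_rfl, hab⟩, ⟨by nlinarith [(Nat.cast_nonneg i : (0:ℝ) ≤ i)], by linarith⟩⟩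
    calc volume (chd K v x) = ENNReal.ofReal (b - a) := by rw [hI, Real.volume_Icc]
      _ ≤ ENNReal.ofReal ((n + 1 : ℕ) * L) := by
          apply ENNReal.ofReal_le_ofReal
          have := Nat.lt_floor_add_one ((b - a) / L)
          rw [div_lt_iff₀ hL] at this
          push_cast
          linarith
      _ = ∑ i ∈ Finset.range (n + 1), ENNReal.ofReal L *
            {y | chordGe K v ((i:ℝ) * L) y}.indicator (1 : V → ℝ≥0∞) x := by
          rw [Finset.sum_congr rfl (g := fun _ => ENNReal.ofReal L)]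
          · rw [Finset.sum_const, Finset.card_range, nsmul_eq_mul,
              ENNReal.ofReal_mul (by positivity), ENNReal.ofReal_natCast]
          · intro i hi
            rw [indicator_of_mem (show x ∈ {y | chordGe K v ((i:ℝ) * L) y} from h1 i hi)]
            simp
      _ ≤ _ := ENNReal.sum_le_tsum _

end Chain

end Crest.Agent.R239
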