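import Crest.Agent.R239.Leaf622b

/-!
# R239, the leaf (SL_W) of the chain, part c (helper622): weights along a line

* `A_logLip`, `A_le` : the letter operator on log-Lipschitz weights.
* `line_ge` : the mass of a line is at least `U/2` times the supremum of the end density.
* `med_ge` : a chord of length in `[2, 1000)` looses at least `1/12` of the supremum.
-/

set_option autoImplicit false
set_option linter.unusedSectionVars false
open MeasureTheory ProbabilityTheory Set Filter Topology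
open scoped RealInnerProductSpace ENNReal NNReal

namespace Crest.Agent.R239

namespace Chain

variable {V : Type*} [NormedAddCommGroup V] [InnerProductSpace ℝ V] [FiniteDimensional ℝ V]
  [MeasurableSpace V] [BorelSpace V]

section A

variable {κ : ℝ} {E : Submodule ℝ V} {v : V}

lemma disp_add (x : V) (s g : ℝ) : disp κ E v (x + s • v) g =
    disp κ E v x g - κ * ‖E.starProjection v‖ ^ 2 * s := by
  unfold disp
  rw [inner_add_right, inner_smul_right, inner_proj_self]
  ring

/-- `A` preserves log-Lipschitz weights -/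
lemma A_logLip (hκ : 0 ≤ κ) (h1 : κ * ‖E.starProjection v‖ ^ 2 ≤ 1) {ρ : ℝ} (hρ : 0 ≤ ρ)
    {W : V → ℝ≥0∞} (hW : LogLip ρ v W) : LogLip ρ v (A κ E v W) := by
  intro x s
  unfold A
  rw [← lintegral_const_mul' _ _ ENNReal.ofReal_ne_top]
  refine lintegral_mono fun g => ?_
  have h2 := hW (x + disp κ E v x g • v) (s * (1 - κ * ‖E.starProjection v‖ ^ 2))
  have e1 : x + disp κ E v x g • v + (s * (1 - κ * ‖E.starProjection v‖ ^ 2)) • v =
      x + s • v + disp κ E v (x + s • v) g • v := by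
    rw [disp_add]; module
  rw [e1] at h2
  refine h2.trans ?_
  have h3 : |1 - κ * ‖E.starProjection v‖ ^ 2| ≤ 1 := by
    rw [abs_le]
    constructor
    · linarith
    · have : 0 ≤ κ * ‖E.starProjection v‖ ^ 2 := by positivity
      linarith
  have h4 : ρ * |s * (1 - κ * ‖E.starProjection v‖ ^ 2)| ≤ ρ * |s| := by
    rw [abs_mul]
    calc ρ * (|s| * |1 - κ * ‖E.starProjection v‖ ^ 2|) ≤ ρ * (|s| * 1) := by gcongr
      _ = ρ * |s| := by rw [mul_one]
  exact mul_le_mul_left (ENNReal.ofReal_le_ofReal (Real.exp_le_exp.2 h4)) _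

lemma lintegral_exp_gauss (c : ℝ) :
    ∫⁻ g, ENNReal.ofReal (Real.exp (c * g)) ∂(gaussianReal 0 1) =
      ENNReal.ofReal (Real.exp (c ^ 2 / 2)) := by
  have h1 := integrable_exp_mul_gaussianReal (μ := 0) (v := 1) c
  rw [← ofReal_integral_eq_lintegral_ofReal h1 (Eventually.of_forall fun _ => (Real.exp_pos _).le)]
  congr 1
  have h2 := congrFun (mgf_id_gaussianReal (μ := 0) (v := 1)) c
  unfold mgf at h2
  simp only [id] at h2
  rw [h2]
  simp

lemma lintegral_exp_abs_gauss (c : ℝ) :
    ∫⁻ g, ENNReal.ofReal (Real.exp (c * |g|)) ∂(gaussianReal 0 1) ≤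
      ENNReal.ofReal (2 * Real.exp (c ^ 2 / 2)) := by
  calc ∫⁻ g, ENNReal.ofReal (Real.exp (c * |g|)) ∂(gaussianReal 0 1)
      ≤ ∫⁻ g, (ENNReal.ofReal (Real.exp (c * g)) + ENNReal.ofReal (Real.exp ((-c) * g)))
          ∂(gaussianReal 0 1) := by
        refine lintegral_mono fun g => ?_
        rcases le_total 0 g with h | h
        · rw [abs_of_nonneg h]; exact le_self_add
        · rw [abs_of_nonpos h, mul_neg, ← neg_mul]; exact le_add_self
    _ = _ := by
        rw [lintegral_add_left (by fun_prop), lintegral_exp_gauss, lintegral_exp_gauss, neg_sq,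
          ← ENNReal.ofReal_add (by positivity) (by positivity)]
        congr 1
        ring

/-- `A W` is at most a constant times `W`, up to the drift -/
lemma A_le (hκ : 0 ≤ κ) {ρ : ℝ} (hρ : 0 ≤ ρ) {W : V → ℝ≥0∞} (hW : LogLip ρ v W) (y : V) :
    A κ E v W y ≤ ENNReal.ofReal (Real.exp (ρ * κ * |⟪E.starProjection v, y⟫|) *
      (2 * Real.exp ((ρ * tau κ E v) ^ 2 / 2))) * W y := by
  have ht : 0 ≤ tau κ E v := Real.sqrt_nonneg _
  have hpt : ∀ g : ℝ, W (y + disp κ E v y g • v) ≤
      (ENNReal.ofReal (Real.exp (ρ * κ * |⟪E.starProjection v, y⟫|)) *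
        ENNReal.ofReal (Real.exp (ρ * tau κ E v * |g|))) * W y := by
    intro g
    refine (hW y _).trans ?_
    rw [← ENNReal.ofReal_mul (Real.exp_pos _).le, ← Real.exp_add]
    gcongr
    unfold disp
    have h1 : |-(κ * ⟪E.starProjection v, y⟫) + tau κ E v * g| ≤
        κ * |⟪E.starProjection v, y⟫| + tau κ E v * |g| := by
      refine (abs_add_le _ _).trans (le_of_eq ?_)
      rw [abs_neg, abs_mul, abs_mul, abs_of_nonneg hκ, abs_of_nonneg ht]
    calc ρ * |-(κ * ⟪E.starProjection v, y⟫) + tau κ E v * g| ≤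
        ρ * (κ * |⟪E.starProjection v, y⟫| + tau κ E v * |g|) := by gcongr
      _ = _ := by ring
  unfold A
  calc ∫⁻ g, W (y + disp κ E v y g • v) ∂(gaussianReal 0 1)
      ≤ ∫⁻ g, (ENNReal.ofReal (Real.exp (ρ * κ * |⟪E.starProjection v, y⟫|)) *
        ENNReal.ofReal (Real.exp (ρ * tau κ E v * |g|))) * W y ∂(gaussianReal 0 1) :=
        lintegral_mono hpt
    _ = ENNReal.ofReal (Real.exp (ρ * κ * |⟪E.starProjection v, y⟫|)) *
        (∫⁻ g, ENNReal.ofReal (Real.exp (ρ * tau κ E v * |g|)) ∂(gaussianReal 0 1)) * W y := by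
        rw [lintegral_mul_const _ (by fun_prop), lintegral_const_mul _ (by fun_prop)]
    _ ≤ ENNReal.ofReal (Real.exp (ρ * κ * |⟪E.starProjection v, y⟫|)) *
        ENNReal.ofReal (2 * Real.exp ((ρ * tau κ E v) ^ 2 / 2)) * W y := by
        gcongr
        exact lintegral_exp_abs_gauss _
    _ = _ := by rw [← ENNReal.ofReal_mul (Real.exp_pos _).le]

lemma tau_neg (κ : ℝ) (E : Submodule ℝ V) (v : V) : tau κ E (-v) = tau κ E v := by
  unfold tau; rw [map_neg, norm_neg]

lemma A_neg (κ : ℝ) (E : Submodule ℝ V) (v : V) {f : V → ℝ≥0∞} (hf : Measurable f) :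
    A κ E (-v) f = A κ E v f := by
  funext x
  unfold A
  have h1 : ∀ g, x + disp κ E (-v) x g • (-v) = x + disp κ E v x (-g) • v := by
    intro g
    unfold disp
    rw [tau_neg, map_neg, inner_neg_left]
    module
  simp_rw [h1]
  have h2 : (gaussianReal 0 1).map (fun x : ℝ => -x) = gaussianReal 0 1 := by
    rw [gaussianReal_map_neg, neg_zero]
  have hm : Measurable fun g : ℝ => f (x + disp κ E v x g • v) :=
    hf.comp ((measurable_disp κ E v).comp measurable_prodMk_left)
  conv_rhs => rw [← h2]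
  rw [lintegral_map hm measurable_neg]

lemma gauss_Ici : ENNReal.ofReal (1 / 2) ≤ gaussianReal 0 1 (Ici 0) := by
  have h2 : (gaussianReal 0 1).map (fun x : ℝ => -x) = gaussianReal 0 1 := by
    rw [gaussianReal_map_neg, neg_zero]
  have h3 : gaussianReal 0 1 (Iic 0) = gaussianReal 0 1 (Ici 0) := by
    conv_lhs => rw [← h2]
    rw [Measure.map_apply measurable_neg measurableSet_Iic]
    congr 1
    ext x
    simp
  have h4 : (1 : ℝ≥0∞) ≤ gaussianReal 0 1 (Ici 0) + gaussianReal 0 1 (Ici 0) := by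
    calc (1 : ℝ≥0∞) = gaussianReal 0 1 univ := by rw [measure_univ]
      _ ≤ gaussianReal 0 1 (Iic 0 ∪ Ici 0) := measure_mono (by rw [Iic_union_Ici])
      _ ≤ _ := (measure_union_le _ _).trans (by rw [h3])
  rw [← two_mul] at h4
  have h5 : ENNReal.ofReal (1 / 2) * 1 ≤ ENNReal.ofReal (1 / 2) * (2 * gaussianReal 0 1 (Ici 0)) := by
    gcongr
  rw [mul_one, ← mul_assoc] at h5
  have h6 : ENNReal.ofReal (1 / 2) * 2 = 1 := by
    rw [show (2 : ℝ≥0∞) = ENNReal.ofReal 2 by norm_num, ← ENNReal.ofReal_mul (by norm_num)]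
    norm_num
  rwa [h6, one_mul] at h5

lemma exp_le_of_le_half {x : ℝ} (hx : x ≤ 1 / 2) : Real.exp x ≤ 2 := by
  have h1 := Real.add_one_le_exp (-x)
  rw [Real.exp_neg] at h1
  have h2 := Real.exp_pos x
  have h3 : (1 / 2 : ℝ) ≤ (Real.exp x)⁻¹ := by linarith
  rw [le_inv_comm₀ (by norm_num) h2] at h3
  linarith

lemma exp_le_of_le_quarter {x : ℝ} (hx : x ≤ 1 / 4) : Real.exp x ≤ 3 / 2 := by
  have h1 := Real.add_one_le_exp (-x)
  rw [Real.exp_neg] at h1
  have h2 := Real.exp_pos x
  have h3 : (3 / 4 : ℝ) ≤ (Real.exp x)⁻¹ := by linarith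
  rw [le_inv_comm₀ (by norm_num) h2] at h3
  linarith

end A

section weights

variable {κ : ℝ} {E : Submodule ℝ V} {v : V}

/-- density at the end -/
noncomputable def fp (κ : ℝ) (E : Submodule ℝ V) (v : V) (W : V → ℝ≥0∞) (x : V) : ℝ≥0∞ :=
  dE E x * A κ E v W x

/-- density at the start -/
noncomputable def f0 (E : Submodule ℝ V) (W : V → ℝ≥0∞) (x : V) : ℝ≥0∞ := dE E x * W x

lemma measurable_fp {W : V → ℝ≥0∞} (hW : Measurable W) : Measurable (fp κ E v W) :=
  (measurable_dE E).mul (measurable_A hW)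

lemma measurable_f0 {W : V → ℝ≥0∞} (hW : Measurable W) : Measurable (f0 E W) :=
  (measurable_dE E).mul hW

lemma mass_eq_fp {W : V → ℝ≥0∞} (hW : Measurable W) {K : Set V} (hK : MeasurableSet K) :
    mass E (A κ E v W) K = ∫⁻ x, K.indicator (fp κ E v W) x := by
  rw [mass_eq hK, lintegral_mE (f := fun x => A κ E v W x * K.indicator 1 x)
    ((measurable_A hW).mul (measurable_one.indicator hK))]
  refine lintegral_congr fun x => ?_
  by_cases hx : x ∈ K
  · simp [hx, fp]
  · simp [hx]

/-- comparison of the reference density along a line -/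
lemma dE_le (E : Submodule ℝ V) (v y : V) (t : ℝ) :
    dE E y = ENNReal.ofReal (Real.exp (t * ⟪E.starProjection v, y⟫ +
      t ^ 2 * ‖E.starProjection v‖ ^ 2 / 2)) * dE E (y + t • v) := by
  rw [dE_add, ← mul_assoc, ← ENNReal.ofReal_mul (Real.exp_pos _).le, ← Real.exp_add]
  have : t * ⟪E.starProjection v, y⟫ + t ^ 2 * ‖E.starProjection v‖ ^ 2 / 2 +
      (-(t * ⟪E.starProjection v, y⟫) - t ^ 2 * ‖E.starProjection v‖ ^ 2 / 2) = 0 := by ring
  rw [this]
  simp

lemma LogLip.le {ρ : ℝ} {W : V → ℝ≥0∞} (hW : LogLip ρ v W) (y : V) (t : ℝ) :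
    W y ≤ ENNReal.ofReal (Real.exp (ρ * |t|)) * W (y + t • v) := by
  have := hW (y + t • v) (-t)
  rwa [abs_neg, show y + t • v + (-t) • v = y by module] at this

lemma fp_le (hκ : 0 ≤ κ) (h1 : κ * ‖E.starProjection v‖ ^ 2 ≤ 1) {ρ : ℝ} (hρ : 0 ≤ ρ)
    {W : V → ℝ≥0∞} (hW : LogLip ρ v W) (y : V) (t : ℝ) :
    fp κ E v W y ≤ ENNReal.ofReal (Real.exp (t * ⟪E.starProjection v, y⟫ +
      t ^ 2 * ‖E.starProjection v‖ ^ 2 / 2 + ρ * |t|)) * fp κ E v W (y + t • v) := by
  unfold fp
  calc dE E y * A κ E v W y ≤ (ENNReal.ofReal (Real.exp (t * ⟪E.starProjection v, y⟫ +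
      t ^ 2 * ‖E.starProjection v‖ ^ 2 / 2)) * dE E (y + t • v)) *
        (ENNReal.ofReal (Real.exp (ρ * |t|)) * A κ E v W (y + t • v)) := by
        rw [← dE_le]
        gcongr
        exact (A_logLip hκ h1 hρ hW).le y t
    _ = _ := by
        rw [Real.exp_add _ (ρ * |t|), ENNReal.ofReal_mul (Real.exp_pos _).le]
        ring

lemma lip1_fp (hκ : 0 ≤ κ) (h1 : κ * ‖E.starProjection v‖ ^ 2 ≤ 1) {ρ : ℝ} (hρ : 0 ≤ ρ)
    {W : V → ℝ≥0∞} (hW : LogLip ρ v W) : Lip1 v (fp κ E v W) := by
  intro x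
  refine ⟨|⟪E.starProjection v, x⟫| + ‖E.starProjection v‖ ^ 2 / 2 + ρ, fun u hu => ?_⟩
  refine (fp_le hκ h1 hρ hW x u).trans ?_
  gcongr
  have h2 : u * ⟪E.starProjection v, x⟫ ≤ |⟪E.starProjection v, x⟫| * |u| := by
    rw [mul_comm, ← abs_mul]; exact le_abs_self _
  have h3 : u ^ 2 ≤ |u| := by
    rw [← sq_abs]; nlinarith [abs_nonneg u]
  have h4 : 0 ≤ ‖E.starProjection v‖ ^ 2 / 2 := by positivity
  nlinarith

/-- translation of a line integral -/
lemma line_shift {F : V → ℝ≥0∞} (x : V) (q : ℝ) (v : V) :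
    ∫⁻ s : ℝ, F (x + q • v + s • v) = ∫⁻ s : ℝ, F (x + s • v) := by
  have := lintegral_add_right_eq_self (μ := (volume : Measure ℝ)) (fun s => F (x + s • v)) q
  rw [← this]
  refine lintegral_congr fun s => ?_
  congr 1
  module

lemma line_neg {F : V → ℝ≥0∞} (hF : Measurable F) (x v : V) :
    ∫⁻ s : ℝ, F (x + s • (-v)) = ∫⁻ s : ℝ, F (x + s • v) := by
  have := (Measure.measurePreserving_neg (volume : Measure ℝ)).lintegral_comp
    (f := fun s : ℝ => F (x + s • v)) (hF.comp (by fun_prop))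
  rw [← this]
  refine lintegral_congr fun s => ?_
  congr 1
  module

/-- **lower bound for the mass of a line** -/
lemma line_ge (hκ : 0 ≤ κ) (h1 : κ * ‖E.starProjection v‖ ^ 2 ≤ 1) {ρ : ℝ} (hρ : 0 ≤ ρ)
    {W : V → ℝ≥0∞} (hW : LogLip ρ v W) {U : ℝ} (_hU : 0 ≤ U)
    (hU1 : U ^ 2 * ‖E.starProjection v‖ ^ 2 / 2 + ρ * U ≤ 1 / 2) (K : Set V) (x : V) :
    ENNReal.ofReal (U / 2) * supch K v (fp κ E v W) x ≤ ∫⁻ s : ℝ, fp κ E v W (x + s • v) := by
  unfold supch
  rw [ENNReal.mul_iSup]
  refine iSup_le fun q => ?_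
  rw [← line_shift x q v]
  set y := x + (q : ℝ) • v with hy
  have hind : K.indicator (fp κ E v W) y ≤ fp κ E v W y :=
    indicator_le_self' (fun _ _ => zero_le) y
  have main : ∀ J : Set ℝ, MeasurableSet J → volume J = ENNReal.ofReal U →
      (∀ s ∈ J, s * ⟪E.starProjection v, y⟫ ≤ 0 ∧ |s| ≤ U) →
      ENNReal.ofReal (U / 2) * fp κ E v W y ≤ ∫⁻ s : ℝ, fp κ E v W (y + s • v) := by
    intro J mJ hJ hJ2
    calc ENNReal.ofReal (U / 2) * fp κ E v W y
        = (ENNReal.ofReal (1 / 2) * fp κ E v W y) * volume J := by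
          rw [hJ, show U / 2 = 1 / 2 * U by ring, ENNReal.ofReal_mul (by norm_num)]
          ring
      _ = ∫⁻ _ in J, ENNReal.ofReal (1 / 2) * fp κ E v W y := by rw [setLIntegral_const]
      _ ≤ ∫⁻ s in J, fp κ E v W (y + s • v) := by
          refine setLIntegral_mono' mJ fun s hs => ?_
          obtain ⟨h2, h3⟩ := hJ2 s hs
          calc ENNReal.ofReal (1 / 2) * fp κ E v W y ≤ ENNReal.ofReal (1 / 2) *
              (ENNReal.ofReal 2 * fp κ E v W (y + s • v)) := by
                gcongr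
                refine (fp_le hκ h1 hρ hW y s).trans ?_
                gcongr
                apply exp_le_of_le_half
                have h4 : s ^ 2 ≤ U ^ 2 := by rw [← sq_abs]; gcongr
                have h5 : s ^ 2 * ‖E.starProjection v‖ ^ 2 ≤ U ^ 2 * ‖E.starProjection v‖ ^ 2 := by
                  gcongr
                have h6 : ρ * |s| ≤ ρ * U := by gcongr
                linarith
            _ = _ := by
                rw [← mul_assoc, ← ENNReal.ofReal_mul (by norm_num)]
                norm_num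
      _ ≤ _ := setLIntegral_le_lintegral _ _
  refine (by gcongr : _ ≤ ENNReal.ofReal (U / 2) * fp κ E v W y).trans ?_
  rcases le_total ⟪E.starProjection v, y⟫ 0 with h | h
  · refine main (Icc 0 U) measurableSet_Icc (by rw [Real.volume_Icc, sub_zero]) fun s hs => ⟨?_, ?_⟩
    · exact mul_nonpos_of_nonneg_of_nonpos hs.1 h
    · rw [abs_of_nonneg hs.1]; exact hs.2
  · refine main (Icc (-U) 0) measurableSet_Icc (by rw [Real.volume_Icc]; congr 1; ring)
      fun s hs => ⟨?_, ?_⟩
    · exact mul_nonpos_of_nonpos_of_nonneg hs.2 h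
    · rw [abs_of_nonpos hs.2]; linarith [hs.1]

/-- leaving density -/
noncomputable def outd (κ : ℝ) (E : Submodule ℝ V) (v : V) (W : V → ℝ≥0∞) (K : Set V) : V → ℝ≥0∞ :=
  (star K v).indicator fun y => f0 E W y * A κ E v (Kᶜ.indicator 1) y

lemma measurable_outd {W : V → ℝ≥0∞} (hW : Measurable W) {K : Set V} (hK : IsClosed K) :
    Measurable (outd κ E v W K) :=
  ((measurable_f0 hW).mul (measurable_A (measurable_one.indicator hK.measurableSet.compl))).indicator
    (isClosed_star hK v).measurableSet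

lemma outd_neg {W : V → ℝ≥0∞} {K : Set V} (hK : IsClosed K) :
    outd κ E (-v) W K = outd κ E v W K := by
  unfold outd
  rw [star_neg, A_neg κ E v (measurable_one.indicator hK.measurableSet.compl)]

lemma fp_neg {W : V → ℝ≥0∞} (hW : Measurable W) : fp κ E (-v) W = fp κ E v W := by
  unfold fp
  rw [A_neg κ E v hW]

lemma LogLip.neg {ρ : ℝ} {W : V → ℝ≥0∞} (hW : LogLip ρ v W) : LogLip ρ (-v) W := by
  intro x s
  have := hW x (-s)
  rwa [abs_neg, neg_smul, ← smul_neg] at this

/-- one side -/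
lemma med_core (hκ : 0 ≤ κ) (hκ1 : κ ≤ 1 / 16) (hv : ‖v‖ ≤ 1 / 16000) {ρ : ℝ} (hρ : 0 ≤ ρ)
    (hρ1 : ρ ≤ 1 / 32000) {W : V → ℝ≥0∞} (hW : LogLip ρ v W) {K : Set V} (hK : IsClosed K)
    (cK : Convex ℝ K) {y : V} (hy : y ∈ K) (h2 : chordGe K v 2 y) (h3 : ¬ chordGe K v 1000 y)
    (hq : ⟪E.starProjection v, y⟫ ≤ 0) :
    ENNReal.ofReal (1 / 12) * fp κ E v W y ≤ ∫⁻ s : ℝ, outd κ E v W K (y + s • v) := by
  have hPv : ‖E.starProjection v‖ ≤ 1 / 16000 := (E.norm_starProjection_apply_le v).trans hv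
  have hPv0 : 0 ≤ ‖E.starProjection v‖ := norm_nonneg _
  have ha : ‖E.starProjection v‖ ^ 2 ≤ (1 / 16000) ^ 2 := by gcongr
  have ha0 : 0 ≤ ‖E.starProjection v‖ ^ 2 := by positivity
  set a := ‖E.starProjection v‖ ^ 2 with hadef
  have hOK : OK κ E v := by
    unfold OK; rw [← hadef]; nlinarith
  have hch0 : (0:ℝ) ∈ chd K v y := by simpa [chd] using hy
  obtain ⟨p, b, hpb, hb1, hI⟩ := Rank1.exists_Icc (isClosed_chd hK v y) (convex_chd cK v y)
    ⟨0, hch0⟩ h3 (by norm_num)
  rw [hI] at hch0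
  have hb0 : 0 ≤ b := hch0.2
  have hb2 : b < 1000 := by linarith [hch0.1]
  have hbK : y + b • v ∈ K := by
    have : b ∈ chd K v y := by rw [hI]; exact ⟨hpb, le_rfl⟩
    exact this
  have hgtb : ∀ s, b < s → y + s • v ∉ K := by
    intro s hs hcon
    have : s ∈ chd K v y := hcon
    rw [hI] at this
    exact absurd this.2 (not_le.2 hs)
  have hpt : ∀ t ∈ Icc (b + 1 / 2) (b + 1),
      ENNReal.ofReal (1 / 6) * fp κ E v W y ≤ outd κ E v W K (y + t • v) := by
    intro t ht
    have ht0 : 1 / 2 ≤ t := by linarith [ht.1]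
    have ht1 : t ≤ 1001 := by linarith [ht.2]
    have hstar : y + t • v ∈ star K v := by
      have := Cross.mem_star_of_chord cK one_pos (e := v) (h := 1) (x := y + t • v)
        (by rw [mul_one]; exact (chordGe_add K v 2 y t).2 h2) ⟨b - t, by
          rw [abs_le]; constructor <;> linarith [ht.1, ht.2], by
          have e : y + t • v + (b - t) • v = y + b • v := by module
          rwa [e]⟩
      rwa [one_smul] at this
    unfold outd
    rw [indicator_of_mem hstar]
    have hA : ENNReal.ofReal (1 / 2) ≤ A κ E v (Kᶜ.indicator 1) (y + t • v) := by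
      refine gauss_Ici.trans ?_
      unfold A
      rw [← lintegral_indicator_one measurableSet_Ici]
      refine lintegral_mono fun g => ?_
      by_cases hg : g ∈ Ici (0:ℝ)
      · rw [indicator_of_mem hg, indicator_of_mem]
        · rfl
        · have e : y + t • v + disp κ E v (y + t • v) g • v =
              y + (t + disp κ E v (y + t • v) g) • v := by module
          rw [e]
          apply hgtb
          rw [disp_add]
          unfold disp
          have h5 : 0 ≤ tau κ E v * g := mul_nonneg (Real.sqrt_nonneg _) hg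
          have h6 : κ * ⟪E.starProjection v, y⟫ ≤ 0 := mul_nonpos_of_nonneg_of_nonpos hκ hq
          have h7 : κ * a * t ≤ 1 / 16 * (1 / 16000) ^ 2 * 1001 := by gcongr
          rw [← hadef]
          norm_num at h7
          linarith [ht.1]
      · rw [indicator_of_notMem hg]; exact zero_le
    have hf : fp κ E v W y ≤ ENNReal.ofReal 3 * f0 E W (y + t • v) := by
      unfold fp f0
      calc dE E y * A κ E v W y ≤ dE E y * (ENNReal.ofReal (Real.exp (ρ * κ *
            |⟪E.starProjection v, y⟫|) * (2 * Real.exp ((ρ * tau κ E v) ^ 2 / 2))) * W y) := by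
            gcongr
            exact A_le hκ hρ hW y
        _ ≤ (ENNReal.ofReal (Real.exp (t * ⟪E.starProjection v, y⟫ + t ^ 2 * a / 2)) *
              dE E (y + t • v)) * (ENNReal.ofReal (Real.exp (ρ * κ *
            |⟪E.starProjection v, y⟫|) * (2 * Real.exp ((ρ * tau κ E v) ^ 2 / 2))) *
              (ENNReal.ofReal (Real.exp (ρ * |t|)) * W (y + t • v))) := by
            rw [hadef, ← dE_le]
            gcongr
            exact hW.le y t
        _ = ENNReal.ofReal (Real.exp (t * ⟪E.starProjection v, y⟫ + t ^ 2 * a / 2) *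
            ((Real.exp (ρ * κ * |⟪E.starProjection v, y⟫|) *
              (2 * Real.exp ((ρ * tau κ E v) ^ 2 / 2))) * Real.exp (ρ * |t|))) *
              (dE E (y + t • v) * W (y + t • v)) := by
            have e : ∀ X Y Z : ℝ, 0 ≤ X → 0 ≤ Y → ENNReal.ofReal (X * (Y * Z)) =
                ENNReal.ofReal X * (ENNReal.ofReal Y * ENNReal.ofReal Z) := by
              intro X Y Z hX hY
              rw [ENNReal.ofReal_mul hX, ENNReal.ofReal_mul hY]
            rw [e (Real.exp (t * ⟪E.starProjection v, y⟫ + t ^ 2 * a / 2))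
              (Real.exp (ρ * κ * |⟪E.starProjection v, y⟫|) *
              (2 * Real.exp ((ρ * tau κ E v) ^ 2 / 2))) (Real.exp (ρ * |t|))
              (Real.exp_pos _).le (by positivity)]
            ring
        _ ≤ _ := by
            gcongr
            have e1 : Real.exp (t * ⟪E.starProjection v, y⟫ + t ^ 2 * a / 2) *
              ((Real.exp (ρ * κ * |⟪E.starProjection v, y⟫|) *
              (2 * Real.exp ((ρ * tau κ E v) ^ 2 / 2))) * Real.exp (ρ * |t|)) =
              2 * Real.exp (t * ⟪E.starProjection v, y⟫ + t ^ 2 * a / 2 +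
                ρ * κ * |⟪E.starProjection v, y⟫| + (ρ * tau κ E v) ^ 2 / 2 + ρ * |t|) := by
              rw [Real.exp_add _ (ρ * |t|), Real.exp_add _ ((ρ * tau κ E v) ^ 2 / 2),
                Real.exp_add _ (ρ * κ * |⟪E.starProjection v, y⟫|)]
              ring
            rw [e1]
            have h8 : Real.exp (t * ⟪E.starProjection v, y⟫ + t ^ 2 * a / 2 +
                ρ * κ * |⟪E.starProjection v, y⟫| + (ρ * tau κ E v) ^ 2 / 2 + ρ * |t|) ≤ 3 / 2 := by
              apply exp_le_of_le_quarter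
              rw [abs_of_nonpos hq, abs_of_nonneg (by linarith : (0:ℝ) ≤ t)]
              have h9 : t ^ 2 * a ≤ 1001 ^ 2 * (1 / 16000) ^ 2 := by gcongr
              have h10 : ρ * t ≤ 1 / 32000 * 1001 := by gcongr
              have h11 : ρ * κ ≤ 1 / 2 := by nlinarith
              have h12 : t * ⟪E.starProjection v, y⟫ ≤ 1 / 2 * ⟪E.starProjection v, y⟫ :=
                mul_le_mul_of_nonpos_right ht0 hq
              have h13 : ρ * κ * (-⟪E.starProjection v, y⟫) ≤
                  1 / 2 * (-⟪E.starProjection v, y⟫) := by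
                apply mul_le_mul_of_nonneg_right h11 (by linarith)
              have h14 : (ρ * tau κ E v) ^ 2 ≤ (1 / 32000) ^ 2 * (1 / 8) := by
                rw [mul_pow, tau_sq hκ hOK]
                have h15 : κ * (2 - κ * ‖E.starProjection v‖ ^ 2) ≤ 1 / 8 := by
                  rw [← hadef]
                  nlinarith [mul_nonneg hκ ha0]
                have h16 : 0 ≤ κ * (2 - κ * ‖E.starProjection v‖ ^ 2) := by
                  unfold OK at hOK
                  exact mul_nonneg hκ (by linarith)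
                gcongr
              norm_num at h9 h10 h14
              linarith
            linarith
    calc ENNReal.ofReal (1 / 6) * fp κ E v W y
        ≤ ENNReal.ofReal (1 / 6) * (ENNReal.ofReal 3 * f0 E W (y + t • v)) := by gcongr
      _ = f0 E W (y + t • v) * ENNReal.ofReal (1 / 2) := by
          rw [← mul_assoc, ← ENNReal.ofReal_mul (by norm_num), mul_comm]
          norm_num
      _ ≤ _ := by gcongr
  calc ENNReal.ofReal (1 / 12) * fp κ E v W y
      = (ENNReal.ofReal (1 / 6) * fp κ E v W y) * volume (Icc (b + 1 / 2) (b + 1)) := by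
        rw [Real.volume_Icc, show b + 1 - (b + 1 / 2) = 1 / 2 by ring,
          show (1:ℝ) / 12 = 1 / 6 * (1 / 2) by norm_num, ENNReal.ofReal_mul (by norm_num)]
        ring
    _ = ∫⁻ _ in Icc (b + 1 / 2) (b + 1), ENNReal.ofReal (1 / 6) * fp κ E v W y := by
        rw [setLIntegral_const]
    _ ≤ ∫⁻ s in Icc (b + 1 / 2) (b + 1), outd κ E v W K (y + s • v) :=
        setLIntegral_mono' measurableSet_Icc hpt
    _ ≤ _ := setLIntegral_le_lintegral _ _

/-- **medium chords** -/
lemma med_ge (hκ : 0 ≤ κ) (hκ1 : κ ≤ 1 / 16) (hv : ‖v‖ ≤ 1 / 16000) {ρ : ℝ} (hρ : 0 ≤ ρ)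
    (hρ1 : ρ ≤ 1 / 32000) {W : V → ℝ≥0∞} (hWm : Measurable W) (hW : LogLip ρ v W) {K : Set V}
    (hK : IsClosed K) (cK : Convex ℝ K) {x : V} (h2 : chordGe K v 2 x)
    (h3 : ¬ chordGe K v 1000 x) :
    ENNReal.ofReal (1 / 12) * supch K v (fp κ E v W) x ≤
      ∫⁻ s : ℝ, outd κ E v W K (x + s • v) := by
  unfold supch
  rw [ENNReal.mul_iSup]
  refine iSup_le fun q => ?_
  rw [← line_shift x q v]
  set y := x + (q : ℝ) • v with hy
  by_cases hyK : y ∈ K
  swap
  · rw [indicator_of_notMem hyK, mul_zero]; exact zero_le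
  rw [indicator_of_mem hyK]
  have h2' : chordGe K v 2 y := (chordGe_add K v 2 x q).2 h2
  have h3' : ¬ chordGe K v 1000 y := fun h => h3 ((chordGe_add K v 1000 x q).1 h)
  rcases le_total ⟪E.starProjection v, y⟫ 0 with h | h
  · exact med_core hκ hκ1 hv hρ hρ1 hW hK cK hyK h2' h3' h
  · have hneg : ∀ l : ℝ, chordGe K (-v) l y ↔ chordGe K v l y := by
      intro l
      constructor
      · rintro ⟨t, g1, g2⟩
        refine ⟨-(t + l), ?_, ?_⟩
        · have e : y + (-(t + l)) • v = y + (t + l) • (-v) := by module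
          rwa [e]
        · have e : y + (-(t + l) + l) • v = y + t • (-v) := by module
          rwa [e]
      · rintro ⟨t, g1, g2⟩
        refine ⟨-(t + l), ?_, ?_⟩
        · have e : y + (-(t + l)) • (-v) = y + (t + l) • v := by module
          rwa [e]
        · have e : y + (-(t + l) + l) • (-v) = y + t • v := by module
          rwa [e]
    have := med_core (E := E) hκ hκ1 (v := -v) (by rwa [norm_neg]) hρ hρ1 hW.neg hK cK hyK
      ((hneg 2).2 h2') (fun h' => h3' ((hneg 1000).1 h')) (by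
        rw [map_neg, inner_neg_left]; linarith)
    rw [fp_neg hWm, outd_neg hK, line_neg (measurable_outd hWm hK)] at this
    exact this

end weights

end Chain

end Crest.Agent.R239
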