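import Crest.Agent.R239.Cross201d
import Crest.Agent.R239.Gau7

/-!
# R239 (helper622): the rank one inequality and the one step inequality at levels `≥ τ`, `0 < τ ≤ 1/2`
-/

set_option autoImplicit false
set_option linter.unusedSectionVars false
open MeasureTheory ProbabilityTheory Set Filter Topology Metric
open scoped RealInnerProductSpace ENNReal NNReal InnerProduct Pointwise

namespace Crest.Agent.R239

namespace Rank1

section fibLow

variable {m : ℕ} {Y : Set (ℝ × (Fin m → ℝ))}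

/-- Prekopa: `t ↦ nu (Pr t)` is log-concave between `0` and `h` -/
lemma nu_logconcave_gen (hcl : IsClosed Y) (hc : Convex ℝ Y) {t h : ℝ} (ht0 : 0 < t)
    (hth : t < h) :
    nu Y (Pr Y 0) ^ (1 - t / h) * nu Y (Pr Y h) ^ (t / h) ≤ nu Y (Pr Y t) := by
  have hm := measurable_rho hcl
  have hh0 : 0 < h := ht0.trans hth
  have h1 : 0 < t / h := div_pos ht0 hh0
  have h2 : t / h < 1 := (div_lt_one hh0).2 hth
  have key := PL_gp m (t / h) h1 h2 ((Pr Y 0).indicator (rho Y))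
    ((Pr Y h).indicator (rho Y)) ((Pr Y t).indicator (rho Y))
    (hm.indicator (measurableSet_Pr hcl _)) (hm.indicator (measurableSet_Pr hcl _))
    (hm.indicator (measurableSet_Pr hcl _)) ?_
  · rw [lintegral_indicator (measurableSet_Pr hcl _), lintegral_indicator (measurableSet_Pr hcl _),
      lintegral_indicator (measurableSet_Pr hcl _)] at key
    exact key
  · intro x y
    by_cases hx : x ∈ Pr Y 0
    swap
    · rw [indicator_of_notMem hx, ENNReal.zero_rpow_of_pos (by linarith), zero_mul]; exact bot_le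
    by_cases hy : y ∈ Pr Y h
    swap
    · rw [indicator_of_notMem hy, ENNReal.zero_rpow_of_pos h1, mul_zero]; exact bot_le
    have hxy := Pr_convex hc (by linarith : (0:ℝ) ≤ 1 - t / h) h1.le (by ring) hx hy
    have ht : (1 - t / h) * 0 + t / h * h = t := by field_simp; ring
    rw [ht] at hxy
    rw [indicator_of_mem hx, indicator_of_mem hy, indicator_of_mem hxy]
    exact rho_logconcave hcl hc h1 h2 x y

lemma measure_le_gen (hcl : IsClosed Y) (hc : Convex ℝ Y) {h : ℝ} (hh : 0 < h) :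
    (g1.prod (gp m)) Y ≤
      nu Y (Pr Y h) + ENNReal.ofReal (c0 * h) * nu Y (Pr Y 0 \ Pr Y h) := by
  rw [Measure.prod_apply_symm hcl.measurableSet]
  unfold nu
  rw [← lintegral_const_mul' _ _ ENNReal.ofReal_ne_top,
    ← lintegral_indicator (measurableSet_Pr hcl _),
    ← lintegral_indicator ((measurableSet_Pr hcl _).diff (measurableSet_Pr hcl _)),
    ← lintegral_add_left ((measurable_rho hcl).indicator (measurableSet_Pr hcl _))]
  refine lintegral_mono fun z => ?_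
  have hsec : (fun x : ℝ => (x, z)) ⁻¹' Y = sec Y z := rfl
  rw [hsec]
  by_cases h0 : z ∈ Pr Y 0
  swap
  · have : sec Y z = ∅ := by
      rw [eq_empty_iff_forall_notMem]
      intro s hs
      exact h0 ⟨s, hs, by rw [add_zero]; exact hs⟩
    rw [this, measure_empty]; exact bot_le
  obtain ⟨p, hp, hmin, hrho⟩ := rho_of_mem hcl h0
  by_cases hz : z ∈ Pr Y h
  · rw [indicator_of_mem hz]
    refine le_add_right ?_
    rw [hrho]
    exact g1_chord_le (convex_sec hc z) hp hmin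
  · have hmem : z ∈ Pr Y 0 \ Pr Y h := ⟨h0, hz⟩
    rw [indicator_of_notMem hz, zero_add, indicator_of_mem hmem, hrho]
    exact g1_chord_le_length (isClosed_sec hcl z) (convex_sec hc z) hp hmin hh hz

lemma short_real_gen {G0 Gh Gt s r0 : ℝ} (h0 : 0 < G0) (hr0 : 0 < r0) (h1 : r0 * G0 ≤ Gh)
    (hs0 : 0 ≤ s) (h : G0 ^ (1 - s) * Gh ^ s ≤ Gt) (h2 : Gh ≤ G0) :
    G0 - Gt ≤ s * (G0 - Gh) / r0 := by
  have hGh : 0 < Gh := lt_of_lt_of_le (by positivity) h1
  have h3 : G0 ^ (1 - s) * Gh ^ s = G0 * (Gh / G0) ^ s := by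
    rw [Real.div_rpow hGh.le h0.le, Real.rpow_sub h0, Real.rpow_one]
    field_simp
  have hr1 : r0 ≤ Gh / G0 := by rw [le_div_iff₀ h0]; exact h1
  have hr2 : Gh / G0 ≤ 1 := by rw [div_le_one h0]; exact h2
  have hrp : 0 < Gh / G0 := div_pos hGh h0
  have h4 : 1 - s * ((1 - Gh / G0) / r0) ≤ (Gh / G0) ^ s := by
    rw [Real.rpow_def_of_pos hrp]
    have h5 := Real.add_one_le_exp (Real.log (Gh / G0) * s)
    have h6 : -((1 - Gh / G0) / r0) ≤ Real.log (Gh / G0) := by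
      have h7 : Real.log (Gh / G0)⁻¹ ≤ (Gh / G0)⁻¹ - 1 := Real.log_le_sub_one_of_pos (by positivity)
      rw [Real.log_inv] at h7
      have h8 : (Gh / G0)⁻¹ - 1 = (1 - Gh / G0) / (Gh / G0) := by field_simp
      have h9 : (1 - Gh / G0) / (Gh / G0) ≤ (1 - Gh / G0) / r0 :=
        div_le_div_of_nonneg_left (by linarith) hr0 hr1
      linarith
    have h10 : -((1 - Gh / G0) / r0) * s ≤ Real.log (Gh / G0) * s :=
      mul_le_mul_of_nonneg_right h6 hs0
    linarith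
  rw [h3] at h
  have h8 : G0 * (1 - s * ((1 - Gh / G0) / r0)) ≤ G0 * (Gh / G0) ^ s :=
    mul_le_mul_of_nonneg_left h4 h0.le
  have h9 : G0 * (1 - s * ((1 - Gh / G0) / r0)) = G0 - s * (G0 - Gh) / r0 := by
    field_simp
  linarith

/-- **short chord lemma at level `τ`** -/
theorem short_chord_low (hcl : IsClosed Y) (hc : Convex ℝ Y) {τ : ℝ} (hτ0 : 0 < τ)
    (hY : ENNReal.ofReal τ ≤ (g1.prod (gp m)) Y) {t : ℝ} (ht0 : 0 ≤ t) (ht1 : t < τ) :
    (nu Y (Pr Y 0 \ Pr Y t)).toReal ≤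
      5 / (3 * τ ^ 2) * t * (nu Y (Pr Y 0 \ Pr Y τ)).toReal := by
  rcases ht0.eq_or_lt with rfl | ht0
  · simp [nu]
  have hs1 := nu_split hcl hc le_rfl ht0.le
  have hs2 := nu_split hcl hc le_rfl hτ0.le
  have hc0 := c0_le
  have hc0p := c0_pos
  have hm : τ ≤ (nu Y (Pr Y τ)).toReal + c0 * τ * (nu Y (Pr Y 0 \ Pr Y τ)).toReal := by
    have h := hY.trans (measure_le_gen hcl hc hτ0)
    have h2 := ENNReal.toReal_mono (ENNReal.add_ne_top.2 ⟨nu_ne_top _,
      ENNReal.mul_ne_top ENNReal.ofReal_ne_top (nu_ne_top _)⟩) h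
    rw [ENNReal.toReal_add (nu_ne_top _) (ENNReal.mul_ne_top ENNReal.ofReal_ne_top (nu_ne_top _)),
      ENNReal.toReal_mul, ENNReal.toReal_ofReal hτ0.le,
      ENNReal.toReal_ofReal (by positivity)] at h2
    exact h2
  have hG0 : (nu Y (Pr Y 0)).toReal ≤ 1 := by
    have := ENNReal.toReal_mono (by simp) (nu_le_one (Y := Y) (Pr Y 0))
    simpa using this
  have hD : 0 ≤ (nu Y (Pr Y 0 \ Pr Y τ)).toReal := ENNReal.toReal_nonneg
  have hGh0 : 0 ≤ (nu Y (Pr Y τ)).toReal := ENNReal.toReal_nonneg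
  have hD1 : (nu Y (Pr Y 0 \ Pr Y τ)).toReal ≤ 1 := by linarith
  have hm2 : 3 / 5 * τ ≤ (nu Y (Pr Y τ)).toReal := by
    have h1 : c0 * τ * (nu Y (Pr Y 0 \ Pr Y τ)).toReal ≤ 2 / 5 * τ * 1 := by
      apply mul_le_mul _ hD1 hD (by positivity)
      exact mul_le_mul_of_nonneg_right hc0 hτ0.le
    linarith
  have hlog := ENNReal.toReal_mono (nu_ne_top _) (nu_logconcave_gen hcl hc ht0 ht1)
  rw [ENNReal.toReal_mul, ← ENNReal.toReal_rpow, ← ENNReal.toReal_rpow] at hlog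
  have hG0p : 0 < (nu Y (Pr Y 0)).toReal := by nlinarith
  have := short_real_gen (r0 := 3 / 5 * τ) hG0p (by positivity) (by nlinarith)
    (div_nonneg ht0.le hτ0.le) hlog (by linarith)
  have e1 : (nu Y (Pr Y 0)).toReal - (nu Y (Pr Y t)).toReal = (nu Y (Pr Y 0 \ Pr Y t)).toReal := by
    linarith
  have e2 : (nu Y (Pr Y 0)).toReal - (nu Y (Pr Y τ)).toReal =
      (nu Y (Pr Y 0 \ Pr Y τ)).toReal := by linarith
  rw [e1, e2] at this
  refine this.trans (le_of_eq ?_)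
  field_simp

/-- **rank one inequality** on `ℝ × (Fin m → ℝ)` at level `τ` -/
theorem rank_one_fib_low (hcl : IsClosed Y) (hc : Convex ℝ Y) {τ : ℝ} (hτ0 : 0 < τ)
    (hτ1 : τ ≤ 1 / 2) (hY : ENNReal.ofReal τ ≤ (g1.prod (gp m)) Y)
    {l k : ℝ} (hl : 0 < l) (hlτ : l ≤ 3 / 10 * τ ^ 2) (hk : 0 < k) (hk7 : k ≤ 7 / 100) :
    ((g1.prod (gp m)) (lossSet Y l)).toReal ≤
      4 / τ ^ 2 * (l ^ 2 / k) * ((g1.prod (gp m)) (gainSet Y l k)).toReal := by
  have hc0 := c0_pos
  have hlt : l < τ := by nlinarith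
  set D := (nu Y (Pr Y 0 \ Pr Y τ)).toReal with hD
  set A := (nu Y (Pr Y 0 \ Pr Y l)).toReal with hA
  set B := (nu Y (Pr Y l \ Pr Y τ)).toReal with hB
  have hD0 : 0 ≤ D := ENNReal.toReal_nonneg
  have hB0 : 0 ≤ B := ENNReal.toReal_nonneg
  have h1 : ((g1.prod (gp m)) (lossSet Y l)).toReal ≤ c0 * l * A := by
    have := ENNReal.toReal_mono (ENNReal.mul_ne_top ENNReal.ofReal_ne_top (nu_ne_top _))
      (loss_le hcl hc hl)
    rwa [ENNReal.toReal_mul, ENNReal.toReal_ofReal (by positivity)] at this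
  have h2 : 94 / 100 * c0 * k * B ≤ ((g1.prod (gp m)) (gainSet Y l k)).toReal := by
    have := ENNReal.toReal_mono (measure_ne_top _ _) (gain_ge (m := m) hcl hc hl hk hk7)
    rw [ENNReal.toReal_mul, ENNReal.toReal_ofReal (by positivity)] at this
    refine le_trans (mul_le_mul_of_nonneg_left ?_ (by positivity)) this
    refine ENNReal.toReal_mono (nu_ne_top _) (nu_mono ?_)
    exact Set.sdiff_subset_sdiff_right (Pr_anti hc hτ0.le hτ1)
  have h3 : A ≤ 5 / (3 * τ ^ 2) * l * D := short_chord_low hcl hc hτ0 hY hl.le hlt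
  have h4 : A + B = D := by
    have e1 := nu_split hcl hc le_rfl hl.le
    have e2 := nu_split hcl hc hl.le hlt.le
    have e3 := nu_split hcl hc le_rfl hτ0.le
    linarith
  have hτ2 : 0 < τ ^ 2 := by positivity
  have h5 : A ≤ 1 / 2 * D := by
    refine h3.trans (mul_le_mul_of_nonneg_right ?_ hD0)
    rw [div_mul_eq_mul_div, div_le_iff₀ (by positivity)]
    nlinarith
  have h6 : D ≤ 2 * B := by linarith
  have h7 : A ≤ 5 / (3 * τ ^ 2) * l * (2 * B) :=
    h3.trans (mul_le_mul_of_nonneg_left h6 (by positivity))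
  have h8 : c0 * l * A ≤ c0 * l * (5 / (3 * τ ^ 2) * l * (2 * B)) :=
    mul_le_mul_of_nonneg_left h7 (by positivity)
  have h9 : 4 / τ ^ 2 * (l ^ 2 / k) * (94 / 100 * c0 * k * B) ≤
      4 / τ ^ 2 * (l ^ 2 / k) * ((g1.prod (gp m)) (gainSet Y l k)).toReal :=
    mul_le_mul_of_nonneg_left h2 (by positivity)
  have h10 : 4 / τ ^ 2 * (l ^ 2 / k) * (94 / 100 * c0 * k * B) =
      (376 / 100) * (c0 * l ^ 2 * B / τ ^ 2) := by field_simp; ring
  have h11 : c0 * l * (5 / (3 * τ ^ 2) * l * (2 * B)) = (10 / 3) * (c0 * l ^ 2 * B / τ ^ 2) := by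
    field_simp; ring
  have h12 : 0 ≤ c0 * l ^ 2 * B / τ ^ 2 := by positivity
  rw [h10] at h9
  rw [h11] at h8
  linarith

end fibLow

end Rank1

section euclid

open Rank1

variable {E : Type*} [NormedAddCommGroup E] [InnerProductSpace ℝ E] [FiniteDimensional ℝ E]
  [MeasurableSpace E] [BorelSpace E]

/-- **Rank one inequality at level `τ`.** -/
theorem rank_one_low {Y : Set E} (hcl : IsClosed Y) (hc : Convex ℝ Y) {τ : ℝ} (hτ0 : 0 < τ)
    (hτ1 : τ ≤ 1 / 2) (hY : τ ≤ (stdGaussian E).real Y) {e : E} (he : ‖e‖ = 1)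
    {l k : ℝ} (hl : 0 < l) (hlτ : l ≤ 3 / 10 * τ ^ 2) (hk : 0 < k) (hk7 : k ≤ 7 / 100) :
    (stdGaussian E).real (shortSet Y e l) ≤
      4 / τ ^ 2 * (l ^ 2 / k) * (stdGaussian E).real (extSet Y e l k) := by
  obtain ⟨m, Φ, hΦ, hΦe⟩ := exists_line e he
  have hΦ2 : ∀ s t z, Φ (s + t, z) = Φ (s, z) + t • e := by
    intro s t z
    rw [hΦe, hΦe s, add_smul]; abel
  have hcl' : IsClosed (Φ ⁻¹' Y) := hcl.preimage Φ.continuous
  have hc' : Convex ℝ (Φ ⁻¹' Y) := hc.linear_preimage Φ.toLinearMap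
  have hY' : ENNReal.ofReal τ ≤ (g1.prod (gp m)) (Φ ⁻¹' Y) := by
    rw [hΦ.measure_preimage hcl.measurableSet.nullMeasurableSet]
    exact ENNReal.ofReal_le_of_le_toReal hY
  have hchord : ∀ l s z, chordGe Y e l (Φ (s, z)) ↔ z ∈ Pr (Φ ⁻¹' Y) l := by
    intro l s z
    constructor
    · rintro ⟨t, h1, h2⟩
      refine ⟨s + t, ?_, ?_⟩
      · rw [mem_preimage, hΦ2]; exact h1
      · rw [mem_preimage, show s + t + l = s + (t + l) by ring, hΦ2]; exact h2
    · rintro ⟨t, h1, h2⟩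
      rw [mem_preimage] at h1 h2
      refine ⟨t - s, ?_, ?_⟩
      · rw [← hΦ2, show s + (t - s) = t by ring]; exact h1
      · rw [← hΦ2, show s + (t - s + l) = t + l by ring]; exact h2
  have e1 : Φ ⁻¹' (shortSet Y e l) = lossSet (Φ ⁻¹' Y) l := by
    ext ⟨s, z⟩
    simp only [shortSet, lossSet, mem_preimage, mem_ofPred_eq, hchord]
  have e2 : Φ ⁻¹' (extSet Y e l k) = gainSet (Φ ⁻¹' Y) l k := by
    ext ⟨s, z⟩
    simp only [extSet, gainSet, mem_preimage, mem_ofPred_eq, hchord, hΦ2]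
  have h1 := rank_one_fib_low hcl' hc' hτ0 hτ1 hY' hl hlτ hk hk7
  rw [← e1, ← e2, hΦ.measure_preimage (measurableSet_shortSet hcl e l).nullMeasurableSet,
    hΦ.measure_preimage (measurableSet_extSet hcl e l k).nullMeasurableSet] at h1
  exact h1

/-- two-sided form at level `τ` -/
theorem rank_one_pm_low {Y : Set E} (hcl : IsClosed Y) (hc : Convex ℝ Y) {τ : ℝ} (hτ0 : 0 < τ)
    (hτ1 : τ ≤ 1 / 2) (hY : τ ≤ (stdGaussian E).real Y) {s : E} (hs : ‖s‖ ≤ 3 / 20 * τ ^ 2) :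
    (stdGaussian E).real {y | y ∈ Y ∧ y + s ∉ Y ∧ y - s ∉ Y} ≤
      16 / τ ^ 2 * ‖s‖ * (stdGaussian E).real {y | y ∉ Y ∧ (y + s ∈ Y ∨ y - s ∈ Y)} := by
  rcases eq_or_ne s 0 with rfl | hs0
  · have : {y | y ∈ Y ∧ y + 0 ∉ Y ∧ y - 0 ∉ Y} = (∅ : Set E) := by
      rw [eq_empty_iff_forall_notMem]
      rintro y ⟨h1, h2, -⟩
      rw [add_zero] at h2
      exact h2 h1
    rw [this]; simp
  have hk : 0 < ‖s‖ := norm_pos_iff.2 hs0
  obtain ⟨e, he, hse⟩ : ∃ e : E, ‖e‖ = 1 ∧ s = ‖s‖ • e := by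
    refine ⟨‖s‖⁻¹ • s, by rw [norm_smul, norm_inv, norm_norm, inv_mul_cancel₀ hk.ne'], ?_⟩
    rw [smul_smul, mul_inv_cancel₀ hk.ne', one_smul]
  have hk7 : ‖s‖ ≤ 7 / 100 := by nlinarith
  have h1 := rank_one_low hcl hc hτ0 hτ1 hY he (l := 2 * ‖s‖) (k := ‖s‖) (by linarith)
    (by linarith) hk hk7
  have h2 : (stdGaussian E).real {y | y ∈ Y ∧ y + s ∉ Y ∧ y - s ∉ Y} ≤
      (stdGaussian E).real (shortSet Y e (2 * ‖s‖)) := by
    have := pm_subset_shortSet hc e hk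
    rw [← hse] at this
    exact measureReal_mono this
  have h3 : (stdGaussian E).real (extSet Y e (2 * ‖s‖) ‖s‖) ≤
      (stdGaussian E).real {y | y ∉ Y ∧ (y + s ∈ Y ∨ y - s ∈ Y)} := by
    have := extSet_subset_pm hc e hk
    rw [← hse] at this
    exact measureReal_mono this
  have h4 : 4 / τ ^ 2 * ((2 * ‖s‖) ^ 2 / ‖s‖) = 16 / τ ^ 2 * ‖s‖ := by field_simp; ring
  rw [h4] at h1
  exact h2.trans (h1.trans (mul_le_mul_of_nonneg_left h3 (by positivity)))

end euclid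

namespace Cross

open Crest.Agent.Lib.Ehrhard Rank1

variable {E : Type*} [NormedAddCommGroup E] [InnerProductSpace ℝ E] [FiniteDimensional ℝ E]
  [MeasurableSpace E] [BorelSpace E]

/-- `γ(K * v) ≥ γ K + γ(ext)/2` at level `τ` -/
lemma measure_star_ge_low {K : Set E} (hK : IsClosed K) (cK : Convex ℝ K) {τ : ℝ} (hτ0 : 0 < τ)
    (hτ1 : τ ≤ 1 / 2) (hh : τ ≤ (stdGaussian E).real K) {e : E} (he : ‖e‖ = 1) {h : ℝ}
    (h0 : 0 < h) (h1 : h ≤ τ ^ 2 / 32) :
    (stdGaussian E).real K + 1 / 2 * (stdGaussian E).real (extSet K e (2 * h) h) ≤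
      (stdGaussian E).real (star K (h • e)) := by
  have hτ2 : 0 < τ ^ 2 := by positivity
  have hτ4 : τ ^ 2 ≤ 1 / 4 := by nlinarith
  have hr := rank_one_low hK cK hτ0 hτ1 hh he (l := 2 * h) (k := h) (by linarith)
    (by linarith) h0 (by linarith)
  have hmS := measurableSet_shortSet hK e (2 * h)
  have hmE := measurableSet_extSet hK e (2 * h) h
  have hS : (stdGaussian E).real (K \ shortSet K e (2 * h)) =
      (stdGaussian E).real K - (stdGaussian E).real (shortSet K e (2 * h)) :=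
    measureReal_sdiff (fun y hy => hy.1) hmS
  have hdisj : Disjoint (K \ shortSet K e (2 * h)) (extSet K e (2 * h) h) := by
    rw [Set.disjoint_left]
    rintro y ⟨h2, -⟩ h3
    exact h3.1 h2
  have hU : (stdGaussian E).real ((K \ shortSet K e (2 * h)) ∪ extSet K e (2 * h) h) =
      (stdGaussian E).real (K \ shortSet K e (2 * h)) +
        (stdGaussian E).real (extSet K e (2 * h) h) := measureReal_union hdisj hmE
  have hsub : (K \ shortSet K e (2 * h)) ∪ extSet K e (2 * h) h ⊆ star K (h • e) := by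
    rintro y (⟨h2, h3⟩ | ⟨h2, h3, h4⟩)
    · have h5 : chordGe K e (2 * h) y := by
        by_contra hcon
        exact h3 ⟨h2, hcon⟩
      exact mem_star_of_chord cK h0 h5 ⟨0, by simpa using h0.le, by simpa using h2⟩
    · exact mem_star_of_chord cK h0 h3 h4
  have hle := measureReal_mono (μ := stdGaussian E) hsub
  have hen : 0 ≤ (stdGaussian E).real (extSet K e (2 * h) h) := measureReal_nonneg
  have h6 : 4 / τ ^ 2 * ((2 * h) ^ 2 / h) * (stdGaussian E).real (extSet K e (2 * h) h) ≤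
      1 / 2 * (stdGaussian E).real (extSet K e (2 * h) h) := by
    apply mul_le_mul_of_nonneg_right _ hen
    have : (2 * h) ^ 2 / h = 4 * h := by field_simp; ring
    rw [this, div_mul_eq_mul_div, div_le_iff₀ hτ2]
    linarith
  linarith

/-- **One step inequality in crossing form at level `τ`.** -/
theorem one_step_low {K W : Set E} (hK : IsClosed K) (cK : Convex ℝ K) {τ : ℝ} (hτ0 : 0 < τ)
    (hτ1 : τ ≤ 1 / 2) (hh : τ ≤ (stdGaussian E).real K) (hW : MeasurableSet W) {κ m : ℝ}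
    (hκ : 0 ≤ κ) (hm0 : 0 < m) (hm : 2 * κ ≤ m ^ 2) {v : E} (hv : ‖v‖ ≤ τ ^ 2 / 32)
    (hκv : κ * ‖v‖ ^ 2 ≤ 1) :
    1 / (32 * m + 10) * out (step κ v) (star K v ∩ W) Kᶜ ≤
      (stdGaussian E).real (star K v ∩ W) - (stdGaussian E).real K + (stdGaussian E).real Wᶜ := by
  have hC : 0 < 32 * m + 10 := by linarith
  have hτ4 : τ ^ 2 ≤ 1 / 4 := by nlinarith
  have hcut : (stdGaussian E).real (star K v) ≤
      (stdGaussian E).real (star K v ∩ W) + (stdGaussian E).real Wᶜ := by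
    have h1 : star K v ⊆ (star K v ∩ W) ∪ Wᶜ := by
      intro x hx
      by_cases h : x ∈ W
      · exact Or.inl ⟨hx, h⟩
      · exact Or.inr h
    exact (measureReal_mono h1).trans (measureReal_union_le _ _)
  rcases eq_or_ne v 0 with rfl | hv0
  · rw [star_zero] at hcut ⊢
    have hs : step κ (0 : E) = ContinuousLinearMap.id ℝ E := by
      ext x; rw [step_apply]; simp
    have h0 : out (step κ (0 : E)) (K ∩ W) Kᶜ = 0 := by
      rw [hs]
      have hid : ‖ContinuousLinearMap.id ℝ E‖ ≤ 1 := ContinuousLinearMap.norm_id_le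
      rw [out_eq (G := E) hid (B := 0) (fun t => by simp) (hK.measurableSet.inter hW)
        hK.measurableSet.compl]
      have : {p : E × E | p.1 ∈ K ∩ W ∧ (ContinuousLinearMap.id ℝ E) p.1 +
          (0 : E →L[ℝ] E) p.2 ∈ Kᶜ} = ∅ := by
        ext p
        simp only [mem_ofPred_eq, mem_inter_iff, mem_compl_iff, mem_empty_iff_false, iff_false]
        rintro ⟨⟨h1, -⟩, h2⟩
        apply h2
        simpa using h1
      rw [this, measureReal_empty]
    rw [h0, mul_zero]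
    linarith
  set h := ‖v‖ with hh'
  have hpos : 0 < h := norm_pos_iff.2 hv0
  obtain ⟨e, he, hse⟩ : ∃ e : E, ‖e‖ = 1 ∧ v = h • e := by
    refine ⟨h⁻¹ • v, by rw [norm_smul, norm_inv, norm_norm, inv_mul_cancel₀ hpos.ne'], ?_⟩
    rw [smul_smul, mul_inv_cancel₀ hpos.ne', one_smul]
  have h1 := out_step_le hK cK hκ hm0 hm he hpos (by linarith) hκv
  have h2 := measure_star_ge_low hK cK hτ0 hτ1 hh he hpos hv
  rw [← hse] at h1 h2
  have h3 : out (step κ v) (star K v ∩ W) Kᶜ ≤ out (step κ v) (star K v) Kᶜ :=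
    out_mono _ inter_subset_left subset_rfl
  have h4 : 0 ≤ (stdGaussian E).real (extSet K e (2 * h) h) := measureReal_nonneg
  have h5 : 1 / (32 * m + 10) * out (step κ v) (star K v ∩ W) Kᶜ ≤
      1 / 2 * (stdGaussian E).real (extSet K e (2 * h) h) := by
    rw [one_div_mul_eq_div, div_le_iff₀ hC]
    nlinarith
  linarith

/-- crossing form of the hypothesis at levels `≥ τ + a` -/
def Hq (κ c a τ : ℝ) (W : Set E) (u : List E) : Prop :=
  ∀ K : Set E, IsClosed K → Convex ℝ K → τ + a ≤ (stdGaussian E).real K →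
    c * out (mat κ u) (pre W u K) Kᶜ ≤
      (stdGaussian E).real (pre W u K) - (stdGaussian E).real K + a

lemma Hq_half {κ c a : ℝ} {W : Set E} {u : List E} : Hq κ c a (1 / 2) W u ↔ Hp κ c a W u := Iff.rfl

lemma Hq.mono {κ c a b τ : ℝ} {W : Set E} {u : List E} (h : Hq κ c a τ W u) (hab : a ≤ b) :
    Hq κ c b τ W u := by
  intro K hK cK hh
  have := h K hK cK (by linarith)
  linarith

lemma Hq.mono_c {κ c c' a τ : ℝ} {W : Set E} {u : List E} (h : Hq κ c a τ W u) (hc : c' ≤ c) :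
    Hq κ c' a τ W u := by
  intro K hK cK hh
  have h1 := h K hK cK hh
  have h2 := mul_le_mul_of_nonneg_right hc (out_nonneg (mat κ u) (pre W u K) Kᶜ)
  linarith

lemma Hq.mono_level {κ c a τ τ' : ℝ} {W : Set E} {u : List E} (h : Hq κ c a τ W u)
    (hτ : τ ≤ τ') : Hq κ c a τ' W u := fun K hK cK hh => h K hK cK (by linarith)

/-- letters -/
theorem Hq.letter {κ m τ : ℝ} (hτ0 : 0 < τ) (hτ1 : τ ≤ 1 / 2) (hκ : 0 ≤ κ) (hm0 : 0 < m)
    (hm : 2 * κ ≤ m ^ 2) {W : Set E} (hW : MeasurableSet W) {v : E} (hv : ‖v‖ ≤ τ ^ 2 / 32)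
    (hκv : κ * ‖v‖ ^ 2 ≤ 1) :
    Hq κ (1 / (32 * m + 10)) ((stdGaussian E).real Wᶜ) τ W [v] := by
  intro K hK cK hh
  have hw : 0 ≤ (stdGaussian E).real Wᶜ := measureReal_nonneg
  have := one_step_low hK cK hτ0 hτ1 (by linarith) hW hκ hm0 hm hv hκv
  simpa using this

/-- composition (`a ≥ 0`) -/
theorem Hq.append {κ c a b τ : ℝ} (hκ : 0 ≤ κ) (hc : 0 ≤ c) (ha : 0 ≤ a) {W : Set E}
    (hW : IsClosed W) (cW : Convex ℝ W) {u w : List E} (hu : Adm κ u) (hw : Adm κ w)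
    (h₁ : Hq κ c a τ W u) (h₂ : Hq κ c b τ W w) : Hq κ c (a + b) τ W (u ++ w) := by
  intro K hK cK hh
  rw [pre_append, mat_append]
  set K₁ := pre W w K with hK₁
  have cl₁ : IsClosed K₁ := isClosed_pre hW hK w
  have cc₁ : Convex ℝ K₁ := convex_pre cW cK w
  have e2 := h₂ K hK cK (by linarith)
  have hlev : τ + a ≤ (stdGaussian E).real K₁ := by
    have := mul_nonneg hc (out_nonneg (mat κ w) K₁ Kᶜ)
    linarith
  have e1 := h₁ K₁ cl₁ cc₁ hlev
  have e3 := out_comp_le (norm_mat_le hκ hu) (norm_mat_le hκ hw) (U₀ := pre W u K₁)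
    (U₁ := K₁ᶜ) (U₂ := Kᶜ) cl₁.measurableSet.compl hK.measurableSet.compl
  rw [compl_compl] at e3
  have e4 := mul_le_mul_of_nonneg_left e3 hc
  rw [mul_add] at e4
  linarith

/-- **Gebelein's inequality** in 201's format. -/
theorem out_gebelein {A : E →L[ℝ] E} {ρ : ℝ} (hρ : 0 ≤ ρ) (hρ1 : ρ < 1) (hA : ‖A‖ ≤ ρ)
    {U V : Set E} (hU : MeasurableSet U) (hV : MeasurableSet V) :
    (out A U V - (stdGaussian E).real U * (stdGaussian E).real V) ^ 2 ≤
      ρ ^ 2 * ((stdGaussian E).real U * (1 - (stdGaussian E).real U))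
        * ((stdGaussian E).real V * (1 - (stdGaussian E).real V)) := by
  have hA1 : ‖A‖ ≤ 1 := hA.trans hρ1.le
  have hcpl := cpl_spec hA1
  rw [out_eq hA1 hcpl hU hV]
  refine gebelein_set hcpl hρ hρ1 (fun t => ?_) hU hV
  refine (ContinuousLinearMap.le_opNorm _ _).trans ?_
  rw [LinearIsometryEquiv.norm_map]
  exact mul_le_mul_of_nonneg_right hA (norm_nonneg t)

theorem cor_of_norm {A : E →L[ℝ] E} {ρ : ℝ} (hρ : 0 ≤ ρ) (hρ1 : ρ < 1) (hA : ‖A‖ ≤ ρ) :
    Cor A ρ := by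
  intro U V hU hV
  have h := out_gebelein hρ hρ1 hA hU hV
  have hu0 : 0 ≤ (stdGaussian E).real U := measureReal_nonneg
  have hu1 : (stdGaussian E).real U ≤ 1 := measureReal_le_one
  have hv0 : 0 ≤ (stdGaussian E).real V := measureReal_nonneg
  have hv1 : (stdGaussian E).real V ≤ 1 := measureReal_le_one
  set u := (stdGaussian E).real U
  set v := (stdGaussian E).real V
  have h2 : (out A U V - u * v) ^ 2 ≤ (ρ * Real.sqrt (u * v)) ^ 2 := by
    rw [mul_pow, Real.sq_sqrt (by positivity)]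
    refine h.trans ?_
    have h3 : u * (1 - u) ≤ u := by nlinarith
    have h4 : v * (1 - v) ≤ v := by nlinarith
    have h5 : 0 ≤ u * (1 - u) := mul_nonneg hu0 (by linarith)
    have h6 : 0 ≤ v * (1 - v) := mul_nonneg hv0 (by linarith)
    calc ρ ^ 2 * (u * (1 - u)) * (v * (1 - v)) ≤ ρ ^ 2 * u * v := by gcongr
      _ = _ := by ring
  have h3 := le_of_abs_le (abs_le_of_sq_le_sq h2 (by positivity))
  linarith

end Cross

end Crest.Agent.R239
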