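import Crest.Agent.R239.Leaf622c
import Crest.Agent.R239.LineGauss
import Crest.Agent.R239.Rank1Low622

/-!
# R239, the leaf (SL_W) of the chain, part d (helper622): short chords (Prekopa) and the leaf

**`SL_leaf`** : `0 < κ ≤ 1/16`, `0 < τ₀ ≤ 1`, `0 ≤ ρ ≤ τ₀/32000`, `‖v‖ ≤ τ₀/16000` imply
`SL κ ρ 1 τ₀ E v`, in every space `V` and for every active space `E`.
-/

set_option autoImplicit false
set_option linter.unusedSectionVars false
open MeasureTheory ProbabilityTheory Set Filter Topology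
open scoped RealInnerProductSpace ENNReal NNReal

namespace Crest.Agent.R239

namespace Chain

open Crest.Agent.Lib.PrekopaLeindler

variable {V : Type*} [NormedAddCommGroup V] [InnerProductSpace ℝ V] [FiniteDimensional ℝ V]
  [MeasurableSpace V] [BorelSpace V]

theorem PL_V : PL V (volume : Measure V) :=
  PL.of_measurePreserving _ (stdOrthonormalBasis ℝ V).measurePreserving_repr_symm
    (fun a b x y => by simp) (PL_euclidean _)

section lc

variable {κ : ℝ} {E : Submodule ℝ V} {v : V}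

lemma dE_lc (E : Submodule ℝ V) : LC (dE E) := by
  intro x y a b ha hb hab
  unfold dE
  rw [ENNReal.ofReal_rpow_of_nonneg (Real.exp_pos _).le ha,
    ENNReal.ofReal_rpow_of_nonneg (Real.exp_pos _).le hb,
    ← ENNReal.ofReal_mul (Real.rpow_nonneg (Real.exp_pos _).le _), ← Real.exp_mul,
    ← Real.exp_mul, ← Real.exp_add]
  apply ENNReal.ofReal_le_ofReal
  apply Real.exp_le_exp.2
  rw [map_add, map_smul, map_smul]
  set p := E.starProjection x
  set q := E.starProjection y
  have h1 : ‖a • p + b • q‖ ≤ a * ‖p‖ + b * ‖q‖ := by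
    refine (norm_add_le _ _).trans (le_of_eq ?_)
    rw [norm_smul, norm_smul, Real.norm_of_nonneg ha, Real.norm_of_nonneg hb]
  have h2 : ‖a • p + b • q‖ ^ 2 ≤ (a * ‖p‖ + b * ‖q‖) ^ 2 := by gcongr
  have hb' : b = 1 - a := by linarith
  have h3 : (a * ‖p‖ + b * ‖q‖) ^ 2 ≤ a * ‖p‖ ^ 2 + b * ‖q‖ ^ 2 := by
    subst hb'
    nlinarith [mul_nonneg (mul_nonneg ha hb) (sq_nonneg (‖p‖ - ‖q‖))]
  linarith

lemma LC.mul {f g : V → ℝ≥0∞} (hf : LC f) (hg : LC g) : LC (fun x => f x * g x) := by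
  intro x y a b ha hb hab
  simp only
  rw [ENNReal.mul_rpow_of_nonneg _ _ ha, ENNReal.mul_rpow_of_nonneg _ _ hb]
  calc f x ^ a * g x ^ a * (f y ^ b * g y ^ b) = (f x ^ a * f y ^ b) * (g x ^ a * g y ^ b) := by
        ring
    _ ≤ _ := mul_le_mul' (hf x y a b ha hb hab) (hg x y a b ha hb hab)

lemma iSup_rpow_mul_le {ι ι' : Sort*} {f : ι → ℝ≥0∞} {g : ι' → ℝ≥0∞} {a b : ℝ} (ha : 0 < a)
    (hb : 0 < b) {M : ℝ≥0∞} (h : ∀ i j, f i ^ a * g j ^ b ≤ M) :
    (⨆ i, f i) ^ a * (⨆ j, g j) ^ b ≤ M := by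
  have h1 : (⨆ i, f i) ^ a = ⨆ i, f i ^ a := (ENNReal.orderIsoRpow a ha).map_iSup f
  have h2 : (⨆ j, g j) ^ b = ⨆ j, g j ^ b := (ENNReal.orderIsoRpow b hb).map_iSup g
  rw [h1, h2, ENNReal.iSup_mul]
  refine iSup_le fun i => ?_
  rw [ENNReal.mul_iSup]
  exact iSup_le fun j => h i j

lemma supch_lc {K : Set V} (cK : Convex ℝ K) {h : V → ℝ≥0∞} (hlc : LC h) (hl : Lip1 v h)
    {a b t : ℝ} (ha : 0 < a) (hb : 0 < b) (hab : a + b = 1) (ht : 0 < t) {x y : V}
    (hz : chordGe K v t (a • x + b • y)) :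
    supch K v h x ^ a * supch K v h y ^ b ≤ supch K v h (a • x + b • y) := by
  unfold supch
  refine iSup_rpow_mul_le ha hb fun q r => ?_
  by_cases h1 : x + (q : ℝ) • v ∈ K
  swap
  · rw [indicator_of_notMem h1, ENNReal.zero_rpow_of_pos ha, zero_mul]; exact zero_le
  by_cases h2 : y + (r : ℝ) • v ∈ K
  swap
  · rw [indicator_of_notMem h2, ENNReal.zero_rpow_of_pos hb, mul_zero]; exact zero_le
  rw [indicator_of_mem h1, indicator_of_mem h2]
  refine (hlc _ _ a b ha.le hb.le hab).trans ?_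
  have e : a • (x + (q : ℝ) • v) + b • (y + (r : ℝ) • v) =
      a • x + b • y + (a * q + b * r) • v := by module
  have h3 := cK h1 h2 ha.le hb.le hab
  rw [e] at h3 ⊢
  exact le_supch cK hl ht hz h3

/-- weighted size of the set of lines with chords `≥ l` -/
noncomputable def NN (K : Set V) (v : V) (h : V → ℝ≥0∞) (l : ℝ) : ℝ≥0∞ :=
  ∫⁻ x in Sl v ∩ {x | chordGe K v l x}, supch K v h x

lemma chordGe_lc {K : Set V} (cK : Convex ℝ K) {a b s t : ℝ} (ha : 0 ≤ a) (hb : 0 ≤ b)
    (hab : a + b = 1) {x y : V} (hx : chordGe K v s x) (hy : chordGe K v t y) :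
    chordGe K v (a * s + b * t) (a • x + b • y) := by
  obtain ⟨p, h1, h2⟩ := hx
  obtain ⟨q, h3, h4⟩ := hy
  refine ⟨a * p + b * q, ?_, ?_⟩
  · have := cK h1 h3 ha hb hab
    have e : a • (x + p • v) + b • (y + q • v) = a • x + b • y + (a * p + b * q) • v := by module
    rwa [e] at this
  · have := cK h2 h4 ha hb hab
    have e : a • (x + (p + s) • v) + b • (y + (q + t) • v) =
        a • x + b • y + (a * p + b * q + (a * s + b * t)) • v := by module
    rwa [e] at this

lemma chordGe_anti {K : Set V} (cK : Convex ℝ K) {s t : ℝ} (hs : 0 ≤ s) (hst : s ≤ t) {x : V}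
    (h : chordGe K v t x) : chordGe K v s x := by
  obtain ⟨p, h1, h2⟩ := h
  exact ⟨p, h1, mem_chord cK h1 h2 (by linarith) (by linarith)⟩

/-- **Prekopa** -/
lemma NN_lc {K : Set V} (hK : IsClosed K) (cK : Convex ℝ K) {h : V → ℝ≥0∞} (hm : Measurable h)
    (hlc : LC h) (hl : Lip1 v h) {s l : ℝ} (hs0 : 0 < s) (hs1 : s < 1) (hl0 : 0 < l) :
    NN K v h 0 ^ (1 - s) * NN K v h l ^ s ≤ NN K v h (s * l) := by
  unfold NN
  have mG : ∀ t, MeasurableSet (Sl v ∩ {x | chordGe K v t x}) := fun t =>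
    (isClosed_Sl v).measurableSet.inter (measurableSet_chordGe hK v t)
  have ms := measurable_supch hK.measurableSet v hm
  rw [← lintegral_indicator (mG 0), ← lintegral_indicator (mG l),
    ← lintegral_indicator (mG (s * l))]
  refine PL_V s hs0 hs1 _ _ _ (ms.indicator (mG 0)) (ms.indicator (mG l))
    (ms.indicator (mG (s * l))) ?_
  intro x y
  by_cases hx : x ∈ Sl v ∩ {x | chordGe K v 0 x}
  swap
  · rw [indicator_of_notMem hx, ENNReal.zero_rpow_of_pos (by linarith), zero_mul]; exact zero_le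
  by_cases hy : y ∈ Sl v ∩ {x | chordGe K v l x}
  swap
  · rw [indicator_of_notMem hy, ENNReal.zero_rpow_of_pos hs0, mul_zero]; exact zero_le
  have h1 : (1 - s) • x + s • y ∈ Sl v := convex_Sl v hx.1 hy.1 (by linarith) hs0.le (by ring)
  have h2 : chordGe K v (s * l) ((1 - s) • x + s • y) := by
    have := chordGe_lc cK (by linarith : (0:ℝ) ≤ 1 - s) hs0.le (by ring) hx.2 hy.2
    rwa [mul_zero, zero_add] at this
  rw [indicator_of_mem hx, indicator_of_mem hy,
    indicator_of_mem (show (1 - s) • x + s • y ∈ Sl v ∩ {x | chordGe K v (s * l) x} from ⟨h1, h2⟩)]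
  exact supch_lc cK hlc hl (by linarith) hs0 (by ring) (by positivity) h2

lemma NN_anti {K : Set V} (cK : Convex ℝ K) (h : V → ℝ≥0∞) {s t : ℝ} (hs : 0 ≤ s)
    (hst : s ≤ t) : NN K v h t ≤ NN K v h s :=
  lintegral_mono_set fun _ hx => ⟨hx.1, chordGe_anti cK hs hst hx.2⟩

lemma NN_split {K : Set V} (hK : IsClosed K) (cK : Convex ℝ K) (h : V → ℝ≥0∞) {s t : ℝ}
    (hs : 0 ≤ s) (hst : s ≤ t) : NN K v h s = NN K v h t +
      ∫⁻ x in Sl v ∩ ({x | chordGe K v s x} \ {x | chordGe K v t x}), supch K v h x := by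
  unfold NN
  have mt := measurableSet_chordGe hK v t
  rw [← lintegral_union]
  · congr 2
    rw [← inter_union_distrib_left]
    congr 1
    rw [union_sdiff_cancel]
    exact fun _ hx => chordGe_anti cK hs hst hx
  · exact (isClosed_Sl v).measurableSet.inter ((measurableSet_chordGe hK v s).diff mt)
  · rw [Set.disjoint_left]
    rintro x ⟨-, h1⟩ ⟨-, -, h2⟩
    exact h2 h1

/-- upper bound for a mass -/
lemma mass_le_tsum {K : Set V} (hK : IsClosed K) (cK : Convex ℝ K) {h : V → ℝ≥0∞}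
    (hm : Measurable h) (hl : Lip1 v h) (hv : v ≠ 0) {L : ℝ} (hL : 0 < L) :
    ∫⁻ x, K.indicator h x ≤ ∑' j : ℕ, ENNReal.ofReal L * NN K v h (j * L) := by
  rw [lintegral_slab hv (hm.indicator hK.measurableSet)]
  have ms := measurable_supch hK.measurableSet v hm
  have mj : ∀ j : ℕ, MeasurableSet {y : V | chordGe K v (j * L) y} := fun j =>
    measurableSet_chordGe hK v _
  calc ∫⁻ x in Sl v, ∫⁻ s : ℝ, K.indicator h (x + s • v)
      ≤ ∫⁻ x in Sl v, ∑' j : ℕ, ENNReal.ofReal L *
          ({y | chordGe K v (j * L) y}.indicator (supch K v h) x) := by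
        refine lintegral_mono fun x => ?_
        refine (chord_le hK cK hl x).trans ?_
        calc supch K v h x * volume (chd K v x) ≤ supch K v h x * ∑' j : ℕ, ENNReal.ofReal L *
              {y | chordGe K v (j * L) y}.indicator 1 x := by
              gcongr
              exact volume_chd_le_tsum hK cK hL
          _ = _ := by
              rw [← ENNReal.tsum_mul_left]
              congr 1
              funext j
              by_cases hx : x ∈ {y | chordGe K v (j * L) y}
              · rw [indicator_of_mem hx, indicator_of_mem hx]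
                simp [mul_comm]
              · rw [indicator_of_notMem hx, indicator_of_notMem hx]
                simp
    _ = _ := by
        rw [lintegral_tsum fun j => ((ms.indicator (mj j)).const_mul _).aemeasurable]
        congr 1
        funext j
        rw [lintegral_const_mul _ (ms.indicator (mj j)), lintegral_indicator (mj j),
          Measure.restrict_restrict (mj j)]
        unfold NN
        rw [inter_comm]

/-- **at least half of the lines have long chords** -/
lemma NN_half {K : Set V} (hK : IsClosed K) (cK : Convex ℝ K) {h : V → ℝ≥0∞}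
    (hm : Measurable h) (hlc : LC h) (hl : Lip1 v h) (hv : v ≠ 0) {L : ℝ} (hL : 0 < L)
    (hfin : NN K v h 0 ≠ ∞)
    (hlev : ENNReal.ofReal (4 * L) * NN K v h 0 ≤ ∫⁻ x, K.indicator h x) :
    (NN K v h 0).toReal / 2 ≤ (NN K v h L).toReal := by
  by_contra hcon
  push Not at hcon
  have hfinL : ∀ l, 0 ≤ l → NN K v h l ≠ ∞ := fun l hl' =>
    ne_top_of_le_ne_top hfin (NN_anti cK h le_rfl hl')
  set G0 := (NN K v h 0).toReal with hG0
  have hG0p : 0 < G0 := by
    have : 0 ≤ (NN K v h L).toReal := ENNReal.toReal_nonneg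
    linarith
  have hj : ∀ j : ℕ, NN K v h (j * L) ≤ NN K v h 0 * 2⁻¹ ^ j := by
    intro j
    rcases Nat.lt_or_ge j 2 with h2 | h2
    · interval_cases j
      · simp
      · rw [Nat.cast_one, one_mul, pow_one]
        rw [← ENNReal.toReal_le_toReal (hfinL L hL.le)
          (ENNReal.mul_ne_top hfin (by simp)), ENNReal.toReal_mul]
        simp only [ENNReal.toReal_inv, ENNReal.toReal_ofNat]
        rw [← hG0]; linarith
    · have hj2 : (2:ℝ) ≤ (j:ℝ) := by exact_mod_cast h2
      have hj0 : (0:ℝ) < (j:ℝ) := by linarith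
      have h3 := NN_lc hK cK hm hlc hl (s := 1 / (j:ℝ)) (l := j * L) (by positivity)
        (by rw [div_lt_one hj0]; linarith) (by positivity)
      rw [show 1 / (j:ℝ) * (j * L) = L by field_simp] at h3
      have h4 := ENNReal.toReal_mono (hfinL L hL.le) h3
      rw [ENNReal.toReal_mul, ← ENNReal.toReal_rpow, ← ENNReal.toReal_rpow, ← hG0] at h4
      have hjL : (0:ℝ) ≤ (j:ℝ) * L := by positivity
      rw [← ENNReal.toReal_le_toReal (hfinL _ hjL)
          (ENNReal.mul_ne_top hfin (by simp)), ENNReal.toReal_mul, ENNReal.toReal_pow]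
      simp only [ENNReal.toReal_inv, ENNReal.toReal_ofNat]
      rw [← hG0]
      set Gj := (NN K v h (j * L)).toReal with hGj
      have hGj0 : 0 ≤ Gj := ENNReal.toReal_nonneg
      have h5 : G0 ^ (1 - 1 / (j:ℝ)) * Gj ^ (1 / (j:ℝ)) ≤ G0 / 2 := h4.trans hcon.le
      rw [Real.rpow_sub hG0p, Real.rpow_one] at h5
      have h6 : 0 < G0 ^ (1 / (j:ℝ)) := Real.rpow_pos_of_pos hG0p _
      have h7 : Gj ^ (1 / (j:ℝ)) ≤ G0 ^ (1 / (j:ℝ)) * 2⁻¹ := by
        have h8 : G0 / G0 ^ (1 / (j:ℝ)) * Gj ^ (1 / (j:ℝ)) =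
            G0 * (Gj ^ (1 / (j:ℝ)) / G0 ^ (1 / (j:ℝ))) := by field_simp
        rw [h8] at h5
        have h9 : Gj ^ (1 / (j:ℝ)) / G0 ^ (1 / (j:ℝ)) ≤ 1 / 2 := by
          by_contra h10
          push Not at h10
          have := mul_lt_mul_of_pos_left h10 hG0p
          linarith
        rw [div_le_iff₀ h6] at h9
        linarith
      have h8 : (Gj ^ (1 / (j:ℝ))) ^ j ≤ (G0 ^ (1 / (j:ℝ)) * 2⁻¹) ^ j :=
        pow_le_pow_left₀ (Real.rpow_nonneg hGj0 _) h7 j
      rw [mul_pow, ← Real.rpow_natCast (Gj ^ (1 / (j:ℝ))) j,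
        ← Real.rpow_natCast (G0 ^ (1 / (j:ℝ))) j, ← Real.rpow_mul hGj0, ← Real.rpow_mul hG0p.le,
        one_div_mul_cancel hj0.ne', Real.rpow_one, Real.rpow_one] at h8
      exact h8
  have h1 : ENNReal.ofReal (4 * L) * NN K v h 0 ≤ ENNReal.ofReal (2 * L) * NN K v h 0 := by
    calc ENNReal.ofReal (4 * L) * NN K v h 0 ≤ ∫⁻ x, K.indicator h x := hlev
      _ ≤ ∑' j : ℕ, ENNReal.ofReal L * NN K v h (j * L) := mass_le_tsum hK cK hm hl hv hL
      _ ≤ ∑' j : ℕ, ENNReal.ofReal L * (NN K v h 0 * 2⁻¹ ^ j) :=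
          ENNReal.tsum_le_tsum fun j => by gcongr; exact hj j
      _ = ENNReal.ofReal (2 * L) * NN K v h 0 := by
          rw [ENNReal.tsum_mul_left, ENNReal.tsum_mul_left, ENNReal.tsum_geometric,
            ENNReal.one_sub_inv_two, inv_inv, ENNReal.ofReal_mul (by norm_num),
            ENNReal.ofReal_ofNat]
          ring
  have h2 := ENNReal.toReal_mono (ENNReal.mul_ne_top ENNReal.ofReal_ne_top hfin) h1
  rw [ENNReal.toReal_mul, ENNReal.toReal_mul, ENNReal.toReal_ofReal (by positivity),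
    ENNReal.toReal_ofReal (by positivity), ← hG0] at h2
  nlinarith [mul_pos hL hG0p]

end lc

section final

variable {κ : ℝ} {E : Submodule ℝ V} {v : V}

/-- the letter operator and sets which are invariant along `v` -/
lemma A_indicator_inv {K G : Set V} (hG : ∀ (x : V) (s : ℝ), x + s • v ∈ G ↔ x ∈ G) (x : V) :
    A κ E v ((K ∩ G).indicator 1) x = G.indicator (A κ E v (K.indicator 1)) x := by
  unfold A
  by_cases hx : x ∈ G
  · rw [indicator_of_mem hx]
    refine lintegral_congr fun g => ?_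
    have h1 : x + disp κ E v x g • v ∈ G := (hG _ _).2 hx
    by_cases h2 : x + disp κ E v x g • v ∈ K
    · rw [indicator_of_mem h2,
        indicator_of_mem (show x + disp κ E v x g • v ∈ K ∩ G from ⟨h2, h1⟩)]
    · rw [indicator_of_notMem h2, indicator_of_notMem fun h => h2 h.1]
  · rw [indicator_of_notMem hx]
    have : ∀ g, (K ∩ G).indicator (1 : V → ℝ≥0∞) (x + disp κ E v x g • v) = 0 := by
      intro g
      rw [indicator_of_notMem]
      intro h
      exact hx ((hG _ _).1 h.2)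
    simp [this]

lemma cross_inv (hκ : 0 ≤ κ) (hv : OK κ E v) {W : V → ℝ≥0∞} (hW : Measurable W) {K G : Set V}
    (hK : MeasurableSet K) (mG : MeasurableSet G) (hG : ∀ (x : V) (s : ℝ), x + s • v ∈ G ↔ x ∈ G) :
    cross κ E [v] W G K = mass E (A κ E v W) (K ∩ G) := by
  rw [mass_eq (hK.inter mG), A_selfAdj hκ hv hW (measurable_one.indicator (hK.inter mG))]
  unfold cross
  rw [← lintegral_indicator mG, trans_cons, trans_nil]
  refine lintegral_congr fun x => ?_
  rw [A_indicator_inv hG]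
  by_cases hx : x ∈ G
  · rw [indicator_of_mem hx, indicator_of_mem hx]
  · rw [indicator_of_notMem hx, indicator_of_notMem hx, mul_zero]

/-- short chords -/
lemma short_le {K : Set V} (hK : IsClosed K) (cK : Convex ℝ K) {h : V → ℝ≥0∞} (hm : Measurable h)
    (hl : Lip1 v h) (hv : v ≠ 0) :
    ∫⁻ x, (K ∩ {x | chordGe K v 2 x}ᶜ).indicator h x ≤
      2 * ∫⁻ x in Sl v ∩ ({x | chordGe K v 0 x} \ {x | chordGe K v 2 x}), supch K v h x := by
  have mG := measurableSet_chordGe hK v 2
  have mG0 := measurableSet_chordGe hK v 0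
  have ms := measurable_supch hK.measurableSet v hm
  rw [lintegral_slab hv (hm.indicator (hK.measurableSet.inter mG.compl)), inter_comm (Sl v),
    ← Measure.restrict_restrict (mG0.diff mG), ← lintegral_const_mul _ ms,
    ← lintegral_indicator (mG0.diff mG)]
  refine lintegral_mono fun x => ?_
  by_cases h2 : chordGe K v 2 x
  · have h3 : ∀ s : ℝ, (K ∩ {x | chordGe K v 2 x}ᶜ).indicator h (x + s • v) = 0 := by
      intro s
      rw [indicator_of_notMem]
      rintro ⟨-, h4⟩
      exact h4 ((chordGe_add K v 2 x s).2 h2)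
    simp [h3]
  · have h3 : ∀ s : ℝ, (K ∩ {x | chordGe K v 2 x}ᶜ).indicator h (x + s • v) =
        K.indicator h (x + s • v) := by
      intro s
      have h4 : x + s • v ∈ {x | chordGe K v 2 x}ᶜ := fun h5 => h2 ((chordGe_add K v 2 x s).1 h5)
      by_cases h5 : x + s • v ∈ K
      · rw [indicator_of_mem h5,
          indicator_of_mem (show x + s • v ∈ K ∩ {x | chordGe K v 2 x}ᶜ from ⟨h5, h4⟩)]
      · rw [indicator_of_notMem h5, indicator_of_notMem fun h6 => h5 h6.1]
    simp_rw [h3]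
    by_cases h0 : chordGe K v 0 x
    · rw [indicator_of_mem (show x ∈ {x | chordGe K v 0 x} \ {x | chordGe K v 2 x} from ⟨h0, h2⟩)]
      refine (chord_le hK cK hl x).trans ?_
      rw [mul_comm]
      gcongr
      refine (volume_chd_le hK cK (by norm_num) h2).trans ?_
      norm_num
    · have h5 : ∀ s : ℝ, K.indicator h (x + s • v) = 0 := by
        intro s
        rw [indicator_of_notMem]
        intro h6
        exact h0 ⟨s, h6, by rw [add_zero]; exact h6⟩
      simp [h5]

lemma outd_eq {W : V → ℝ≥0∞} (hW : Measurable W) {K : Set V} (hK : IsClosed K) :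
    cross κ E [v] W (star K v) Kᶜ = ∫⁻ x, outd κ E v W K x := by
  have mS := (isClosed_star hK v).measurableSet
  have mA : Measurable (A κ E v (Kᶜ.indicator 1)) :=
    measurable_A (measurable_one.indicator hK.measurableSet.compl)
  unfold cross
  rw [← lintegral_indicator mS, trans_cons, trans_nil,
    lintegral_mE (f := (star K v).indicator fun x => W x * A κ E v (Kᶜ.indicator 1) x)
      ((hW.mul mA).indicator mS)]
  refine lintegral_congr fun x => ?_
  unfold outd f0
  by_cases hx : x ∈ star K v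
  · rw [indicator_of_mem hx, indicator_of_mem hx, mul_assoc]
  · rw [indicator_of_notMem hx, indicator_of_notMem hx, mul_zero]

/-- **core form of the leaf**: slopes `≤ 1/32000` (absolute); the level `τ₀` only enters through the
lower bound `hline` for the mass of a line. -/
theorem leaf_core {ρ τ₀ : ℝ} (hκ : 0 < κ) (hκ1 : κ ≤ 1 / 16) (hτ : 0 < τ₀)
    (hρ : 0 ≤ ρ) (hρ1 : ρ ≤ 1 / 32000) (hv1 : ‖v‖ ≤ 1 / 16000) {W : V → ℝ≥0∞}
    (hW : Measurable W) (hfin : ∫⁻ x, W x ∂(mE E) ≠ ∞) (hWl : LogLip ρ v W)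
    (hAlc : LC (A κ E v W))
    (hline : ∀ x, ENNReal.ofReal (4000 / τ₀) * fp κ E v W x ≤ ∫⁻ s : ℝ, fp κ E v W (x + s • v))
    {K : Set V} (hK : IsClosed K) (cK : Convex ℝ K)
    (hval : ENNReal.ofReal τ₀ * mass E W univ ≤ mass E (A κ E v W) K) :
    mass E (A κ E v W) K + cross κ E [v] W (star K v)ᶜ K ≤ mass E W (star K v) := by
  have mK := hK.measurableSet
  have mS := (isClosed_star hK v).measurableSet
  have mA : Measurable (A κ E v (K.indicator 1)) := measurable_A (measurable_one.indicator mK)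
  have mA' : Measurable (A κ E v (Kᶜ.indicator 1)) :=
    measurable_A (measurable_one.indicator mK.compl)
  -- parameters
  have hPv : ‖E.starProjection v‖ ≤ 1 / 16000 := (E.norm_starProjection_apply_le v).trans hv1
  have ha : ‖E.starProjection v‖ ^ 2 ≤ (1 / 16000) ^ 2 := by gcongr
  have ha0 : 0 ≤ ‖E.starProjection v‖ ^ 2 := by positivity
  have ha1 : ‖E.starProjection v‖ ^ 2 ≤ 1 := by nlinarith
  have hκa : κ * ‖E.starProjection v‖ ^ 2 ≤ 1 := by nlinarith
  have hOK : OK κ E v := by unfold OK; linarith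
  have hOKw : OKw κ E [v] := by intro w hw; rw [List.mem_singleton.1 hw]; exact hOK
  -- masses in crossing form
  have e1 : mass E (A κ E v W) K = cross κ E [v] W (star K v) K +
      cross κ E [v] W (star K v)ᶜ K := by
    have := cross_univ_left hκ.le hOKw hW mK
    rw [evol_cons, evol_nil] at this
    rw [← this]
    unfold cross
    rw [Measure.restrict_univ, lintegral_add_compl _ mS]
  have e2 : mass E W (star K v) = cross κ E [v] W (star K v) K +
      cross κ E [v] W (star K v) Kᶜ := by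
    unfold cross mass
    simp only [trans_cons, trans_nil]
    have mWA : Measurable fun x => W x * A κ E v (K.indicator 1) x := hW.mul mA
    rw [← lintegral_add_left mWA]
    refine lintegral_congr fun x => ?_
    rw [← mul_add, ← A_add (measurable_one.indicator mK)]
    have : (fun y => K.indicator (1 : V → ℝ≥0∞) y + Kᶜ.indicator 1 y) = fun _ => 1 := by
      funext y
      by_cases hy : y ∈ K <;> simp [hy]
    rw [this, A_one, mul_one]
  suffices hmain : 2 * cross κ E [v] W (star K v)ᶜ K ≤ cross κ E [v] W (star K v) Kᶜ by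
    rw [e1, e2, add_assoc, ← two_mul]
    gcongr
  rcases eq_or_ne v 0 with hv0 | hv0
  · -- trivial letter
    subst hv0
    have : cross κ E [0] W (star K 0)ᶜ K = 0 := by
      unfold cross
      rw [star_zero, trans_cons, trans_nil]
      have hA0 : ∀ x, A κ E (0 : V) (K.indicator (1 : V → ℝ≥0∞)) x = K.indicator 1 x := by
        intro x
        unfold A
        simp
      rw [← lintegral_indicator mK.compl]
      have : ∀ x, Kᶜ.indicator (fun x => W x * A κ E (0 : V) (K.indicator (1 : V → ℝ≥0∞)) x) x = 0 := by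
        intro x
        by_cases hx : x ∈ K
        · simp [hx]
        · rw [indicator_of_mem (show x ∈ Kᶜ from hx), hA0, indicator_of_notMem hx, mul_zero]
      simp_rw [this]
      simp
    rw [this, mul_zero]
    exact zero_le
  set G := {x | chordGe K v 2 x} with hG
  have mG : MeasurableSet G := measurableSet_chordGe hK v 2
  set IN := cross κ E [v] W (star K v)ᶜ K with hIN
  set OUT := cross κ E [v] W (star K v) Kᶜ with hOUT
  have hsplit : IN ≤ cross κ E [v] W ((star K v)ᶜ ∩ G) K + cross κ E [v] W Gᶜ K := by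
    refine le_trans (cross_mono [v] ?_ subset_rfl) (cross_union_le _ _ _ _ _)
    intro x hx
    by_cases h : x ∈ G
    · exact Or.inl ⟨hx, h⟩
    · exact Or.inr h
  have hlong := long_le (E := E) hK cK hκ hκ1 hOK hρ (by linarith) hW hWl
  -- short chords
  set h := fp κ E v W with hh
  have hm : Measurable h := measurable_fp hW
  have hl : Lip1 v h := lip1_fp hκ.le hκa hρ hWl
  have hlc : LC h := (dE_lc E).mul hAlc
  have hGinv : ∀ (x : V) (s : ℝ), x + s • v ∈ Gᶜ ↔ x ∈ Gᶜ := by
    intro x s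
    exact not_congr (chordGe_add K v 2 x s)
  have hcr : cross κ E [v] W Gᶜ K = ∫⁻ x, (K ∩ Gᶜ).indicator h x := by
    rw [cross_inv hκ.le hOK hW mK mG.compl hGinv, mass_eq_fp hW (mK.inter mG.compl)]
  have hshort := short_le hK cK hm hl hv0
  rw [← hG, ← hcr] at hshort
  -- total mass
  have hmassW : mass E (A κ E v W) univ = mass E W univ := by
    rw [mass_univ, mass_univ, lintegral_A hκ.le hOK hW]
  have hmfin : mass E W univ ≠ ∞ := by rw [mass_univ]; exact hfin
  set U := 8000 / τ₀ with hU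
  have hU0 : 0 < U := by positivity
  have hUτ : U * τ₀ = 8000 := by rw [hU]; field_simp
  have hline' : ∀ x, ENNReal.ofReal (U / 2) * supch K v h x ≤ ∫⁻ s : ℝ, h (x + s • v) := by
    intro x
    unfold supch
    rw [ENNReal.mul_iSup]
    refine iSup_le fun q => ?_
    rw [← line_shift x q v]
    refine le_trans ?_ (hline (x + (q : ℝ) • v))
    rw [show U / 2 = 4000 / τ₀ by rw [hU]; ring]
    gcongr
    exact indicator_le_self' (fun _ _ => zero_le) _
  have htot : ENNReal.ofReal (U / 2) * NN K v h 0 ≤ mass E W univ := by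
    rw [← hmassW, mass_eq_fp hW MeasurableSet.univ, indicator_univ, lintegral_slab hv0 hm]
    calc ENNReal.ofReal (U / 2) * NN K v h 0 ≤
        ENNReal.ofReal (U / 2) * ∫⁻ x in Sl v, supch K v h x := by
          gcongr
          exact lintegral_mono_set inter_subset_left
      _ = ∫⁻ x in Sl v, ENNReal.ofReal (U / 2) * supch K v h x := by
          rw [lintegral_const_mul _ (measurable_supch mK v hm)]
      _ ≤ _ := lintegral_mono fun x => hline' x
  have hNfin : NN K v h 0 ≠ ∞ := by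
    intro hcon
    rw [hcon, ENNReal.mul_top (by rw [ne_eq, ENNReal.ofReal_eq_zero]; linarith)] at htot
    exact hmfin (top_le_iff.1 htot)
  have hlev : ENNReal.ofReal (4 * 1000) * NN K v h 0 ≤ ∫⁻ x, K.indicator h x := by
    calc ENNReal.ofReal (4 * 1000) * NN K v h 0 =
        ENNReal.ofReal τ₀ * (ENNReal.ofReal (U / 2) * NN K v h 0) := by
          rw [← mul_assoc, ← ENNReal.ofReal_mul hτ.le]
          congr 2
          have : τ₀ * (U / 2) = (U * τ₀) / 2 := by ring
          rw [this, hUτ]; norm_num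
      _ ≤ ENNReal.ofReal τ₀ * mass E W univ := by gcongr
      _ ≤ mass E (A κ E v W) K := hval
      _ = _ := mass_eq_fp hW mK
  have hhalf := NN_half hK cK hm hlc hl hv0 (by norm_num : (0:ℝ) < 1000) hNfin hlev
  -- Prekopa
  have hfinL : ∀ l, 0 ≤ l → NN K v h l ≠ ∞ := fun l hl' =>
    ne_top_of_le_ne_top hNfin (NN_anti cK h le_rfl hl')
  have s1 := NN_split (v := v) hK cK h (le_refl (0:ℝ)) (by norm_num : (0:ℝ) ≤ 2)
  have s2 := NN_split (v := v) hK cK h (by norm_num : (0:ℝ) ≤ 2) (by norm_num : (2:ℝ) ≤ 1000)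
  set D1 := ∫⁻ x in Sl v ∩ ({x | chordGe K v 0 x} \ {x | chordGe K v 2 x}), supch K v h x with hD1
  set D2 := ∫⁻ x in Sl v ∩ ({x | chordGe K v 2 x} \ {x | chordGe K v 1000 x}), supch K v h x
    with hD2
  have fD1 : D1 ≠ ∞ := ne_top_of_le_ne_top hNfin (by rw [s1]; exact le_add_self)
  have fD2 : D2 ≠ ∞ := ne_top_of_le_ne_top (hfinL 2 (by norm_num)) (by rw [s2]; exact le_add_self)
  have r1 : (NN K v h 0).toReal = (NN K v h 2).toReal + D1.toReal := by
    rw [s1, ENNReal.toReal_add (hfinL 2 (by norm_num)) fD1]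
  have r2 : (NN K v h 2).toReal = (NN K v h 1000).toReal + D2.toReal := by
    rw [s2, ENNReal.toReal_add (hfinL 1000 (by norm_num)) fD2]
  have hD12 : D1 ≤ ENNReal.ofReal (1 / 200) * D2 := by
    rw [← ENNReal.toReal_le_toReal fD1 (ENNReal.mul_ne_top ENNReal.ofReal_ne_top fD2),
      ENNReal.toReal_mul, ENNReal.toReal_ofReal (by norm_num)]
    have hp1 : 0 ≤ D1.toReal := ENNReal.toReal_nonneg
    have hp2 : 0 ≤ D2.toReal := ENNReal.toReal_nonneg
    rcases eq_or_lt_of_le (ENNReal.toReal_nonneg (a := NN K v h 0)) with h0 | h0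
    · have h5 : 0 ≤ (NN K v h 1000).toReal := ENNReal.toReal_nonneg
      nlinarith
    have h6 := NN_lc hK cK hm hlc hl (s := 2 / 1000) (l := 1000) (by norm_num) (by norm_num)
      (by norm_num)
    rw [show (2:ℝ) / 1000 * 1000 = 2 by norm_num] at h6
    have h7 := ENNReal.toReal_mono (hfinL 2 (by norm_num)) h6
    rw [ENNReal.toReal_mul, ← ENNReal.toReal_rpow, ← ENNReal.toReal_rpow] at h7
    have h8 := Rank1.short_real_gen (r0 := 1 / 2) h0 (by norm_num) (by linarith) (by norm_num) h7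
      (by linarith)
    have h9 : (2:ℝ) / 1000 * ((NN K v h 0).toReal - (NN K v h 1000).toReal) / (1 / 2) =
      1 / 250 * ((NN K v h 0).toReal - (NN K v h 1000).toReal) := by ring
    rw [h9] at h8
    linarith
  -- medium chords
  have hmed : ENNReal.ofReal (1 / 12) * D2 ≤ OUT := by
    rw [hOUT, outd_eq hW hK, lintegral_slab hv0 (measurable_outd hW hK)]
    have m2 := measurableSet_chordGe hK v 2
    have m3 := measurableSet_chordGe hK v 1000
    rw [hD2, inter_comm (Sl v), ← Measure.restrict_restrict (m2.diff m3),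
      ← lintegral_const_mul _ (measurable_supch mK v hm), ← lintegral_indicator (m2.diff m3)]
    refine lintegral_mono fun x => ?_
    by_cases hx : x ∈ {x | chordGe K v 2 x} \ {x | chordGe K v 1000 x}
    · rw [indicator_of_mem hx]
      exact med_ge hκ.le hκ1 (by linarith) hρ (by linarith) hW hWl hK cK hx.1 hx.2
    · rw [indicator_of_notMem hx]; exact zero_le
  have hD2 : D2 ≤ ENNReal.ofReal 12 * OUT := by
    calc D2 = ENNReal.ofReal 12 * (ENNReal.ofReal (1 / 12) * D2) := by
          rw [← mul_assoc, ← ENNReal.ofReal_mul (by norm_num)]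
          norm_num
      _ ≤ _ := by gcongr
  calc 2 * IN ≤ 2 * (cross κ E [v] W ((star K v)ᶜ ∩ G) K + cross κ E [v] W Gᶜ K) := by gcongr
    _ ≤ 2 * (ENNReal.ofReal (1 / 8) * OUT + 2 * D1) := by gcongr
    _ ≤ 2 * (ENNReal.ofReal (1 / 8) * OUT +
        2 * (ENNReal.ofReal (1 / 200) * (ENNReal.ofReal 12 * OUT))) := by
        gcongr
        exact hD12.trans (by gcongr)
    _ = ENNReal.ofReal (2 * (1 / 8 + 2 * (1 / 200 * 12))) * OUT := by
        have key : ∀ x y z : ℝ, 0 ≤ x → 0 ≤ y → 0 ≤ z → ENNReal.ofReal (2 * (x + 2 * (y * z))) =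
            2 * (ENNReal.ofReal x + 2 * (ENNReal.ofReal y * ENNReal.ofReal z)) := by
          intro x y z hx hy hz
          rw [ENNReal.ofReal_mul (p := 2) (by norm_num), ENNReal.ofReal_add hx
            (by positivity), ENNReal.ofReal_mul (p := 2) (by norm_num),
            ENNReal.ofReal_mul hy, ENNReal.ofReal_ofNat]
        rw [key (1 / 8) (1 / 200) 12 (by norm_num) (by norm_num) (by norm_num)]
        generalize ENNReal.ofReal (1 / 8) = a
        generalize ENNReal.ofReal (1 / 200) = b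
        generalize ENNReal.ofReal 12 = c
        ring
    _ ≤ 1 * OUT := by
        gcongr
        rw [← ENNReal.ofReal_one]
        apply ENNReal.ofReal_le_ofReal
        norm_num
    _ = OUT := one_mul _

/-- **the leaf (SL_W)** -/
theorem SL_leaf {ρ τ₀ : ℝ} (hκ : 0 < κ) (hκ1 : κ ≤ 1 / 16) (hτ : 0 < τ₀) (hτ1 : τ₀ ≤ 1)
    (hρ : 0 ≤ ρ) (hρ1 : ρ ≤ τ₀ / 32000) (hv1 : ‖v‖ ≤ τ₀ / 16000) : SL κ ρ 1 τ₀ E v := by
  intro W hadm K hK cK hval
  obtain ⟨⟨⟨hW, -, hfin⟩, hWl⟩, ⟨-, hAlc, -⟩⟩ := hadm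
  rw [ENNReal.ofReal_one, one_mul]
  refine leaf_core hκ hκ1 hτ hρ (by linarith) (by linarith) hW hfin hWl hAlc (fun x => ?_) hK cK hval
  have hPv : ‖E.starProjection v‖ ≤ τ₀ / 16000 := (E.norm_starProjection_apply_le v).trans hv1
  have ha : ‖E.starProjection v‖ ^ 2 ≤ (τ₀ / 16000) ^ 2 := by gcongr
  have hτ2 : τ₀ ^ 2 ≤ 1 := by nlinarith
  have ha0 : 0 ≤ ‖E.starProjection v‖ ^ 2 := by positivity
  have ha1 : ‖E.starProjection v‖ ^ 2 ≤ 1 := by nlinarith
  have hκa : κ * ‖E.starProjection v‖ ^ 2 ≤ 1 := by nlinarith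
  set U := 8000 / τ₀ with hU
  have hU0 : 0 < U := by positivity
  have hUτ : U * τ₀ = 8000 := by rw [hU]; field_simp
  have hUa : U ^ 2 * ‖E.starProjection v‖ ^ 2 / 2 + ρ * U ≤ 1 / 2 := by
    have h1 : U ^ 2 * ‖E.starProjection v‖ ^ 2 ≤ U ^ 2 * (τ₀ / 16000) ^ 2 := by gcongr
    have h2 : U ^ 2 * (τ₀ / 16000) ^ 2 = 1 / 4 := by
      have : U ^ 2 * (τ₀ / 16000) ^ 2 = (U * τ₀) ^ 2 / 16000 ^ 2 := by ring
      rw [this, hUτ]; norm_num
    have h3 : ρ * U ≤ τ₀ / 32000 * U := by gcongr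
    have h4 : τ₀ / 32000 * U = 1 / 4 := by
      have : τ₀ / 32000 * U = (U * τ₀) / 32000 := by ring
      rw [this, hUτ]; norm_num
    linarith
  have h1 := line_ge hκ.le hκa hρ hWl hU0.le hUa (univ : Set V) x
  refine le_trans ?_ h1
  rw [show U / 2 = 4000 / τ₀ by rw [hU]; ring]
  gcongr
  have := le_iSup (fun q : ℚ => (univ : Set V).indicator (fp κ E v W) (x + (q : ℝ) • v)) 0
  simpa [supch] using this

/-- semi-log-convexity along `v` (helper187 #13839) -/
def SLC (θ : ℝ) (v : V) (W : V → ℝ≥0∞) : Prop :=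
  ∀ (x : V) (s : ℝ), W x ^ 2 ≤ ENNReal.ofReal (Real.exp (θ ^ 2 * s ^ 2)) *
    (W (x + s • v) * W (x - s • v))

lemma two_mul_le_of_sq {x y z : ℝ≥0∞} {c : ℝ}
    (h : x ^ 2 ≤ ENNReal.ofReal (Real.exp (2 * c)) * (y * z)) :
    2 * x ≤ ENNReal.ofReal (Real.exp c) * (y + z) := by
  by_contra hcon
  push Not at hcon
  have h1 := ENNReal.pow_lt_pow_left two_ne_zero hcon
  have h2 : (2 * x) ^ 2 ≤ (ENNReal.ofReal (Real.exp c) * (y + z)) ^ 2 := by
    have h3 : 4 * (y * z) ≤ (y + z) ^ 2 := by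
      rcases le_total y z with hyz | hyz
      · obtain ⟨d, rfl⟩ := exists_add_of_le hyz
        calc 4 * (y * (y + d)) ≤ 4 * (y * (y + d)) + d ^ 2 := le_self_add
          _ = _ := by ring
      · obtain ⟨d, rfl⟩ := exists_add_of_le hyz
        calc 4 * ((z + d) * z) ≤ 4 * ((z + d) * z) + d ^ 2 := le_self_add
          _ = _ := by ring
    calc (2 * x) ^ 2 = 4 * x ^ 2 := by ring
      _ ≤ 4 * (ENNReal.ofReal (Real.exp (2 * c)) * (y * z)) := by gcongr
      _ = ENNReal.ofReal (Real.exp (2 * c)) * (4 * (y * z)) := by ring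
      _ ≤ ENNReal.ofReal (Real.exp (2 * c)) * (y + z) ^ 2 := by gcongr
      _ = _ := by
        rw [mul_pow, ← ENNReal.ofReal_pow (Real.exp_pos _).le, ← Real.exp_nat_mul]
        norm_num
  exact absurd h2 (not_le.2 h1)

/-- the mass of a line from semi-log-convexity -/
lemma line_ge_slc {θ U : ℝ} (_hU : 0 ≤ U) {W : V → ℝ≥0∞} (hW : Measurable W)
    (hUa : (θ ^ 2 + ‖E.starProjection v‖ ^ 2) * U ^ 2 ≤ 1) (hS : SLC θ v (A κ E v W)) (x : V) :
    ENNReal.ofReal U * fp κ E v W x ≤ ∫⁻ s : ℝ, fp κ E v W (x + s • v) := by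
  have hm : Measurable (fp κ E v W) := measurable_fp hW
  set a := ‖E.starProjection v‖ ^ 2 with ha
  have ha0 : 0 ≤ a := by positivity
  have hpt : ∀ s ∈ Icc 0 U, fp κ E v W x ≤ fp κ E v W (x + s • v) + fp κ E v W (x + (-s) • v) := by
    intro s hs
    have h1 : (fp κ E v W x) ^ 2 ≤ ENNReal.ofReal (Real.exp (2 * ((θ ^ 2 + a) * s ^ 2 / 2))) *
        (fp κ E v W (x + s • v) * fp κ E v W (x + (-s) • v)) := by
      unfold fp
      have h2 := hS x s
      have e1 : x - s • v = x + (-s) • v := by module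
      rw [e1] at h2
      have h3 : (dE E x) ^ 2 = ENNReal.ofReal (Real.exp (s ^ 2 * a)) *
          (dE E (x + s • v) * dE E (x + (-s) • v)) := by
        rw [dE_add, dE_add, ← ha]
        have e2 : ∀ p q r : ℝ, p + q + r = 0 → ENNReal.ofReal (Real.exp p) *
            (ENNReal.ofReal (Real.exp q) * dE E x * (ENNReal.ofReal (Real.exp r) * dE E x)) =
            (dE E x) ^ 2 := by
          intro p q r hpqr
          have : ENNReal.ofReal (Real.exp p) * (ENNReal.ofReal (Real.exp q) *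
              ENNReal.ofReal (Real.exp r)) = 1 := by
            rw [← ENNReal.ofReal_mul (Real.exp_pos _).le, ← ENNReal.ofReal_mul (Real.exp_pos _).le,
              ← Real.exp_add, ← Real.exp_add, ← add_assoc, hpqr, Real.exp_zero, ENNReal.ofReal_one]
          calc _ = (ENNReal.ofReal (Real.exp p) * (ENNReal.ofReal (Real.exp q) *
              ENNReal.ofReal (Real.exp r))) * dE E x ^ 2 := by ring
            _ = _ := by rw [this, one_mul]
        rw [e2]
        ring
      rw [mul_pow, h3]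
      calc ENNReal.ofReal (Real.exp (s ^ 2 * a)) * (dE E (x + s • v) * dE E (x + (-s) • v)) *
            A κ E v W x ^ 2 ≤ ENNReal.ofReal (Real.exp (s ^ 2 * a)) *
            (dE E (x + s • v) * dE E (x + (-s) • v)) *
            (ENNReal.ofReal (Real.exp (θ ^ 2 * s ^ 2)) *
              (A κ E v W (x + s • v) * A κ E v W (x + (-s) • v))) := by gcongr
        _ = (ENNReal.ofReal (Real.exp (s ^ 2 * a)) * ENNReal.ofReal (Real.exp (θ ^ 2 * s ^ 2))) *
            (dE E (x + s • v) * A κ E v W (x + s • v) *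
              (dE E (x + (-s) • v) * A κ E v W (x + (-s) • v))) := by ring
        _ = _ := by
            rw [← ENNReal.ofReal_mul (Real.exp_pos _).le, ← Real.exp_add]
            congr 3
            ring
    have h4 := two_mul_le_of_sq h1
    have h5 : Real.exp ((θ ^ 2 + a) * s ^ 2 / 2) ≤ 2 := by
      apply exp_le_of_le_half
      have h6 : s ^ 2 ≤ U ^ 2 := pow_le_pow_left₀ hs.1 hs.2 2
      have h7 : (θ ^ 2 + a) * s ^ 2 ≤ (θ ^ 2 + a) * U ^ 2 := by gcongr
      linarith
    have h6 : 2 * fp κ E v W x ≤ 2 * (fp κ E v W (x + s • v) + fp κ E v W (x + (-s) • v)) := by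
      refine h4.trans ?_
      gcongr
      rw [← ENNReal.ofReal_ofNat]
      exact ENNReal.ofReal_le_ofReal h5
    rwa [ENNReal.mul_le_mul_iff_right (by norm_num) (by norm_num)] at h6
  have hmn : Measurable fun s : ℝ => fp κ E v W (x + s • v) := hm.comp (by fun_prop)
  calc ENNReal.ofReal U * fp κ E v W x = ∫⁻ _ in Icc 0 U, fp κ E v W x := by
        rw [setLIntegral_const, Real.volume_Icc, sub_zero, mul_comm]
    _ ≤ ∫⁻ s in Icc 0 U, (fp κ E v W (x + s • v) + fp κ E v W (x + (-s) • v)) :=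
        setLIntegral_mono' measurableSet_Icc hpt
    _ = (∫⁻ s in Icc 0 U, fp κ E v W (x + s • v)) +
        ∫⁻ s in Icc 0 U, fp κ E v W (x + (-s) • v) := lintegral_add_left hmn _
    _ ≤ (∫⁻ s : ℝ in Ioi 0, fp κ E v W (x + s • v)) +
        ∫⁻ s : ℝ in Iic 0, fp κ E v W (x + s • v) := by
        have e1 : ∫⁻ s in Icc 0 U, fp κ E v W (x + (-s) • v) =
            ∫⁻ s in Icc (-U) 0, fp κ E v W (x + s • v) := by
          have h1 := (Measure.measurePreserving_neg (volume : Measure ℝ)).setLIntegral_comp_preimage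
            (measurableSet_Icc (a := -U) (b := 0)) hmn
          rw [← h1]
          congr 2
          ext s
          simp only [mem_preimage, mem_Icc]
          constructor
          · rintro ⟨h2, h3⟩; constructor <;> linarith
          · rintro ⟨h2, h3⟩; constructor <;> linarith
        rw [e1, setLIntegral_congr (Ioc_ae_eq_Icc (a := (0:ℝ)) (b := U)).symm]
        gcongr
        · exact Ioc_subset_Ioi_self
        · exact Icc_subset_Iic_self
    _ = _ := by
        have e2 := lintegral_add_compl (μ := (volume : Measure ℝ))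
          (fun s : ℝ => fp κ E v W (x + s • v)) (measurableSet_Iic (a := (0:ℝ)))
        rw [compl_Iic] at e2
        rw [add_comm, e2]

/-- **the leaf with absolute slopes** (class of helper187 #13839) -/
theorem leaf_slc {ρ θ τ₀ : ℝ} (hκ : 0 < κ) (hκ1 : κ ≤ 1 / 16) (hτ : 0 < τ₀) (hτ1 : τ₀ ≤ 1)
    (hρ : 0 ≤ ρ) (hρ1 : ρ ≤ 1 / 32000) (hθ : 0 ≤ θ) (hθ1 : θ ≤ τ₀ / 8000)
    (hv1 : ‖v‖ ≤ τ₀ / 16000) {W : V → ℝ≥0∞}
    (hW : Measurable W) (hfin : ∫⁻ x, W x ∂(mE E) ≠ ∞) (hWl : LogLip ρ v W)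
    (hAlc : LC (A κ E v W)) (hS : SLC θ v (A κ E v W))
    {K : Set V} (hK : IsClosed K) (cK : Convex ℝ K)
    (hval : ENNReal.ofReal τ₀ * mass E W univ ≤ mass E (A κ E v W) K) :
    mass E (A κ E v W) K + cross κ E [v] W (star K v)ᶜ K ≤ mass E W (star K v) := by
  refine leaf_core hκ hκ1 hτ hρ hρ1 (by linarith) hW hfin hWl hAlc (fun x => ?_) hK cK hval
  refine line_ge_slc (θ := θ) (by positivity) hW ?_ hS x
  have hPv : ‖E.starProjection v‖ ≤ τ₀ / 16000 := (E.norm_starProjection_apply_le v).trans hv1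
  have ha : ‖E.starProjection v‖ ^ 2 ≤ (τ₀ / 16000) ^ 2 := by gcongr
  have hθ2 : θ ^ 2 ≤ (τ₀ / 8000) ^ 2 := by gcongr
  have hU : (4000 / τ₀) ^ 2 * τ₀ ^ 2 = 4000 ^ 2 := by field_simp
  have h1 : (θ ^ 2 + ‖E.starProjection v‖ ^ 2) * (4000 / τ₀) ^ 2 ≤
      ((τ₀ / 8000) ^ 2 + (τ₀ / 16000) ^ 2) * (4000 / τ₀) ^ 2 := by gcongr
  have h2 : ((τ₀ / 8000) ^ 2 + (τ₀ / 16000) ^ 2) * (4000 / τ₀) ^ 2 = 5 / 16 := by
    have : ((τ₀ / 8000) ^ 2 + (τ₀ / 16000) ^ 2) * (4000 / τ₀) ^ 2 =
      (1 / 8000 ^ 2 + 1 / 16000 ^ 2) * ((4000 / τ₀) ^ 2 * τ₀ ^ 2) := by ring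
    rw [this, hU]; norm_num
  linarith

end final

end Chain

end Crest.Agent.R239
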