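import Crest.Agent.R239.Gau5

/-!
# R239 : Lemma G of #11342 / #11481 (helper462)

One dimensional gain lemma.  `m t = μ {V ≥ t}` antitone, `[0,1]`-valued and Ehrhard concave,
`∫ m dγ ≥ 1/2 - θ`, `θ ≤ d/80`.  Then
`∫_{t<0} c₁ e^{c₁ t} (m t - m l) dt ≤ (3/(d c₁) + 2/(Φ(l+2d) - Φ(l))) (m(-d) - ∫ m dγ)`.
-/

set_option autoImplicit false
set_option linter.unusedSectionVars false

open MeasureTheory ProbabilityTheory Set Filter Topology

namespace Crest.Agent.R239.G462

open Crest.Agent.Lib.Ehrhard Crest.Agent.R239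

/-- supporting line of `Ψ ∘ m` at `s0`. -/
theorem support_line {m : ℝ → ℝ} (hm : Antitone m) (h0 : ∀ t, 0 ≤ m t)
    (hE : ∀ s t a b l : ℝ, 0 ≤ l → l ≤ 1 → Phi a ≤ m s → Phi b ≤ m t →
      Phi ((1 - l) * a + l * b) ≤ m ((1 - l) * s + l * t))
    {s0 t2 : ℝ} (ht2 : s0 < t2) (hm2' : 0 < m t2) (hm1 : m s0 < 1) :
    ∃ k : ℝ, 0 ≤ k ∧ ∀ t, m t ≤ Phi (Psi (m s0) - k * (t - s0)) := by
  have hmp : 0 < m s0 := hm2'.trans_le (hm ht2.le)
  have hleft : ∀ t < s0, m t < 1 := by
    intro t ht
    by_contra hge
    rw [not_lt] at hge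
    set l := (s0 - t) / (t2 - t) with hl
    have hpos : 0 < t2 - t := by linarith
    have hl0 : 0 ≤ l := div_nonneg (by linarith) hpos.le
    have hl1 : l < 1 := by rw [hl, div_lt_one hpos]; linarith
    have hcomb : (1 - l) * t + l * t2 = s0 := by
      rw [hl]; field_simp; ring
    have hall : ∀ a : ℝ, Phi ((1 - l) * a + l * Psi (m t2)) ≤ m s0 := by
      intro a
      have := hE t t2 a (Psi (m t2)) l hl0 hl1.le ((Phi_lt_one a).le.trans hge)
        (by rw [Phi_Psi hm2' ((hm ht2.le).trans_lt hm1)])
      rwa [hcomb] at this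
    have hlim : Tendsto (fun a => Phi ((1 - l) * a + l * Psi (m t2))) atTop (𝓝 1) := by
      refine tendsto_Phi_atTop.comp ?_
      exact tendsto_atTop_add_const_right _ _ (tendsto_id.const_mul_atTop (by linarith))
    exact absurd (le_of_tendsto' hlim hall) (not_le.2 hm1)
  set G := Psi (m s0) with hG
  have hPG : Phi G = m s0 := Phi_Psi hmp hm1
  have sec : ∀ t1 < s0, ∀ t > s0, 0 < m t →
      (Psi (m t1) - G) / (s0 - t1) ≤ (G - Psi (m t)) / (t - s0) := by
    intro t1 ht1 t ht hmt
    have hpos : 0 < t - t1 := by linarith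
    set l := (s0 - t1) / (t - t1) with hl
    have hl0 : 0 ≤ l := div_nonneg (by linarith) hpos.le
    have hl1 : l ≤ 1 := by rw [hl, div_le_one hpos]; linarith
    have hcomb : (1 - l) * t1 + l * t = s0 := by
      rw [hl]; field_simp; ring
    have h5 := hE t1 t (Psi (m t1)) (Psi (m t)) l hl0 hl1
      (by rw [Phi_Psi (hmp.trans_le (hm ht1.le)) (hleft t1 ht1)])
      (by rw [Phi_Psi hmt ((hm ht.le).trans_lt hm1)])
    rw [hcomb, ← hPG, strictMono_Phi.le_iff_le] at h5
    rw [div_le_div_iff₀ (by linarith) (by linarith)]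
    have e6 : l * (t - t1) = s0 - t1 := by rw [hl]; field_simp
    have e7 : (1 - l) * (t - t1) = t - s0 := by linarith
    have h6 := mul_le_mul_of_nonneg_right h5 hpos.le
    have h7 : ((1 - l) * Psi (m t1) + l * Psi (m t)) * (t - t1)
        = (t - s0) * Psi (m t1) + (s0 - t1) * Psi (m t) := by
      rw [← e7, ← e6]
      ring
    rw [h7] at h6
    nlinarith
  set S : Set ℝ := (fun t1 => (Psi (m t1) - G) / (s0 - t1)) '' Iio s0 with hS
  have hSne : S.Nonempty := ⟨_, s0 - 1, by simp, rfl⟩
  have hSb : BddAbove S := by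
    refine ⟨(G - Psi (m t2)) / (t2 - s0), ?_⟩
    rintro _ ⟨t1, ht1, rfl⟩
    exact sec t1 ht1 t2 ht2 hm2'
  set k := sSup S with hk
  have hk0 : 0 ≤ k := by
    have h6 : (Psi (m (s0 - 1)) - G) / (s0 - (s0 - 1)) ≤ k := le_csSup hSb ⟨s0 - 1, by simp, rfl⟩
    refine le_trans (div_nonneg ?_ (by linarith)) h6
    have h7 : m s0 ≤ m (s0 - 1) := hm (by linarith)
    have h8 : G ≤ Psi (m (s0 - 1)) := by
      rw [le_Psi_iff (hmp.trans_le h7) (hleft _ (by linarith)), hPG]
      exact h7
    linarith
  refine ⟨k, hk0, ?_⟩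
  intro t
  rcases lt_trichotomy t s0 with ht | ht | ht
  · have h6 : (Psi (m t) - G) / (s0 - t) ≤ k := le_csSup hSb ⟨t, ht, rfl⟩
    rw [div_le_iff₀ (by linarith)] at h6
    rw [← Phi_Psi (hmp.trans_le (hm ht.le)) (hleft t ht)]
    exact strictMono_Phi.monotone (by linarith)
  · rw [ht, ← hPG]
    exact strictMono_Phi.monotone (by linarith)
  · rcases eq_or_lt_of_le (h0 t) with hz' | hz'
    · rw [← hz']
      exact Phi_nonneg _
    · have h6 : k ≤ (G - Psi (m t)) / (t - s0) := by
        refine csSup_le hSne ?_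
        rintro _ ⟨t1, ht1, rfl⟩
        exact sec t1 ht1 t ht hz'
      rw [le_div_iff₀ (by linarith)] at h6
      rw [← Phi_Psi hz' ((hm ht.le).trans_lt hm1)]
      exact strictMono_Phi.monotone (by linarith)

lemma Phi_zero : Phi 0 = 1 / 2 := by
  have := Phi_neg 0
  rw [neg_zero] at this
  linarith

lemma phi_anti {x y : ℝ} (h : |x| ≤ |y|) : phi y ≤ phi x := by
  unfold phi
  have h2 : x ^ 2 ≤ y ^ 2 := sq_le_sq.2 h
  have : Real.exp (-y ^ 2 / 2) ≤ Real.exp (-x ^ 2 / 2) := Real.exp_le_exp.2 (by linarith)
  exact mul_le_mul_of_nonneg_left this (by positivity)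

lemma phi_zero_le : phi 0 ≤ 2 / 5 := by
  unfold phi
  simp only [ne_eq, OfNat.ofNat_ne_zero, not_false_eq_true, zero_pow, neg_zero, zero_div,
    Real.exp_zero, mul_one]
  rw [inv_le_comm₀ (by positivity) (by norm_num)]
  apply Real.le_sqrt_of_sq_le
  have := Real.pi_gt_d2
  norm_num
  linarith

lemma le_c0 : (39 : ℝ) / 100 ≤ (Real.sqrt (2 * Real.pi))⁻¹ := by
  rw [le_inv_comm₀ (by norm_num) (by positivity)]
  apply Real.sqrt_le_iff.2
  have := Real.pi_lt_d2
  constructor
  · norm_num
  · norm_num
    linarith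

/-- `φ(x) ≥ .35` for `|x| ≤ 1/4` -/
lemma phi_ge {x : ℝ} (hx : |x| ≤ 1 / 4) : (35 : ℝ) / 100 ≤ phi x := by
  unfold phi
  have h1 : x ^ 2 ≤ (1 / 4) ^ 2 := sq_le_sq' (by linarith [(abs_le.1 hx).1]) (abs_le.1 hx).2
  have h2 : (1:ℝ) - 1 / 32 ≤ Real.exp (-x ^ 2 / 2) := by
    have := Real.add_one_le_exp (-x ^ 2 / 2)
    nlinarith
  have h3 := le_c0
  nlinarith

lemma phi_quarter {x p : ℝ} (hx : |x| ≤ 1 / 4) : (9 : ℝ) / 10 * phi p ≤ phi x := by
  unfold phi
  have h1 : x ^ 2 ≤ (1 / 4) ^ 2 := sq_le_sq' (by linarith [(abs_le.1 hx).1]) (abs_le.1 hx).2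
  have h2 : (1:ℝ) - 1 / 32 ≤ Real.exp (-x ^ 2 / 2) := by
    have := Real.add_one_le_exp (-x ^ 2 / 2)
    nlinarith
  have h4 : Real.exp (-p ^ 2 / 2) ≤ 1 := Real.exp_le_one_iff.2 (by nlinarith [sq_nonneg p])
  have hc : 0 < (Real.sqrt (2 * Real.pi))⁻¹ := by positivity
  nlinarith

lemma Phi_sub_ge {a b K : ℝ} (hab : a ≤ b) (h : ∀ x ∈ Icc a b, K ≤ phi x) :
    K * (b - a) ≤ Phi b - Phi a := by
  refine (convex_Icc a b).mul_sub_le_image_sub_of_le_deriv continuous_Phi.continuousOn
    (fun x _ => (hasDerivAt_Phi x).differentiableAt.differentiableWithinAt) ?_ a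
    (left_mem_Icc.2 hab) b (right_mem_Icc.2 hab) hab
  intro x hx
  rw [(hasDerivAt_Phi x).deriv]
  exact h x (interior_subset hx)

lemma Phi_sub_le {a b K : ℝ} (hab : a ≤ b) (h : ∀ x ∈ Icc a b, phi x ≤ K) :
    Phi b - Phi a ≤ K * (b - a) := by
  refine (convex_Icc a b).image_sub_le_mul_sub_of_deriv_le continuous_Phi.continuousOn
    (fun x _ => (hasDerivAt_Phi x).differentiableAt.differentiableWithinAt) ?_ a
    (left_mem_Icc.2 hab) b (right_mem_Icc.2 hab) hab
  intro x hx
  rw [(hasDerivAt_Phi x).deriv]
  exact h x (interior_subset hx)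

/-- `φ` is 1-Lipschitz -/
lemma phi_lip (x y : ℝ) : phi x - phi y ≤ |x - y| := by
  have h : ∀ x : ℝ, ‖deriv phi x‖ ≤ 1 := by
    intro x
    rw [(hasDerivAt_phi x).deriv, Real.norm_eq_abs, abs_mul, abs_neg,
      abs_of_nonneg (phi_nonneg x)]
    exact abs_mul_phi_le x
  have h2 := Convex.norm_image_sub_le_of_norm_deriv_le (f := phi) (s := univ) (C := 1)
    (fun x _ => (hasDerivAt_phi x).differentiableAt) (fun x _ => h x) convex_univ
    (mem_univ y) (mem_univ x)
  rw [one_mul, Real.norm_eq_abs, Real.norm_eq_abs] at h2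
  exact (le_abs_self _).trans h2

lemma tendsto_phi_atBot' : Tendsto phi atBot (𝓝 0) := by
  have h : ∀ x : ℝ, x < 0 → phi x ≤ 1 / |x| := by
    intro x hx
    rw [le_div_iff₀ (abs_pos.2 hx.ne)]
    linarith [abs_mul_phi_le x]
  have h1 : Tendsto (fun x : ℝ => 1 / |x|) atBot (𝓝 0) := by
    have h2 := (tendsto_abs_atBot_atTop (G := ℝ)).inv_tendsto_atTop
    refine h2.congr fun x => ?_
    simp
  refine squeeze_zero' (Eventually.of_forall fun x => phi_nonneg x) ?_ h1
  filter_upwards [eventually_lt_atBot 0] with x hx using h x hx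

/-- second difference of `Φ` -/
lemma Phi_second {p x : ℝ} (hx : 0 ≤ x) :
    Phi (p + x) + Phi (p - x) - 2 * Phi p ≤ 2 * max (-p) 0 * x := by
  have hd : ∀ y : ℝ, HasDerivAt (fun y => Phi (p + y) + Phi (p - y)) (phi (p + y) - phi (p - y)) y := by
    intro y
    have h1 : HasDerivAt (fun y => Phi (p + y)) (phi (p + y)) y :=
      (hasDerivAt_Phi (p + y)).comp_const_add p y
    have h2 : HasDerivAt (fun y => Phi (p - y)) (-phi (p - y)) y :=
      (hasDerivAt_Phi (p - y)).comp_const_sub p y
    exact h1.add h2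
  have h := (convex_Icc 0 x).image_sub_le_mul_sub_of_deriv_le
    (f := fun y => Phi (p + y) + Phi (p - y)) (C := 2 * max (-p) 0)
    (fun y _ => (hd y).continuousAt.continuousWithinAt)
    (fun y _ => (hd y).differentiableAt.differentiableWithinAt) ?_ 0
    (left_mem_Icc.2 hx) x (right_mem_Icc.2 hx) hx
  · simp only [add_zero, sub_zero] at h
    linarith
  · intro y hy
    have hy0 : 0 ≤ y := (interior_subset hy).1
    rw [(hd y).deriv]
    rcases le_total 0 p with hp | hp
    · have : phi (p + y) ≤ phi (p - y) := by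
        apply phi_anti
        rw [abs_of_nonneg (by linarith : 0 ≤ p + y), abs_le]
        constructor <;> linarith
      have h0 : 0 ≤ max (-p) 0 := le_max_right _ _
      linarith
    · rw [max_eq_left (by linarith)]
      have h3 := phi_lip (p + y) (-(p - y))
      rw [phi_neg] at h3
      have : |p + y - -(p - y)| = 2 * -p := by
        rw [show p + y - -(p - y) = 2 * p by ring, abs_mul, abs_of_nonpos hp]
        norm_num
      rw [this] at h3
      exact h3

/-- pairing `t ↔ -2d - t` -/
theorem pairing {m : ℝ → ℝ} (hm : Antitone m) (h0 : ∀ t, 0 ≤ m t) (h1 : ∀ t, m t ≤ 1)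
    {d l p k : ℝ} (hd : 0 < d) (hk : 0 ≤ k) (hl : -d ≤ l) (hp : Phi p = m (-d))
    (hb : ∀ t, m t ≤ Phi (p - k * (t + d))) :
    (m (-d) - m l) * (Phi (l + 2 * d) - Phi l) ≤
      (m (-d) - ∫ t, m t ∂(gaussianReal 0 1)) + 4 / 5 * max (-p) 0 * k := by
  set D : ℝ := max (-p) 0 with hD
  have hD0 : 0 ≤ D := le_max_right _ _
  set u : ℝ → ℝ := fun t => m (-d) - m t with hu
  have hmeas : Measurable u := measurable_const.sub hm.measurable
  have hub : ∀ t, |u t| ≤ 1 := by
    intro t
    rw [abs_le]
    constructor <;> simp only [hu] <;> linarith [h0 t, h1 t, h0 (-d), h1 (-d)]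
  have hint : Integrable m (gaussianReal 0 1) := by
    refine Integrable.of_bound (hm.measurable.aestronglyMeasurable) 1 (Eventually.of_forall fun t => ?_)
    rw [Real.norm_of_nonneg (h0 t)]
    exact h1 t
  have hgi : Integrable (fun t => phi t * u t) := by
    refine Integrable.mono' integrable_phi
      (continuous_phi.measurable.mul hmeas).aestronglyMeasurable (Eventually.of_forall fun t => ?_)
    rw [Real.norm_eq_abs, abs_mul, abs_of_nonneg (phi_nonneg t)]
    nlinarith [hub t, phi_nonneg t, abs_nonneg (u t)]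
  have e1 : m (-d) - ∫ t, m t ∂(gaussianReal 0 1) = ∫ t, phi t * u t := by
    have e2 : ∫ t, u t ∂(gaussianReal 0 1) = m (-d) - ∫ t, m t ∂(gaussianReal 0 1) := by
      simp only [hu]
      rw [integral_sub (integrable_const _) hint]
      simp
    rw [← e2, integral_gaussianReal_eq_integral_smul one_ne_zero]
    refine integral_congr_ae (Eventually.of_forall fun t => ?_)
    simp only [smul_eq_mul]
    rw [← phi_eq]
  have e3 : ∫ t, phi t * u t = (∫ t in Iic (-d), phi t * u t) + ∫ t in Ioi (-d), phi t * u t := by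
    rw [← integral_add_compl (measurableSet_Iic (a := -d)) hgi, compl_Iic]
  have hmp : MeasurePreserving (fun t : ℝ => -2 * d - t) volume volume :=
    Measure.measurePreserving_sub_left volume (-2 * d)
  have hme : MeasurableEmbedding (fun t : ℝ => -2 * d - t) :=
    (MeasurableEquiv.subLeft (-2 * d)).measurableEmbedding
  have hpre : (fun t : ℝ => -2 * d - t) ⁻¹' (Iic (-d)) = Ici (-d) := by
    ext t
    simp only [mem_preimage, mem_Iic, mem_Ici]
    constructor <;> intro h <;> linarith
  have e4 : ∫ t in Iic (-d), phi t * u t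
      = ∫ t in Ioi (-d), phi (-2 * d - t) * u (-2 * d - t) := by
    rw [← hmp.setIntegral_preimage_emb hme (fun t => phi t * u t) (Iic (-d)), hpre,
      integral_Ici_eq_integral_Ioi]
  have hgi2 : Integrable (fun t => phi (-2 * d - t) * u (-2 * d - t)) :=
    hmp.integrable_comp_of_integrable hgi
  have e5 : m (-d) - ∫ t, m t ∂(gaussianReal 0 1)
      = ∫ t in Ioi (-d), (phi (-2 * d - t) * u (-2 * d - t) + phi t * u t) := by
    rw [e1, e3, e4, integral_add hgi2.integrableOn hgi.integrableOn]
  -- the two explicit integrals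
  have hA : ∀ t ∈ Ici l, HasDerivAt (fun t => Phi t - Phi (t + 2 * d)) (phi t - phi (t + 2 * d)) t := by
    intro t _
    exact (hasDerivAt_Phi t).sub ((hasDerivAt_Phi (t + 2 * d)).comp_add_const t (2 * d))
  have hApos : ∀ t ∈ Ioi l, 0 ≤ phi t - phi (t + 2 * d) := by
    intro t ht
    have ht' : l < t := ht
    have : phi (t + 2 * d) ≤ phi t := by
      apply phi_anti
      rw [abs_of_nonneg (by linarith : 0 ≤ t + 2 * d), abs_le]
      constructor <;> linarith
    linarith
  have hAlim : Tendsto (fun t => Phi t - Phi (t + 2 * d)) atTop (𝓝 0) := by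
    have h := tendsto_Phi_atTop.sub (tendsto_Phi_atTop.comp
      (tendsto_atTop_add_const_right atTop (2 * d) tendsto_id))
    simpa using h
  have hAint := integrableOn_Ioi_deriv_of_nonneg' hA hApos hAlim
  have hAval := integral_Ioi_of_hasDerivAt_of_nonneg' hA hApos hAlim
  have hB : ∀ t ∈ Ici (-d), HasDerivAt (fun t => -phi (t + 2 * d)) ((t + 2 * d) * phi (t + 2 * d)) t := by
    intro t _
    have h9 := ((hasDerivAt_phi (t + 2 * d)).comp_add_const t (2 * d)).neg
    have e : (t + 2 * d) * phi (t + 2 * d) = -(-(t + 2 * d) * phi (t + 2 * d)) := by ring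
    rw [e]
    exact h9
  have hBpos : ∀ t ∈ Ioi (-d), 0 ≤ (t + 2 * d) * phi (t + 2 * d) := by
    intro t ht
    have ht' : -d < t := ht
    exact mul_nonneg (by linarith) (phi_nonneg _)
  have hBlim : Tendsto (fun t => -phi (t + 2 * d)) atTop (𝓝 0) := by
    have h : Tendsto phi atTop (𝓝 0) := by
      have h2 := tendsto_phi_atBot'.comp tendsto_neg_atTop_atBot
      refine h2.congr fun t => ?_
      simp [phi_neg]
    have h3 := (h.comp (tendsto_atTop_add_const_right atTop (2 * d) tendsto_id)).neg
    simpa using h3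
  have hBint := integrableOn_Ioi_deriv_of_nonneg' hB hBpos hBlim
  have hBval := integral_Ioi_of_hasDerivAt_of_nonneg' hB hBpos hBlim
  -- comparison
  have hcmp : ∫ t in Ioi (-d), ((Ioi l).indicator (fun t => u l * (phi t - phi (t + 2 * d))) t
      - 2 * D * k * ((t + 2 * d) * phi (t + 2 * d)))
      ≤ ∫ t in Ioi (-d), (phi (-2 * d - t) * u (-2 * d - t) + phi t * u t) := by
    refine setIntegral_mono_on ?_ (hgi2.integrableOn.add hgi.integrableOn) measurableSet_Ioi ?_
    · refine Integrable.sub ?_ (hBint.const_mul _)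
      have h5 : IntegrableOn (fun t => u l * (phi t - phi (t + 2 * d))) (Ioi l) := hAint.const_mul _
      exact (h5.integrable_indicator measurableSet_Ioi).integrableOn
    · intro t ht
      have ht' : -d < t := ht
      have hs : 0 < t + d := by linarith
      have eneg : phi (-2 * d - t) = phi (t + 2 * d) := by
        rw [← phi_neg]; ring_nf
      have hpp : 0 ≤ phi (t + 2 * d) := phi_nonneg _
      have hle : phi (t + 2 * d) ≤ phi t := by
        apply phi_anti
        rw [abs_of_nonneg (by linarith : 0 ≤ t + 2 * d), abs_le]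
        constructor <;> linarith
      have hut : 0 ≤ u t := by
        simp only [hu]
        linarith [hm ht'.le]
      have h2 := Phi_second (p := p) (x := k * (t + d)) (by positivity)
      have h3 := hb t
      have h4 := hb (-2 * d - t)
      have e6 : p - k * (-2 * d - t + d) = p + k * (t + d) := by ring
      rw [e6] at h4
      have h5 : -(2 * D * (k * (t + d))) ≤ u t + u (-2 * d - t) := by
        simp only [hu]
        linarith
      rw [eneg]
      have h6 : (Ioi l).indicator (fun t => u l * (phi t - phi (t + 2 * d))) t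
          ≤ u t * (phi t - phi (t + 2 * d)) := by
        by_cases htl : t ∈ Ioi l
        · rw [indicator_of_mem htl]
          refine mul_le_mul_of_nonneg_right ?_ (by linarith)
          simp only [hu]
          have htl' : l < t := htl
          linarith [hm htl'.le]
        · rw [indicator_of_notMem htl]
          exact mul_nonneg hut (by linarith)
      have h7 : 2 * D * k * ((t + d) * phi (t + 2 * d))
          ≤ 2 * D * k * ((t + 2 * d) * phi (t + 2 * d)) := by
        refine mul_le_mul_of_nonneg_left ?_ (by positivity)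
        exact mul_le_mul_of_nonneg_right (by linarith) hpp
      nlinarith [mul_le_mul_of_nonneg_right h5 hpp]
  have hval : ∫ t in Ioi (-d), ((Ioi l).indicator (fun t => u l * (phi t - phi (t + 2 * d))) t
      - 2 * D * k * ((t + 2 * d) * phi (t + 2 * d)))
      = u l * (Phi (l + 2 * d) - Phi l) - 2 * D * k * phi d := by
    have h5 : IntegrableOn (fun t => u l * (phi t - phi (t + 2 * d))) (Ioi l) := hAint.const_mul _
    rw [integral_sub ((h5.integrable_indicator measurableSet_Ioi).integrableOn)
      (hBint.const_mul _), integral_const_mul, hBval, setIntegral_indicator measurableSet_Ioi,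
      Ioi_inter_Ioi, sup_of_le_right hl, integral_const_mul, hAval]
    have : -d + 2 * d = d := by ring
    rw [this]
    ring
  rw [hval, ← e5] at hcmp
  have hphid : phi d ≤ 2 / 5 := by
    refine le_trans (phi_anti ?_) phi_zero_le
    simp
  have : 2 * D * k * phi d ≤ 2 * D * k * (2 / 5) :=
    mul_le_mul_of_nonneg_left hphid (by positivity)
  simp only [hu] at hcmp
  linarith

set_option maxHeartbeats 2000000 in
/-- **Lemma G** (one dimensional form). -/
theorem lemG {m : ℝ → ℝ} (hm : Antitone m) (h0 : ∀ t, 0 ≤ m t) (h1 : ∀ t, m t ≤ 1)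
    (hE : ∀ s t a b l : ℝ, 0 ≤ l → l ≤ 1 → Phi a ≤ m s → Phi b ≤ m t →
      Phi ((1 - l) * a + l * b) ≤ m ((1 - l) * s + l * t))
    {d c1 l θ : ℝ} (hd : 0 < d) (hd1 : d ≤ 1) (hc1 : 0 < c1) (hl : 0 ≤ l) (hθ : θ ≤ d / 80)
    (hp : 1 / 2 - θ ≤ ∫ t, m t ∂(gaussianReal 0 1)) :
    ∫ t in Iic 0, c1 * Real.exp (c1 * t) * (m t - m l) ≤
      (5 / (d * c1) + 2 / (Phi (l + 2 * d) - Phi l)) *
        (m (-d) - ∫ t, m t ∂(gaussianReal 0 1)) := by
  have hint : Integrable m (gaussianReal 0 1) := by
    refine Integrable.of_bound (hm.measurable.aestronglyMeasurable) 1 (Eventually.of_forall fun t => ?_)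
    rw [Real.norm_of_nonneg (h0 t)]
    exact h1 t
  have hPhi : Phi (-(d / 16)) < 1 / 2 - θ := by
    have h := Phi_sub_ge (a := -(d / 16)) (b := 0) (K := 35 / 100) (by linarith) (by
      intro x hx
      apply phi_ge
      rw [abs_le]
      constructor <;> linarith [hx.1, hx.2])
    rw [Phi_zero] at h
    linarith
  have hexp : IntegrableOn (fun t => c1 * Real.exp (c1 * t)) (Iic 0) :=
    (integrableOn_exp_mul_Iic hc1 0).const_mul _
  have hexpv : ∫ t in Iic 0, c1 * Real.exp (c1 * t) = 1 := by
    rw [integral_const_mul, integral_exp_mul_Iic hc1]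
    simp
    field_simp
  have hEint : IntegrableOn (fun t => c1 * Real.exp (c1 * t) * (m t - m l)) (Iic 0) := by
    refine Integrable.mono' hexp ?_ (Eventually.of_forall fun t => ?_)
    · refine Measurable.aestronglyMeasurable ?_
      exact (by fun_prop : Measurable fun t : ℝ => c1 * Real.exp (c1 * t)).mul
        (hm.measurable.sub measurable_const)
    · have hpos : 0 ≤ c1 * Real.exp (c1 * t) := by positivity
      rw [Real.norm_eq_abs, abs_mul, abs_of_nonneg hpos]
      have : |m t - m l| ≤ 1 := by
        rw [abs_le]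
        constructor <;> linarith [h0 t, h1 t, h0 l, h1 l]
      nlinarith
  have hΔ : 0 < Phi (l + 2 * d) - Phi l := by
    have : Phi l < Phi (l + 2 * d) := strictMono_Phi (by linarith)
    linarith
  have hul : 0 ≤ m (-d) - m l := by linarith [hm (show -d ≤ l by linarith)]
  -- there is mass to the right of -d
  have hex : ∃ t2, -d < t2 ∧ 0 < m t2 := by
    by_contra hcon
    push Not at hcon
    have hz : ∀ t, -d < t → m t = 0 := fun t ht => le_antisymm (hcon t ht) (h0 t)
    have : ∫ t, m t ∂(gaussianReal 0 1) ≤ ∫ t, (Iic (-d)).indicator (fun _ => (1:ℝ)) t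
        ∂(gaussianReal 0 1) := by
      refine integral_mono hint ((integrable_const _).indicator measurableSet_Iic) fun t => ?_
      by_cases ht : t ≤ -d
      · simp only [indicator_of_mem (show t ∈ Iic (-d) from ht)]
        exact h1 t
      · simp only [indicator_of_notMem (show t ∉ Iic (-d) from ht)]
        exact (hz t (not_le.1 ht)).le
    rw [integral_indicator_const _ measurableSet_Iic, ← Phi_eq_gaussian] at this
    have h3 : Phi (-d) ≤ Phi (-(d / 16)) := strictMono_Phi.monotone (by linarith)
    simp only [smul_eq_mul, mul_one] at this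
    linarith
  obtain ⟨t2, ht2, hmt2⟩ := hex
  have hmd : 0 < m (-d) := hmt2.trans_le (hm ht2.le)
  rcases eq_or_lt_of_le (h1 (-d)) with hone | hlt
  · -- `m (-d) = 1`
    have hG : (m (-d) - m l) * (Phi (l + 2 * d) - Phi l)
        ≤ m (-d) - ∫ t, m t ∂(gaussianReal 0 1) := by
      have h3 : ∫ t, m t ∂(gaussianReal 0 1) ≤ ∫ t, (1 - (Ioi l).indicator (fun _ => 1 - m l) t)
          ∂(gaussianReal 0 1) := by
        refine integral_mono hint ((integrable_const _).sub
          ((integrable_const _).indicator measurableSet_Ioi)) fun t => ?_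
        simp only
        by_cases ht : t ∈ Ioi l
        · rw [indicator_of_mem ht]
          have ht' : l < t := ht
          linarith [hm ht'.le]
        · rw [indicator_of_notMem ht]
          linarith [h1 t]
      rw [integral_sub (integrable_const _) ((integrable_const _).indicator measurableSet_Ioi),
        integral_indicator_const _ measurableSet_Ioi] at h3
      have h4 : (gaussianReal 0 1).real (Ioi l) = 1 - Phi l := by
        rw [Phi_eq_gaussian, ← compl_Iic, measureReal_compl measurableSet_Iic]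
        simp
      rw [h4] at h3
      simp at h3
      rw [hone]
      have h5 : Phi (l + 2 * d) ≤ 1 := (Phi_lt_one _).le
      nlinarith [h1 l]
    have hE1 : ∫ t in Iic 0, c1 * Real.exp (c1 * t) * (m t - m l) ≤ m (-d) - m l := by
      calc ∫ t in Iic 0, c1 * Real.exp (c1 * t) * (m t - m l)
          ≤ ∫ t in Iic 0, c1 * Real.exp (c1 * t) * (m (-d) - m l) := by
            refine setIntegral_mono_on hEint (hexp.mul_const _) measurableSet_Iic fun t _ => ?_
            refine mul_le_mul_of_nonneg_left ?_ (by positivity)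
            linarith [h1 t]
        _ = m (-d) - m l := by rw [integral_mul_const, hexpv, one_mul]
    have hGpos : 0 ≤ m (-d) - ∫ t, m t ∂(gaussianReal 0 1) :=
      le_trans (mul_nonneg hul hΔ.le) hG
    have h6 : m (-d) - m l ≤ (1 / (Phi (l + 2 * d) - Phi l)) *
        (m (-d) - ∫ t, m t ∂(gaussianReal 0 1)) := by
      rw [one_div, inv_mul_eq_div, le_div_iff₀ hΔ]
      exact hG
    refine hE1.trans (h6.trans ?_)
    refine mul_le_mul_of_nonneg_right ?_ hGpos
    have h7 : 1 / (Phi (l + 2 * d) - Phi l) ≤ 2 / (Phi (l + 2 * d) - Phi l) := by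
      gcongr
      norm_num
    have h8 : 0 ≤ 5 / (d * c1) := by positivity
    linarith
  · -- `m (-d) < 1`
    obtain ⟨k, hk, hb⟩ := support_line hm h0 hE ht2 hmt2 hlt
    set p0 := Psi (m (-d)) with hp0
    have hPp : Phi p0 = m (-d) := Phi_Psi hmd hlt
    have hb' : ∀ t, m t ≤ Phi (p0 - k * (t + d)) := by
      intro t
      have := hb t
      rwa [sub_neg_eq_add] at this
    set I := ∫ t, m t ∂(gaussianReal 0 1) with hI
    set r := Real.sqrt (1 + k ^ 2) with hr
    have hr0 : 0 < r := Real.sqrt_pos.2 (by positivity)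
    have hr1 : 1 ≤ r := by
      rw [hr, Real.one_le_sqrt]; nlinarith [sq_nonneg k]
    have hr2 : r ≤ 1 + k := by
      rw [hr, Real.sqrt_le_left (by linarith)]
      nlinarith
    set q := (p0 - k * d) / r with hq
    have hIq : I ≤ Phi q := by
      rw [hq, hr, ← integral_Phi_affine]
      refine integral_mono hint (integrable_Phi_comp _ (by fun_prop)) fun t => ?_
      simp only
      refine (hb' t).trans (le_of_eq ?_)
      congr 1
      ring
    have hq1 : -(d / 16) < q := by
      rw [← strictMono_Phi.lt_iff_lt]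
      linarith
    have hqr : p0 = q * r + k * d := by
      rw [hq]; field_simp; ring
    have hpq : k * d / 2 ≤ p0 - q := by
      have h9 : p0 - q = q * (r - 1) + k * d := by rw [hqr]; ring
      rw [h9]
      rcases le_total 0 q with h | h
      · nlinarith [mul_nonneg h (by linarith : 0 ≤ r - 1), mul_nonneg hk hd.le]
      · nlinarith [mul_nonneg hk hd.le, mul_nonneg (by linarith : 0 ≤ r - 1) (by linarith : 0 ≤ q + d / 16)]
    have hkd : 0 ≤ k * d := mul_nonneg hk hd.le
    have hp0' : -(d / 16) ≤ p0 := by linarith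
    -- gain
    have hgain : 9 / 10 * phi p0 * (k * d / 2) ≤ m (-d) - I := by
      have h9 := Phi_sub_ge (a := q) (b := p0) (K := 9 / 10 * phi p0) (by linarith) (by
        intro x hx
        rcases le_total |x| (1 / 4) with h | h
        · exact phi_quarter h
        · have hx0 : 0 ≤ x := by
            by_contra hneg
            rw [not_le] at hneg
            rw [abs_of_neg hneg] at h
            linarith [hx.1]
          have : phi p0 ≤ phi x := by
            apply phi_anti
            rw [abs_of_nonneg hx0]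
            exact hx.2.trans (le_abs_self _)
          linarith [phi_nonneg p0])
      have h10 : 9 / 10 * phi p0 * (k * d / 2) ≤ 9 / 10 * phi p0 * (p0 - q) :=
        mul_le_mul_of_nonneg_left hpq (by linarith [phi_nonneg p0])
      linarith
    have hGpos : 0 ≤ m (-d) - I := by
      refine le_trans ?_ hgain
      have := phi_nonneg p0
      positivity
    -- pairing
    have hpair := pairing hm h0 h1 hd hk (by linarith : -d ≤ l) hPp hb'
    have hdef : 4 / 5 * max (-p0) 0 * k ≤ m (-d) - I := by
      rcases le_total 0 p0 with h | h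
      · rw [max_eq_right (by linarith)]
        simpa using hGpos
      · rw [max_eq_left (by linarith)]
        have h9 : (35:ℝ) / 100 ≤ phi p0 := phi_ge (by
          rw [abs_le]
          constructor <;> linarith)
        refine le_trans ?_ hgain
        have h10 : 4 / 5 * -p0 * k ≤ 4 / 5 * (d / 16) * k := by
          refine mul_le_mul_of_nonneg_right ?_ hk
          linarith
        nlinarith
    have hul2 : (m (-d) - m l) ≤ 2 / (Phi (l + 2 * d) - Phi l) * (m (-d) - I) := by
      rw [div_mul_eq_mul_div, le_div_iff₀ hΔ]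
      linarith
    -- the exponential mass
    have hpt : ∀ t ∈ Iic (0:ℝ), c1 * Real.exp (c1 * t) * (m t - m l) ≤
        10 / 9 * phi p0 * k * Real.exp (c1 / 2 * t) + c1 * Real.exp (c1 * t) * (m (-d) - m l) := by
      intro t ht
      have ht0 : t ≤ 0 := ht
      have h9 : m t - m (-d) ≤ 10 / 9 * phi p0 * k * (-t) := by
        rcases le_total (-d) t with h | h
        · have : 0 ≤ 10 / 9 * phi p0 * k * (-t) := by
            have := phi_nonneg p0
            have h' : 0 ≤ -t := by linarith
            positivity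
          linarith [hm h]
        · have h10 : 0 ≤ k * (-d - t) := mul_nonneg hk (by linarith)
          have h11 := Phi_sub_le (a := p0) (b := p0 - k * (t + d)) (K := 10 / 9 * phi p0)
            (by nlinarith) (by
              intro x hx
              rcases le_total 0 p0 with hp | hp
              · have : phi x ≤ phi p0 := by
                  apply phi_anti
                  rw [abs_of_nonneg hp, abs_of_nonneg (hp.trans hx.1)]
                  exact hx.1
                linarith [phi_nonneg p0]
              · have h12 : (9:ℝ) / 10 * phi x ≤ phi p0 := phi_quarter (by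
                  rw [abs_le]
                  constructor <;> linarith)
                linarith)
          have h12 : 10 / 9 * phi p0 * (p0 - k * (t + d) - p0) ≤ 10 / 9 * phi p0 * k * (-t) := by
            have h13 : p0 - k * (t + d) - p0 ≤ k * (-t) := by nlinarith
            have := mul_le_mul_of_nonneg_left h13 (by linarith [phi_nonneg p0] : 0 ≤ 10 / 9 * phi p0)
            linarith
          linarith [hb' t]
      have h13 : c1 * (-t) * Real.exp (c1 * t) ≤ Real.exp (c1 / 2 * t) := by
        have e : Real.exp (c1 / 2 * t) = Real.exp (c1 * t) * Real.exp (-(c1 * t) / 4) ^ 2 := by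
          rw [← Real.exp_nat_mul, ← Real.exp_add]
          congr 1
          push_cast
          ring
        rw [e, mul_comm (c1 * -t)]
        refine mul_le_mul_of_nonneg_left ?_ (Real.exp_pos _).le
        have h14 := Real.add_one_le_exp (-(c1 * t) / 4)
        have h15 : 0 ≤ -(c1 * t) / 4 + 1 := by nlinarith
        have h16 : (-(c1 * t) / 4 + 1) ^ 2 ≤ Real.exp (-(c1 * t) / 4) ^ 2 :=
          pow_le_pow_left₀ h15 h14 2
        nlinarith [sq_nonneg (-(c1 * t) / 4 - 1)]
      have h17 : c1 * Real.exp (c1 * t) * (m t - m (-d))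
          ≤ 10 / 9 * phi p0 * k * Real.exp (c1 / 2 * t) := by
        calc c1 * Real.exp (c1 * t) * (m t - m (-d))
            ≤ c1 * Real.exp (c1 * t) * (10 / 9 * phi p0 * k * (-t)) :=
              mul_le_mul_of_nonneg_left h9 (by positivity)
          _ = 10 / 9 * phi p0 * k * (c1 * (-t) * Real.exp (c1 * t)) := by ring
          _ ≤ _ := mul_le_mul_of_nonneg_left h13 (by
              have := phi_nonneg p0
              positivity)
      have e : c1 * Real.exp (c1 * t) * (m t - m l) = c1 * Real.exp (c1 * t) * (m t - m (-d))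
          + c1 * Real.exp (c1 * t) * (m (-d) - m l) := by ring
      rw [e]
      linarith
    have hexp2 : IntegrableOn (fun t => Real.exp (c1 / 2 * t)) (Iic 0) :=
      integrableOn_exp_mul_Iic (by positivity) 0
    have hEle : ∫ t in Iic 0, c1 * Real.exp (c1 * t) * (m t - m l)
        ≤ 10 / 9 * phi p0 * k * (2 / c1) + (m (-d) - m l) := by
      calc ∫ t in Iic 0, c1 * Real.exp (c1 * t) * (m t - m l)
          ≤ ∫ t in Iic 0, (10 / 9 * phi p0 * k * Real.exp (c1 / 2 * t)
            + c1 * Real.exp (c1 * t) * (m (-d) - m l)) :=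
            setIntegral_mono_on hEint ((hexp2.const_mul _).add (hexp.mul_const _))
              measurableSet_Iic hpt
        _ = _ := by
            rw [integral_add (hexp2.const_mul _) (hexp.mul_const _), integral_const_mul,
              integral_exp_mul_Iic (by positivity), integral_mul_const, hexpv]
            simp
    have h18 : 10 / 9 * phi p0 * k * (2 / c1) ≤ 5 / (d * c1) * (m (-d) - I) := by
      have h19 : 5 / (d * c1) * (9 / 10 * phi p0 * (k * d / 2)) ≤ 5 / (d * c1) * (m (-d) - I) :=
        mul_le_mul_of_nonneg_left hgain (by positivity)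
      refine le_trans ?_ h19
      have h20 : 5 / (d * c1) * (9 / 10 * phi p0 * (k * d / 2)) = 9 / 4 * (phi p0 * k / c1) := by
        field_simp
        ring
      have h21 : 10 / 9 * phi p0 * k * (2 / c1) = 20 / 9 * (phi p0 * k / c1) := by ring
      rw [h20, h21]
      have : 0 ≤ phi p0 * k / c1 := by
        have := phi_nonneg p0
        positivity
      linarith
    rw [add_mul]
    linarith

end Crest.Agent.R239.G462
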