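import Crest.Agent.R239.Near462

/-!
# R239 : Lemma G and the NEAR block at levels below 1/2 (helper462)
-/

set_option autoImplicit false
set_option linter.unusedSectionVars false

open MeasureTheory ProbabilityTheory Set Filter Topology Metric
open scoped ENNReal NNReal RealInnerProductSpace

namespace Crest.Agent.R239.G462

open Crest.Agent.Lib.Ehrhard Crest.Agent.R239 Crest.Agent.R239.Pass690 Crest.Agent.R239.PW

set_option maxHeartbeats 2000000 in
/-- **Lemma G at low levels**: `Φ(-(d-d')) ≤ ∫ m dγ`, `0 < d'`, `d - d' ≤ 1/4`. -/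
theorem lemG_low {m : ℝ → ℝ} (hm : Antitone m) (h0 : ∀ t, 0 ≤ m t) (h1 : ∀ t, m t ≤ 1)
    (hE : ∀ s t a b l : ℝ, 0 ≤ l → l ≤ 1 → Phi a ≤ m s → Phi b ≤ m t →
      Phi ((1 - l) * a + l * b) ≤ m ((1 - l) * s + l * t))
    {d d' c1 l : ℝ} (hd' : 0 < d') (hd'1 : d' ≤ 1) (hdd0 : d' ≤ d) (hdd : d - d' ≤ 1 / 4)
    (hc1 : 0 < c1) (hl : 0 ≤ l)
    (hp : Phi (-(d - d')) ≤ ∫ t, m t ∂(gaussianReal 0 1)) :
    ∫ t in Iic 0, c1 * Real.exp (c1 * t) * (m t - m l) ≤
      (3 / (d' * c1) + 2 / (d' * (1 - Phi l))) *
        (m (-d) - ∫ t, m t ∂(gaussianReal 0 1)) := by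
  have hd : 0 ≤ d := by linarith
  have hint : Integrable m (gaussianReal 0 1) := by
    refine Integrable.of_bound (hm.measurable.aestronglyMeasurable) 1 (Eventually.of_forall fun t => ?_)
    rw [Real.norm_of_nonneg (h0 t)]
    exact h1 t
  have hexp : IntegrableOn (fun t => c1 * Real.exp (c1 * t)) (Iic 0) :=
    (integrableOn_exp_mul_Iic hc1 0).const_mul _
  have hexpv : ∫ t in Iic 0, c1 * Real.exp (c1 * t) = 1 := by
    rw [integral_const_mul, integral_exp_mul_Iic hc1]
    simp
    field_simp
  have hEint : IntegrableOn (fun t => c1 * Real.exp (c1 * t) * (m t - m l)) (Iic 0) := by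
    refine Integrable.mono' hexp ?_ (Eventually.of_forall fun t => ?_)
    · refine Measurable.aestronglyMeasurable ?_
      exact (by fun_prop : Measurable fun t : ℝ => c1 * Real.exp (c1 * t)).mul
        (hm.measurable.sub measurable_const)
    · have hpos : 0 ≤ c1 * Real.exp (c1 * t) := by positivity
      rw [Real.norm_eq_abs, abs_mul, abs_of_nonneg hpos]
      have : |m t - m l| ≤ 1 := by
        rw [abs_le]
        constructor <;> linarith [h0 t, h1 t, h0 l, h1 l]
      nlinarith
  have hΔ : 0 < 1 - Phi l := by linarith [Phi_lt_one l]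
  have hul : 0 ≤ m (-d) - m l := by linarith [hm (show -d ≤ l by linarith)]
  have hgl : (gaussianReal 0 1).real (Ioi l) = 1 - Phi l := by
    rw [Phi_eq_gaussian, ← compl_Iic, measureReal_compl measurableSet_Iic]
    simp
  -- there is mass to the right of -d
  have hPd : Phi (-d) < Phi (-(d - d')) := strictMono_Phi (by linarith)
  have hex : ∃ t2, -d < t2 ∧ 0 < m t2 := by
    by_contra hcon
    push Not at hcon
    have hz : ∀ t, -d < t → m t = 0 := fun t ht => le_antisymm (hcon t ht) (h0 t)
    have : ∫ t, m t ∂(gaussianReal 0 1) ≤ ∫ t, (Iic (-d)).indicator (fun _ => (1:ℝ)) t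
        ∂(gaussianReal 0 1) := by
      refine integral_mono hint ((integrable_const _).indicator measurableSet_Iic) fun t => ?_
      by_cases ht : t ≤ -d
      · simp only [indicator_of_mem (show t ∈ Iic (-d) from ht)]
        exact h1 t
      · simp only [indicator_of_notMem (show t ∉ Iic (-d) from ht)]
        exact (hz t (not_le.1 ht)).le
    rw [integral_indicator_const _ measurableSet_Iic, ← Phi_eq_gaussian] at this
    simp only [smul_eq_mul, mul_one] at this
    linarith
  obtain ⟨t2, ht2, hmt2⟩ := hex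
  have hmd : 0 < m (-d) := hmt2.trans_le (hm ht2.le)
  rcases eq_or_lt_of_le (h1 (-d)) with hone | hlt
  · -- `m (-d) = 1`
    have hG : (m (-d) - m l) * (1 - Phi l)
        ≤ m (-d) - ∫ t, m t ∂(gaussianReal 0 1) := by
      have h3 : ∫ t, m t ∂(gaussianReal 0 1) ≤ ∫ t, (1 - (Ioi l).indicator (fun _ => 1 - m l) t)
          ∂(gaussianReal 0 1) := by
        refine integral_mono hint ((integrable_const _).sub
          ((integrable_const _).indicator measurableSet_Ioi)) fun t => ?_
        simp only
        by_cases ht : t ∈ Ioi l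
        · rw [indicator_of_mem ht]
          have ht' : l < t := ht
          linarith [hm ht'.le]
        · rw [indicator_of_notMem ht]
          linarith [h1 t]
      rw [integral_sub (integrable_const _) ((integrable_const _).indicator measurableSet_Ioi),
        integral_indicator_const _ measurableSet_Ioi] at h3
      rw [hgl] at h3
      simp at h3
      rw [hone]
      nlinarith [h1 l]
    have hE1 : ∫ t in Iic 0, c1 * Real.exp (c1 * t) * (m t - m l) ≤ m (-d) - m l := by
      calc ∫ t in Iic 0, c1 * Real.exp (c1 * t) * (m t - m l)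
          ≤ ∫ t in Iic 0, c1 * Real.exp (c1 * t) * (m (-d) - m l) := by
            refine setIntegral_mono_on hEint (hexp.mul_const _) measurableSet_Iic fun t _ => ?_
            refine mul_le_mul_of_nonneg_left ?_ (by positivity)
            linarith [h1 t]
        _ = m (-d) - m l := by rw [integral_mul_const, hexpv, one_mul]
    have hGpos : 0 ≤ m (-d) - ∫ t, m t ∂(gaussianReal 0 1) :=
      le_trans (mul_nonneg hul hΔ.le) hG
    have h6 : m (-d) - m l ≤ (1 / (1 - Phi l)) *
        (m (-d) - ∫ t, m t ∂(gaussianReal 0 1)) := by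
      rw [one_div, inv_mul_eq_div, le_div_iff₀ hΔ]
      exact hG
    refine hE1.trans (h6.trans ?_)
    refine mul_le_mul_of_nonneg_right ?_ hGpos
    have h7 : 1 / (1 - Phi l) ≤ 2 / (d' * (1 - Phi l)) := by
      rw [div_le_div_iff₀ hΔ (by positivity)]
      nlinarith
    have h8 : 0 ≤ 3 / (d' * c1) := by positivity
    linarith
  · -- `m (-d) < 1`
    obtain ⟨k, hk, hb⟩ := support_line hm h0 hE ht2 hmt2 hlt
    set p0 := Psi (m (-d)) with hp0
    have hPp : Phi p0 = m (-d) := Phi_Psi hmd hlt
    have hb' : ∀ t, m t ≤ Phi (p0 - k * (t + d)) := by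
      intro t
      have := hb t
      rwa [sub_neg_eq_add] at this
    set I := ∫ t, m t ∂(gaussianReal 0 1) with hI
    set r := Real.sqrt (1 + k ^ 2) with hr
    have hr0 : 0 < r := Real.sqrt_pos.2 (by positivity)
    have hr1 : 1 ≤ r := by
      rw [hr, Real.one_le_sqrt]; nlinarith [sq_nonneg k]
    have hr2 : r ≤ 1 + k := by
      rw [hr, Real.sqrt_le_left (by linarith)]
      nlinarith
    set q := (p0 - k * d) / r with hq
    have hIq : I ≤ Phi q := by
      rw [hq, hr, ← integral_Phi_affine]
      refine integral_mono hint (integrable_Phi_comp _ (by fun_prop)) fun t => ?_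
      simp only
      refine (hb' t).trans (le_of_eq ?_)
      congr 1
      ring
    have hq1 : -(d - d') ≤ q := by
      rw [← strictMono_Phi.le_iff_le]
      linarith
    have hqr : p0 = q * r + k * d := by
      rw [hq]; field_simp; ring
    have hkd : 0 ≤ k * d' := mul_nonneg hk hd'.le
    have hpq : k * d' ≤ p0 - q := by
      have h9 : p0 - q = q * (r - 1) + k * d := by rw [hqr]; ring
      rw [h9]
      nlinarith [mul_nonneg (by linarith : 0 ≤ r - 1) (by linarith : 0 ≤ q + (d - d')),
        mul_nonneg (by linarith : 0 ≤ d - d') (by linarith : 0 ≤ k - (r - 1))]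
    have hp0' : -(1 / 4) ≤ p0 := by linarith
    -- gain
    have hgain : 9 / 10 * phi p0 * (k * d') ≤ m (-d) - I := by
      have h9 := Phi_sub_ge (a := q) (b := p0) (K := 9 / 10 * phi p0) (by linarith) (by
        intro x hx
        by_cases h : |x| ≤ 1 / 4
        · exact phi_quarter h
        · rw [not_le] at h
          have hx0 : 0 ≤ x := by
            by_contra hneg
            rw [not_le] at hneg
            rw [abs_of_neg hneg] at h
            linarith [hx.1]
          have : phi p0 ≤ phi x := by
            apply phi_anti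
            rw [abs_of_nonneg hx0]
            exact hx.2.trans (le_abs_self _)
          linarith [phi_nonneg p0])
      have h10 : 9 / 10 * phi p0 * (k * d') ≤ 9 / 10 * phi p0 * (p0 - q) :=
        mul_le_mul_of_nonneg_left hpq (by linarith [phi_nonneg p0])
      linarith
    have hphi0 := phi_nonneg p0
    have hGpos : 0 ≤ m (-d) - I := le_trans (by positivity) hgain
    -- increase of `m` to the left of `-d`
    have hinc : ∀ t, m t - m (-d) ≤ 10 / 9 * phi p0 * k * max (-t) 0 := by
      intro t
      rcases le_total (-d) t with h | h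
      · have : 0 ≤ 10 / 9 * phi p0 * k * max (-t) 0 := by
          have := le_max_right (-t) 0
          positivity
        linarith [hm h]
      · have h10 : 0 ≤ k * (-d - t) := mul_nonneg hk (by linarith)
        have h11 := Phi_sub_le (a := p0) (b := p0 - k * (t + d)) (K := 10 / 9 * phi p0)
          (by nlinarith) (by
            intro x hx
            rcases le_total 0 p0 with hp | hp
            · have : phi x ≤ phi p0 := by
                apply phi_anti
                rw [abs_of_nonneg hp, abs_of_nonneg (hp.trans hx.1)]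
                exact hx.1
              linarith
            · have h12 : (9:ℝ) / 10 * phi x ≤ phi p0 := phi_quarter (by
                rw [abs_le]
                constructor <;> linarith)
              linarith)
        have h12 : 10 / 9 * phi p0 * (p0 - k * (t + d) - p0) ≤ 10 / 9 * phi p0 * k * max (-t) 0 := by
          have h13 : p0 - k * (t + d) - p0 ≤ k * max (-t) 0 := by
            have h14 : k * (-t - d) ≤ k * max (-t) 0 :=
              mul_le_mul_of_nonneg_left (by linarith [le_max_left (-t) 0]) hk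
            nlinarith
          have := mul_le_mul_of_nonneg_left h13 (by linarith : 0 ≤ 10 / 9 * phi p0)
          linarith
        linarith [hb' t]
    -- negative part against positive part
    have hposneg : (m (-d) - m l) * (1 - Phi l) ≤ (m (-d) - I) + 10 / 9 * phi p0 * k * (2 / 5) := by
      have hmaxint : Integrable (fun t : ℝ => max (-t) 0) (gaussianReal 0 1) := by
        have h1 : Integrable (fun t : ℝ => t) (gaussianReal 0 1) := by
          have h9 := memLp_id_gaussianReal (μ := 0) (v := 1) 1
          have h10 : MemLp (id : ℝ → ℝ) 1 (gaussianReal 0 1) := by exact_mod_cast h9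
          exact memLp_one_iff_integrable.1 h10
        exact h1.neg.pos_part
      have hmaxval : ∫ t : ℝ, max (-t) 0 ∂(gaussianReal 0 1) ≤ 2 / 5 := by
        rw [integral_gaussianReal_eq_integral_smul one_ne_zero]
        have e : ∀ t : ℝ, gaussianPDFReal 0 1 t • max (-t) 0
            = (Iic (0:ℝ)).indicator (fun t => -t * phi t) t := by
          intro t
          rw [← phi_eq, smul_eq_mul]
          by_cases ht : t ≤ 0
          · rw [indicator_of_mem (show t ∈ Iic (0:ℝ) from ht), max_eq_left (by linarith)]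
            ring
          · rw [indicator_of_notMem (show t ∉ Iic (0:ℝ) from ht), max_eq_right (by linarith [not_le.1 ht])]
            ring
        simp_rw [e]
        rw [integral_indicator measurableSet_Iic]
        have h3 : ∫ t in Iic (0:ℝ), -t * phi t = phi 0 - 0 := by
          refine integral_Iic_of_hasDerivAt_of_tendsto' (fun t _ => hasDerivAt_phi t) ?_ tendsto_phi_atBot'
          exact integrable_neg_mul_phi.integrableOn
        rw [h3, sub_zero]
        exact phi_zero_le
      have h3 : ∫ t, m t ∂(gaussianReal 0 1) ≤ ∫ t, ((m (-d) + 10 / 9 * phi p0 * k * max (-t) 0)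
          - (Ioi l).indicator (fun _ => m (-d) - m l) t) ∂(gaussianReal 0 1) := by
        refine integral_mono hint (((integrable_const _).add (hmaxint.const_mul _)).sub
          ((integrable_const _).indicator measurableSet_Ioi)) fun t => ?_
        simp only
        by_cases ht : t ∈ Ioi l
        · rw [indicator_of_mem ht]
          have ht' : l < t := ht
          have : 0 ≤ 10 / 9 * phi p0 * k * max (-t) 0 := by
            have := le_max_right (-t) 0
            positivity
          linarith [hm ht'.le]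
        · rw [indicator_of_notMem ht]
          linarith [hinc t]
      have hmI : Integrable (fun t : ℝ => 10 / 9 * phi p0 * k * max (-t) 0) (gaussianReal 0 1) :=
        hmaxint.const_mul _
      have hmI2 : Integrable (fun t : ℝ => m (-d) + 10 / 9 * phi p0 * k * max (-t) 0)
          (gaussianReal 0 1) := (integrable_const _).add hmI
      rw [integral_sub hmI2 ((integrable_const _).indicator measurableSet_Ioi),
        integral_add (integrable_const _) hmI, integral_const_mul,
        integral_indicator_const _ measurableSet_Ioi, hgl] at h3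
      simp only [integral_const, probReal_univ, smul_eq_mul, one_mul] at h3
      have h4 : 10 / 9 * phi p0 * k * ∫ t : ℝ, max (-t) 0 ∂(gaussianReal 0 1)
          ≤ 10 / 9 * phi p0 * k * (2 / 5) := mul_le_mul_of_nonneg_left hmaxval (by positivity)
      rw [← hI] at h3
      linarith
    have hul2 : (m (-d) - m l) ≤ 2 / (d' * (1 - Phi l)) * (m (-d) - I) := by
      rw [div_mul_eq_mul_div, le_div_iff₀ (by positivity)]
      have h5 : d' * (10 / 9 * phi p0 * k * (2 / 5)) ≤ 1 / 2 * (m (-d) - I) := by
        nlinarith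
      have h6 := mul_le_mul_of_nonneg_left hposneg hd'.le
      nlinarith
    -- the exponential mass
    have hpt : ∀ t ∈ Iic (0:ℝ), c1 * Real.exp (c1 * t) * (m t - m l) ≤
        10 / 9 * phi p0 * k * Real.exp (c1 / 2 * t) + c1 * Real.exp (c1 * t) * (m (-d) - m l) := by
      intro t ht
      have ht0 : t ≤ 0 := ht
      have h9 : m t - m (-d) ≤ 10 / 9 * phi p0 * k * (-t) := by
        have := hinc t
        rwa [max_eq_left (by linarith)] at this
      have h13 : c1 * (-t) * Real.exp (c1 * t) ≤ Real.exp (c1 / 2 * t) := by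
        have e : Real.exp (c1 / 2 * t) = Real.exp (c1 * t) * Real.exp (-(c1 * t) / 4) ^ 2 := by
          rw [← Real.exp_nat_mul, ← Real.exp_add]
          congr 1
          push_cast
          ring
        rw [e, mul_comm (c1 * -t)]
        refine mul_le_mul_of_nonneg_left ?_ (Real.exp_pos _).le
        have h14 := Real.add_one_le_exp (-(c1 * t) / 4)
        have h15 : 0 ≤ -(c1 * t) / 4 + 1 := by nlinarith
        have h16 : (-(c1 * t) / 4 + 1) ^ 2 ≤ Real.exp (-(c1 * t) / 4) ^ 2 :=
          pow_le_pow_left₀ h15 h14 2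
        nlinarith [sq_nonneg (-(c1 * t) / 4 - 1)]
      have h17 : c1 * Real.exp (c1 * t) * (m t - m (-d))
          ≤ 10 / 9 * phi p0 * k * Real.exp (c1 / 2 * t) := by
        calc c1 * Real.exp (c1 * t) * (m t - m (-d))
            ≤ c1 * Real.exp (c1 * t) * (10 / 9 * phi p0 * k * (-t)) :=
              mul_le_mul_of_nonneg_left h9 (by positivity)
          _ = 10 / 9 * phi p0 * k * (c1 * (-t) * Real.exp (c1 * t)) := by ring
          _ ≤ _ := mul_le_mul_of_nonneg_left h13 (by positivity)
      have e : c1 * Real.exp (c1 * t) * (m t - m l) = c1 * Real.exp (c1 * t) * (m t - m (-d))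
          + c1 * Real.exp (c1 * t) * (m (-d) - m l) := by ring
      rw [e]
      linarith
    have hexp2 : IntegrableOn (fun t => Real.exp (c1 / 2 * t)) (Iic 0) :=
      integrableOn_exp_mul_Iic (by positivity) 0
    have hEle : ∫ t in Iic 0, c1 * Real.exp (c1 * t) * (m t - m l)
        ≤ 10 / 9 * phi p0 * k * (2 / c1) + (m (-d) - m l) := by
      calc ∫ t in Iic 0, c1 * Real.exp (c1 * t) * (m t - m l)
          ≤ ∫ t in Iic 0, (10 / 9 * phi p0 * k * Real.exp (c1 / 2 * t)
            + c1 * Real.exp (c1 * t) * (m (-d) - m l)) :=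
            setIntegral_mono_on hEint ((hexp2.const_mul _).add (hexp.mul_const _))
              measurableSet_Iic hpt
        _ = _ := by
            rw [integral_add (hexp2.const_mul _) (hexp.mul_const _), integral_const_mul,
              integral_exp_mul_Iic (by positivity), integral_mul_const, hexpv]
            simp
    have h18 : 10 / 9 * phi p0 * k * (2 / c1) ≤ 3 / (d' * c1) * (m (-d) - I) := by
      have h19 : 3 / (d' * c1) * (9 / 10 * phi p0 * (k * d')) ≤ 3 / (d' * c1) * (m (-d) - I) :=
        mul_le_mul_of_nonneg_left hgain (by positivity)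
      refine le_trans ?_ h19
      have h20 : 3 / (d' * c1) * (9 / 10 * phi p0 * (k * d')) = 27 / 10 * (phi p0 * k / c1) := by
        field_simp
        ring
      have h21 : 10 / 9 * phi p0 * k * (2 / c1) = 20 / 9 * (phi p0 * k / c1) := by ring
      rw [h20, h21]
      have : 0 ≤ phi p0 * k / c1 := by positivity
      linarith
    rw [add_mul]
    linarith

variable {F : Type*} [NormedAddCommGroup F] [InnerProductSpace ℝ F] [FiniteDimensional ℝ F]
  [MeasurableSpace F] [BorelSpace F]

/-- gain constant at low level -/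
noncomputable def cGl (d' c1 l : ℝ) : ℝ := (3 / (d' * c1) + 2 / (d' * (1 - Phi l)))⁻¹

lemma cGl_pos {d' c1 l : ℝ} (hd : 0 < d') (hc1 : 0 < c1) : 0 < cGl d' c1 l := by
  unfold cGl
  have : 0 < 1 - Phi l := by linarith [Phi_lt_one l]
  positivity

/-- **NEAR block, general form**: any level `Φ(ρ)`, `ρ ≥ -1/4`. `f = Φ(V)`, `W` closed convex,
`B ∩ W ⊆ {f < Φ(-d)}`, `Φ(-(d-d')) ≤ ∫_W f`. -/
theorem near_gen {f : F → ℝ} (hcl : IsClosed {p : X2 F | Phi (p1 F p) ≤ f (p0 F p)})
    (hcv : Convex ℝ {p : X2 F | Phi (p1 F p) ≤ f (p0 F p)}) (f0 : ∀ y, 0 ≤ f y)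
    (f1 : ∀ y, f y ≤ 1) {W B : Set F} (hWc : IsClosed W) (hWcv : Convex ℝ W)
    {d d' c1 l : ℝ} (hd' : 0 < d') (hd'1 : d' ≤ 1) (hdd0 : d' ≤ d) (hdd : d - d' ≤ 1 / 4)
    (hc1 : 0 < c1) (hl : 0 ≤ l) (hlev : Phi (-(d - d')) ≤ ∫ y in W, f y ∂(stdGaussian F))
    (hBW : ∀ y ∈ B, y ∈ W → f y < Phi (-d)) :
    (stdGaussian F).real (B ∩ W) + cGl d' c1 l * ∫ y in W, wt c1 l (f y) ∂(stdGaussian F)
      ≤ ∫ y in W, (1 - f y) ∂(stdGaussian F) := by
  set γ := stdGaussian F with hγ
  have hWm : MeasurableSet W := hWc.measurableSet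
  have hf : Measurable f := measurable_of_hyp hcl f0 f1
  have hlevm : ∀ t, MeasurableSet {y | Phi t ≤ f y} := fun t => (isClosed_lev hcl t).measurableSet
  set G : ℝ → ℝ := fun t => γ.real (W ∩ {y | Phi t ≤ f y}) with hG
  have hG0 : ∀ t, 0 ≤ G t := fun t => measureReal_nonneg
  have hG1 : ∀ t, G t ≤ 1 := fun t => measureReal_le_one
  have hanti : Antitone G := by
    intro s t hst
    refine measureReal_mono ?_ (measure_ne_top _ _)
    rintro y ⟨hy1, hy2⟩
    exact ⟨hy1, (strictMono_Phi.monotone hst).trans hy2⟩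
  have hE : ∀ s t a b l : ℝ, 0 ≤ l → l ≤ 1 → Phi a ≤ G s → Phi b ≤ G t →
      Phi ((1 - l) * a + l * b) ≤ G ((1 - l) * s + l * t) := by
    intro s t a' b' l' hl0 hl1 ha hb
    have hcc : ∀ u, Convex ℝ (W ∩ {y | Phi u ≤ f y}) := by
      intro u x hx y hy p q hp hq hpq
      refine ⟨hWcv hx.1 hy.1 hp hq hpq, ?_⟩
      have h2 := lev_comb hcv (s := u) (t := u) hq (by linarith) hx.2 hy.2
      have e1 : (1 - q) = p := by linarith
      rw [e1] at h2
      have e2 : p * u + q * u = u := by rw [← add_mul, hpq, one_mul]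
      rwa [e2] at h2
    refine ehrhard_sets (hWc.inter (isClosed_lev hcl s)) (hWc.inter (isClosed_lev hcl t))
      (hcc s) (hcc t) (hWc.inter (isClosed_lev hcl _)) hl0 hl1 ?_ ha hb
    intro x hx y hy
    exact ⟨hWcv hx.1 hy.1 (sub_nonneg.2 hl1) hl0 (by ring), lev_comb hcv hl0 hl1 hx.2 hy.2⟩
  have hfint : Integrable f γ := by
    refine Integrable.of_bound hf.aestronglyMeasurable 1 (Eventually.of_forall fun y => ?_)
    rw [Real.norm_of_nonneg (f0 y)]
    exact f1 y
  -- `∫ G dγ₁ = ∫_W f`
  have hGint : ∫ z, G z ∂(gaussianReal 0 1) = ∫ y in W, f y ∂γ := by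
    have h1 := integral_eq_integral_Phi_level γ (f := W.indicator f) (hf.indicator hWm)
      (fun y => by
        by_cases hy : y ∈ W
        · rw [indicator_of_mem hy]; exact f0 y
        · rw [indicator_of_notMem hy])
      (fun y => by
        by_cases hy : y ∈ W
        · rw [indicator_of_mem hy]; exact f1 y
        · rw [indicator_of_notMem hy]; exact zero_le_one)
    rw [← integral_indicator hWm, h1]
    refine integral_congr_ae (Eventually.of_forall fun z => ?_)
    simp only [hG]
    congr 1
    ext y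
    simp only [mem_inter_iff, mem_ofPred_eq]
    by_cases hy : y ∈ W
    · rw [indicator_of_mem hy]; simp [hy]
    · rw [indicator_of_notMem hy]
      simp only [hy, false_and, false_iff, not_le]
      exact Phi_pos z
  have hlem := lemG_low hanti hG0 hG1 hE (d := d) (d' := d') (c1 := c1) (l := l)
    hd' hd'1 hdd0 hdd hc1 hl (by rw [hGint]; exact hlev)
  have e5 : 3 / (d' * c1) + 2 / (d' * (1 - Phi l)) = (cGl d' c1 l)⁻¹ := by
    unfold cGl
    rw [inv_inv]
  rw [e5] at hlem
  -- Fubini for the weight
  have hwt : ∫ y in W, wt c1 l (f y) ∂γ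
      = ∫ t in Iic 0, c1 * Real.exp (c1 * t) * (G t - G l) := by
    have hexp : IntegrableOn (fun t => c1 * Real.exp (c1 * t)) (Iic 0) :=
      (integrableOn_exp_mul_Iic hc1 0).const_mul _
    have hS : MeasurableSet {p : ℝ × ℝ | Phi p.2 ≤ p.1 ∧ p.1 < Phi l} :=
      (measurableSet_le (continuous_Phi.measurable.comp measurable_snd) measurable_fst).inter
        (measurableSet_lt measurable_fst measurable_const)
    have hint : Integrable (Function.uncurry fun (y : F) (t : ℝ) => c1 * Real.exp (c1 * t) *
        ({p : ℝ × ℝ | Phi p.2 ≤ p.1 ∧ p.1 < Phi l}.indicator (fun _ => (1:ℝ)) (f y, t)))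
        ((γ.restrict W).prod (volume.restrict (Iic 0))) := by
      have hdom : Integrable (fun p : F × ℝ => c1 * Real.exp (c1 * p.2))
          ((γ.restrict W).prod (volume.restrict (Iic 0))) := by
        have := (integrable_const (1:ℝ) (μ := γ.restrict W)).mul_prod (μ := γ.restrict W)
          (ν := volume.restrict (Iic (0:ℝ))) (g := fun t => c1 * Real.exp (c1 * t)) hexp
        simpa using this
      refine hdom.mono' ?_ (Eventually.of_forall fun p => ?_)
      · refine Measurable.aestronglyMeasurable ?_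
        refine Measurable.mul (by fun_prop) ?_
        exact (measurable_const.indicator hS).comp ((hf.comp measurable_fst).prodMk measurable_snd)
      · simp only [Function.uncurry]
        rw [Real.norm_eq_abs, abs_mul, abs_of_nonneg (by positivity : 0 ≤ c1 * Real.exp (c1 * p.2))]
        refine mul_le_of_le_one_right (by positivity) ?_
        by_cases hp : (f p.1, p.2) ∈ {p : ℝ × ℝ | Phi p.2 ≤ p.1 ∧ p.1 < Phi l}
        · rw [indicator_of_mem hp]; simp
        · rw [indicator_of_notMem hp]; simp
    simp_rw [wt_eq (l := l) hc1]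
    rw [integral_integral_swap hint]
    refine setIntegral_congr_fun measurableSet_Iic fun t ht => ?_
    have ht0 : t ≤ 0 := ht
    rw [integral_const_mul]
    congr 1
    have e1 : (fun y => {p : ℝ × ℝ | Phi p.2 ≤ p.1 ∧ p.1 < Phi l}.indicator (fun _ => (1:ℝ)) (f y, t))
        = ({y | Phi t ≤ f y} \ {y | Phi l ≤ f y}).indicator (fun _ => (1:ℝ)) := by
      ext y
      by_cases hy : Phi t ≤ f y ∧ f y < Phi l
      · rw [indicator_of_mem (show (f y, t) ∈ {p : ℝ × ℝ | Phi p.2 ≤ p.1 ∧ p.1 < Phi l} from hy),
          indicator_of_mem]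
        exact ⟨hy.1, not_le.2 hy.2⟩
      · rw [indicator_of_notMem (show (f y, t) ∉ {p : ℝ × ℝ | Phi p.2 ≤ p.1 ∧ p.1 < Phi l} from hy),
          indicator_of_notMem]
        rintro ⟨h1, h2⟩
        exact hy ⟨h1, not_le.1 h2⟩
    rw [e1, integral_indicator_const _ ((hlevm t).diff (hlevm l)), smul_eq_mul, mul_one,
      measureReal_restrict_apply ((hlevm t).diff (hlevm l))]
    change γ.real (({y | Phi t ≤ f y} \ {y | Phi l ≤ f y}) ∩ W)
      = γ.real (W ∩ {y | Phi t ≤ f y}) - γ.real (W ∩ {y | Phi l ≤ f y})
    rw [← measureReal_sdiff]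
    · congr 1
      ext y
      simp only [mem_inter_iff, Set.mem_sdiff, mem_ofPred_eq, not_and]
      tauto
    · rintro y ⟨hy1, hy2⟩
      exact ⟨hy1, (strictMono_Phi.monotone (ht0.trans hl)).trans hy2⟩
    · exact hWm.inter (hlevm l)
  rw [← hwt] at hlem
  have hc := cGl_pos (d' := d') (c1 := c1) (l := l) hd' hc1
  have h6 : cGl d' c1 l * ∫ y in W, wt c1 l (f y) ∂γ ≤ G (-d) - ∫ y in W, f y ∂γ := by
    rw [← hGint]
    have h7 := mul_le_mul_of_nonneg_left hlem hc.le
    rwa [← mul_assoc, mul_inv_cancel₀ hc.ne', one_mul] at h7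
  have h8 : γ.real (B ∩ W) ≤ γ.real W - G (-d) := by
    simp only [hG]
    rw [← measureReal_sdiff (inter_subset_left) (hWm.inter (hlevm _))]
    refine measureReal_mono ?_ (measure_ne_top _ _)
    rintro y ⟨hyB, hyW⟩
    refine ⟨hyW, fun hy => ?_⟩
    exact absurd hy.2 (not_le.2 (hBW y hyB hyW))
  have h9 : ∫ y in W, (1 - f y) ∂γ = γ.real W - ∫ y in W, f y ∂γ := by
    rw [integral_sub (integrable_const _) hfint.integrableOn]
    simp
  rw [h9]
  linarith

/-- level inside a set of almost full mass: `Φ(ρ) ≤ ∫ f` and `γ Wᶜ ≤ e/4` give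
`Φ(ρ - e) ≤ ∫_W f` for `|ρ|, |ρ - e| ≤ 1/4` or `ρ ≥ 1/4`-truncation left to the caller. -/
lemma level_inside {f : F → ℝ} (hf : Measurable f) (f0 : ∀ y, 0 ≤ f y) (f1 : ∀ y, f y ≤ 1)
    {W : Set F} (hW : MeasurableSet W) {ρ e : ℝ} (he : 0 ≤ e) (h1 : ρ ≤ 1 / 4)
    (h2 : -(1 / 4) ≤ ρ - e) (hm : Phi ρ ≤ ∫ y, f y ∂(stdGaussian F))
    (hWc : (stdGaussian F).real Wᶜ ≤ e / 3) :
    Phi (ρ - e) ≤ ∫ y in W, f y ∂(stdGaussian F) := by
  have hfint : Integrable f (stdGaussian F) := by
    refine Integrable.of_bound hf.aestronglyMeasurable 1 (Eventually.of_forall fun y => ?_)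
    rw [Real.norm_of_nonneg (f0 y)]
    exact f1 y
  have h3 : ∫ y, f y ∂(stdGaussian F) = (∫ y in W, f y ∂(stdGaussian F))
      + ∫ y in Wᶜ, f y ∂(stdGaussian F) := (integral_add_compl hW hfint).symm
  have h4 : ∫ y in Wᶜ, f y ∂(stdGaussian F) ≤ (stdGaussian F).real Wᶜ := by
    calc ∫ y in Wᶜ, f y ∂(stdGaussian F) ≤ ∫ y in Wᶜ, (1:ℝ) ∂(stdGaussian F) :=
          setIntegral_mono_on hfint.integrableOn (integrableOn_const (measure_ne_top _ _))
            hW.compl fun y _ => f1 y
      _ = (stdGaussian F).real Wᶜ := by simp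
  have h5 := Phi_sub_ge (a := ρ - e) (b := ρ) (K := 35 / 100) (by linarith) (by
    intro x hx
    apply phi_ge
    rw [abs_le]
    constructor <;> linarith [hx.1, hx.2])
  linarith

end Crest.Agent.R239.G462
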