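import Mathlib
import Crest.Agent.R239.PWdef690

/-! R239, helper690: Gaussian side of (PW') (861 #11481). -/

set_option autoImplicit false
set_option linter.unusedSectionVars false
open MeasureTheory ProbabilityTheory Set Filter Topology Metric
open scoped ENNReal NNReal RealInnerProductSpace

namespace Crest.Agent.R239.PW

open Crest.Agent.Lib.Ehrhard (Phi Phi_pos Phi_lt_one strictMono_Phi Phi_neg continuous_Phi Phi_surj)
open Crest.Agent.R239 Crest.Agent.R239.Pass690

variable {E : Type*} [NormedAddCommGroup E] [InnerProductSpace ℝ E] [FiniteDimensional ℝ E]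
  [MeasurableSpace E] [BorelSpace E]
variable {F : Type*} [NormedAddCommGroup F] [InnerProductSpace ℝ F] [FiniteDimensional ℝ F]
  [MeasurableSpace F] [BorelSpace F]
variable {G : Type*} [NormedAddCommGroup G] [InnerProductSpace ℝ G] [FiniteDimensional ℝ G]
  [MeasurableSpace G] [BorelSpace G]
variable {H : Type*} [NormedAddCommGroup H] [InnerProductSpace ℝ H] [FiniteDimensional ℝ H]
  [MeasurableSpace H] [BorelSpace H]
variable {ι : Type*} [Fintype ι]

section sumOp

/-- `(x, y) ↦ A x + B y` -/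
noncomputable def sumOp (A : F →L[ℝ] E) (B : G →L[ℝ] E) : WithLp 2 (F × G) →L[ℝ] E :=
  A ∘L WithLp.fstL 2 ℝ F G + B ∘L WithLp.sndL 2 ℝ F G

/-- pairing in the `ℓ²` product -/
noncomputable def pr (x : F) (y : G) : WithLp 2 (F × G) := WithLp.toLp 2 (x, y)

lemma sumOp_pr (A : F →L[ℝ] E) (B : G →L[ℝ] E) (x : F) (y : G) : sumOp A B (pr x y) = A x + B y :=
  rfl

lemma pr_eta (z : WithLp 2 (F × G)) : pr z.fst z.snd = z := rfl

lemma inner_pr (x x' : F) (y y' : G) : ⟪pr x y, pr x' y'⟫ = ⟪x, x'⟫ + ⟪y, y'⟫ := by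
  rw [WithLp.prod_inner_apply]; rfl

lemma norm_pr_sq (x : F) (y : G) : ‖pr x y‖ ^ 2 = ‖x‖ ^ 2 + ‖y‖ ^ 2 := by
  rw [← real_inner_self_eq_norm_sq, inner_pr, real_inner_self_eq_norm_sq,
    real_inner_self_eq_norm_sq]

lemma pr_add (x x' : F) (y y' : G) : pr x y + pr x' y' = pr (x + x') (y + y') := rfl

lemma sumOp_adjoint (A : F →L[ℝ] E) (B : G →L[ℝ] E) (t : E) :
    (sumOp A B).adjoint t = pr (A.adjoint t) (B.adjoint t) := by
  apply ext_inner_right ℝ
  intro z
  rw [← pr_eta z, ContinuousLinearMap.adjoint_inner_left, sumOp_pr, inner_pr, inner_add_right,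
    ContinuousLinearMap.adjoint_inner_left, ContinuousLinearMap.adjoint_inner_left]

lemma sumOp_adj (A : F →L[ℝ] E) (B : G →L[ℝ] E) (t : E) :
    ‖(sumOp A B).adjoint t‖ ^ 2 = ‖A.adjoint t‖ ^ 2 + ‖B.adjoint t‖ ^ 2 := by
  rw [sumOp_adjoint, norm_pr_sq]

end sumOp

section ops

variable (b : OrthonormalBasis ι ℝ F) (a : ι → ℝ) (T B1 : F →L[ℝ] E) (B0 : G →L[ℝ] E)

/-- tied noise `W g = T (a • g) + B1 g` -/
noncomputable def opW : F →L[ℝ] E := T ∘L dg b a + B1
/-- full noise `D (g, g0) = W g + B0 g0` -/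
noncomputable def opD : WithLp 2 (F × G) →L[ℝ] E := sumOp (opW b a T B1) B0
/-- reduced noise `Q (g, g0) = W (q • g) + B0 g0` -/
noncomputable def opQ : WithLp 2 (F × G) →L[ℝ] E := sumOp (opW b a T B1 ∘L dg b (qq a)) B0
/-- `N (g', g, g0) = T (a • g') + W (q • g) + B0 g0` -/
noncomputable def opN : WithLp 2 (F × WithLp 2 (F × G)) →L[ℝ] E :=
  sumOp (T ∘L dg b a) (opQ b a T B1 B0)
/-- `L y = T y - W (a • y)` -/
noncomputable def opL : F →L[ℝ] E := T - opW b a T B1 ∘L dg b a

/-- level of the true noise -/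
noncomputable def fU (Z : Set E) (y : F) : ℝ := (gau (opD b a T B1 B0)).real {z | T y + z ∈ Z}
/-- the kernel level -/
noncomputable def fV (Z : Set E) (y : F) : ℝ :=
  (gau (opN b a T B1 B0)).real {z | opL b a T B1 y + z ∈ Z}
/-- level of the reduced noise at `(y, m)` -/
noncomputable def fh (Z : Set E) (y m : F) : ℝ :=
  (gau (opQ b a T B1 B0)).real {z | T y + opW b a T B1 m + z ∈ Z}

lemma opW_apply (y : F) : opW b a T B1 y = T (dg b a y) + B1 y := rfl

lemma opW_adj (t : E) : (opW b a T B1).adjoint t = dg b a (T.adjoint t) + B1.adjoint t := by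
  apply ext_inner_right ℝ
  intro x
  rw [ContinuousLinearMap.adjoint_inner_left, opW_apply, inner_add_right, inner_add_left,
    inner_dg_left, ContinuousLinearMap.adjoint_inner_left, ContinuousLinearMap.adjoint_inner_left]

lemma comp_dg_adj (A : F →L[ℝ] E) (c : ι → ℝ) (t : E) :
    (A ∘L dg b c).adjoint t = dg b c (A.adjoint t) := by
  rw [ContinuousLinearMap.adjoint_comp, ContinuousLinearMap.comp_apply, adjoint_dg]

lemma opL_adj (t : E) : (opL b a T B1).adjoint t
    = T.adjoint t - dg b a ((opW b a T B1).adjoint t) := by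
  apply ext_inner_right ℝ
  intro x
  rw [ContinuousLinearMap.adjoint_inner_left]
  simp only [opL, sub_apply, ContinuousLinearMap.comp_apply]
  rw [inner_sub_right, inner_sub_left, inner_dg_left, ContinuousLinearMap.adjoint_inner_left,
    ContinuousLinearMap.adjoint_inner_left]

/-- (K1), covariance identity: the kernel reproduces the reference exactly. -/
lemma cov_kernel (ha : ∀ i, a i ^ 2 ≤ 1) (t : E) :
    ‖(opL b a T B1).adjoint t‖ ^ 2 + ‖(opN b a T B1 B0).adjoint t‖ ^ 2
      = ‖T.adjoint t‖ ^ 2 + ‖B1.adjoint t‖ ^ 2 + ‖B0.adjoint t‖ ^ 2 := by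
  have hq : ∀ i, qq a i ^ 2 = 1 - a i ^ 2 := fun i => Real.sq_sqrt (by linarith [ha i])
  rw [opN, sumOp_adj, opQ, sumOp_adj, comp_dg_adj, comp_dg_adj, opL_adj, opW_adj, norm_sq_basis b,
    norm_dg_sq, norm_dg_sq, norm_sq_basis b (T.adjoint t), norm_sq_basis b (B1.adjoint t),
    ← add_assoc, ← add_assoc, ← Finset.sum_add_distrib, ← Finset.sum_add_distrib,
    ← Finset.sum_add_distrib]
  congr 1
  refine Finset.sum_congr rfl fun i _ => ?_
  rw [hq, inner_sub_right, inner_dg, inner_add_right, inner_dg]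
  ring

/-- splitting of the true noise -/
lemma cov_D (ha : ∀ i, a i ^ 2 ≤ 1) (t : E) :
    ‖(opW b a T B1 ∘L dg b a).adjoint t‖ ^ 2 + ‖(opQ b a T B1 B0).adjoint t‖ ^ 2
      = ‖(opD b a T B1 B0).adjoint t‖ ^ 2 := by
  have hq : ∀ i, qq a i ^ 2 = 1 - a i ^ 2 := fun i => Real.sq_sqrt (by linarith [ha i])
  rw [opD, sumOp_adj, opQ, sumOp_adj, comp_dg_adj, comp_dg_adj, norm_dg_sq, norm_dg_sq,
    norm_sq_basis b ((opW b a T B1).adjoint t), ← add_assoc, ← Finset.sum_add_distrib]
  congr 1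
  refine Finset.sum_congr rfl fun i _ => ?_
  rw [hq]
  ring

variable {b a T B1 B0}

lemma measurable_level (S : H →L[ℝ] E) (A : F →L[ℝ] E) {Z : Set E} (hZ : IsClosed Z) :
    Measurable fun y : F => (gau S).real {z | A y + z ∈ Z} :=
  (measurable_gau_shift_real S hZ.measurableSet).comp A.continuous.measurable

/-- (K1) -/
theorem integral_fV (ha : ∀ i, a i ^ 2 ≤ 1) {C : H →L[ℝ] E}
    (hC : ∀ t, ‖C.adjoint t‖ ^ 2 = ‖T.adjoint t‖ ^ 2 + ‖B1.adjoint t‖ ^ 2 + ‖B0.adjoint t‖ ^ 2)
    {Z : Set E} (hZ : IsClosed Z) :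
    ∫ y, fV b a T B1 B0 Z y ∂(stdGaussian F) = (gau C).real Z := by
  rw [gau_mix_real (fun t => (cov_kernel b a T B1 B0 ha t).trans (hC t).symm) hZ.measurableSet,
    gau, integral_map (opL b a T B1).continuous.aemeasurable
      (measurable_gau_shift_real _ hZ.measurableSet).aestronglyMeasurable]
  rfl

/-- (R1) -/
lemma fV_eq {Z : Set E} (hZ : IsClosed Z) (y : F) :
    fV b a T B1 B0 Z y = ∫ g, fh b a T B1 B0 Z (y + dg b a g) (-(dg b a y)) ∂(stdGaussian F) := by
  have hK := isClosed_shift hZ (opL b a T B1 y)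
  rw [fV, opN, gau_mix_real (A := T ∘L dg b a) (B := opQ b a T B1 B0) (fun t => (sumOp_adj _ _ t).symm)
    hK.measurableSet, gau, integral_map (T ∘L dg b a).continuous.aemeasurable
      (measurable_gau_shift_real _ hK.measurableSet).aestronglyMeasurable]
  refine integral_congr_ae (Eventually.of_forall fun g => ?_)
  simp only [fh]
  congr 1
  ext z
  simp only [mem_ofPred_eq, opL, sub_apply, ContinuousLinearMap.comp_apply,
    map_add, map_neg]
  constructor <;> intro h <;> convert h using 1 <;> abel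

/-- (R2) -/
lemma fU_eq (ha : ∀ i, a i ^ 2 ≤ 1) {Z : Set E} (hZ : IsClosed Z) (y : F) :
    fU b a T B1 B0 Z y = ∫ g, fh b a T B1 B0 Z y (dg b a g) ∂(stdGaussian F) := by
  have hK := isClosed_shift hZ (T y)
  rw [fU, gau_mix_real (A := opW b a T B1 ∘L dg b a) (B := opQ b a T B1 B0)
    (cov_D b a T B1 B0 ha) hK.measurableSet, gau, integral_map
      (opW b a T B1 ∘L dg b a).continuous.aemeasurable
      (measurable_gau_shift_real _ hK.measurableSet).aestronglyMeasurable]
  refine integral_congr_ae (Eventually.of_forall fun g => ?_)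
  simp only [fh]
  congr 1
  ext z
  simp only [mem_ofPred_eq, ContinuousLinearMap.comp_apply]
  constructor <;> intro h <;> convert h using 1 <;> abel

/-- shift in `m` -/
lemma fh_shift {Z : Set E} (hZ : IsClosed Z) {y m v : F} {t : ℝ}
    (h : Phi t ≤ fh b a T B1 B0 Z y m) :
    Phi (t - ‖v‖) ≤ fh b a T B1 B0 Z y (m + dg b (qq a) v) := by
  have h1 := tset_shift (opQ b a T B1 B0) hZ.measurableSet (pr v 0)
    (show T y + opW b a T B1 m ∈ tset (opQ b a T B1 B0) Z (Phi t) from h)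
  have hn : ‖pr v (0 : G)‖ = ‖v‖ := by
    have := norm_pr_sq v (0 : G)
    rw [norm_zero] at this
    exact (pow_left_inj₀ (norm_nonneg _) (norm_nonneg _) two_ne_zero).1 (by linarith)
  rw [hn] at h1
  have e : T y + opW b a T B1 m + opQ b a T B1 B0 (pr v 0)
      = T y + opW b a T B1 (m + dg b (qq a) v) := by
    rw [opQ, sumOp_pr, map_add, map_zero, ContinuousLinearMap.comp_apply]
    abel
  rw [e] at h1
  exact h1

lemma phi_le (s : ℝ) : Crest.Agent.Lib.Ehrhard.phi s ≤ 2/5 := by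
  unfold Crest.Agent.Lib.Ehrhard.phi
  have hc : (Real.sqrt (2 * Real.pi))⁻¹ ≤ 2/5 := by
    rw [inv_le_comm₀ (by positivity) (by norm_num)]
    apply Real.le_sqrt_of_sq_le
    nlinarith [Real.pi_gt_d2]
  have h5 : Real.exp (-s^2/2) ≤ 1 := Real.exp_le_one_iff.2 (by nlinarith [sq_nonneg s])
  have h6 := Real.exp_pos (-s^2/2)
  nlinarith

lemma le_phi {s : ℝ} (h : |s| ≤ 1/10) : 19/50 ≤ Crest.Agent.Lib.Ehrhard.phi s := by
  unfold Crest.Agent.Lib.Ehrhard.phi
  have hc : 39/100 ≤ (Real.sqrt (2 * Real.pi))⁻¹ := by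
    rw [le_inv_comm₀ (by norm_num) (by positivity)]
    apply Real.sqrt_le_iff.2
    constructor
    · norm_num
    · nlinarith [Real.pi_lt_d2]
  have h5 : 1 - s^2/2 ≤ Real.exp (-s^2/2) := by
    have := Real.add_one_le_exp (-s^2/2)
    linarith
  have h7 : s^2 ≤ 1/100 := by
    have := sq_abs s
    nlinarith [abs_nonneg s]
  nlinarith

lemma Phi_sub_le {x d : ℝ} (hd : 0 ≤ d) : Phi x - 2/5 * d ≤ Phi (x - d) := by
  have h := Shell876.Phi_sub (x - d) d
  rw [sub_add_cancel] at h
  have i1 : IntervalIntegrable (fun s => Crest.Agent.Lib.Ehrhard.phi (x - d + s)) volume 0 d :=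
    (Crest.Agent.Lib.Ehrhard.continuous_phi.comp (by fun_prop)).intervalIntegrable _ _
  have h2 : ∫ s in (0:ℝ)..d, Crest.Agent.Lib.Ehrhard.phi (x - d + s) ≤ ∫ s in (0:ℝ)..d, (2/5:ℝ) :=
    intervalIntegral.integral_mono_on hd i1 (by simp) fun s _ => phi_le _
  rw [intervalIntegral.integral_const, sub_zero, smul_eq_mul] at h2
  linarith

lemma le_Phi_sub {x d : ℝ} (hd : 0 ≤ d) (hx : |x| ≤ 1/10) (hxd : |x - d| ≤ 1/10) :
    19/50 * d ≤ Phi x - Phi (x - d) := by
  have h := Shell876.Phi_sub (x - d) d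
  rw [sub_add_cancel] at h
  have i1 : IntervalIntegrable (fun s => Crest.Agent.Lib.Ehrhard.phi (x - d + s)) volume 0 d :=
    (Crest.Agent.Lib.Ehrhard.continuous_phi.comp (by fun_prop)).intervalIntegrable _ _
  have h2 : ∫ s in (0:ℝ)..d, (19/50:ℝ) ≤ ∫ s in (0:ℝ)..d, Crest.Agent.Lib.Ehrhard.phi (x - d + s) := by
    apply intervalIntegral.integral_mono_on hd (by simp) i1
    intro s hs
    apply le_phi
    rw [abs_le] at hx hxd ⊢
    constructor
    · linarith [hs.1, hs.2]
    · linarith [hs.1, hs.2]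
  rw [intervalIntegral.integral_const, sub_zero, smul_eq_mul] at h2
  linarith

lemma qq_pos (ha : ∀ i, a i ^ 2 ≤ 1/100) (i : ι) : 0 < qq a i :=
  Real.sqrt_pos.2 (by linarith [ha i])

lemma qq_sq (ha : ∀ i, a i ^ 2 ≤ 1/100) (i : ι) : qq a i ^ 2 = 1 - a i ^ 2 :=
  Real.sq_sqrt (by linarith [ha i])

/-- (K2) -/
theorem fV_lip (ha : ∀ i, a i ^ 2 ≤ 1/100) {Z : Set E} (hZ : IsClosed Z) {y w : F} {t : ℝ}
    (h : Phi t ≤ fV b a T B1 B0 Z y) :
    Phi (t - 101/100 * ‖w‖) ≤ fV b a T B1 B0 Z (y + dg b a w) := by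
  set d : ι → ℝ := fun i => -(a i ^ 2 / qq a i) with hd
  set u : WithLp 2 (F × WithLp 2 (F × G)) := pr w (pr (dg b d w) 0) with hu
  have h1 := tset_shift (opN b a T B1 B0) hZ.measurableSet u
    (show opL b a T B1 y ∈ tset (opN b a T B1 B0) Z (Phi t) from h)
  have hqd : (fun i => qq a i * d i) = fun i => -(a i * a i) := by
    funext i
    have := (qq_pos ha i).ne'
    simp only [hd]
    field_simp
  have e : opL b a T B1 y + opN b a T B1 B0 u = opL b a T B1 (y + dg b a w) := by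
    rw [hu, opN, sumOp_pr, opQ, sumOp_pr]
    simp only [opL, sub_apply, ContinuousLinearMap.comp_apply, map_add,
      map_zero, add_zero]
    rw [dg_dg b (qq a) d w, dg_dg b a a w, hqd]
    have : dg b (fun i => -(a i * a i)) w = - dg b (fun i => a i * a i) w := by
      apply ext_basis b
      intro i
      rw [inner_dg, inner_neg_right, inner_dg]; ring
    rw [this, map_neg]
    abel
  rw [e] at h1
  have hn : ‖u‖ ≤ 101/100 * ‖w‖ := by
    have h2 : ‖u‖ ^ 2 = ‖w‖ ^ 2 + ‖dg b d w‖ ^ 2 := by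
      rw [hu, norm_pr_sq, norm_pr_sq, norm_zero]; ring
    have h3 : ‖dg b d w‖ ≤ ‖dg b (fun _ => (1/50 : ℝ)) w‖ := by
      apply norm_dg_le
      intro i
      have hq := qq_pos ha i
      have hq2 := qq_sq ha i
      have h9 : 9/10 ≤ qq a i := by
        by_contra hcon
        push Not at hcon
        have : qq a i ^ 2 < (9/10)^2 := pow_lt_pow_left₀ hcon hq.le two_ne_zero
        nlinarith [ha i]
      simp only [hd, abs_neg]
      rw [abs_of_nonneg (by positivity), abs_of_nonneg (by norm_num), div_le_iff₀ hq]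
      nlinarith [ha i]
    rw [dg_const, norm_smul, Real.norm_of_nonneg (by norm_num)] at h3
    apply le_of_sq_le_sq _ (by positivity)
    rw [h2]
    have h4 : ‖dg b d w‖ ^ 2 ≤ (1/50 * ‖w‖) ^ 2 := pow_le_pow_left₀ (norm_nonneg _) h3 2
    nlinarith [norm_nonneg w]
  exact (strictMono_Phi.monotone (by linarith)).trans h1

/-- mean norm of the small noise -/
lemma integral_norm_dg {e : ℝ} (he : 0 < e) (hs : ∑ i, a i ^ 2 ≤ e ^ 2) :
    Integrable (fun g : F => ‖dg b a g‖) (stdGaussian F) ∧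
      ∫ g, ‖dg b a g‖ ∂(stdGaussian F) ≤ e := by
  obtain ⟨I, hI⟩ := integral_norm_sq (dg b a) b
  have hb : ∀ i, ‖(dg b a).adjoint (b i)‖ ^ 2 = a i ^ 2 := by
    intro i
    classical
    rw [adjoint_dg, norm_dg_sq]
    simp_rw [orthonormal_iff_ite.1 b.orthonormal]
    simp
  simp_rw [hb] at hI
  have key : ∀ g : F, ‖dg b a g‖ ≤ (‖dg b a g‖ ^ 2 / e + e) / 2 := by
    intro g
    have h1 : 0 ≤ (‖dg b a g‖ - e) ^ 2 := sq_nonneg _
    rw [le_div_iff₀ two_pos, ← sub_nonneg]
    have : ‖dg b a g‖ ^ 2 / e + e - ‖dg b a g‖ * 2 = (‖dg b a g‖ - e) ^ 2 / e := by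
      field_simp; ring
    rw [this]; positivity
  have I2 : Integrable (fun g : F => (‖dg b a g‖ ^ 2 / e + e) / 2) (stdGaussian F) :=
    ((I.div_const e).add (integrable_const e)).div_const 2
  have I1 : Integrable (fun g : F => ‖dg b a g‖) (stdGaussian F) :=
    I2.mono' (by fun_prop) (Eventually.of_forall fun g => by
      rw [Real.norm_eq_abs, abs_norm]; exact key g)
  refine ⟨I1, (integral_mono I1 I2 key).trans ?_⟩
  rw [integral_div, integral_add (I.div_const e) (integrable_const e), integral_div, hI]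
  simp only [integral_const, probReal_univ, one_smul]
  rw [div_le_iff₀ two_pos]
  have : (∑ i, a i ^ 2) / e ≤ e := by
    rw [div_le_iff₀ he]; nlinarith
  linarith

/-- (R3) -/
theorem fU_ge (ha : ∀ i, a i ^ 2 ≤ 1/100) {e : ℝ} (he : 0 < e) (hs : ∑ i, a i ^ 2 ≤ e ^ 2)
    {Z : Set E} (hZ : IsClosed Z) {y m : F} {t : ℝ} (h : Phi t ≤ fh b a T B1 B0 Z y m) :
    Phi t - 9/20 * (‖m‖ + e) ≤ fU b a T B1 B0 Z y := by
  rw [fU_eq (fun i => (ha i).trans (by norm_num)) hZ]
  obtain ⟨I1, hI1⟩ := integral_norm_dg (b := b) he hs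
  set di : ι → ℝ := fun i => (qq a i)⁻¹ with hdi
  have hq1 : ∀ i, |di i| ≤ |(9/8 : ℝ)| := by
    intro i
    have hq := qq_pos ha i
    have hq2 := qq_sq ha i
    have h9 : 9/10 ≤ qq a i := by
      by_contra hcon
      push Not at hcon
      have : qq a i ^ 2 < (9/10)^2 := pow_lt_pow_left₀ hcon hq.le two_ne_zero
      nlinarith [ha i]
    rw [hdi]
    simp only
    rw [abs_of_pos (inv_pos.2 hq), abs_of_pos (by norm_num), inv_le_comm₀ hq (by norm_num)]
    linarith
  have key : ∀ g : F, Phi t - 9/20 * (‖m‖ + ‖dg b a g‖) ≤ fh b a T B1 B0 Z y (dg b a g) := by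
    intro g
    have h1 := fh_shift hZ (v := dg b di (dg b a g - m)) h
    have e1 : m + dg b (qq a) (dg b di (dg b a g - m)) = dg b a g := by
      rw [dg_dg]
      have : (fun i => qq a i * di i) = fun _ => (1:ℝ) := by
        funext i
        exact mul_inv_cancel₀ (qq_pos ha i).ne'
      rw [this, dg_const, one_smul]
      abel
    rw [e1] at h1
    have h2 : ‖dg b di (dg b a g - m)‖ ≤ 9/8 * (‖m‖ + ‖dg b a g‖) := by
      have h3 := norm_dg_le b (c := di) (d := fun _ => (9/8:ℝ)) hq1 (dg b a g - m)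
      rw [dg_const, norm_smul, Real.norm_of_nonneg (by norm_num)] at h3
      have h4 := norm_sub_le (dg b a g) m
      linarith
    have h5 := Phi_sub_le (x := t) (norm_nonneg (dg b di (dg b a g - m)))
    linarith
  have I2 : Integrable (fun g : F => Phi t - 9/20 * (‖m‖ + ‖dg b a g‖)) (stdGaussian F) :=
    (integrable_const _).sub (((integrable_const _).add I1).const_mul _)
  have I3 : Integrable (fun g : F => fh b a T B1 B0 Z y (dg b a g)) (stdGaussian F) := by
    have mm : Measurable fun g : F => fh b a T B1 B0 Z y (dg b a g) := by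
      have h1 := measurable_level (opQ b a T B1 B0) (opW b a T B1 ∘L dg b a)
        (isClosed_shift hZ (T y))
      have e : (fun g : F => fh b a T B1 B0 Z y (dg b a g)) = fun g => (gau (opQ b a T B1 B0)).real
          {z | (opW b a T B1 ∘L dg b a) g + z ∈ {x | T y + x ∈ Z}} := by
        funext g
        simp only [fh]
        congr 1
        ext z
        simp only [mem_ofPred_eq, ContinuousLinearMap.comp_apply]
        rw [add_assoc]
      rw [e]
      exact h1
    exact Integrable.of_bound mm.aestronglyMeasurable 1 (Eventually.of_forall fun y => by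
      rw [Real.norm_eq_abs, fh, abs_of_nonneg measureReal_nonneg]; exact measureReal_le_one)
  refine le_trans ?_ (integral_mono I2 I3 key)
  have I4 : Integrable (fun g : F => ‖m‖ + ‖dg b a g‖) (stdGaussian F) :=
    (integrable_const _).add I1
  have e4 : ∫ g, (‖m‖ + ‖dg b a g‖) ∂(stdGaussian F) = ‖m‖ + ∫ g, ‖dg b a g‖ ∂(stdGaussian F) := by
    rw [integral_add (integrable_const _) I1]
    simp only [integral_const, probReal_univ, one_smul]
  have e5 : ∫ g, (Phi t - 9/20 * (‖m‖ + ‖dg b a g‖)) ∂(stdGaussian F)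
      = Phi t - 9/20 * (‖m‖ + ∫ g, ‖dg b a g‖ ∂(stdGaussian F)) := by
    rw [integral_sub (integrable_const _) (I4.const_mul _), integral_const_mul, e4]
    simp only [integral_const, probReal_univ, one_smul]
  rw [e5]
  linarith

/-- distance of a convex set of measure `≥ Φ(-d)` to the origin -/
lemma exists_near {H : Type*} [NormedAddCommGroup H] [InnerProductSpace ℝ H]
    [FiniteDimensional ℝ H] [MeasurableSpace H] [BorelSpace H] {W : Set H} (hW : IsClosed W)
    (cW : Convex ℝ W) {d : ℝ} (hd : 0 ≤ d) (h : Phi (-d) ≤ (stdGaussian H).real W) :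
    ∃ x ∈ W, ‖x‖ ≤ d := by
  have hiso := isoperimetry hW cW hd h
  rw [neg_add_cancel] at hiso
  have h0 : (0:H) ∈ cthickening d W :=
    ball_subset isClosed_cthickening (cW.cthickening _) hiso (mem_closedBall_self le_rfl)
  obtain ⟨p, hp, u, hu, hpu⟩ := cthickening_subset_add hW hd h0
  refine ⟨p, hp, ?_⟩
  have : p = -u := eq_neg_of_add_eq_zero_left hpu
  rw [this, norm_neg]
  exact mem_closedBall_zero_iff.1 hu

end ops

end Crest.Agent.R239.PW
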