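import Mathlib
import Crest.Agent.R239.PWk690

/-! R239, helper690: Gaussian side of (PW') (861 #11481), part 2: near inclusion, support
inequality, the orbit data, final wrapper. -/

set_option autoImplicit false
set_option linter.unusedSectionVars false
open MeasureTheory ProbabilityTheory Set Filter Topology Metric
open scoped ENNReal NNReal RealInnerProductSpace Pointwise

namespace Crest.Agent.R239.PW

open Crest.Agent.Lib.Ehrhard (Phi Phi_pos Phi_lt_one strictMono_Phi Phi_neg continuous_Phi Phi_surj)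
open Crest.Agent.R239 Crest.Agent.R239.Pass690

variable {E : Type*} [NormedAddCommGroup E] [InnerProductSpace ℝ E] [FiniteDimensional ℝ E]
  [MeasurableSpace E] [BorelSpace E]
variable {F : Type*} [NormedAddCommGroup F] [InnerProductSpace ℝ F] [FiniteDimensional ℝ F]
  [MeasurableSpace F] [BorelSpace F]
variable {G : Type*} [NormedAddCommGroup G] [InnerProductSpace ℝ G] [FiniteDimensional ℝ G]
  [MeasurableSpace G] [BorelSpace G]
variable {H : Type*} [NormedAddCommGroup H] [InnerProductSpace ℝ H] [FiniteDimensional ℝ H]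
  [MeasurableSpace H] [BorelSpace H]
variable {ι : Type*} [Fintype ι]

section part2

variable {b : OrthonormalBasis ι ℝ F} {a : ι → ℝ} {T B1 : F →L[ℝ] E} {B0 : G →L[ℝ] E}

variable (b a T B1 B0) in
/-- the fibre hypograph `{(g, σ) : Φ(σ) ≤ fh (y + a g, - a y)}` -/
def fib (Z : Set E) (y : F) : Set (X2 F) :=
  {p | Phi (p1 F p) ≤ fh b a T B1 B0 Z (y + dg b a (p0 F p)) (-(dg b a y))}

lemma fib_eq (Z : Set E) (y : F) :
    fib b a T B1 B0 Z y = hyp (T ∘L dg b a) (opQ b a T B1 B0) {x | opL b a T B1 y + x ∈ Z} := by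
  ext p
  have e : {z | T (y + dg b a (p0 F p)) + opW b a T B1 (-(dg b a y)) + z ∈ Z}
      = {z | (T ∘L dg b a) (p0 F p) + z ∈ {x | opL b a T B1 y + x ∈ Z}} := by
    ext z
    have e2 : T (y + dg b a (p0 F p)) + opW b a T B1 (-(dg b a y)) + z
      = opL b a T B1 y + ((T ∘L dg b a) (p0 F p) + z) := by
      simp only [opL, sub_apply, ContinuousLinearMap.comp_apply, map_add, map_neg]
      abel
    simp only [mem_ofPred_eq]
    rw [e2]
  simp only [fib, hyp, fh, mem_ofPred_eq] at e ⊢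
  rw [e]

lemma fib_measure {Z : Set E} (hZ : IsClosed Z) (y : F) :
    (stdGaussian (X2 F)).real (fib b a T B1 B0 Z y) = fV b a T B1 B0 Z y := by
  rw [fib_eq]
  exact measure_hyp (T ∘L dg b a) (opQ b a T B1 B0) (C := opN b a T B1 B0)
    (fun t => (sumOp_adj _ _ t).symm) (isClosed_shift hZ _)

lemma fib_closed {Z : Set E} (hZ : IsClosed Z) (y : F) : IsClosed (fib b a T B1 B0 Z y) := by
  rw [fib_eq]
  exact isClosed_hyp _ _ (isClosed_shift hZ _)

lemma fib_convex {Z : Set E} (hZ : IsClosed Z) (cZ : Convex ℝ Z) (y : F) :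
    Convex ℝ (fib b a T B1 B0 Z y) := by
  rw [fib_eq]
  exact convex_hyp _ _ (isClosed_shift hZ _) (convex_shift cZ _)

/-- (K4) -/
theorem near_incl (ha : ∀ i, a i ^ 2 ≤ 1/100) {e η : ℝ} (he : 0 < e) (hs : ∑ i, a i ^ 2 ≤ e ^ 2)
    (hη : 0 < η) (hη1 : η ≤ 1/10) (heη : e ≤ η / 20) {Z : Set E} (hZ : IsClosed Z)
    (cZ : Convex ℝ Z) {y : F} (hX : ‖dg b a y‖ ≤ η / 2)
    (h : Phi (-(η/10)) ≤ fV b a T B1 B0 Z y) :
    ∃ v, ‖v‖ ≤ η ∧ Phi (-η) ≤ fU b a T B1 B0 Z (y + dg b a v) := by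
  rw [← fib_measure hZ] at h
  have hη10 : 0 ≤ η / 10 := by positivity
  obtain ⟨x, hx, hxn⟩ := exists_near (fib_closed hZ y) (fib_convex hZ cZ y) hη10 h
  have hnx := norm_X2 x
  have hvn : ‖p0 F x‖ ≤ η / 10 := by
    apply le_trans _ hxn
    apply le_of_sq_le_sq _ (norm_nonneg _)
    rw [← hnx]
    exact le_add_of_nonneg_right (sq_nonneg _)
  have hσn : -(η/10) ≤ p1 F x := by
    have h2 : ‖p1 F x‖ ≤ η / 10 := by
      apply le_trans _ hxn
      apply le_of_sq_le_sq _ (norm_nonneg _)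
      rw [← hnx]
      exact le_add_of_nonneg_left (sq_nonneg _)
    exact (abs_le.1 h2).1
  have h2 : Phi (-(η/10)) ≤ fh b a T B1 B0 Z (y + dg b a (p0 F x)) (-(dg b a y)) :=
    (strictMono_Phi.monotone hσn).trans hx
  refine ⟨p0 F x, hvn.trans (by linarith), ?_⟩
  have h3 := fU_ge ha he hs hZ h2
  rw [norm_neg] at h3
  have h4 := le_Phi_sub (x := -(η/10)) (d := 9/10 * η) (by positivity)
    (by rw [abs_neg, abs_of_pos (by positivity)]; linarith)
    (by
      have : -(η/10) - 9/10 * η = -η := by ring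
      rw [this, abs_neg, abs_of_pos hη]; exact hη1)
  have e4 : -(η/10) - 9/10 * η = -η := by ring
  rw [e4] at h4
  linarith

/-- separation in the kernel hypograph -/
theorem supp_aux {Z : Set E} (hZ : IsClosed Z) (cZ : Convex ℝ Z) {z : F} {η' : ℝ}
    (hz : fh b a T B1 B0 Z z 0 < Phi (-η')) :
    (∀ y m, fh b a T B1 B0 Z y m = 0) ∨ ∃ (c : ℝ) (α β : F), 0 ≤ c ∧ ‖dg b (qq a) β‖ ≤ c ∧
      ∀ y m s, Phi s ≤ fh b a T B1 B0 Z y m → c * (s + η') + ⟪α, y - z⟫ + ⟪β, m⟫ < 0 := by
  by_cases hne : ∃ y m s, Phi s ≤ fh b a T B1 B0 Z y m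
  swap
  · left
    intro y m
    by_contra hcon
    have h0 : 0 < fh b a T B1 B0 Z y m := lt_of_le_of_ne measureReal_nonneg (Ne.symm hcon)
    have h1 : fh b a T B1 B0 Z y m ≤ 1 := measureReal_le_one
    obtain ⟨t, ht⟩ := Phi_surj (p := fh b a T B1 B0 Z y m / 2) (by linarith) (by linarith)
    exact hne ⟨y, m, t, by rw [ht]; linarith⟩
  · right
    obtain ⟨y0, m0, s0, h0⟩ := hne
    have hK := isClosed_hyp (sumOp T (opW b a T B1)) (opQ b a T B1 B0) hZ
    have cK := convex_hyp (sumOp T (opW b a T B1)) (opQ b a T B1 B0) hZ cZ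
    have hmem : ∀ (y m : F) (s : ℝ), Phi s ≤ fh b a T B1 B0 Z y m →
        (pr (pr y m) s : X2 (WithLp 2 (F × F))) ∈
          hyp (sumOp T (opW b a T B1)) (opQ b a T B1 B0) Z := fun y m s h => h
    have hP : (pr (pr z 0) (-η') : X2 (WithLp 2 (F × F))) ∉
        hyp (sumOp T (opW b a T B1)) (opQ b a T B1 B0) Z := by
      intro h
      have h' : Phi (-η') ≤ fh b a T B1 B0 Z z 0 := h
      linarith
    obtain ⟨f, u, hf, hu⟩ := geometric_hahn_banach_closed_point cK hK hP
    set L : X2 (WithLp 2 (F × F)) := (InnerProductSpace.toDual ℝ _).symm f with hLdef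
    set α : F := (WithLp.fst (WithLp.fst L)) with hα
    set β : F := (WithLp.snd (WithLp.fst L)) with hβ
    set c : ℝ := WithLp.snd L with hc
    have hL : ∀ (y m : F) (s : ℝ), f (pr (pr y m) s) = ⟪α, y⟫ + ⟪β, m⟫ + c * s := by
      intro y m s
      rw [← InnerProductSpace.toDual_symm_apply (𝕜 := ℝ), ← hLdef, ← pr_eta L,
        ← pr_eta (WithLp.fst L), inner_pr, inner_pr, real_inner_comm s c]
      rfl
    have hfu : ∀ (y m : F) (s : ℝ), Phi s ≤ fh b a T B1 B0 Z y m →
        ⟪α, y⟫ + ⟪β, m⟫ + c * s < u := by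
      intro y m s h
      rw [← hL]
      exact hf _ (hmem y m s h)
    rw [hL, inner_zero_right] at hu
    have hc0 : 0 ≤ c := by
      by_contra hcon
      push Not at hcon
      set D := ⟪α, y0⟫ + ⟪β, m0⟫ + c * s0 with hD
      have hD1 : D < u := hfu y0 m0 s0 h0
      have h1 := hfu y0 m0 (s0 - (u - D) / (-c)) ((strictMono_Phi.monotone (by
        have : 0 ≤ (u - D) / (-c) := div_nonneg (by linarith) (by linarith)
        linarith)).trans h0)
      have h2 : c * (s0 - (u - D) / (-c)) = c * s0 + (u - D) := by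
        have : c ≠ 0 := hcon.ne
        field_simp
        ring
      rw [h2] at h1
      linarith
    have hβc : ‖dg b (qq a) β‖ ≤ c := by
      by_contra hcon
      push Not at hcon
      set N := ‖dg b (qq a) β‖ with hN
      have hN0 : 0 < N := lt_of_le_of_lt hc0 hcon
      set D := ⟪α, y0⟫ + ⟪β, m0⟫ + c * s0 with hD
      have hD1 : D < u := hfu y0 m0 s0 h0
      set t := (u - D) / (N * (N - c)) with ht
      have ht0 : 0 ≤ t := div_nonneg (by linarith) (mul_nonneg hN0.le (by linarith))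
      have h1 := hfu y0 (m0 + dg b (qq a) (t • dg b (qq a) β)) (s0 - ‖t • dg b (qq a) β‖)
        (fh_shift hZ h0)
      have h2 : ⟪β, dg b (qq a) (t • dg b (qq a) β)⟫ = t * N ^ 2 := by
        rw [← inner_dg_left, inner_smul_right, real_inner_self_eq_norm_sq]
      have h3 : ‖t • dg b (qq a) β‖ = t * N := by
        rw [norm_smul, Real.norm_of_nonneg ht0]
      rw [inner_add_right, h2, h3] at h1
      have h4 : t * (N * (N - c)) = u - D := by
        rw [ht, div_mul_cancel₀]
        exact (mul_pos hN0 (by linarith)).ne'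
      nlinarith
    refine ⟨c, α, β, hc0, hβc, ?_⟩
    intro y m s h
    have h1 := hfu y m s h
    rw [inner_sub_right]
    linarith

/-- (K3), the support inequality (*) of 861 #11481 -/
theorem supp (ha : ∀ i, a i ^ 2 ≤ 1/100) {Z : Set E} (hZ : IsClosed Z) (cZ : Convex ℝ Z) {z : F}
    {η' : ℝ} (hz : fh b a T B1 B0 Z z 0 < Phi (-η')) :
    (∀ w, fV b a T B1 B0 Z (z + dg b a w) = 0) ∨
    ∃ (c : ℝ) (α β : F), 0 ≤ c ∧ ‖dg b (qq a) β‖ ≤ c ∧ c ^ 2 + ‖dg b a α‖ ^ 2 = 1 ∧
      ∀ y, fV b a T B1 B0 Z y ≤ Phi (-(c * η' + ⟪α, y - z⟫ - ⟪β, dg b a y⟫)) := by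
  rcases supp_aux hZ cZ hz with h | ⟨c, α, β, hc, hβ, h⟩
  · left
    intro w
    rw [fV_eq hZ]
    simp [h]
  set n : X2 F := pr (dg b a α) c with hn
  have hns : ‖n‖ ^ 2 = ‖dg b a α‖ ^ 2 + c ^ 2 := by
    rw [hn, norm_pr_sq, Real.norm_eq_abs, sq_abs]
  have key : ∀ y (p : X2 F), p ∈ fib b a T B1 B0 Z y →
      c * (p1 F p + η') + (⟪α, y - z⟫ + ⟪dg b a α, p0 F p⟫) - ⟪β, dg b a y⟫ < 0 := by
    intro y p hp
    have h1 := h _ _ _ hp
    rw [inner_neg_right, add_sub_right_comm, inner_add_right, ← inner_dg_left b a α] at h1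
    linarith
  by_cases hn0 : n = 0
  · left
    intro w
    rw [hn0, norm_zero] at hns
    have hc0 : c = 0 := by nlinarith [sq_nonneg ‖dg b a α‖, sq_nonneg c]
    have hα0 : dg b a α = 0 := by
      have : ‖dg b a α‖ = 0 := by nlinarith [sq_nonneg ‖dg b a α‖, sq_nonneg c]
      exact norm_eq_zero.1 this
    have hβ0 : β = 0 := by
      rw [hc0] at hβ
      have h1 : dg b (qq a) β = 0 := norm_eq_zero.1 (le_antisymm hβ (norm_nonneg _))
      apply ext_basis b
      intro i
      have h2 : ⟪b i, dg b (qq a) β⟫ = 0 := by rw [h1, inner_zero_right]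
      rw [inner_dg] at h2
      rw [inner_zero_right]
      exact (mul_eq_zero.1 h2).resolve_left (qq_pos ha i).ne'
    have he : fib b a T B1 B0 Z (z + dg b a w) = ∅ := by
      rw [eq_empty_iff_forall_notMem]
      intro p hp
      have h1 := key _ p hp
      rw [hc0, hα0, hβ0, add_sub_cancel_left, ← inner_dg_left, hα0] at h1
      simp at h1
    rw [← fib_measure hZ, he]
    simp
  · right
    have hN : 0 < ‖n‖ := norm_pos_iff.2 hn0
    refine ⟨c / ‖n‖, ‖n‖⁻¹ • α, ‖n‖⁻¹ • β, by positivity, ?_, ?_, ?_⟩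
    · rw [map_smul, norm_smul, Real.norm_of_nonneg (by positivity), div_eq_inv_mul]
      exact mul_le_mul_of_nonneg_left hβ (by positivity)
    · rw [map_smul, norm_smul, Real.norm_of_nonneg (by positivity), div_eq_inv_mul, mul_pow,
        mul_pow, ← mul_add, add_comm, ← hns]
      field_simp
    · intro y
      rw [← fib_measure hZ]
      have h1 : (stdGaussian (X2 F)).real (fib b a T B1 B0 Z y)
          ≤ (stdGaussian (X2 F)).real {p | ⟪n, p⟫ ≤ -(c * η' + ⟪α, y - z⟫ - ⟪β, dg b a y⟫)} := by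
        apply measureReal_mono
        · intro p hp
          have h2 := key y p hp
          have h3 : ⟪n, p⟫ = ⟪dg b a α, p0 F p⟫ + c * p1 F p := by
            rw [inner_X2]; rfl
          simp only [mem_ofPred_eq, h3]
          linarith
        · exact measure_ne_top _ _
      rw [std_halfspace n hn0] at h1
      refine h1.trans (le_of_eq ?_)
      congr 1
      rw [real_inner_smul_left, real_inner_smul_left]
      field_simp

/-- (K3) from the true level -/
theorem supp_fU (ha : ∀ i, a i ^ 2 ≤ 1/100) {e η : ℝ} (he : 0 < e) (hs : ∑ i, a i ^ 2 ≤ e ^ 2)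
    (hη : 0 < η) (hη1 : η ≤ 1/10) (heη : e ≤ η / 20) {Z : Set E} (hZ : IsClosed Z)
    {z : F} (h : fU b a T B1 B0 Z z < Phi (-η)) :
    fh b a T B1 B0 Z z 0 < Phi (-(9/10 * η)) := by
  by_contra hcon
  push Not at hcon
  have h3 := fU_ge ha he hs hZ hcon
  rw [norm_zero] at h3
  have h4 := le_Phi_sub (x := -(9/10 * η)) (d := η / 10) (by positivity)
    (by rw [abs_neg, abs_of_pos (by positivity)]; linarith)
    (by
      have : -(9/10 * η) - η / 10 = -η := by ring
      rw [this, abs_neg, abs_of_pos hη]; exact hη1)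
  have e4 : -(9/10 * η) - η / 10 = -η := by ring
  rw [e4] at h4
  linarith

variable (b a T B1 B0) in
/-- the bad set -/
def bad (Z : Set E) (η : ℝ) : Set F :=
  {y | ∀ v, ‖v‖ ≤ η → fU b a T B1 B0 Z (y + dg b a v) < Phi (-η)}

lemma measurableSet_bad {Z : Set E} (hZ : IsClosed Z) (η : ℝ) :
    MeasurableSet (bad b a T B1 B0 Z η) := by
  have hG : IsClosed {x : F | Phi (-η) ≤ fU b a T B1 B0 Z x} :=
    (isClosed_tset (opD b a T B1 B0) hZ (Phi (-η))).preimage T.continuous
  have hcl : IsClosed ({x : F | Phi (-η) ≤ fU b a T B1 B0 Z x}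
      + (dg b a) '' (closedBall (0:F) η)) :=
    hG.add_right_of_isCompact ((isCompact_closedBall _ _).image (dg b a).continuous)
  have e : bad b a T B1 B0 Z η = ({x : F | Phi (-η) ≤ fU b a T B1 B0 Z x}
      + (dg b a) '' (closedBall (0:F) η))ᶜ := by
    ext y
    simp only [bad, mem_ofPred_eq, mem_compl_iff, Set.mem_add, mem_image, mem_closedBall_zero_iff]
    constructor
    · rintro h ⟨x, hx, _, ⟨v, hv, rfl⟩, rfl⟩
      have := h (-v) (by rwa [norm_neg])
      rw [map_neg, add_neg_cancel_right] at this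
      linarith
    · intro h v hv
      by_contra hcon
      push Not at hcon
      exact h ⟨y + dg b a v, hcon, dg b a (-v), ⟨-v, by rwa [norm_neg], rfl⟩, by
        rw [map_neg, add_neg_cancel_right]⟩
  rw [e]
  exact hcl.measurableSet.compl

/-- the orbit data of (PW') -/
theorem orbData (ha : ∀ i, a i ^ 2 ≤ 1/100) {e η : ℝ} (he : 0 < e) (hs : ∑ i, a i ^ 2 ≤ e ^ 2)
    (hη : 0 < η) (hη1 : η ≤ 1/10) (heη : e ≤ η / 20) {C : H →L[ℝ] E}
    (hC : ∀ t, ‖C.adjoint t‖ ^ 2 = ‖T.adjoint t‖ ^ 2 + ‖B1.adjoint t‖ ^ 2 + ‖B0.adjoint t‖ ^ 2)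
    {Z : Set E} (hZ : IsClosed Z) (cZ : Convex ℝ Z) (h12 : 1/2 ≤ (gau C).real Z) :
    OrbData b a η (9/10 * η) (101/100) (fV b a T B1 B0 Z) (bad b a T B1 B0 Z η) where
  nonneg _ := measureReal_nonneg
  le_one _ := measureReal_le_one
  isClosed := isClosed_hyp (opL b a T B1) (opN b a T B1 B0) hZ
  convex := convex_hyp (opL b a T B1) (opN b a T B1 B0) hZ cZ
  half := by rwa [integral_fV (fun i => (ha i).trans (by norm_num)) hC hZ]
  lip y w t h := fV_lip ha hZ h
  near y hy hX := by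
    by_contra hcon
    push Not at hcon
    obtain ⟨v, hv, hv2⟩ := near_incl ha he hs hη hη1 heη hZ cZ hX hcon
    have := hy v hv
    linarith
  supp z hz := by
    have h1 := hz 0 (by rw [norm_zero]; exact hη.le)
    rw [map_zero, add_zero] at h1
    exact supp ha hZ cZ (supp_fU ha he hs hη hη1 heη hZ h1)

end part2

end Crest.Agent.R239.PW
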