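import Mathlib
import Crest.Agent.R239.PWk690b

/-! R239, helper690: (PW') / (***)' for arbitrary operators from the orbit comparison (SVD). -/

set_option autoImplicit false
set_option linter.unusedSectionVars false
open MeasureTheory ProbabilityTheory Set Filter Topology Metric
open scoped ENNReal NNReal RealInnerProductSpace Pointwise

namespace Crest.Agent.R239.PW

open Crest.Agent.Lib.Ehrhard (Phi Phi_pos Phi_lt_one strictMono_Phi Phi_neg continuous_Phi Phi_surj)
open Crest.Agent.R239 Crest.Agent.R239.Pass690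

variable {E : Type*} [NormedAddCommGroup E] [InnerProductSpace ℝ E] [FiniteDimensional ℝ E]
  [MeasurableSpace E] [BorelSpace E]
variable {F : Type*} [NormedAddCommGroup F] [InnerProductSpace ℝ F] [FiniteDimensional ℝ F]
  [MeasurableSpace F] [BorelSpace F]
variable {G : Type*} [NormedAddCommGroup G] [InnerProductSpace ℝ G] [FiniteDimensional ℝ G]
  [MeasurableSpace G] [BorelSpace G]
variable {H : Type*} [NormedAddCommGroup H] [InnerProductSpace ℝ H] [FiniteDimensional ℝ H]
  [MeasurableSpace H] [BorelSpace H]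
variable {Ω : Type*} [NormedAddCommGroup Ω] [InnerProductSpace ℝ Ω] [FiniteDimensional ℝ Ω]
  [MeasurableSpace Ω] [BorelSpace Ω]
variable {J : Type*} [NormedAddCommGroup J] [InnerProductSpace ℝ J] [FiniteDimensional ℝ J]
  [MeasurableSpace J] [BorelSpace J]

section svd

variable {ι : Type*} [Fintype ι]

/-- an orthonormal basis of singular vectors -/
structure Svd (A : Ω →L[ℝ] F) (b : OrthonormalBasis ι ℝ F) (a : ι → ℝ) : Prop where
  nonneg : ∀ i, 0 ≤ a i
  eq : ∀ i, A (A.adjoint (b i)) = (a i ^ 2) • b i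

lemma Svd.sq {A : Ω →L[ℝ] F} {b : OrthonormalBasis ι ℝ F} {a : ι → ℝ} (h : Svd A b a) (i : ι) :
    a i ^ 2 = ‖A.adjoint (b i)‖ ^ 2 := by
  have h1 : ⟪A (A.adjoint (b i)), b i⟫ = a i ^ 2 := by
    rw [h.eq, real_inner_smul_left, real_inner_self_eq_norm_sq, b.norm_eq_one]
    ring
  rw [← h1, ← ContinuousLinearMap.adjoint_inner_right, real_inner_self_eq_norm_sq]

theorem exists_svd (A : Ω →L[ℝ] F) : ∃ (b : OrthonormalBasis (Fin (Module.finrank ℝ F)) ℝ F)
    (a : Fin (Module.finrank ℝ F) → ℝ), Svd A b a := by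
  have hS : ((A ∘L A.adjoint : F →L[ℝ] F) : F →ₗ[ℝ] F).IsSymmetric := by
    intro x y
    simp only [ContinuousLinearMap.coe_coe, ContinuousLinearMap.comp_apply]
    rw [← ContinuousLinearMap.adjoint_inner_right, ContinuousLinearMap.adjoint_inner_left]
  set b := hS.eigenvectorBasis rfl with hb
  refine ⟨b, fun i => ‖A.adjoint (b i)‖, fun i => norm_nonneg _, fun i => ?_⟩
  have h1 : A (A.adjoint (b i)) = (hS.eigenvalues rfl i : ℝ) • b i :=
    hS.apply_eigenvectorBasis rfl i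
  have h2 : ⟪A (A.adjoint (b i)), b i⟫ = ‖A.adjoint (b i)‖ ^ 2 := by
    rw [← ContinuousLinearMap.adjoint_inner_right, real_inner_self_eq_norm_sq]
  have h3 : ⟪A (A.adjoint (b i)), b i⟫ = hS.eigenvalues rfl i := by
    rw [h1, real_inner_smul_left, real_inner_self_eq_norm_sq, b.norm_eq_one]
    ring
  rw [h1, ← h3, h2]

variable {A : Ω →L[ℝ] F} {b : OrthonormalBasis ι ℝ F} {a : ι → ℝ}

lemma Svd.apply (h : Svd A b a) (y : F) : A (A.adjoint y) = dg b (fun i => a i ^ 2) y := by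
  conv_lhs => rw [← b.sum_repr' y]
  rw [map_sum, map_sum, dg_apply]
  refine Finset.sum_congr rfl fun i _ => ?_
  rw [map_smul, map_smul, h.eq, smul_smul, mul_comm]

variable (A b a) in
/-- `V = dg a⁻¹ ∘ A` -/
noncomputable def svV : Ω →L[ℝ] F := dg b (fun i => (a i)⁻¹) ∘L A

lemma svV_adj (t : F) : (svV A b a).adjoint t = A.adjoint (dg b (fun i => (a i)⁻¹) t) := by
  rw [svV, ContinuousLinearMap.adjoint_comp, ContinuousLinearMap.comp_apply, adjoint_dg]

lemma Svd.V_Aadj (h : Svd A b a) (t : F) : svV A b a (A.adjoint t) = dg b a t := by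
  rw [svV, ContinuousLinearMap.comp_apply, h.apply, dg_dg]
  congr 1
  congr 1
  funext i
  by_cases hi : a i = 0
  · simp [hi]
  · field_simp

lemma Svd.A_Vadj (h : Svd A b a) (t : F) : A ((svV A b a).adjoint t) = dg b a t := by
  rw [svV_adj, h.apply, dg_dg]
  congr 1
  congr 1
  funext i
  by_cases hi : a i = 0
  · simp [hi]
  · field_simp

lemma Svd.zero (h : Svd A b a) {i : ι} (hi : a i = 0) : A.adjoint (b i) = 0 := by
  have := h.sq i
  rw [hi] at this
  have h2 : ‖A.adjoint (b i)‖ = 0 := by nlinarith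
  exact norm_eq_zero.1 h2

lemma Svd.Vadj_V_Aadj (h : Svd A b a) (t : F) :
    (svV A b a).adjoint (svV A b a (A.adjoint t)) = A.adjoint t := by
  rw [h.V_Aadj, svV_adj, dg_dg]
  apply ext_inner_right ℝ
  intro x
  rw [ContinuousLinearMap.adjoint_inner_left, ContinuousLinearMap.adjoint_inner_left,
    inner_basis b, inner_basis b]
  refine Finset.sum_congr rfl fun i _ => ?_
  rw [inner_dg]
  by_cases hi : a i = 0
  · have h1 : ⟪b i, A x⟫ = 0 := by
      rw [← ContinuousLinearMap.adjoint_inner_left, h.zero hi, inner_zero_left]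
    rw [h1]; simp
  · rw [inv_mul_cancel₀ hi, one_mul]

lemma Svd.V_Vadj (h : Svd A b a) (t : F) :
    svV A b a ((svV A b a).adjoint t) = dg b (fun i => a i * (a i)⁻¹) t := by
  rw [svV_adj, h.V_Aadj, dg_dg]

lemma Svd.V_Vadj_V (h : Svd A b a) (x : Ω) :
    svV A b a ((svV A b a).adjoint (svV A b a x)) = svV A b a x := by
  rw [h.V_Vadj]
  simp only [svV, ContinuousLinearMap.comp_apply]
  rw [dg_dg]
  congr 1
  congr 1
  funext i
  by_cases hi : a i = 0
  · simp [hi]
  · rw [mul_inv_cancel₀ hi, one_mul]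

lemma Svd.norm_Vadj (h : Svd A b a) (t : F) : ‖(svV A b a).adjoint t‖ ≤ ‖t‖ := by
  apply le_of_sq_le_sq _ (norm_nonneg _)
  rw [← real_inner_self_eq_norm_sq, ContinuousLinearMap.adjoint_inner_left, h.V_Vadj,
    inner_basis b, norm_sq_basis b]
  refine Finset.sum_le_sum fun i _ => ?_
  rw [inner_dg]
  by_cases hi : a i = 0
  · rw [hi]; simp [sq_nonneg]
  · rw [mul_inv_cancel₀ hi, one_mul, pow_two]

variable (A b a) in
/-- the complementary projection `1 - V†V` -/
noncomputable def svP : Ω →L[ℝ] Ω :=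
  ContinuousLinearMap.id ℝ Ω - (svV A b a).adjoint ∘L svV A b a

lemma svP_apply (x : Ω) : svP A b a x = x - (svV A b a).adjoint (svV A b a x) := rfl

lemma svP_adj (x : Ω) : (svP A b a).adjoint x = svP A b a x := by
  apply ext_inner_right ℝ
  intro y
  rw [ContinuousLinearMap.adjoint_inner_left, svP_apply, svP_apply, inner_sub_right,
    inner_sub_left, ContinuousLinearMap.adjoint_inner_right, ContinuousLinearMap.adjoint_inner_left]

lemma Svd.pyth (h : Svd A b a) (x : Ω) : ‖svV A b a x‖ ^ 2 + ‖svP A b a x‖ ^ 2 = ‖x‖ ^ 2 := by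
  have h1 : ‖svP A b a x‖ ^ 2 = ‖x‖ ^ 2 - ‖svV A b a x‖ ^ 2 := by
    rw [svP_apply, norm_sub_sq_real, ContinuousLinearMap.adjoint_inner_right,
      real_inner_self_eq_norm_sq]
    have : ‖(svV A b a).adjoint (svV A b a x)‖ ^ 2 = ‖svV A b a x‖ ^ 2 := by
      rw [← real_inner_self_eq_norm_sq, ContinuousLinearMap.adjoint_inner_left, h.V_Vadj_V,
        real_inner_self_eq_norm_sq]
    rw [this]
    ring
  rw [h1]; ring

/-- covariance of the normal form of the true noise `T ∘ A + B` -/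
lemma Svd.cov_D (h : Svd A b a) (T : F →L[ℝ] E) (B : Ω →L[ℝ] E) (t : E) :
    ‖(opD b a T (B ∘L (svV A b a).adjoint) (B ∘L svP A b a)).adjoint t‖ ^ 2
      = ‖(T ∘L A + B).adjoint t‖ ^ 2 := by
  have e0 : (T ∘L A + B).adjoint t = A.adjoint (T.adjoint t) + B.adjoint t := by
    apply ext_inner_right ℝ
    intro x
    rw [ContinuousLinearMap.adjoint_inner_left, inner_add_left,
      ContinuousLinearMap.adjoint_inner_left, ContinuousLinearMap.adjoint_inner_left,
      ContinuousLinearMap.adjoint_inner_left, ← inner_add_right]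
    rfl
  rw [opD, sumOp_adj, opW_adj, ContinuousLinearMap.adjoint_comp, ContinuousLinearMap.adjoint_comp,
    ContinuousLinearMap.adjoint_adjoint, ContinuousLinearMap.comp_apply,
    ContinuousLinearMap.comp_apply, svP_adj, e0, ← h.pyth (A.adjoint (T.adjoint t) + B.adjoint t),
    map_add (svV A b a), h.V_Aadj, map_add (svP A b a)]
  have : svP A b a (A.adjoint (T.adjoint t)) = 0 := by
    rw [svP_apply, h.Vadj_V_Aadj, sub_self]
  rw [this, zero_add]

lemma Svd.cov_C (h : Svd A b a) (T : F →L[ℝ] E) (B : Ω →L[ℝ] E) (t : E) :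
    ‖T.adjoint t‖ ^ 2 + ‖(B ∘L (svV A b a).adjoint).adjoint t‖ ^ 2
        + ‖(B ∘L svP A b a).adjoint t‖ ^ 2
      = ‖T.adjoint t‖ ^ 2 + ‖B.adjoint t‖ ^ 2 := by
  rw [ContinuousLinearMap.adjoint_comp, ContinuousLinearMap.adjoint_comp,
    ContinuousLinearMap.adjoint_adjoint, ContinuousLinearMap.comp_apply,
    ContinuousLinearMap.comp_apply, svP_adj, add_assoc, h.pyth]

end svd

/-- the orbit comparison (TARGET of #11611), for one space `F` -/
def Orbits (F : Type*) [NormedAddCommGroup F] [InnerProductSpace ℝ F] [FiniteDimensional ℝ F]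
    [MeasurableSpace F] [BorelSpace F] (η ε : ℝ) : Prop :=
  ∀ (b : OrthonormalBasis (Fin (Module.finrank ℝ F)) ℝ F) (a : Fin (Module.finrank ℝ F) → ℝ)
    (f : F → ℝ) (B : Set F), (∀ i, 0 ≤ a i) → ∑ i, a i ^ 2 ≤ ε → MeasurableSet B →
    OrbData b a η (9/10 * η) (101/100) f B →
      (stdGaussian F).real B ≤ ∫ y, (1 - f y) ∂(stdGaussian F)

/-- steered level set -/
def steer (T : F →L[ℝ] E) (A : Ω →L[ℝ] F) (D : H →L[ℝ] E) (Z : Set E) (η c : ℝ) : Set E :=
  {q | ∃ v : Ω, ‖v‖ ≤ η ∧ q + T (A v) ∈ tset D Z c}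

lemma isClosed_steer (T : F →L[ℝ] E) (A : Ω →L[ℝ] F) (D : H →L[ℝ] E) {Z : Set E}
    (hZ : IsClosed Z) (η c : ℝ) : IsClosed (steer T A D Z η c) := by
  have hcl : IsClosed (tset D Z c + (T ∘L A) '' (closedBall (0:Ω) η)) :=
    (isClosed_tset D hZ c).add_right_of_isCompact
      ((isCompact_closedBall _ _).image (T ∘L A).continuous)
  have e : steer T A D Z η c = tset D Z c + (T ∘L A) '' (closedBall (0:Ω) η) := by
    ext q
    simp only [steer, mem_ofPred_eq, Set.mem_add, mem_image, mem_closedBall_zero_iff]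
    constructor
    · rintro ⟨v, hv, h⟩
      exact ⟨_, h, _, ⟨-v, by rwa [norm_neg], rfl⟩, by
        rw [map_neg, ContinuousLinearMap.comp_apply, add_neg_cancel_right]⟩
    · rintro ⟨x, hx, _, ⟨v, hv, rfl⟩, rfl⟩
      refine ⟨-v, by rwa [norm_neg], ?_⟩
      rw [map_neg, map_neg, ContinuousLinearMap.comp_apply, add_neg_cancel_right]
      exact hx
  rw [e]; exact hcl

lemma convex_steer (T : F →L[ℝ] E) (A : Ω →L[ℝ] F) (D : H →L[ℝ] E) {Z : Set E}
    (hZ : IsClosed Z) (cZ : Convex ℝ Z) (η a : ℝ) : Convex ℝ (steer T A D Z η (Phi a)) := by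
  have e : steer T A D Z η (Phi a) = tset D Z (Phi a) + (T ∘L A) '' (closedBall (0:Ω) η) := by
    ext q
    simp only [steer, mem_ofPred_eq, Set.mem_add, mem_image, mem_closedBall_zero_iff]
    constructor
    · rintro ⟨v, hv, h⟩
      exact ⟨_, h, _, ⟨-v, by rwa [norm_neg], rfl⟩, by
        rw [map_neg, ContinuousLinearMap.comp_apply, add_neg_cancel_right]⟩
    · rintro ⟨x, hx, _, ⟨v, hv, rfl⟩, rfl⟩
      refine ⟨-v, by rwa [norm_neg], ?_⟩
      rw [map_neg, map_neg, ContinuousLinearMap.comp_apply, add_neg_cancel_right]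
      exact hx
  rw [e]
  exact (convex_tset D hZ cZ a).add ((convex_closedBall _ _).is_linear_image
    (T ∘L A : Ω →L[ℝ] E).toLinearMap.isLinear)

/-- **(PW') / (***)' for arbitrary operators** (861 #11481) from the orbit comparison. -/
theorem pw_of_orbits {η ε : ℝ} (hη : 0 < η) (hη1 : η ≤ 1/10) (hε : ε ≤ (η / 20) ^ 2)
    (hO : Orbits F η ε) (T : F →L[ℝ] E) (A : Ω →L[ℝ] F) (B : Ω →L[ℝ] E) {C : H →L[ℝ] E}
    {D : J →L[ℝ] E}
    (hC : ∀ t, ‖C.adjoint t‖ ^ 2 = ‖T.adjoint t‖ ^ 2 + ‖B.adjoint t‖ ^ 2)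
    (hD : ∀ t, ‖D.adjoint t‖ ^ 2 = ‖(T ∘L A + B).adjoint t‖ ^ 2)
    {κ : Type*} [Fintype κ] (b0 : OrthonormalBasis κ ℝ F)
    (hA : ∑ i, ‖A.adjoint (b0 i)‖ ^ 2 ≤ ε)
    {Z : Set E} (hZ : IsClosed Z) (cZ : Convex ℝ Z) (h12 : 1/2 ≤ (gau C).real Z) :
    (gau C).real Z ≤ (gau T).real (steer T A D Z η (Phi (-η))) := by
  obtain ⟨b, a, h⟩ := exists_svd A
  have hs : ∑ i, a i ^ 2 ≤ ε := by
    have h1 := (integral_norm_sq A b).2
    rw [(integral_norm_sq A b0).2] at h1
    rw [h1] at hA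
    simpa only [h.sq] using hA
  have hη20 : (η / 20) ^ 2 ≤ 1/100 := by nlinarith
  have ha : ∀ i, a i ^ 2 ≤ 1/100 := fun i =>
    ((Finset.single_le_sum (f := fun i => a i ^ 2) (fun j _ => sq_nonneg (a j))
      (Finset.mem_univ i)).trans hs).trans (hε.trans hη20)
  have hC' : ∀ t, ‖C.adjoint t‖ ^ 2 = ‖T.adjoint t‖ ^ 2
      + ‖(B ∘L (svV A b a).adjoint).adjoint t‖ ^ 2 + ‖(B ∘L svP A b a).adjoint t‖ ^ 2 := fun t => by
    rw [h.cov_C, hC]
  have hD' : gau (opD b a T (B ∘L (svV A b a).adjoint) (B ∘L svP A b a)) = gau D := by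
    apply gau_ext
    intro t
    have h1 := (h.cov_D T B t).trans (hD t).symm
    exact (pow_left_inj₀ (norm_nonneg _) (norm_nonneg _) two_ne_zero).1 h1
  have hod := orbData (b := b) ha (e := η / 20) (by positivity) (hs.trans hε) hη hη1 le_rfl hC'
    hZ cZ h12
  have hmB := measurableSet_bad (b := b) (a := a) (T := T) (B1 := B ∘L (svV A b a).adjoint)
    (B0 := B ∘L svP A b a) hZ η
  have hfin := hO b a _ _ h.nonneg hs hmB hod
  have hint := integral_fV (b := b) (a := a) (T := T) (B1 := B ∘L (svV A b a).adjoint)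
    (B0 := B ∘L svP A b a) (fun i => (ha i).trans (by norm_num)) hC' hZ
  have hfI : Integrable (fV b a T (B ∘L (svV A b a).adjoint) (B ∘L svP A b a) Z)
      (stdGaussian F) := by
    refine Integrable.of_bound
      (measurable_level (opN b a T (B ∘L (svV A b a).adjoint) (B ∘L svP A b a))
        (opL b a T (B ∘L (svV A b a).adjoint)) hZ).aestronglyMeasurable 1
        (Eventually.of_forall fun y => ?_)
    rw [Real.norm_eq_abs, fV, abs_of_nonneg measureReal_nonneg]; exact measureReal_le_one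
  rw [integral_sub (integrable_const _) hfI, hint, integral_const, probReal_univ, one_smul] at hfin
  have hcomp : (stdGaussian F).real (bad b a T (B ∘L (svV A b a).adjoint) (B ∘L svP A b a) Z η)ᶜ
      = 1 - (stdGaussian F).real (bad b a T (B ∘L (svV A b a).adjoint) (B ∘L svP A b a) Z η) := by
    rw [measureReal_compl hmB, probReal_univ]
  rw [gau_real_apply T (isClosed_steer T A D hZ η _).measurableSet]
  have hincl : (bad b a T (B ∘L (svV A b a).adjoint) (B ∘L svP A b a) Z η)ᶜ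
      ⊆ T ⁻¹' (steer T A D Z η (Phi (-η))) := by
    intro y hy
    simp only [bad, mem_compl_iff, mem_ofPred_eq, not_forall, not_lt] at hy
    obtain ⟨v, hv, hv2⟩ := hy
    refine ⟨(svV A b a).adjoint v, (h.norm_Vadj v).trans hv, ?_⟩
    rw [h.A_Vadj, ← map_add]
    rw [fU, hD'] at hv2
    exact hv2
  have hmono : (stdGaussian F).real (bad b a T (B ∘L (svV A b a).adjoint) (B ∘L svP A b a) Z η)ᶜ
      ≤ (stdGaussian F).real (T ⁻¹' (steer T A D Z η (Phi (-η)))) :=
    measureReal_mono hincl (measure_ne_top _ _)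
  linarith

end Crest.Agent.R239.PW
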