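import Crest.Agent.R239.Glue996d
import Crest.Agent.R239.LI723

/-!
# The target of the orbit team from the line inequality (R239, (PW'))
-/

set_option autoImplicit false
set_option linter.unusedSectionVars false
open MeasureTheory ProbabilityTheory Set Filter Topology Real
open scoped ENNReal NNReal RealInnerProductSpace

namespace Crest.Agent.R239.Glue996

open Crest.Agent.R239 Crest.Agent.R239.PW Crest.Agent.R239.Orb

universe u v

/-- the target of #11611, for types `ι : Type v`, `E : Type u` -/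
def TargetProp (η : ℝ) : Prop :=
  ∃ ε₀ : ℝ, 0 < ε₀ ∧
    ∀ {ι : Type v} [Fintype ι] {E : Type u} [NormedAddCommGroup E] [InnerProductSpace ℝ E]
      [FiniteDimensional ℝ E] [MeasurableSpace E] [BorelSpace E] (b : OrthonormalBasis ι ℝ E)
      (a : ι → ℝ) (f : E → ℝ) (B : Set E), (∀ i, 0 ≤ a i) → ∑ i, a i ^ 2 ≤ ε₀ →
      MeasurableSet B → OrbData b a η (9/10 * η) (101/100) f B →
      (stdGaussian E).real B ≤ ∫ y, (1 - f y) ∂(stdGaussian E)

theorem target_of_LI {η : ℝ} (h0 : 0 < η) (h1 : η ≤ 1/10) (h : LI.LIprop.{u, v} η) :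
    TargetProp.{u, v} η := by
  obtain ⟨c, hc0, hc1, L, hL, ε, hε, H⟩ := h
  refine ⟨min ε (epsG η c L), lt_min hε (epsG_pos h0), ?_⟩
  intro ι _ E _ _ _ _ _ b a f B ha hs hB hf
  refine glue hf (by norm_num) h0 h1 hc0 hc1 hL ha (hs.trans (min_le_right _ _)) ?_ hB
  intro y α t1 hα hX1 hX2 hdeep hz
  exact H b a f B ha (hs.trans (min_le_left _ _)) hf y α t1 hα hX1 hX2 hdeep hz

theorem target_of_HC {η : ℝ} (h0 : 0 < η) (h1 : η ≤ 1/10) (h : LI.HCprop.{u, v} η) :
    TargetProp.{u, v} η := target_of_LI h0 h1 (LI.LI_of_HC h0 h1 h)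

end Crest.Agent.R239.Glue996
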