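import Mathlib
import Crest.Agent.R239.PWk690c
import Crest.Agent.R239.Target996
import Crest.Agent.R239.HCp29

/-! R239, helper690: **(PW') / (***)' with consumption constant exactly 1** (861 #11481), final form. -/

set_option autoImplicit false
set_option linter.unusedSectionVars false
open MeasureTheory ProbabilityTheory Set Filter Topology Metric
open scoped ENNReal NNReal RealInnerProductSpace

namespace Crest.Agent.R239.PW

open Crest.Agent.Lib.Ehrhard (Phi)
open Crest.Agent.R239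

universe u

theorem exists_orbits {η : ℝ} (hη : 0 < η) (hη1 : η ≤ 1/10) : ∃ ε : ℝ, 0 < ε ∧
    ∀ (F : Type u) [NormedAddCommGroup F] [InnerProductSpace ℝ F] [FiniteDimensional ℝ F]
      [MeasurableSpace F] [BorelSpace F], Orbits F η ε := by
  obtain ⟨ε, hε, h⟩ := Glue996.target_of_HC.{u, 0} hη hη1 (HC.hcprop hη hη1)
  exact ⟨ε, hε, fun F _ _ _ _ _ b a f B ha hs hB hod => h b a f B ha hs hB hod⟩

/-- **(PW')**: steered level sets never lose mass, consumption exactly `B B†`, all ties, no trace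
condition on `B`. `T` = static coordinates, `A` = the noise of the static coordinates (small trace),
`B` = the passenger part of the noise, `D = T ∘ A + B` in law, `C C† = T T† + B B†`. -/
theorem pw {η : ℝ} (hη : 0 < η) (hη1 : η ≤ 1/10) : ∃ ε : ℝ, 0 < ε ∧
    ∀ {E : Type*} [NormedAddCommGroup E] [InnerProductSpace ℝ E] [FiniteDimensional ℝ E]
      [MeasurableSpace E] [BorelSpace E]
      {F : Type u} [NormedAddCommGroup F] [InnerProductSpace ℝ F] [FiniteDimensional ℝ F]
      [MeasurableSpace F] [BorelSpace F]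
      {Ω : Type*} [NormedAddCommGroup Ω] [InnerProductSpace ℝ Ω] [FiniteDimensional ℝ Ω]
      [MeasurableSpace Ω] [BorelSpace Ω]
      {H : Type*} [NormedAddCommGroup H] [InnerProductSpace ℝ H] [FiniteDimensional ℝ H]
      [MeasurableSpace H] [BorelSpace H]
      {J : Type*} [NormedAddCommGroup J] [InnerProductSpace ℝ J] [FiniteDimensional ℝ J]
      [MeasurableSpace J] [BorelSpace J]
      (T : F →L[ℝ] E) (A : Ω →L[ℝ] F) (B : Ω →L[ℝ] E) {C : H →L[ℝ] E} {D : J →L[ℝ] E},
      (∀ t, ‖C.adjoint t‖ ^ 2 = ‖T.adjoint t‖ ^ 2 + ‖B.adjoint t‖ ^ 2) →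
      (∀ t, ‖D.adjoint t‖ ^ 2 = ‖(T ∘L A + B).adjoint t‖ ^ 2) →
      ∀ {κ : Type*} [Fintype κ] (b0 : OrthonormalBasis κ ℝ F),
      ∑ i, ‖A.adjoint (b0 i)‖ ^ 2 ≤ ε →
      ∀ {Z : Set E}, IsClosed Z → Convex ℝ Z → 1/2 ≤ (gau C).real Z →
      (gau C).real Z ≤ (gau T).real (steer T A D Z η (Phi (-η))) := by
  obtain ⟨ε, hε, h⟩ := exists_orbits.{u} hη hη1
  refine ⟨min ε ((η / 20) ^ 2), lt_min hε (by positivity), ?_⟩
  intro E _ _ _ _ _ F _ _ _ _ _ Ω _ _ _ _ _ H _ _ _ _ _ J _ _ _ _ _ T A B C D hC hD κ _ b0 hA Z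
    hZ cZ h12
  exact pw_of_orbits hη hη1 (min_le_right _ _)
    (fun b a f B ha hs hB hod => h F b a f B ha (hs.trans (min_le_left _ _)) hB hod)
    T A B hC hD b0 hA hZ cZ h12

end Crest.Agent.R239.PW
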