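import Mathlib
import Crest.Agent.R239.Gau5
import Crest.Agent.R239.Flat974

/-! R239 (helper723): monotonicity of Gaussian measures of convex sets in the covariance at level
`≥ 1/2`, in measure form and in `tset` form; square roots of covariance differences. -/

set_option autoImplicit false
set_option linter.unusedSectionVars false
open MeasureTheory ProbabilityTheory Set Filter Topology Metric
open scoped RealInnerProductSpace ENNReal NNReal InnerProduct

namespace Crest.Agent.R239.P723

open Crest.Agent.Lib.Ehrhard (Phi Phi_pos Phi_lt_one strictMono_Phi Phi_neg)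

variable {E : Type*} [NormedAddCommGroup E] [InnerProductSpace ℝ E] [FiniteDimensional ℝ E]
  [MeasurableSpace E] [BorelSpace E]
variable {F : Type*} [NormedAddCommGroup F] [InnerProductSpace ℝ F] [FiniteDimensional ℝ F]
  [MeasurableSpace F] [BorelSpace F]
variable {G : Type*} [NormedAddCommGroup G] [InnerProductSpace ℝ G] [FiniteDimensional ℝ G]
  [MeasurableSpace G] [BorelSpace G]

omit [MeasurableSpace E] [BorelSpace E] [MeasurableSpace F] [BorelSpace F]
  [MeasurableSpace G] [BorelSpace G] in
/-- Square root of a difference of covariances. -/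
lemma exists_sqrt_sub {S : G →L[ℝ] E} {C : F →L[ℝ] E} (h : ∀ t, ‖S.adjoint t‖ ≤ ‖C.adjoint t‖) :
    ∃ (m : ℕ) (R : EuclideanSpace ℝ (Fin m) →L[ℝ] E),
      ∀ t, ‖S.adjoint t‖ ^ 2 + ‖R.adjoint t‖ ^ 2 = ‖C.adjoint t‖ ^ 2 := by
  set P : E →L[ℝ] E := C ∘L C.adjoint - S ∘L S.adjoint with hP
  have hPt : ∀ t, P t = C (C.adjoint t) - S (S.adjoint t) := fun t => rfl
  have hin : ∀ t, ⟪P t, t⟫ = ‖C.adjoint t‖ ^ 2 - ‖S.adjoint t‖ ^ 2 := by
    intro t
    rw [hPt, inner_sub_left, ← real_inner_self_eq_norm_sq, ← real_inner_self_eq_norm_sq,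
      ContinuousLinearMap.adjoint_inner_right, ContinuousLinearMap.adjoint_inner_right]
  have hpos : P.IsPositive := by
    rw [ContinuousLinearMap.isPositive_iff]
    refine ⟨?_, fun t => ?_⟩
    · intro x y
      change ⟪P x, y⟫ = ⟪x, P y⟫
      rw [hPt, hPt, inner_sub_left, inner_sub_right,
        ← ContinuousLinearMap.adjoint_inner_right C (C.adjoint x) y,
        ← ContinuousLinearMap.adjoint_inner_right S (S.adjoint x) y,
        ← ContinuousLinearMap.adjoint_inner_left C (C.adjoint y) x,
        ← ContinuousLinearMap.adjoint_inner_left S (S.adjoint y) x]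
    · rw [hin]
      have := pow_le_pow_left₀ (norm_nonneg _) (h t) 2
      simp only [ge_iff_le]
      linarith
  obtain ⟨m, u, hu⟩ := ContinuousLinearMap.isPositive_iff_eq_sum_rankOne.1 hpos
  let L : EuclideanSpace ℝ (Fin m) →ₗ[ℝ] E :=
    { toFun := fun x => ∑ i, x i • u i
      map_add' := fun x y => by simp [add_smul, Finset.sum_add_distrib]
      map_smul' := fun c x => by simp [Finset.smul_sum, smul_smul] }
  refine ⟨m, L.toContinuousLinearMap, fun t => ?_⟩
  have hadj : ∀ i, (L.toContinuousLinearMap.adjoint t) i = ⟪u i, t⟫ := by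
    intro i
    have h1 : ⟪L.toContinuousLinearMap.adjoint t, EuclideanSpace.single i (1:ℝ)⟫ = ⟪t, u i⟫ := by
      rw [ContinuousLinearMap.adjoint_inner_left]
      congr 1
      simp [L]
    rw [EuclideanSpace.inner_single_right] at h1
    simp at h1
    rw [h1, real_inner_comm]
  have h2 : ‖L.toContinuousLinearMap.adjoint t‖ ^ 2 = ∑ i, ⟪u i, t⟫ ^ 2 := by
    rw [EuclideanSpace.norm_sq_eq]
    simp [hadj]
  have h3 : ⟪P t, t⟫ = ∑ i, ⟪u i, t⟫ ^ 2 := by
    rw [hu]
    simp only [sum_apply, InnerProductSpace.rankOne_apply, sum_inner, inner_smul_left]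
    refine Finset.sum_congr rfl fun i _ => ?_
    simp
    ring
  rw [h2, ← h3, hin]
  ring

/-- Level sets at level `1/2` of a closed convex set are contained in the set. -/
lemma tset_half_subset (R : F →L[ℝ] E) {K : Set E} (hK : IsClosed K) (cK : Convex ℝ K) :
    tset R K (1 / 2) ⊆ K := by
  intro y hy
  by_contra hyK
  simp only [tset, mem_ofPred_eq] at hy
  obtain ⟨f, u, h1, h2⟩ := geometric_hahn_banach_closed_point cK hK hyK
  set n : E := (InnerProductSpace.toDual ℝ E).symm f with hn
  have hf : ∀ x, f x = ⟪n, x⟫ := by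
    intro x
    rw [hn, InnerProductSpace.toDual_symm_apply]
  have hsub : {x : E | y + x ∈ K} ⊆ {x | ⟪n, x⟫ ≤ u - f y} := by
    intro x hx
    have := h1 _ hx
    rw [map_add] at this
    simp only [mem_ofPred_eq]
    rw [← hf]
    linarith
  have h3 := hy.trans (measureReal_mono hsub (μ := gau R))
  by_cases hR : R.adjoint n = 0
  · have : (gau R).real {x | ⟪n, x⟫ ≤ u - f y} = 0 := by
      rw [gau_real_apply]
      · have : R ⁻¹' {x | ⟪n, x⟫ ≤ u - f y} = ∅ := by
          ext g
          simp only [mem_preimage, mem_ofPred_eq, mem_empty_iff_false, iff_false, not_le]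
          rw [← ContinuousLinearMap.adjoint_inner_left, hR, inner_zero_left]
          linarith
        rw [this]
        simp
      · exact measurableSet_le (by fun_prop) measurable_const
    rw [this] at h3
    norm_num at h3
  · rw [gau_halfspace R n hR] at h3
    have h4 : Phi ((u - f y) / ‖R.adjoint n‖) < Phi 0 := by
      apply strictMono_Phi
      apply div_neg_of_neg_of_pos (by linarith) (norm_pos_iff.2 hR)
    have hPhi0 : Phi 0 = 1 / 2 := by
      have := Phi_neg 0
      rw [neg_zero] at this
      linarith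
    linarith

/-- **Monotonicity in the covariance** at level `≥ 1/2`. -/
theorem gau_mono_half {S : G →L[ℝ] E} {C : F →L[ℝ] E}
    (h : ∀ t, ‖S.adjoint t‖ ≤ ‖C.adjoint t‖) {K : Set E} (hK : IsClosed K) (cK : Convex ℝ K)
    (hh : 1 / 2 ≤ (gau C).real K) : (gau C).real K ≤ (gau S).real K := by
  obtain ⟨m, R, hR⟩ := exists_sqrt_sub h
  exact (threshold_half hR hK cK hh).trans (measureReal_mono (tset_half_subset R hK cK))

/-- Noise reduction for level sets. -/
theorem tset_mono_noise {S : G →L[ℝ] E} {C : F →L[ℝ] E}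
    (h : ∀ t, ‖S.adjoint t‖ ≤ ‖C.adjoint t‖) {K : Set E} (hK : IsClosed K) (cK : Convex ℝ K)
    {p : ℝ} (hp : 1 / 2 ≤ p) : tset C K p ⊆ tset S K p := by
  intro y hy
  simp only [tset, mem_ofPred_eq] at hy ⊢
  exact hy.trans (gau_mono_half h (isClosed_shift hK y) (convex_shift cK y) (hp.trans hy))

end Crest.Agent.R239.P723
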