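import Crest.Agent.R239.Chain201c
import Crest.Agent.R239.LineGauss

/-!
# R239, block (S2) of #13224: Prekopa for the letter operator (helper675)

* `LC.A`, `LC.evol` : log-concavity is preserved by letters and words.
* `Law.A`, `Law.evol` : admissible single laws are preserved.
* `bk κ E v w = w - κ ⟪P_E v, w⟫ v`, `back κ E p w` : transported directions (forward hits);
  `LogLip.A`, `LogLip.evol` : log-Lipschitz along the hit at the start gives log-Lipschitz along the
  letter later.
* `admW_of_hits` : a law which is log-Lipschitz along all hits of the word is admissible for it.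
-/

set_option autoImplicit false
set_option linter.unusedSectionVars false
open MeasureTheory ProbabilityTheory Set
open scoped RealInnerProductSpace ENNReal NNReal

namespace Crest.Agent.R239

namespace Chain

variable {V : Type*} [NormedAddCommGroup V] [InnerProductSpace ℝ V] [FiniteDimensional ℝ V]
  [MeasurableSpace V] [BorelSpace V]

lemma disp_comb (κ : ℝ) (E : Submodule ℝ V) (v x y : V) (a b g h : ℝ) :
    disp κ E v (a • x + b • y) (a * g + b * h) = a * disp κ E v x g + b * disp κ E v y h := by
  unfold disp
  rw [inner_add_right, inner_smul_right, inner_smul_right]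
  ring

/-- **Prekopa for a letter** -/
theorem LC.A {κ : ℝ} {E : Submodule ℝ V} {v : V} {W : V → ℝ≥0∞} (hW : Measurable W)
    (h : LC W) : LC (Chain.A κ E v W) := by
  intro x y a b ha hb hab
  rcases ha.eq_or_lt with rfl | ha'
  · have hb1 : b = 1 := by linarith
    subst hb1
    simp
  rcases hb.eq_or_lt with rfl | hb'
  · have ha1 : a = 1 := by linarith
    subst ha1
    simp
  have ha1 : a = 1 - b := by linarith
  have hb1 : b < 1 := by linarith
  have hm : ∀ z : V, Measurable fun g : ℝ => W (z + disp κ E v z g • v) := fun z =>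
    hW.comp ((measurable_disp κ E v).comp measurable_prodMk_left)
  have key := PL_g1 b hb' hb1 (fun g => W (x + disp κ E v x g • v))
    (fun g => W (y + disp κ E v y g • v))
    (fun g => W ((a • x + b • y) + disp κ E v (a • x + b • y) g • v)) (hm x) (hm y) (hm _) (by
      intro g k
      have h1 := h (x + disp κ E v x g • v) (y + disp κ E v y k • v) a b ha hb hab
      rw [← ha1]
      refine h1.trans (le_of_eq ?_)
      congr 1
      rw [smul_eq_mul, smul_eq_mul, disp_comb]
      module)
  rw [← ha1] at key
  exact key

theorem LC.evol {κ : ℝ} {E : Submodule ℝ V} {u : List V} {W : V → ℝ≥0∞} (hW : Measurable W)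
    (h : LC W) : LC (Chain.evol κ E u W) := by
  induction u generalizing W with
  | nil => exact h
  | cons v u ih => exact ih (measurable_A hW) (LC.A hW h)

theorem Law.A {κ : ℝ} (hκ : 0 ≤ κ) {E : Submodule ℝ V} {v : V} (hv : OK κ E v) {W : V → ℝ≥0∞}
    (h : Law E W) : Law E (Chain.A κ E v W) :=
  ⟨measurable_A h.1, LC.A h.1 h.2.1, by rw [lintegral_A hκ hv h.1]; exact h.2.2⟩

theorem Law.evol {κ : ℝ} (hκ : 0 ≤ κ) {E : Submodule ℝ V} {u : List V} (hu : OKw κ E u)
    {W : V → ℝ≥0∞} (h : Law E W) : Law E (Chain.evol κ E u W) :=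
  ⟨measurable_evol h.1, LC.evol h.1 h.2.1, by rw [lintegral_evol hκ hu h.1]; exact h.2.2⟩

/-- one step of the transport of directions -/
noncomputable def bk (κ : ℝ) (E : Submodule ℝ V) (v w : V) : V :=
  w - (κ * ⟪E.starProjection v, w⟫) • v

/-- transport of a direction back through a word: the hit of `w` after `p` at the start of `p` -/
noncomputable def back (κ : ℝ) (E : Submodule ℝ V) : List V → V → V
  | [], w => w
  | v :: p, w => bk κ E v (back κ E p w)

@[simp] lemma back_nil (κ : ℝ) (E : Submodule ℝ V) (w : V) : back κ E [] w = w := rfl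
@[simp] lemma back_cons (κ : ℝ) (E : Submodule ℝ V) (v : V) (p : List V) (w : V) :
    back κ E (v :: p) w = bk κ E v (back κ E p w) := rfl

lemma back_append (κ : ℝ) (E : Submodule ℝ V) (p q : List V) (w : V) :
    back κ E (p ++ q) w = back κ E p (back κ E q w) := by
  induction p with
  | nil => rfl
  | cons v p ih => simp [ih]

/-- log-Lipschitz constants are transported by one letter -/
theorem LogLip.A {κ ρ : ℝ} {E : Submodule ℝ V} {v w : V} {W : V → ℝ≥0∞}
    (h : LogLip ρ (bk κ E v w) W) : LogLip ρ w (Chain.A κ E v W) := by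
  intro x s
  unfold Chain.A
  rw [← lintegral_const_mul' _ _ ENNReal.ofReal_ne_top]
  refine lintegral_mono fun g => ?_
  have h1 := h (x + disp κ E v x g • v) s
  refine le_trans (le_of_eq ?_) h1
  congr 1
  unfold disp bk
  rw [inner_add_right, inner_smul_right]
  module

theorem LogLip.evol {κ ρ : ℝ} {E : Submodule ℝ V} {p : List V} {w : V} {W : V → ℝ≥0∞}
    (h : LogLip ρ (back κ E p w) W) : LogLip ρ w (Chain.evol κ E p W) := by
  induction p generalizing W with
  | nil => exact h
  | cons v p ih => exact ih (LogLip.A h)

/-- **closure**: log-Lipschitz along all hits of the word ⟹ admissible for the word -/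
theorem admW_of_hits {κ ρ : ℝ} (hκ : 0 ≤ κ) {E : Submodule ℝ V} {u : List V} (hu : OKw κ E u)
    {W : V → ℝ≥0∞} (hW : Law E W)
    (h : ∀ (p : List V) (v : V) (q : List V), u = p ++ v :: q → LogLip ρ (back κ E p v) W) :
    AdmW κ ρ E u W := by
  induction u generalizing W with
  | nil => exact hW
  | cons v u ih =>
    refine ⟨⟨hW, h [] v u rfl⟩, ?_⟩
    refine ih (fun w hw => hu w (List.mem_cons_of_mem _ hw))
      (Law.A hκ (hu v List.mem_cons_self) hW) ?_
    intro p w q hpq
    have h1 := h (v :: p) w q (by rw [hpq]; rfl)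
    exact LogLip.A h1

end Chain

end Crest.Agent.R239
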