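import Mathlib

/-! R239: reduction of S0370 to vectors of norm in (1/2, 1] (norm classes) and list/Fin glue. helper189 -/

set_option autoImplicit false

namespace Crest.Agent.R239.Red

variable {E : Type*} [NormedAddCommGroup E] [NormedSpace ℝ E]

/-- A signing of the list `u` whose prefix sums, started at `a`, stay in the ball of radius `A`. -/
def Good (u : List E) (a : E) (A : ℝ) (s : List ℝ) : Prop :=
  s.length = u.length ∧ (∀ e ∈ s, e = 1 ∨ e = -1) ∧
    ∀ k : ℕ, ‖a + ((List.zipWith (fun (x : ℝ) (y : E) => x • y) s u).take k).sum‖ ≤ A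

theorem merge (p : E → Prop) [DecidablePred p] (u : List E) :
    ∀ (a b : E) (A B : ℝ) (s1 s2 : List ℝ), Good (u.filter (fun v => p v)) a A s1 →
      Good (u.filter (fun v => ¬ p v)) b B s2 → ∃ s, Good u (a + b) (A + B) s := by
  induction u with
  | nil =>
    intro a b A B s1 s2 h1 h2
    refine ⟨[], rfl, by simp, fun k => ?_⟩
    have ha := h1.2.2 0
    have hb := h2.2.2 0
    simp only [List.take_zero, List.sum_nil, add_zero] at ha hb
    simp only [List.zipWith_nil_left, List.take_nil, List.sum_nil, add_zero]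
    exact (norm_add_le a b).trans (add_le_add ha hb)
  | cons x u ih =>
    intro a b A B s1 s2 h1 h2
    have ha := h1.2.2 0
    have hb := h2.2.2 0
    simp only [List.take_zero, List.sum_nil, add_zero] at ha hb
    by_cases hx : p x
    · have e1 : (x :: u).filter (fun v => p v) = x :: u.filter (fun v => p v) := by simp [hx]
      have e2 : (x :: u).filter (fun v => ¬ p v) = u.filter (fun v => ¬ p v) := by simp [hx]
      rw [e1] at h1
      rw [e2] at h2
      obtain ⟨l1, t1, n1⟩ := h1
      cases s1 with
      | nil => simp at l1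
      | cons e s1 =>
        have g1 : Good (u.filter (fun v => p v)) (a + e • x) A s1 := by
          refine ⟨by simpa using l1, fun f hf => t1 f (List.mem_cons_of_mem _ hf), fun k => ?_⟩
          have := n1 (k + 1)
          simpa [add_assoc] using this
        obtain ⟨s, l, t, n⟩ := ih (a + e • x) b A B s1 s2 g1 h2
        refine ⟨e :: s, by simp [l], ?_, fun k => ?_⟩
        · intro f hf
          rcases List.mem_cons.1 hf with rfl | hf
          · exact t1 _ List.mem_cons_self
          · exact t f hf
        · cases k with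
          | zero => simpa using (norm_add_le a b).trans (add_le_add ha hb)
          | succ k =>
            have := n k
            simp only [List.zipWith_cons_cons, List.take_succ_cons, List.sum_cons]
            have e3 : a + b + (e • x + ((List.zipWith (fun (x : ℝ) (y : E) => x • y) s u).take k).sum)
                = a + e • x + b + ((List.zipWith (fun (x : ℝ) (y : E) => x • y) s u).take k).sum := by
              abel
            rw [e3]
            exact this
    · have e1 : (x :: u).filter (fun v => p v) = u.filter (fun v => p v) := by simp [hx]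
      have e2 : (x :: u).filter (fun v => ¬ p v) = x :: u.filter (fun v => ¬ p v) := by simp [hx]
      rw [e1] at h1
      rw [e2] at h2
      obtain ⟨l2, t2, n2⟩ := h2
      cases s2 with
      | nil => simp at l2
      | cons e s2 =>
        have g2 : Good (u.filter (fun v => ¬ p v)) (b + e • x) B s2 := by
          refine ⟨by simpa using l2, fun f hf => t2 f (List.mem_cons_of_mem _ hf), fun k => ?_⟩
          have := n2 (k + 1)
          simpa [add_assoc] using this
        obtain ⟨s, l, t, n⟩ := ih a (b + e • x) A B s1 s2 h1 g2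
        refine ⟨e :: s, by simp [l], ?_, fun k => ?_⟩
        · intro f hf
          rcases List.mem_cons.1 hf with rfl | hf
          · exact t2 _ List.mem_cons_self
          · exact t f hf
        · cases k with
          | zero => simpa using (norm_add_le a b).trans (add_le_add ha hb)
          | succ k =>
            have := n k
            simp only [List.zipWith_cons_cons, List.take_succ_cons, List.sum_cons]
            have e3 : a + b + (e • x + ((List.zipWith (fun (x : ℝ) (y : E) => x • y) s u).take k).sum)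
                = a + (b + e • x) + ((List.zipWith (fun (x : ℝ) (y : E) => x • y) s u).take k).sum := by
              abel
            rw [e3]
            exact this

theorem scale_sum (c : ℝ) (s : List ℝ) : ∀ (u : List E) (k : ℕ),
    ((List.zipWith (fun (x : ℝ) (y : E) => x • y) s (u.map (fun v => c • v))).take k).sum
      = c • ((List.zipWith (fun (x : ℝ) (y : E) => x • y) s u).take k).sum := by
  induction s with
  | nil => intro u k; simp
  | cons e s ih =>
    intro u k
    cases u with
    | nil => simp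
    | cons x u =>
      cases k with
      | zero => simp
      | succ k =>
        simp only [List.map_cons, List.zipWith_cons_cons, List.take_succ_cons, List.sum_cons, ih,
          smul_add, smul_comm c e x]

theorem scale {c : ℝ} (hc : 0 < c) {u : List E} {A : ℝ} {s : List ℝ}
    (h : Good (u.map (fun v => c • v)) 0 A s) : Good u 0 (A / c) s := by
  obtain ⟨l, t, n⟩ := h
  refine ⟨by simpa using l, t, fun k => ?_⟩
  have := n k
  rw [zero_add, scale_sum, norm_smul, Real.norm_of_nonneg hc.le] at this
  rw [zero_add, le_div_iff₀ hc, mul_comm]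
  exact this

/-- Norm classes: if every list of vectors with norms in `(1/2, 1]` has a signing with prefixes
`≤ A`, every list of vectors of norm `≤ 1` has a signing with prefixes `≤ 2 A`. -/
theorem classes {A : ℝ} (hA : 0 ≤ A)
    (h : ∀ u : List E, (∀ v ∈ u, 1 / 2 < ‖v‖ ∧ ‖v‖ ≤ 1) → ∃ s, Good u 0 A s) (J : ℕ) :
    ∀ u : List E, (∀ v ∈ u, ‖v‖ ≤ 1) → (∀ v ∈ u, v ≠ 0 → (1 / 2 : ℝ) ^ J < ‖v‖) →
      ∃ s, Good u 0 (2 * A) s := by
  induction J with
  | zero =>
    intro u h1 h2
    have h0 : ∀ v ∈ u, v = 0 := by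
      intro v hv
      by_contra hne
      have := h2 v hv hne
      simp only [pow_zero] at this
      exact absurd (h1 v hv) (not_le.2 this)
    refine ⟨List.replicate u.length 1, by simp, ?_, fun k => ?_⟩
    · intro e he
      exact Or.inl (List.eq_of_mem_replicate he)
    · have hz : ∀ (w : List E), (∀ v ∈ w, v = 0) → ∀ (s : List ℝ) (k : ℕ),
          ((List.zipWith (fun (x : ℝ) (y : E) => x • y) s w).take k).sum = 0 := by
        intro w
        induction w with
        | nil => intro _ s k; simp
        | cons x w ih =>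
          intro hw s k
          cases s with
          | nil => simp
          | cons e s =>
            cases k with
            | zero => simp
            | succ k =>
              simp only [List.zipWith_cons_cons, List.take_succ_cons, List.sum_cons]
              rw [ih (fun v hv => hw v (List.mem_cons_of_mem _ hv)), hw x List.mem_cons_self]
              simp
      rw [hz u h0]
      simpa using hA
  | succ J ih =>
    intro u h1 h2
    obtain ⟨s1, g1⟩ := h (u.filter (fun v => (1 / 2 : ℝ) < ‖v‖)) (by
      intro v hv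
      rw [List.mem_filter] at hv
      exact ⟨by simpa using hv.2, h1 v hv.1⟩)
    have hmap : ∃ s, Good ((u.filter (fun v => ¬ (1 / 2 : ℝ) < ‖v‖)).map (fun v => (2 : ℝ) • v)) 0 (2 * A) s := by
      apply ih
      · intro v hv
        obtain ⟨w, hw, rfl⟩ := List.mem_map.1 hv
        rw [List.mem_filter] at hw
        have : ‖w‖ ≤ 1 / 2 := by
          have h3 := hw.2
          simp only [not_lt, decide_eq_true_eq] at h3
          exact h3
        rw [norm_smul, Real.norm_of_nonneg (by norm_num : (0:ℝ) ≤ 2)]
        linarith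
      · intro v hv hne
        obtain ⟨w, hw, rfl⟩ := List.mem_map.1 hv
        rw [List.mem_filter] at hw
        have hw0 : w ≠ 0 := by
          rintro rfl
          simp at hne
        have := h2 w hw.1 hw0
        rw [norm_smul, Real.norm_of_nonneg (by norm_num : (0:ℝ) ≤ 2)]
        rw [pow_succ] at this
        linarith
    obtain ⟨s2, g2⟩ := hmap
    have g2' := scale (by norm_num : (0:ℝ) < 2) g2
    obtain ⟨s, g⟩ := merge (fun v => (1 / 2 : ℝ) < ‖v‖) u 0 0 A (2 * A / 2) s1 s2 g1 g2'
    refine ⟨s, ?_⟩
    have e : A + 2 * A / 2 = 2 * A := by ring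
    rw [e, add_zero] at g
    exact g

theorem classes' {A : ℝ} (hA : 0 ≤ A)
    (h : ∀ u : List E, (∀ v ∈ u, 1 / 2 < ‖v‖ ∧ ‖v‖ ≤ 1) → ∃ s, Good u 0 A s) (u : List E)
    (hu : ∀ v ∈ u, ‖v‖ ≤ 1) : ∃ s, Good u 0 (2 * A) s := by
  have hJ : ∃ J : ℕ, ∀ v ∈ u, v ≠ 0 → (1 / 2 : ℝ) ^ J < ‖v‖ := by
    clear hu
    induction u with
    | nil => exact ⟨0, by simp⟩
    | cons x u ih =>
      obtain ⟨J, hJ⟩ := ih
      by_cases hx : x = 0
      · refine ⟨J, fun v hv hne => ?_⟩
        rcases List.mem_cons.1 hv with rfl | hv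
        · exact absurd hx hne
        · exact hJ v hv hne
      · obtain ⟨K, hK⟩ := exists_pow_lt_of_lt_one (norm_pos_iff.2 hx) (by norm_num : (1 / 2 : ℝ) < 1)
        refine ⟨max J K, fun v hv hne => ?_⟩
        rcases List.mem_cons.1 hv with rfl | hv
        · exact lt_of_le_of_lt (pow_le_pow_of_le_one (by norm_num) (by norm_num) (le_max_right _ _)) hK
        · exact lt_of_le_of_lt (pow_le_pow_of_le_one (by norm_num) (by norm_num) (le_max_left _ _)) (hJ v hv hne)
  obtain ⟨J, hJ⟩ := hJ
  exact classes hA h J u hu hJ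

/-- From lists to `Fin N`. -/
theorem toFin {A : ℝ} {N : ℕ} (v : Fin N → E) (h : ∃ s, Good (List.ofFn v) 0 A s) :
    ∃ ε : Fin N → ℤ, (∀ i, ε i = 1 ∨ ε i = -1) ∧
      ∀ k : ℕ, ‖∑ i ∈ Finset.univ.filter (fun i : Fin N => (i : ℕ) < k), (ε i : ℝ) • v i‖ ≤ A := by
  obtain ⟨s, l, t, n⟩ := h
  have hl : s.length = N := by simpa using l
  subst hl
  refine ⟨fun i => if s[i] = 1 then 1 else -1, fun i => ?_, fun k => ?_⟩
  · by_cases h : s[i] = 1
    · left; exact if_pos h
    · right; exact if_neg h
  · have hcast : ∀ i : Fin s.length, (((if s[i] = 1 then 1 else -1 : ℤ)) : ℝ) = s[i] := by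
      intro i
      rcases t s[i] (List.getElem_mem _) with h | h
      · rw [if_pos h, h]; norm_num
      · have : ¬ s[i] = 1 := by rw [h]; norm_num
        rw [if_neg this, h]; norm_num
    have hz : List.zipWith (fun (x : ℝ) (y : E) => x • y) s (List.ofFn v)
        = List.ofFn (fun i : Fin s.length => s[i] • v i) := by
      apply List.ext_getElem
      · simp
      · intro i h1 h2
        simp
    have := n k
    rw [zero_add, hz, List.sum_take_ofFn] at this
    simp only [hcast]
    exact this

/-- **Final glue for S0370** (input: vectors with norms in `(1/2, 1]`). -/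
theorem red (h : ∃ C : ℝ, ∀ (n : ℕ) (u : List (EuclideanSpace ℝ (Fin n))),
    (∀ v ∈ u, 1 / 2 < ‖v‖ ∧ ‖v‖ ≤ 1) → ∃ s, Good u 0 (C * Real.sqrt n) s) :
    ∃ C : ℝ, ∀ (d N : ℕ) (v : Fin N → EuclideanSpace ℝ (Fin d)),
      (∀ i, ‖v i‖ ≤ 1) →
      ∃ ε : Fin N → ℤ, (∀ i, ε i = 1 ∨ ε i = -1) ∧
        ∀ k : ℕ, k ≤ N →
          ‖∑ i ∈ Finset.univ.filter (fun i : Fin N => (i : ℕ) < k), (ε i : ℝ) • v i‖ ≤ C * Real.sqrt d := by
  obtain ⟨C, hC⟩ := h
  refine ⟨2 * max C 0, fun d N v hv => ?_⟩
  have h0 : 0 ≤ max C 0 * Real.sqrt d := mul_nonneg (le_max_right _ _) (Real.sqrt_nonneg _)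
  have h1 : ∀ u : List (EuclideanSpace ℝ (Fin d)), (∀ v ∈ u, 1 / 2 < ‖v‖ ∧ ‖v‖ ≤ 1) →
      ∃ s, Good u 0 (max C 0 * Real.sqrt d) s := by
    intro u hu
    obtain ⟨s, l, t, n⟩ := hC d u hu
    exact ⟨s, l, t, fun k => (n k).trans
      (mul_le_mul_of_nonneg_right (le_max_left _ _) (Real.sqrt_nonneg _))⟩
  obtain ⟨ε, he, hn⟩ := toFin v (classes' h0 h1 (List.ofFn v) (by
    intro w hw
    rw [List.mem_ofFn] at hw
    obtain ⟨i, rfl⟩ := hw
    exact hv i))
  refine ⟨ε, he, fun k _ => ?_⟩
  rw [mul_assoc]
  exact hn k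

/-- Variant with scaled input: vectors with norms in `(c/2, c]`. -/
theorem red' {c : ℝ} (hc : 0 < c) (h : ∃ C : ℝ, ∀ (n : ℕ) (u : List (EuclideanSpace ℝ (Fin n))),
    (∀ v ∈ u, c / 2 < ‖v‖ ∧ ‖v‖ ≤ c) → ∃ s, Good u 0 (C * Real.sqrt n) s) :
    ∃ C : ℝ, ∀ (d N : ℕ) (v : Fin N → EuclideanSpace ℝ (Fin d)),
      (∀ i, ‖v i‖ ≤ 1) →
      ∃ ε : Fin N → ℤ, (∀ i, ε i = 1 ∨ ε i = -1) ∧
        ∀ k : ℕ, k ≤ N →
          ‖∑ i ∈ Finset.univ.filter (fun i : Fin N => (i : ℕ) < k), (ε i : ℝ) • v i‖ ≤ C * Real.sqrt d := by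
  obtain ⟨C, hC⟩ := h
  apply red
  refine ⟨C / c, fun n u hu => ?_⟩
  obtain ⟨s, g⟩ := hC n (u.map (fun v => c • v)) (by
    intro v hv
    obtain ⟨w, hw, rfl⟩ := List.mem_map.1 hv
    rw [norm_smul, Real.norm_of_nonneg hc.le]
    have := hu w hw
    constructor
    · nlinarith [this.1]
    · nlinarith [this.2])
  refine ⟨s, ?_⟩
  have := scale hc g
  rw [mul_div_right_comm] at this
  exact this

end Crest.Agent.R239.Red
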