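import Crest.Agent.R239.LC419

/-!
# R239, block (S1) = (SL_W), part a: the flux density on `V × ℝ`, inflow ≤ small · outflow (helper161)

Coordinates `(x, d)`, `y = x + d v`: the pair (start `x`, end `y`) of the letter chain under the
law `W · mE` has density `Qd (x,d) * W x` with
`Qd (x,d) = C exp (-d²/4κ) exp (-T (x + d/2 v))`, `T` a quadratic form.
-/

set_option autoImplicit false
set_option linter.unusedSectionVars false
open MeasureTheory ProbabilityTheory Set
open scoped RealInnerProductSpace ENNReal NNReal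

namespace Crest.Agent.R239

namespace SL161

open Chain

variable {V : Type*} [NormedAddCommGroup V] [InnerProductSpace ℝ V] [FiniteDimensional ℝ V]
  [MeasurableSpace V] [BorelSpace V]

/-- quadratic form of the midpoint -/
noncomputable def T (κ : ℝ) (E : Submodule ℝ V) (v w : V) : ℝ :=
  ‖E.starProjection w‖ ^ 2 / 2 +
    κ * ⟪E.starProjection v, w⟫ ^ 2 / (2 * (2 - κ * ‖E.starProjection v‖ ^ 2))

/-- normalisation -/
noncomputable def Cn (κ : ℝ) (E : Submodule ℝ V) (v : V) : ℝ :=
  (Real.sqrt (2 * Real.pi * (tau κ E v ^ 2)))⁻¹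

/-- the flux density -/
noncomputable def Qd (κ : ℝ) (E : Submodule ℝ V) (v : V) (p : V × ℝ) : ℝ≥0∞ :=
  ENNReal.ofReal (Cn κ E v * Real.exp (-(p.2 ^ 2 / (4 * κ)) - T κ E v (p.1 + (p.2 / 2) • v)))

lemma measurable_Qd (κ : ℝ) (E : Submodule ℝ V) (v : V) : Measurable (Qd κ E v) := by
  unfold Qd T
  fun_prop

lemma norm_proj_add (E : Submodule ℝ V) (v x : V) (s : ℝ) :
    ‖E.starProjection (x + s • v)‖ ^ 2 = ‖E.starProjection x‖ ^ 2 +
      2 * s * ⟪E.starProjection v, x⟫ + s ^ 2 * ‖E.starProjection v‖ ^ 2 := by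
  rw [map_add, map_smul, norm_add_sq_real, norm_smul, inner_smul_right, real_inner_comm,
      inner_proj_proj, mul_pow, Real.norm_eq_abs, sq_abs]
  ring

lemma inner_add_smul (E : Submodule ℝ V) (v x : V) (s : ℝ) :
    ⟪E.starProjection v, x + s • v⟫ = ⟪E.starProjection v, x⟫ + s * ‖E.starProjection v‖ ^ 2 := by
  rw [inner_add_right, inner_smul_right, inner_proj_self]

/-- exponent identity -/
lemma exponent {κ : ℝ} (hκ : 0 < κ) {E : Submodule ℝ V} {v : V}
    (hv : κ * ‖E.starProjection v‖ ^ 2 ≤ 1) (x : V) (d : ℝ) :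
    -‖E.starProjection x‖ ^ 2 / 2 + -(d - -(κ * ⟪E.starProjection v, x⟫)) ^ 2 / (2 * tau κ E v ^ 2)
      = -(d ^ 2 / (4 * κ)) - T κ E v (x + (d / 2) • v) := by
  have ht := tau_sq hκ.le (E := E) (v := v) (by unfold OK; linarith)
  unfold T
  rw [norm_proj_add, inner_add_smul, ht]
  set a := ‖E.starProjection v‖ ^ 2
  set p := ⟪E.starProjection v, x⟫
  set b := ‖E.starProjection x‖ ^ 2
  have h2 : (2 : ℝ) - κ * a ≠ 0 := by linarith
  have hk : κ ≠ 0 := hκ.ne'
  field_simp
  ring

lemma tau_sq_pos {κ : ℝ} (hκ : 0 < κ) {E : Submodule ℝ V} {v : V}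
    (hv : κ * ‖E.starProjection v‖ ^ 2 ≤ 1) : 0 < tau κ E v ^ 2 := by
  rw [tau_sq hκ.le (E := E) (v := v) (by unfold OK; linarith)]
  exact mul_pos hκ (by linarith)

/-- the letter operator in the coordinate `d` -/
lemma A_eq {κ : ℝ} (hκ : 0 < κ) {E : Submodule ℝ V} {v : V}
    (hv : κ * ‖E.starProjection v‖ ^ 2 ≤ 1) {f : V → ℝ≥0∞} (hf : Measurable f) (x : V) :
    dE E x * A κ E v f x = ∫⁻ d : ℝ, Qd κ E v (x, d) * f (x + d • v) := by
  have htp := tau_sq_pos hκ hv
  have hm : Measurable fun d : ℝ => f (x + d • v) := by fun_prop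
  have e1 : A κ E v f x = ∫⁻ d, f (x + d • v)
      ∂(gaussianReal (-(κ * ⟪E.starProjection v, x⟫)) (.mk (tau κ E v ^ 2) (sq_nonneg _))) := by
    have e2 : (gaussianReal (-(κ * ⟪E.starProjection v, x⟫)) (.mk (tau κ E v ^ 2) (sq_nonneg _)))
        = (gaussianReal 0 1).map (fun g => -(κ * ⟪E.starProjection v, x⟫) + tau κ E v * g) := by
      have h1 := gaussianReal_map_const_mul (μ := 0) (v := 1) (tau κ E v)
      have h2 := gaussianReal_map_const_add (μ := tau κ E v * 0)
        (v := (.mk (tau κ E v ^ 2) (sq_nonneg _) * 1)) (-(κ * ⟪E.starProjection v, x⟫))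
      rw [← h1, Measure.map_map (by fun_prop) (by fun_prop)] at h2
      rw [mul_zero, zero_add, mul_one] at h2
      rw [← h2]
      rfl
    rw [e2, lintegral_map hm (by fun_prop)]
    rfl
  have hv0 : (.mk (tau κ E v ^ 2) (sq_nonneg _) : ℝ≥0) ≠ 0 := by
    intro h
    have := congrArg NNReal.toReal h
    simp only [NNReal.coe_mk, NNReal.coe_zero] at this
    exact htp.ne' this
  rw [e1, gaussianReal_of_var_ne_zero _ hv0,
    lintegral_withDensity_eq_lintegral_mul _ (measurable_gaussianPDF _ _) hm,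
    ← lintegral_const_mul _ ((measurable_gaussianPDF _ _).mul hm)]
  refine lintegral_congr fun d => ?_
  simp only [Pi.mul_apply]
  rw [← mul_assoc]
  congr 1
  unfold dE gaussianPDF gaussianPDFReal Qd Cn
  rw [← ENNReal.ofReal_mul (by positivity)]
  congr 1
  simp only [NNReal.coe_mk]
  rw [← exponent hκ hv, Real.exp_add]
  ring

/-- flux of a set of pairs -/
noncomputable def flux (κ : ℝ) (E : Submodule ℝ V) (v : V) (W : V → ℝ≥0∞) (S : Set (V × ℝ)) :
    ℝ≥0∞ := ∫⁻ p in S, Qd κ E v p * W p.1 ∂(volume.prod volume)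

lemma flux_mono {κ : ℝ} {E : Submodule ℝ V} {v : V} {W : V → ℝ≥0∞} {S S' : Set (V × ℝ)}
    (h : S ⊆ S') : flux κ E v W S ≤ flux κ E v W S' := lintegral_mono_set h

lemma flux_union_le {κ : ℝ} {E : Submodule ℝ V} {v : V} {W : V → ℝ≥0∞} (S S' : Set (V × ℝ)) :
    flux κ E v W (S ∪ S') ≤ flux κ E v W S + flux κ E v W S' := lintegral_union_le _ _ _

/-- general form of a flux integral -/
lemma lintegral_flux {κ : ℝ} (hκ : 0 < κ) {E : Submodule ℝ V} {v : V}
    (hv : κ * ‖E.starProjection v‖ ^ 2 ≤ 1) {W : V → ℝ≥0∞} (hW : Measurable W)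
    {K : Set V} (hK : MeasurableSet K) {U : Set V} (hU : MeasurableSet U) :
    cross κ E [v] W U K = flux κ E v W {p | p.1 ∈ U ∧ p.1 + p.2 • v ∈ K} := by
  have hadd : Measurable fun p : V × ℝ => p.1 + p.2 • v := by fun_prop
  have hS : MeasurableSet {p : V × ℝ | p.1 ∈ U ∧ p.1 + p.2 • v ∈ K} :=
    (measurable_fst hU).inter (hadd hK)
  unfold cross flux
  rw [← lintegral_indicator hU, ← lintegral_indicator hS, lintegral_mE (by
    refine Measurable.indicator ?_ hU
    exact hW.mul (measurable_trans (measurable_one.indicator hK)))]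
  rw [lintegral_prod _ (by
    refine (Measurable.indicator ?_ hS).aemeasurable
    exact (measurable_Qd κ E v).mul (hW.comp measurable_fst))]
  refine lintegral_congr fun x => ?_
  by_cases hx : x ∈ U
  · rw [indicator_of_mem hx]
    rw [show dE E x * (W x * trans κ E [v] (K.indicator 1) x) =
      W x * (dE E x * A κ E v (K.indicator 1) x) by
        rw [trans_cons, trans_nil]; ring]
    rw [A_eq hκ hv (measurable_one.indicator hK), ← lintegral_const_mul]
    · refine lintegral_congr fun d => ?_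
      by_cases hd : x + d • v ∈ K
      · rw [indicator_of_mem hd, indicator_of_mem (show (x, d) ∈ {p : V × ℝ | p.1 ∈ U ∧
          p.1 + p.2 • v ∈ K} from ⟨hx, hd⟩)]
        simp only [Pi.one_apply, mul_one]
        ring
      · rw [indicator_of_notMem hd, indicator_of_notMem (fun h => hd h.2)]
        simp
    · have := (measurable_Qd κ E v).comp (measurable_prodMk_left (x := x))
      exact this.mul ((measurable_one.indicator hK).comp (by fun_prop))
  · rw [indicator_of_notMem hx]
    simp only [mul_zero]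
    symm
    rw [lintegral_eq_zero_iff']
    · refine Filter.Eventually.of_forall fun d => ?_
      change ({p : V × ℝ | p.1 ∈ U ∧ p.1 + p.2 • v ∈ K}).indicator
          (fun p => Qd κ E v p * W p.1) (x, d) = 0
      exact indicator_of_notMem (fun h => hx h.1) _
    · have hm : Measurable (({p : V × ℝ | p.1 ∈ U ∧ p.1 + p.2 • v ∈ K}).indicator
          fun p => Qd κ E v p * W p.1) :=
        Measurable.indicator ((measurable_Qd κ E v).mul (hW.comp measurable_fst)) hS
      exact (hm.comp measurable_prodMk_left).aemeasurable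

/-- the measure preserving maps `(x,d) ↦ (x + d v + s v, -d + r)` -/
noncomputable def L0 (v : V) : (V × ℝ) →ₗ[ℝ] (V × ℝ) where
  toFun p := (p.1 + p.2 • v, -p.2)
  map_add' p q := by
    ext
    · simp only [Prod.fst_add, Prod.snd_add]; module
    · simp only [Prod.snd_add]; ring
  map_smul' c p := by
    ext
    · simp only [Prod.smul_fst, Prod.smul_snd, RingHom.id_apply, smul_eq_mul]; module
    · simp only [Prod.smul_snd, RingHom.id_apply, smul_eq_mul]; ring

lemma L0_apply (v : V) (p : V × ℝ) : L0 v p = (p.1 + p.2 • v, -p.2) := rfl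

lemma L0_L0 (v : V) (p : V × ℝ) : L0 v (L0 v p) = p := by
  rw [L0_apply, L0_apply]
  ext
  · simp
  · simp

lemma measurePreserving_L0 (v : V) : MeasurePreserving (L0 v)
      ((volume : Measure V).prod (volume : Measure ℝ))
      ((volume : Measure V).prod (volume : Measure ℝ)) := by
  have h1 : L0 v * L0 v = 1 := by
    ext : 1
    · ext x
      · simpa using congrArg Prod.fst (L0_L0 v (x, 0))
      · simpa using congrArg Prod.snd (L0_L0 v (x, 0))
    · ext
      · simpa using congrArg Prod.fst (L0_L0 v (0, 1))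
      · simpa using congrArg Prod.snd (L0_L0 v (0, 1))
  have h2 : LinearMap.det (L0 v) * LinearMap.det (L0 v) = 1 := by
    rw [← map_mul, h1, map_one]
  have h3 : |LinearMap.det (L0 v)| * |LinearMap.det (L0 v)| = 1 := by
    rw [← abs_mul, h2, abs_one]
  have hd : |LinearMap.det (L0 v)| = 1 := by nlinarith [abs_nonneg (LinearMap.det (L0 v))]
  have hd0 : LinearMap.det (L0 v) ≠ 0 := by
    intro h0
    rw [h0] at hd
    simp at hd
  refine ⟨(LinearMap.continuous_of_finiteDimensional _).measurable, ?_⟩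
  have := Measure.map_linearMap_addHaar_eq_smul_addHaar
    ((volume : Measure V).prod (volume : Measure ℝ)) hd0
  rw [this, abs_inv, hd]
  simp

/-- `(x,d) ↦ (x + d v + s v, -d + r)` -/
noncomputable def Phi (v : V) (s r : ℝ) (p : V × ℝ) : V × ℝ := (p.1 + p.2 • v + s • v, -p.2 + r)

lemma measurePreserving_Phi (v : V) (s r : ℝ) : MeasurePreserving (Phi v s r)
      ((volume : Measure V).prod (volume : Measure ℝ))
      ((volume : Measure V).prod (volume : Measure ℝ)) := by
  have h := (measurePreserving_add_right ((volume : Measure V).prod (volume : Measure ℝ))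
    ((s • v, r) : V × ℝ)).comp (measurePreserving_L0 v)
  exact h

/-- parallelogram for `T` -/
lemma T_min {κ : ℝ} (hκ : 0 < κ) {E : Submodule ℝ V} {v : V}
    (hv : κ * ‖E.starProjection v‖ ^ 2 ≤ 1) (w : V) (s : ℝ) (hs : s ^ 2 = 1 / 4) :
    T κ E v (w + s • v) ≤ T κ E v w + ‖E.starProjection v‖ ^ 2 / 4 ∨
    T κ E v (w - s • v) ≤ T κ E v w + ‖E.starProjection v‖ ^ 2 / 4 := by
  have e1 : w - s • v = w + (-s) • v := by module
  rw [e1]
  unfold T
  rw [norm_proj_add, inner_add_smul, norm_proj_add, inner_add_smul]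
  set a := ‖E.starProjection v‖ ^ 2 with ha
  set p := ⟪E.starProjection v, w⟫
  set b := ‖E.starProjection w‖ ^ 2
  have ha0 : 0 ≤ a := by positivity
  have h2 : 0 < 2 * (2 - κ * a) := by linarith
  by_contra hcon
  push Not at hcon
  obtain ⟨h3, h4⟩ := hcon
  have h5 : κ * (p + s * a) ^ 2 / (2 * (2 - κ * a)) + κ * (p + -s * a) ^ 2 / (2 * (2 - κ * a)) -
      2 * (κ * p ^ 2 / (2 * (2 - κ * a))) = κ * a ^ 2 / 2 / (2 * (2 - κ * a)) := by
    generalize 2 * (2 - κ * a) = D
    linear_combination (2 * κ * a ^ 2 / D) * hs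
  have h6 : κ * a ^ 2 / 2 / (2 * (2 - κ * a)) ≤ a / 4 := by
    rw [div_le_iff₀ h2]
    nlinarith [mul_nonneg ha0 (by linarith : (0:ℝ) ≤ 1 - κ * a)]
  nlinarith [h5, h6, h3, h4, hs]

end SL161

end Crest.Agent.R239
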