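import Crest.Agent.R239.SL161a

/-!
# R239, block (S1) = (SL_W), part b: geometry of chords, inflow ≤ small · outflow (helper161)
-/

set_option autoImplicit false
set_option linter.unusedSectionVars false
open MeasureTheory ProbabilityTheory Set
open scoped RealInnerProductSpace ENNReal NNReal

namespace Crest.Agent.R239

namespace SL161

open Chain

variable {V : Type*} [NormedAddCommGroup V] [InnerProductSpace ℝ V] [FiniteDimensional ℝ V]
  [MeasurableSpace V] [BorelSpace V]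

section geo

variable {K : Set V} {v : V}

lemma lineConv (hK : Convex ℝ K) {y : V} {c₁ c₂ c : ℝ} (h₁ : y + c₁ • v ∈ K)
    (h₂ : y + c₂ • v ∈ K) (h : c₁ ≤ c) (h' : c ≤ c₂) : y + c • v ∈ K := by
  have hc : Convex ℝ {c : ℝ | y + c • v ∈ K} := by
    intro a ha b hb s t hs ht hst
    have h0 := hK ha hb hs ht hst
    change y + (s • a + t • b) • v ∈ K
    have e : y + (s • a + t • b) • v = s • (y + a • v) + t • (y + b • v) := by
      have : y = (s + t) • y := by rw [hst, one_smul]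
      nth_rewrite 1 [this]
      simp only [smul_eq_mul]
      module
    rwa [e]
  exact hc.ordConnected.out h₁ h₂ ⟨h, h'⟩

/-- points of `K` on a chord of length at least `t` (units of `v`) -/
def Kg (K : Set V) (v : V) (t : ℝ) : Set V := starG K v (t / 2) (t / 2)

lemma mem_Kg {t : ℝ} {y : V} : y ∈ Kg K v t ↔
    ∃ s : ℝ, |s| ≤ t / 2 ∧ y + (s - t / 2) • v ∈ K ∧ y + (s + t / 2) • v ∈ K := Iff.rfl

lemma isClosed_Kg (hK : IsClosed K) (t : ℝ) : IsClosed (Kg K v t) := isClosed_starG hK v _ _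

lemma convex_Kg (hK : Convex ℝ K) (t : ℝ) : Convex ℝ (Kg K v t) := convex_starG hK v _ _

/-- membership: a sub-chord `[c₁,c₂] ∋ 0` of length at least `t` -/
lemma mem_Kg_of (hK : Convex ℝ K) {t : ℝ} (ht : 0 ≤ t) {y : V} {c₁ c₂ : ℝ}
    (h₁ : y + c₁ • v ∈ K) (h₂ : y + c₂ • v ∈ K) (h0 : c₁ ≤ 0) (h0' : 0 ≤ c₂) (h : t ≤ c₂ - c₁) :
    y ∈ Kg K v t := by
  rcases le_total (c₁ + t) 0 with h3 | h3
  · -- use [-t, 0]
    refine mem_Kg.2 ⟨-(t / 2), by rw [abs_neg, abs_of_nonneg (by linarith)], ?_, ?_⟩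
    · exact lineConv hK h₁ h₂ (by linarith) (by linarith)
    · exact lineConv hK h₁ h₂ (by linarith) (by linarith)
  · refine mem_Kg.2 ⟨c₁ + t / 2, by rw [abs_le]; constructor <;> linarith, ?_, ?_⟩
    · exact lineConv hK h₁ h₂ (by linarith) (by linarith)
    · exact lineConv hK h₁ h₂ (by linarith) (by linarith)

lemma Kg_sub (hK : Convex ℝ K) {t : ℝ} (ht : 0 ≤ t) : Kg K v t ⊆ K := by
  intro y hy
  obtain ⟨s, hs, h1, h2⟩ := mem_Kg.1 hy
  have := abs_le.1 hs
  have h := lineConv hK h1 h2 (c := 0) (by linarith) (by linarith)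
  simpa using h

lemma Kg_zero : Kg K v 0 = K := by
  ext y
  rw [mem_Kg]
  constructor
  · rintro ⟨s, hs, h1, -⟩
    have : s = 0 := by
      rw [zero_div] at hs; exact abs_eq_zero.1 (le_antisymm hs (abs_nonneg _))
    subst this
    simpa using h1
  · intro h
    exact ⟨0, by simp, by simpa using h, by simpa using h⟩

lemma Kg_anti (hK : Convex ℝ K) {s t : ℝ} (hs : 0 ≤ s) (hst : s ≤ t) : Kg K v t ⊆ Kg K v s := by
  intro y hy
  obtain ⟨r, hr, h1, h2⟩ := mem_Kg.1 hy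
  have := abs_le.1 hr
  exact mem_Kg_of hK hs h1 h2 (by linarith) (by linarith) (by linarith)

/-- all points of `K` on the line of a point of `Kg K v t` are in `Kg K v t` -/
lemma Kg_line (hK : Convex ℝ K) {t : ℝ} (ht : 0 ≤ t) {y : V} (hy : y ∈ Kg K v t) {r : ℝ}
    (hr : y + r • v ∈ K) : y + r • v ∈ Kg K v t := by
  obtain ⟨s, hs, h1, h2⟩ := mem_Kg.1 hy
  have hs' := abs_le.1 hs
  have e : ∀ c : ℝ, y + c • v = (y + r • v) + (c - r) • v := fun c => by module
  have e0 : (y + r • v) + (0 : ℝ) • v ∈ K := by simpa using hr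
  rw [e] at h1 h2
  rcases le_total r (s - t / 2) with h3 | h3
  · exact mem_Kg_of hK ht e0 h2 le_rfl (by linarith) (by linarith)
  rcases le_total r (s + t / 2) with h4 | h4
  · exact mem_Kg_of hK ht h1 h2 (by linarith) (by linarith) (by linarith)
  · exact mem_Kg_of hK ht h1 e0 (by linarith) le_rfl (by linarith)

/-- points at distance `≤ 1` (along `v`) from a chord of length `≥ 2` are in `K * v` -/
lemma near (hK : Convex ℝ K) {y : V} (hy : y ∈ Kg K v 2) {r : ℝ} (hr : y + r • v ∈ K) {σ : ℝ}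
    (hσ : |σ| ≤ 1) : y + (r + σ) • v ∈ star K v := by
  obtain ⟨s, hs, h1, h2⟩ := mem_Kg.1 hy
  rw [show (2 : ℝ) / 2 = 1 by norm_num] at hs h1 h2
  have hs' := abs_le.1 hs
  have hσ' := abs_le.1 hσ
  have key : ∀ c : ℝ, |c - (r + σ)| ≤ 2 → y + (c - 1) • v ∈ K → y + (c + 1) • v ∈ K →
      y + (r + σ) • v ∈ star K v := by
    intro c hc h3 h4
    refine mem_star.2 ⟨c - (r + σ), hc, ?_, ?_⟩
    · have : y + (r + σ) • v + (c - (r + σ) - 1) • v = y + (c - 1) • v := by module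
      rwa [this]
    · have : y + (r + σ) • v + (c - (r + σ) + 1) • v = y + (c + 1) • v := by module
      rwa [this]
  rcases le_total (s + 1) r with h3 | h3
  · refine key (r - 1) (by rw [abs_le]; constructor <;> linarith)
      (lineConv hK h1 hr (by linarith) (by linarith)) ?_
    rwa [show r - 1 + 1 = r by ring]
  rcases le_total r (s - 1) with h4 | h4
  · refine key (r + 1) (by rw [abs_le]; constructor <;> linarith) ?_
      (lineConv hK hr h2 (by linarith) (by linarith))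
    rwa [show r + 1 - 1 = r by ring]
  · exact key s (by rw [abs_le]; constructor <;> linarith) h1 h2

lemma Kg_two_sub_star (hK : Convex ℝ K) : Kg K v 2 ⊆ star K v := by
  intro y hy
  have h0 : y + (0 : ℝ) • v ∈ K := by simpa using Kg_sub hK (by norm_num) hy
  simpa using near hK hy h0 (σ := 0) (by simp)

end geo

/-- outgoing pairs -/
def Sout (K : Set V) (v : V) : Set (V × ℝ) := {p | p.1 ∈ star K v ∧ p.1 + p.2 • v ∉ K}

lemma measurableSet_Sout {K : Set V} (hK : IsClosed K) (v : V) : MeasurableSet (Sout K v) := by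
  have hadd : Measurable fun p : V × ℝ => p.1 + p.2 • v := by fun_prop
  exact (measurable_fst (isClosed_star hK v).measurableSet).inter (hadd hK.measurableSet.compl)

/-- pointwise inequality for a shifted pair -/
lemma Qd_shift {κ : ℝ} (hκ : 0 < κ) {E : Submodule ℝ V} {v : V}
    (hv : κ * ‖E.starProjection v‖ ^ 2 ≤ 1) (x : V) (d σ : ℝ) (hσ : σ ^ 2 = 1) :
    Qd κ E v (x, d) ≤
      ENNReal.ofReal (Real.exp (‖E.starProjection v‖ ^ 2 / 4 - (2 * (-σ * d) - 1) / (4 * κ))) *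
        Qd κ E v (Phi v 0 (-σ) (x, d)) ∨
    Qd κ E v (x, d) ≤
      ENNReal.ofReal (Real.exp (‖E.starProjection v‖ ^ 2 / 4 - (2 * (-σ * d) - 1) / (4 * κ))) *
        Qd κ E v (Phi v σ (-σ) (x, d)) := by
  have hCn : 0 ≤ Cn κ E v := by unfold Cn; positivity
  have mA : (Phi v 0 (-σ) (x, d)).1 + ((Phi v 0 (-σ) (x, d)).2 / 2) • v =
      (x + (d / 2) • v) - (σ / 2) • v := by
    unfold Phi; simp only; module
  have mB : (Phi v σ (-σ) (x, d)).1 + ((Phi v σ (-σ) (x, d)).2 / 2) • v =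
      (x + (d / 2) • v) + (σ / 2) • v := by
    unfold Phi; simp only; module
  have e2 : ∀ t : ℝ, -(d ^ 2 / (4 * κ)) - t = (‖E.starProjection v‖ ^ 2 / 4 -
      (2 * (-σ * d) - 1) / (4 * κ)) + (-((-d + -σ) ^ 2 / (4 * κ)) -
        (t + ‖E.starProjection v‖ ^ 2 / 4)) := by
    intro t
    have : d ^ 2 = (2 * (-σ * d) - 1) + (-d + -σ) ^ 2 := by linear_combination (-1 : ℝ) * hσ
    have h5 : d ^ 2 / (4 * κ) = (2 * (-σ * d) - 1) / (4 * κ) + (-d + -σ) ^ 2 / (4 * κ) := by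
      rw [← add_div, ← this]
    rw [h5]; ring
  rcases T_min hκ hv (x + (d / 2) • v) (σ / 2) (by linear_combination hσ / 4) with h | h
  · right
    unfold Qd
    rw [mB]
    rw [← ENNReal.ofReal_mul (by positivity)]
    refine ENNReal.ofReal_le_ofReal ?_
    rw [e2, Real.exp_add]
    have : (Phi v σ (-σ) (x, d)).2 = -d + -σ := rfl
    rw [this]
    have h7 : Real.exp (-((-d + -σ) ^ 2 / (4 * κ)) - (T κ E v (x + (d / 2) • v) +
        ‖E.starProjection v‖ ^ 2 / 4)) ≤ Real.exp (-((-d + -σ) ^ 2 / (4 * κ)) -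
          T κ E v (x + (d / 2) • v + (σ / 2) • v)) := by
      rw [Real.exp_le_exp]; linarith
    calc _ ≤ Cn κ E v * (Real.exp (‖E.starProjection v‖ ^ 2 / 4 -
          (2 * (-σ * d) - 1) / (4 * κ)) * Real.exp (-((-d + -σ) ^ 2 / (4 * κ)) -
          T κ E v (x + (d / 2) • v + (σ / 2) • v))) := by gcongr
      _ = _ := by ring
  · left
    unfold Qd
    rw [mA]
    rw [← ENNReal.ofReal_mul (by positivity)]
    refine ENNReal.ofReal_le_ofReal ?_
    rw [e2, Real.exp_add]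
    have : (Phi v 0 (-σ) (x, d)).2 = -d + -σ := rfl
    rw [this]
    have h7 : Real.exp (-((-d + -σ) ^ 2 / (4 * κ)) - (T κ E v (x + (d / 2) • v) +
        ‖E.starProjection v‖ ^ 2 / 4)) ≤ Real.exp (-((-d + -σ) ^ 2 / (4 * κ)) -
          T κ E v (x + (d / 2) • v - (σ / 2) • v)) := by
      rw [Real.exp_le_exp]; linarith
    calc _ ≤ Cn κ E v * (Real.exp (‖E.starProjection v‖ ^ 2 / 4 -
          (2 * (-σ * d) - 1) / (4 * κ)) * Real.exp (-((-d + -σ) ^ 2 / (4 * κ)) -
          T κ E v (x + (d / 2) • v - (σ / 2) • v))) := by gcongr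
      _ = _ := by ring

/-- the constant `η` -/
noncomputable def eta (κ ρ a : ℝ) : ℝ := Real.exp (ρ + a / 4 - 1 / (4 * κ))

lemma pt_in {κ ρ : ℝ} (hκ : 0 < κ) (hρ : 0 ≤ ρ) (hρκ : ρ ≤ 1 / (2 * κ)) {E : Submodule ℝ V} {v : V}
    (hv : κ * ‖E.starProjection v‖ ^ 2 ≤ 1) {W : V → ℝ≥0∞} (hW : LogLip ρ v W)
    (x : V) (d σ : ℝ) (hσ : σ ^ 2 = 1) (hD : 1 ≤ -σ * d) :
    Qd κ E v (x, d) * W x ≤ ENNReal.ofReal (eta κ ρ (‖E.starProjection v‖ ^ 2)) *
      (Qd κ E v (Phi v 0 (-σ) (x, d)) * W (Phi v 0 (-σ) (x, d)).1 +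
        Qd κ E v (Phi v σ (-σ) (x, d)) * W (Phi v σ (-σ) (x, d)).1) := by
  have hσ1 : |σ| = 1 := by
    rw [← sq_abs] at hσ
    nlinarith [abs_nonneg σ]
  have hdabs : |d| = -σ * d := by
    have : |d| = |-σ * d| := by rw [abs_mul, abs_neg, hσ1, one_mul]
    rw [this, abs_of_nonneg (by linarith)]
  set D := -σ * d with hDdef
  have hde : d = -σ * D := by rw [hDdef]; linear_combination (-d) * hσ
  have hWA : W x ≤ ENNReal.ofReal (Real.exp (ρ * D)) * W (Phi v 0 (-σ) (x, d)).1 := by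
    have h := hW (x + d • v) (-d)
    have e : x + d • v + (-d) • v = x := by module
    rw [e, abs_neg, hdabs] at h
    have e2 : (Phi v 0 (-σ) (x, d)).1 = x + d • v := by unfold Phi; simp
    rwa [e2]
  have hWB : W x ≤ ENNReal.ofReal (Real.exp (ρ * D)) * W (Phi v σ (-σ) (x, d)).1 := by
    have h := hW (x + d • v + σ • v) (-d - σ)
    have e : x + d • v + σ • v + (-d - σ) • v = x := by module
    rw [e] at h
    have e2 : (Phi v σ (-σ) (x, d)).1 = x + d • v + σ • v := rfl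
    rw [e2]
    refine h.trans ?_
    gcongr
    have e3 : -d - σ = σ * (D - 1) := by rw [hde]; ring
    rw [e3, abs_mul, hσ1, one_mul, abs_of_nonneg (by linarith)]
    linarith
  have hexp : ∀ X : ℝ≥0∞, ∀ Y : ℝ≥0∞,
      (ENNReal.ofReal (Real.exp (‖E.starProjection v‖ ^ 2 / 4 - (2 * D - 1) / (4 * κ))) * X) *
        (ENNReal.ofReal (Real.exp (ρ * D)) * Y) ≤
      ENNReal.ofReal (eta κ ρ (‖E.starProjection v‖ ^ 2)) * (X * Y) := by
    intro X Y
    have : (ENNReal.ofReal (Real.exp (‖E.starProjection v‖ ^ 2 / 4 - (2 * D - 1) / (4 * κ))) * X) *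
        (ENNReal.ofReal (Real.exp (ρ * D)) * Y) =
        (ENNReal.ofReal (Real.exp (‖E.starProjection v‖ ^ 2 / 4 - (2 * D - 1) / (4 * κ))) *
          ENNReal.ofReal (Real.exp (ρ * D))) * (X * Y) := by ring
    rw [this, ← ENNReal.ofReal_mul (by positivity), ← Real.exp_add]
    gcongr
    unfold eta
    rw [Real.exp_le_exp]
    have h1 : (2 * D - 1) / (4 * κ) = D * (1 / (2 * κ)) - 1 / (4 * κ) := by
      field_simp; ring
    have h2 : (1 : ℝ) / (4 * κ) = (1 / (2 * κ)) / 2 := by field_simp; norm_num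
    rw [h1, h2]
    nlinarith
  rcases Qd_shift hκ hv x d σ hσ with h | h
  · calc Qd κ E v (x, d) * W x ≤ _ := mul_le_mul' h hWA
      _ ≤ _ := hexp _ _
      _ ≤ _ := by gcongr; exact le_self_add
  · calc Qd κ E v (x, d) * W x ≤ _ := mul_le_mul' h hWB
      _ ≤ _ := hexp _ _
      _ ≤ _ := by gcongr; exact le_add_self

/-- incoming pairs on one side -/
def Sin (K : Set V) (v : V) (σ : ℝ) : Set (V × ℝ) :=
  {p | p.1 ∉ star K v ∧ p.1 + p.2 • v ∈ Kg K v 2 ∧ 0 < -σ * p.2}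

lemma measurableSet_Sin {K : Set V} (hK : IsClosed K) (v : V) (σ : ℝ) :
    MeasurableSet (Sin K v σ) := by
  have hadd : Measurable fun p : V × ℝ => p.1 + p.2 • v := by fun_prop
  have h3 : Measurable fun p : V × ℝ => -σ * p.2 := by fun_prop
  exact (measurable_fst (isClosed_star hK v).measurableSet.compl).inter
    ((hadd (isClosed_Kg hK 2).measurableSet).inter (h3 measurableSet_Ioi))

lemma Sin_D {K : Set V} (cK : Convex ℝ K) {v : V} {σ : ℝ} (hσ : σ ^ 2 = 1) {p : V × ℝ}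
    (hp : p ∈ Sin K v σ) : 1 ≤ -σ * p.2 := by
  obtain ⟨h1, h2, h3⟩ := hp
  by_contra hlt
  push Not at hlt
  apply h1
  have hσ1 : |σ| = 1 := by
    rw [← sq_abs] at hσ
    nlinarith [abs_nonneg σ]
  have h0 : (p.1 + p.2 • v) + (0 : ℝ) • v ∈ K := by
    simpa using Kg_sub cK (by norm_num) h2
  have := near cK h2 h0 (σ := -p.2) (by
    rw [abs_neg]
    have : |p.2| = |-σ * p.2| := by rw [abs_mul, abs_neg, hσ1, one_mul]
    rw [this, abs_of_nonneg h3.le]; exact hlt.le)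
  have e : p.1 + p.2 • v + (0 + -p.2) • v = p.1 := by module
  rwa [e] at this

lemma Sin_A {K : Set V} (cK : Convex ℝ K) {v : V} {σ : ℝ} (hσ : σ ^ 2 = 1) {p : V × ℝ}
    (hp : p ∈ Sin K v σ) : Phi v 0 (-σ) p ∈ Sout K v := by
  have hσ1 : |σ| = 1 := by
    rw [← sq_abs] at hσ
    nlinarith [abs_nonneg σ]
  obtain ⟨h1, h2, h3⟩ := hp
  refine ⟨?_, ?_⟩
  · unfold Phi
    simp only [zero_smul, add_zero]
    exact Kg_two_sub_star cK h2
  · unfold Phi
    simp only [zero_smul, add_zero]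
    intro h4
    apply h1
    have := near cK h2 (r := -p.2 + -σ) h4 (σ := σ) hσ1.le
    have e : p.1 + p.2 • v + (-p.2 + -σ + σ) • v = p.1 := by module
    rwa [e] at this

lemma Sin_B {K : Set V} (cK : Convex ℝ K) {v : V} {σ : ℝ} (hσ : σ ^ 2 = 1) {p : V × ℝ}
    (hp : p ∈ Sin K v σ) : Phi v σ (-σ) p ∈ Sout K v := by
  have hσ1 : |σ| = 1 := by
    rw [← sq_abs] at hσ
    nlinarith [abs_nonneg σ]
  obtain ⟨h1, h2, h3⟩ := hp
  have h0 : (p.1 + p.2 • v) + (0 : ℝ) • v ∈ K := by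
    simpa using Kg_sub cK (by norm_num) h2
  refine ⟨?_, ?_⟩
  · unfold Phi
    simp only
    have := near cK h2 h0 (σ := σ) hσ1.le
    rwa [zero_add] at this
  · unfold Phi
    simp only
    intro h4
    apply h1
    have e : p.1 + p.2 • v + σ • v + (-p.2 + -σ) • v = p.1 + p.2 • v + (-p.2) • v := by module
    rw [e] at h4
    have := near cK h2 h4 (σ := 0) (by simp)
    have e : p.1 + p.2 • v + (-p.2 + 0) • v = p.1 := by module
    rwa [e] at this

theorem flux_in_side {κ ρ : ℝ} (hκ : 0 < κ) (hρ : 0 ≤ ρ) (hρκ : ρ ≤ 1 / (2 * κ))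
    {E : Submodule ℝ V} {v : V} (hv : κ * ‖E.starProjection v‖ ^ 2 ≤ 1) {W : V → ℝ≥0∞}
    (hWm : Measurable W) (hW : LogLip ρ v W) {K : Set V} (hK : IsClosed K) (cK : Convex ℝ K)
    {σ : ℝ} (hσ : σ ^ 2 = 1) :
    flux κ E v W (Sin K v σ) ≤
      ENNReal.ofReal (2 * eta κ ρ (‖E.starProjection v‖ ^ 2)) * flux κ E v W (Sout K v) := by
  obtain ⟨F, hF⟩ : ∃ F : V × ℝ → ℝ≥0∞, F = fun p => Qd κ E v p * W p.1 := ⟨_, rfl⟩
  have mF : Measurable F := by
    rw [hF]; exact (measurable_Qd κ E v).mul (hWm.comp measurable_fst)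
  have mA : Measurable (Phi v 0 (-σ)) := (measurePreserving_Phi v 0 (-σ)).measurable
  have mB : Measurable (Phi v σ (-σ)) := (measurePreserving_Phi v σ (-σ)).measurable
  have mFA : Measurable fun p => F (Phi v 0 (-σ) p) := mF.comp mA
  have mFB : Measurable fun p => F (Phi v σ (-σ) p) := mF.comp mB
  have pt : ∀ p ∈ Sin K v σ, F p ≤ ENNReal.ofReal (eta κ ρ (‖E.starProjection v‖ ^ 2)) *
      (F (Phi v 0 (-σ) p) + F (Phi v σ (-σ) p)) := by
    intro p hp
    rw [hF]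
    exact pt_in hκ hρ hρκ hv hW p.1 p.2 σ hσ (Sin_D cK hσ hp)
  have hA : ∫⁻ p in Sin K v σ, F (Phi v 0 (-σ) p) ∂(volume.prod volume) ≤
      ∫⁻ p in Sout K v, F p ∂(volume.prod volume) := by
    have h := (measurePreserving_Phi v 0 (-σ)).setLIntegral_comp_preimage
            (measurableSet_Sout hK v) mF
    rw [← h]
    exact lintegral_mono_set fun p hp => Sin_A cK hσ hp
  have hB : ∫⁻ p in Sin K v σ, F (Phi v σ (-σ) p) ∂(volume.prod volume) ≤
      ∫⁻ p in Sout K v, F p ∂(volume.prod volume) := by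
    have h := (measurePreserving_Phi v σ (-σ)).setLIntegral_comp_preimage
            (measurableSet_Sout hK v) mF
    rw [← h]
    exact lintegral_mono_set fun p hp => Sin_B cK hσ hp
  have goal' : ∫⁻ p in Sin K v σ, F p ∂(volume.prod volume) ≤
      ENNReal.ofReal (2 * eta κ ρ (‖E.starProjection v‖ ^ 2)) *
        ∫⁻ p in Sout K v, F p ∂(volume.prod volume) := by
    calc ∫⁻ p in Sin K v σ, F p ∂(volume.prod volume)
        ≤ ∫⁻ p in Sin K v σ, ENNReal.ofReal (eta κ ρ (‖E.starProjection v‖ ^ 2)) *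
        (F (Phi v 0 (-σ) p) + F (Phi v σ (-σ) p)) ∂(volume.prod volume) :=
          setLIntegral_mono' (measurableSet_Sin hK v σ) pt
      _ = ENNReal.ofReal (eta κ ρ (‖E.starProjection v‖ ^ 2)) *
          (∫⁻ p in Sin K v σ, F (Phi v 0 (-σ) p) ∂(volume.prod volume) +
          ∫⁻ p in Sin K v σ, F (Phi v σ (-σ) p) ∂(volume.prod volume)) := by
          rw [← lintegral_add_left mFA]
          exact lintegral_const_mul _ (mFA.add mFB)
      _ ≤ ENNReal.ofReal (eta κ ρ (‖E.starProjection v‖ ^ 2)) *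
          (∫⁻ p in Sout K v, F p ∂(volume.prod volume) +
          ∫⁻ p in Sout K v, F p ∂(volume.prod volume)) := by
          gcongr
      _ = _ := by
          rw [ENNReal.ofReal_mul (by norm_num), ← two_mul, ← mul_assoc]
          congr 1
          rw [mul_comm]
          norm_num
  unfold flux
  rw [hF] at goal'
  exact goal'

/-- **inflow on long lines** -/
theorem flux_in {κ ρ : ℝ} (hκ : 0 < κ) (hρ : 0 ≤ ρ) (hρκ : ρ ≤ 1 / (2 * κ))
    {E : Submodule ℝ V} {v : V} (hv : κ * ‖E.starProjection v‖ ^ 2 ≤ 1) {W : V → ℝ≥0∞}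
    (hWm : Measurable W) (hW : LogLip ρ v W) {K : Set V} (hK : IsClosed K) (cK : Convex ℝ K) :
    flux κ E v W {p | p.1 ∈ (star K v)ᶜ ∧ p.1 + p.2 • v ∈ Kg K v 2} ≤
      ENNReal.ofReal (4 * eta κ ρ (‖E.starProjection v‖ ^ 2)) * flux κ E v W (Sout K v) := by
  have hsub : {p : V × ℝ | p.1 ∈ (star K v)ᶜ ∧ p.1 + p.2 • v ∈ Kg K v 2} ⊆
      Sin K v 1 ∪ Sin K v (-1) := by
    rintro p ⟨h1, h2⟩
    rcases lt_trichotomy p.2 0 with h | h | h
    · exact Or.inl ⟨h1, h2, by linarith⟩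
    · exfalso
      apply h1
      have : p.1 + p.2 • v = p.1 := by rw [h]; simp
      rw [this] at h2
      exact Kg_two_sub_star cK h2
    · exact Or.inr ⟨h1, h2, by linarith⟩
  calc _ ≤ _ := flux_mono hsub
    _ ≤ _ := flux_union_le _ _
    _ ≤ _ := add_le_add (flux_in_side hκ hρ hρκ hv hWm hW hK cK (by norm_num))
      (flux_in_side hκ hρ hρκ hv hWm hW hK cK (by norm_num))
    _ = _ := by
      rw [← add_mul, ← ENNReal.ofReal_add (by unfold eta; positivity) (by unfold eta; positivity)]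
      congr 2
      ring

end SL161

end Crest.Agent.R239
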