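import Crest.Agent.R239.SL161b

/-!
# R239, block (S1) = (SL_W), part c: outflow of the lines of length in `[2k, 2k+2)` (helper161)
-/

set_option autoImplicit false
set_option linter.unusedSectionVars false
open MeasureTheory ProbabilityTheory Set
open scoped RealInnerProductSpace ENNReal NNReal

namespace Crest.Agent.R239

namespace SL161

open Chain

variable {V : Type*} [NormedAddCommGroup V] [InnerProductSpace ℝ V] [FiniteDimensional ℝ V]
  [MeasurableSpace V] [BorelSpace V]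

/-- functions of the displacement -/
lemma Q_eq {κ : ℝ} (hκ : 0 < κ) {E : Submodule ℝ V} {v : V}
    (hv : κ * ‖E.starProjection v‖ ^ 2 ≤ 1) {h : ℝ → ℝ≥0∞} (hm : Measurable h) (x : V) :
    dE E x * ∫⁻ g, h (disp κ E v x g) ∂(gaussianReal 0 1) = ∫⁻ d : ℝ, Qd κ E v (x, d) * h d := by
  have htp := tau_sq_pos hκ hv
  have e1 : ∫⁻ g, h (disp κ E v x g) ∂(gaussianReal 0 1) = ∫⁻ d, h d
      ∂(gaussianReal (-(κ * ⟪E.starProjection v, x⟫)) (.mk (tau κ E v ^ 2) (sq_nonneg _))) := by
    have e2 : (gaussianReal (-(κ * ⟪E.starProjection v, x⟫)) (.mk (tau κ E v ^ 2) (sq_nonneg _)))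
        = (gaussianReal 0 1).map (fun g => -(κ * ⟪E.starProjection v, x⟫) + tau κ E v * g) := by
      have h1 := gaussianReal_map_const_mul (μ := 0) (v := 1) (tau κ E v)
      have h2 := gaussianReal_map_const_add (μ := tau κ E v * 0)
        (v := (.mk (tau κ E v ^ 2) (sq_nonneg _) * 1)) (-(κ * ⟪E.starProjection v, x⟫))
      rw [← h1, Measure.map_map (by fun_prop) (by fun_prop)] at h2
      rw [mul_zero, zero_add, mul_one] at h2
      rw [← h2]
      rfl
    rw [e2, lintegral_map hm (by fun_prop)]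
    rfl
  have hv0 : (.mk (tau κ E v ^ 2) (sq_nonneg _) : ℝ≥0) ≠ 0 := by
    intro h
    have := congrArg NNReal.toReal h
    simp only [NNReal.coe_mk, NNReal.coe_zero] at this
    exact htp.ne' this
  rw [e1, gaussianReal_of_var_ne_zero _ hv0,
    lintegral_withDensity_eq_lintegral_mul _ (measurable_gaussianPDF _ _) hm,
    ← lintegral_const_mul _ ((measurable_gaussianPDF _ _).mul hm)]
  refine lintegral_congr fun d => ?_
  simp only [Pi.mul_apply]
  rw [← mul_assoc]
  congr 1
  unfold dE gaussianPDF gaussianPDFReal Qd Cn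
  rw [← ENNReal.ofReal_mul (by positivity)]
  congr 1
  simp only [NNReal.coe_mk]
  rw [← exponent hκ hv, Real.exp_add]
  ring

/-- mass as a volume integral -/
lemma mass_vol {E : Submodule ℝ V} {W : V → ℝ≥0∞} (hW : Measurable W) {S : Set V}
    (hS : MeasurableSet S) : mass E W S = ∫⁻ x in S, dE E x * W x := by
  unfold mass
  rw [← lintegral_indicator hS, lintegral_mE (hW.indicator hS), ← lintegral_indicator hS]
  refine lintegral_congr fun x => ?_
  by_cases hx : x ∈ S <;> simp [hx]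

/-- half of the Gaussian -/
lemma gauss_half (σ : ℝ) : (1 / 2 : ℝ≥0∞) ≤ gaussianReal 0 1 {g | σ * g ≤ 0} := by
  have hm : MeasurableSet {g : ℝ | σ * g ≤ 0} := (by fun_prop : Measurable fun g : ℝ => σ * g)
    measurableSet_Iic
  have h1 : gaussianReal 0 1 {g | σ * g ≤ 0} = gaussianReal 0 1 {g | 0 ≤ σ * g} := by
    have h2 := gaussianReal_map_neg (μ := 0) (v := 1)
    rw [neg_zero] at h2
    nth_rewrite 1 [← h2]
    rw [Measure.map_apply measurable_neg hm]
    congr 1
    ext g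
    simp
  have h3 : (1 : ℝ≥0∞) ≤ gaussianReal 0 1 {g | σ * g ≤ 0} + gaussianReal 0 1 {g | 0 ≤ σ * g} := by
    calc (1 : ℝ≥0∞) = gaussianReal 0 1 univ := measure_univ.symm
      _ ≤ gaussianReal 0 1 ({g | σ * g ≤ 0} ∪ {g | 0 ≤ σ * g}) := by
          refine measure_mono fun g _ => ?_
          rcases le_total (σ * g) 0 with h | h
          · exact Or.inl h
          · exact Or.inr h
      _ ≤ _ := measure_union_le _ _
  rw [← h1, ← two_mul] at h3
  rw [ENNReal.div_le_iff' (by norm_num) (by norm_num)]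
  exact h3

/-- exponential moment -/
lemma gauss_exp {b : ℝ} (hb : 0 ≤ b) (hb1 : b ≤ 1) :
    ∫⁻ g, ENNReal.ofReal (Real.exp (b * |g|)) ∂(gaussianReal 0 1) ≤ ENNReal.ofReal 4 := by
  have hint : ∀ t : ℝ, ∫⁻ g, ENNReal.ofReal (Real.exp (t * g)) ∂(gaussianReal 0 1) =
      ENNReal.ofReal (Real.exp (t ^ 2 / 2)) := by
    intro t
    rw [← ofReal_integral_eq_lintegral_ofReal (integrable_exp_mul_gaussianReal t)
      (Filter.Eventually.of_forall fun _ => (Real.exp_pos _).le)]
    have h := mgf_gaussianReal (p := gaussianReal 0 1) (X := fun x => x) (μ := 0) (v := 1)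
      (by simp) t
    unfold mgf at h
    rw [h]
    norm_num
  have e4 : Real.exp (b ^ 2 / 2) ≤ 2 := by
    have h1 : b ^ 2 / 2 ≤ 1 / 2 := by nlinarith
    have h2 : Real.exp (b ^ 2 / 2) ≤ Real.exp (1 / 2) := Real.exp_le_exp.2 h1
    have h3 : Real.exp (1 / 2) ^ 2 = Real.exp 1 := by rw [← Real.exp_nat_mul]; norm_num
    have h4 := Real.exp_one_lt_d9
    nlinarith [Real.exp_pos (1 / 2)]
  calc ∫⁻ g, ENNReal.ofReal (Real.exp (b * |g|)) ∂(gaussianReal 0 1)
      ≤ ∫⁻ g, (ENNReal.ofReal (Real.exp (b * g)) + ENNReal.ofReal (Real.exp (-b * g)))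
          ∂(gaussianReal 0 1) := by
        refine lintegral_mono fun g => ?_
        rcases le_total 0 g with h | h
        · rw [abs_of_nonneg h]; exact le_self_add
        · rw [abs_of_nonpos h, mul_neg, ← neg_mul]; exact le_add_self
    _ = ENNReal.ofReal (Real.exp (b ^ 2 / 2)) + ENNReal.ofReal (Real.exp ((-b) ^ 2 / 2)) := by
        rw [lintegral_add_left (by fun_prop), hint, hint]
    _ ≤ ENNReal.ofReal 2 + ENNReal.ofReal 2 := by
        gcongr
        rw [neg_sq]; exact e4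
    _ = ENNReal.ofReal 4 := by rw [← ENNReal.ofReal_add (by norm_num) (by norm_num)]; norm_num

/-- the gain constant -/
noncomputable def Cg : ℝ := 4 * Real.exp (3 / 2)

lemma Cg_pos : 0 < Cg := by unfold Cg; positivity

/-- pointwise comparison of `(A W) mE` at `y` with `W mE` at `z = y - σ x v` -/
lemma pt_gain {κ ρ : ℝ} (hκ : 0 < κ) (hκ1 : κ ≤ 1 / 2) (hρ : 0 ≤ ρ) {E : Submodule ℝ V} {v : V}
    {W : V → ℝ≥0∞} (hWm : Measurable W) (hW : LogLip ρ v W) {σ : ℝ} (hσ : σ ^ 2 = 1) {x : ℝ}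
    (hx : 1 ≤ x) (hρx : ρ * x ≤ 1) (hax : ‖E.starProjection v‖ ^ 2 * x ^ 2 ≤ 1) (y : V)
    (hy : 0 ≤ σ * ⟪E.starProjection v, y⟫) :
    dE E y * A κ E v W y ≤ ENNReal.ofReal Cg * (dE E (y - (σ * x) • v) * W (y - (σ * x) • v)) := by
  have hσ1 : |σ| = 1 := by
    rw [← sq_abs] at hσ
    nlinarith [abs_nonneg σ]
  set z := y - (σ * x) • v with hz
  set P := ⟪E.starProjection v, y⟫ with hP
  set a := ‖E.starProjection v‖ ^ 2 with ha
  have ha0 : 0 ≤ a := by positivity
  have hPabs : |P| = σ * P := by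
    have : |P| = |σ * P| := by rw [abs_mul, hσ1, one_mul]
    rw [this, abs_of_nonneg hy]
  have hρ1 : ρ ≤ 1 := by nlinarith
  have hx2 : 1 ≤ x ^ 2 := by nlinarith
  have ha1 : a ≤ 1 := by nlinarith [mul_nonneg ha0 (sub_nonneg.2 hx2)]
  -- τ ≤ 1
  have hτ0 : 0 ≤ tau κ E v := by unfold tau; positivity
  have hτ1 : tau κ E v ≤ 1 := by
    have h2 := tau_sq hκ.le (E := E) (v := v) (by unfold OK; nlinarith)
    rw [← ha] at h2
    have : κ * (2 - κ * a) ≤ 1 := by nlinarith [mul_nonneg hκ.le (mul_nonneg hκ.le ha0)]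
    nlinarith
  have hWb : ∀ g : ℝ, W (y + disp κ E v y g • v) ≤
      ENNReal.ofReal (Real.exp (ρ * x + ρ * κ * |P|)) * W z *
        ENNReal.ofReal (Real.exp (ρ * tau κ E v * |g|)) := by
    intro g
    have h := hW z (σ * x + disp κ E v y g)
    have e : z + (σ * x + disp κ E v y g) • v = y + disp κ E v y g • v := by
      rw [hz]; module
    rw [e] at h
    refine h.trans ?_
    have : ENNReal.ofReal (Real.exp (ρ * x + ρ * κ * |P|)) * W z *
        ENNReal.ofReal (Real.exp (ρ * tau κ E v * |g|)) =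
        ENNReal.ofReal (Real.exp (ρ * x + ρ * κ * |P|) * Real.exp (ρ * tau κ E v * |g|)) * W z := by
      rw [ENNReal.ofReal_mul (by positivity)]; ring
    rw [this, ← Real.exp_add]
    gcongr
    have h3 : |σ * x + disp κ E v y g| ≤ x + (κ * |P| + tau κ E v * |g|) := by
      calc |σ * x + disp κ E v y g| ≤ |σ * x| + |disp κ E v y g| := abs_add_le _ _
        _ ≤ x + (κ * |P| + tau κ E v * |g|) := by
          refine add_le_add ?_ ?_
          · rw [abs_mul, hσ1, one_mul, abs_of_nonneg (by linarith)]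
          · unfold disp
            rw [← hP]
            refine (abs_add_le _ _).trans ?_
            rw [abs_neg, abs_mul, abs_mul, abs_of_pos hκ, abs_of_nonneg hτ0]
    calc ρ * |σ * x + disp κ E v y g| ≤ ρ * (x + (κ * |P| + tau κ E v * |g|)) := by gcongr
      _ = _ := by ring
  have hA : A κ E v W y ≤ ENNReal.ofReal (Real.exp (ρ * x + ρ * κ * |P|)) * W z *
      ENNReal.ofReal 4 := by
    unfold A
    refine (lintegral_mono hWb).trans ?_
    rw [lintegral_const_mul _ (by fun_prop)]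
    gcongr
    exact gauss_exp (by positivity) (by nlinarith)
  have hdE : dE E y = ENNReal.ofReal (Real.exp (-(x * |P|) + x ^ 2 * a / 2)) * dE E z := by
    unfold dE
    rw [← ENNReal.ofReal_mul (by positivity), ← Real.exp_add]
    congr 2
    have e : z = y + (-(σ * x)) • v := by rw [hz]; module
    rw [e, norm_proj_add, ← hP, ← ha, hPabs]
    linear_combination (x ^ 2 * a / 2) * hσ
  calc dE E y * A κ E v W y ≤ (ENNReal.ofReal (Real.exp (-(x * |P|) + x ^ 2 * a / 2)) * dE E z) *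
        (ENNReal.ofReal (Real.exp (ρ * x + ρ * κ * |P|)) * W z * ENNReal.ofReal 4) := by
        rw [← hdE]; gcongr
    _ = (ENNReal.ofReal (Real.exp (-(x * |P|) + x ^ 2 * a / 2)) *
          ENNReal.ofReal (Real.exp (ρ * x + ρ * κ * |P|)) * ENNReal.ofReal 4) *
            (dE E z * W z) := by ring
    _ ≤ _ := by
        rw [← ENNReal.ofReal_mul (by positivity), ← ENNReal.ofReal_mul (by positivity),
          ← Real.exp_add]
        gcongr
        unfold Cg
        rw [mul_comm]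
        gcongr
        nlinarith [mul_nonneg (abs_nonneg P) (by nlinarith : (0:ℝ) ≤ x - ρ * κ)]

/-- landing strip outside `K` -/
def Jt (E : Submodule ℝ V) (K : Set V) (v : V) (σ t : ℝ) : Set V :=
  {z | z + σ • v ∈ Kg K v t \ Kg K v (t + 2) ∧ z + (σ / 2) • v ∉ K ∧
    -1 ≤ σ * ⟪E.starProjection v, z⟫}

lemma measurableSet_Jt (E : Submodule ℝ V) {K : Set V} (hK : IsClosed K) (v : V) (σ t : ℝ) :
    MeasurableSet (Jt E K v σ t) := by
  have m1 : Measurable fun z : V => z + σ • v := by fun_prop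
  have m2 : Measurable fun z : V => z + (σ / 2) • v := by fun_prop
  have m3 : Measurable fun z : V => σ * ⟪E.starProjection v, z⟫ := by fun_prop
  exact (m1 ((isClosed_Kg hK t).measurableSet.diff (isClosed_Kg hK _).measurableSet)).inter
    ((m2 hK.measurableSet.compl).inter (m3 measurableSet_Ici))

/-- outgoing pairs starting in the landing strip -/
def Ot (E : Submodule ℝ V) (K : Set V) (v : V) (σ t : ℝ) : Set (V × ℝ) :=
  {p | p.1 ∈ Jt E K v σ t ∧ σ * p.2 ≤ 1 / 2}

lemma measurableSet_Ot (E : Submodule ℝ V) {K : Set V} (hK : IsClosed K) (v : V) (σ t : ℝ) :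
    MeasurableSet (Ot E K v σ t) := by
  have m3 : Measurable fun p : V × ℝ => σ * p.2 := by fun_prop
  exact (measurable_fst (measurableSet_Jt E hK v σ t)).inter (m3 measurableSet_Iic)

lemma Ot_sub {E : Submodule ℝ V} {K : Set V} (cK : Convex ℝ K) {v : V} {σ t : ℝ} (hσ : σ ^ 2 = 1)
    (ht : 2 ≤ t) : Ot E K v σ t ⊆ Sout K v := by
  have hσ1 : |σ| = 1 := by
    rw [← sq_abs] at hσ
    nlinarith [abs_nonneg σ]
  rintro p ⟨⟨h1, h2, h3⟩, h4⟩
  have hK1 : p.1 + σ • v ∈ Kg K v 2 := Kg_anti cK (by norm_num) ht h1.1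
  have hK0 : p.1 + σ • v ∈ K := Kg_sub cK (by norm_num) hK1
  refine ⟨?_, ?_⟩
  · have h0 : (p.1 + σ • v) + (0 : ℝ) • v ∈ K := by simpa using hK0
    have := near cK hK1 h0 (σ := -σ) (by rw [abs_neg, hσ1])
    have e : p.1 + σ • v + (0 + -σ) • v = p.1 := by module
    rwa [e] at this
  · intro h5
    apply h2
    have hs : σ = 1 ∨ σ = -1 := by
      have : (σ - 1) * (σ + 1) = 0 := by linear_combination hσ
      rcases mul_eq_zero.1 this with h | h
      · left; linarith
      · right; linarith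
    rcases hs with h | h
    · subst h
      exact lineConv cK h5 hK0 (by linarith) (by linarith)
    · subst h
      exact lineConv cK hK0 h5 (by linarith) (by linarith)

/-- outflow of the landing strip -/
lemma mass_J_le {κ : ℝ} (hκ : 0 < κ) (hκ1 : κ ≤ 1 / 2) {E : Submodule ℝ V} {v : V}
    (hv : κ * ‖E.starProjection v‖ ^ 2 ≤ 1) {W : V → ℝ≥0∞} (hWm : Measurable W)
    {K : Set V} (hK : IsClosed K) {σ t : ℝ} (hσ : σ ^ 2 = 1) :
    mass E W (Jt E K v σ t) ≤ 2 * flux κ E v W (Ot E K v σ t) := by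
  have hJ := measurableSet_Jt E hK v σ t
  have hO := measurableSet_Ot E hK v σ t
  have hD : MeasurableSet {d : ℝ | σ * d ≤ 1 / 2} :=
    (by fun_prop : Measurable fun d : ℝ => σ * d) measurableSet_Iic
  have hσ1 : |σ| = 1 := by
    rw [← sq_abs] at hσ
    nlinarith [abs_nonneg σ]
  rw [mass_vol hWm hJ]
  unfold flux
  rw [← lintegral_indicator hJ, ← lintegral_indicator hO, lintegral_prod _ (by
    refine (Measurable.indicator ?_ hO).aemeasurable
    exact (measurable_Qd κ E v).mul (hWm.comp measurable_fst)), ← lintegral_const_mul' _ _ (by norm_num)]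
  refine lintegral_mono fun x => ?_
  by_cases hx : x ∈ Jt E K v σ t
  · rw [indicator_of_mem hx]
    have e1 : ∫⁻ d : ℝ, (Ot E K v σ t).indicator (fun p => Qd κ E v p * W p.1) (x, d) =
        W x * ∫⁻ d : ℝ, Qd κ E v (x, d) * ({d : ℝ | σ * d ≤ 1 / 2}).indicator 1 d := by
      rw [← lintegral_const_mul]
      · refine lintegral_congr fun d => ?_
        by_cases hd : σ * d ≤ 1 / 2
        · rw [indicator_of_mem (show (x, d) ∈ Ot E K v σ t from ⟨hx, hd⟩),
            indicator_of_mem (show d ∈ {d : ℝ | σ * d ≤ 1 / 2} from hd)]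
          simp only [Pi.one_apply, mul_one]
          ring
        · rw [indicator_of_notMem (fun h => hd h.2),
            indicator_of_notMem (show d ∉ {d : ℝ | σ * d ≤ 1 / 2} from hd)]
          simp
      · exact ((measurable_Qd κ E v).comp (measurable_prodMk_left (x := x))).mul
          (measurable_one.indicator hD)
    rw [e1, ← Q_eq hκ hv (measurable_one.indicator hD)]
    have e2 : (1 / 2 : ℝ≥0∞) ≤ ∫⁻ g, ({d : ℝ | σ * d ≤ 1 / 2}).indicator 1 (disp κ E v x g)
        ∂(gaussianReal 0 1) := by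
      refine (gauss_half σ).trans ?_
      have hm : MeasurableSet {g : ℝ | σ * g ≤ 0} := (by fun_prop : Measurable fun g : ℝ => σ * g)
        measurableSet_Iic
      rw [← lintegral_indicator_one hm]
      refine lintegral_mono fun g => ?_
      by_cases hg : σ * g ≤ 0
      · have h0 : σ * disp κ E v x g ≤ 1 / 2 := by
          unfold disp
          have h3 := hx.2.2
          have hτ0 : 0 ≤ tau κ E v := by unfold tau; positivity
          have : σ * (-(κ * ⟪E.starProjection v, x⟫) + tau κ E v * g) =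
            -(κ * (σ * ⟪E.starProjection v, x⟫)) + tau κ E v * (σ * g) := by ring
          rw [this]
          nlinarith [mul_nonneg hτ0 (neg_nonneg.2 hg)]
        rw [indicator_of_mem (show g ∈ {g : ℝ | σ * g ≤ 0} from hg),
          indicator_of_mem (show disp κ E v x g ∈ {d : ℝ | σ * d ≤ 1 / 2} from h0)]
        exact le_refl (1 : ℝ≥0∞)
      · rw [indicator_of_notMem (show g ∉ {g : ℝ | σ * g ≤ 0} from hg)]
        exact zero_le
    calc dE E x * W x = 2 * (W x * (dE E x * (1 / 2))) := by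
          rw [show 2 * (W x * (dE E x * (1 / 2))) = (2 * (1 / 2)) * (dE E x * W x) by ring]
          rw [ENNReal.mul_div_cancel (by norm_num) (by norm_num), one_mul]
      _ ≤ _ := by gcongr
  · rw [indicator_of_notMem hx]
    exact zero_le

/-- pieces of the chords, seen from the `-σ` end -/
def Pj (E : Submodule ℝ V) (K : Set V) (v : V) (σ t : ℝ) (j : ℕ) : Set V :=
  {y | y ∈ Kg K v t \ Kg K v (t + 2) ∧ y + (-(σ * (j / 2))) • v ∈ K ∧
    y + (-(σ * ((j + 1) / 2))) • v ∉ K ∧ 0 ≤ σ * ⟪E.starProjection v, y⟫}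

lemma measurableSet_Pj (E : Submodule ℝ V) {K : Set V} (hK : IsClosed K) (v : V) (σ t : ℝ) (j : ℕ) :
    MeasurableSet (Pj E K v σ t j) := by
  have m1 : Measurable fun z : V => z + (-(σ * (j / 2))) • v := by fun_prop
  have m2 : Measurable fun z : V => z + (-(σ * ((j + 1) / 2))) • v := by fun_prop
  have m3 : Measurable fun z : V => σ * ⟪E.starProjection v, z⟫ := by fun_prop
  exact ((isClosed_Kg hK t).measurableSet.diff (isClosed_Kg hK _).measurableSet).inter
    ((m1 hK.measurableSet).inter ((m2 hK.measurableSet.compl).inter (m3 measurableSet_Ici)))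

/-- the pieces cover -/
lemma cover_Pj {E : Submodule ℝ V} {K : Set V} (cK : Convex ℝ K) {v : V} {σ : ℝ}
    (hσ : σ ^ 2 = 1) (k : ℕ) {y : V} (hy : y ∈ Kg K v (2 * k) \ Kg K v (2 * k + 2))
    (hp : 0 ≤ σ * ⟪E.starProjection v, y⟫) :
    ∃ j : ℕ, j < 4 * (k + 1) ∧ y ∈ Pj E K v σ (2 * k) j := by
  classical
  have hyK : y ∈ K := Kg_sub cK (by positivity) hy.1
  have hs : σ = 1 ∨ σ = -1 := by
    have : (σ - 1) * (σ + 1) = 0 := by linear_combination hσ
    rcases mul_eq_zero.1 this with h | h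
    · left; linarith
    · right; linarith
  have hex : ∃ j : ℕ, y + (-(σ * ((j + 1) / 2))) • v ∉ K := by
    refine ⟨4 * k + 3, fun h => hy.2 ?_⟩
    have h0 : y + (0 : ℝ) • v ∈ K := by simpa using hyK
    push_cast at h
    rcases hs with h1 | h1
    · subst h1
      exact mem_Kg_of cK (by positivity) h h0 (by linarith [Nat.cast_nonneg (α := ℝ) k]) le_rfl
        (by linarith)
    · subst h1
      exact mem_Kg_of cK (by positivity) h0 h le_rfl (by linarith [Nat.cast_nonneg (α := ℝ) k])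
        (by linarith)
  refine ⟨Nat.find hex, ?_, hy, ?_, Nat.find_spec hex, hp⟩
  · by_contra hge
    push Not at hge
    have hmin := Nat.find_min hex (m := 4 * k + 3) (by omega)
    rw [not_not] at hmin
    have h0 : y + (0 : ℝ) • v ∈ K := by simpa using hyK
    push_cast at hmin
    apply hy.2
    rcases hs with h1 | h1
    · subst h1
      exact mem_Kg_of cK (by positivity) hmin h0 (by linarith [Nat.cast_nonneg (α := ℝ) k]) le_rfl
        (by linarith)
    · subst h1
      exact mem_Kg_of cK (by positivity) h0 hmin le_rfl (by linarith [Nat.cast_nonneg (α := ℝ) k])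
        (by linarith)
  · rcases Nat.eq_zero_or_pos (Nat.find hex) with h0 | h0
    · rw [h0]; simpa using hyK
    · have hmin := Nat.find_min hex (m := Nat.find hex - 1) (by omega)
      rw [not_not] at hmin
      have : ((Nat.find hex - 1 : ℕ) : ℝ) + 1 = (Nat.find hex : ℝ) := by
        rw [Nat.cast_sub h0]; simp
      rw [this] at hmin
      exact hmin

/-- translation to the landing strip -/
lemma Pj_J {E : Submodule ℝ V} {K : Set V} (cK : Convex ℝ K) {v : V} {σ t : ℝ}
    (hσ : σ ^ 2 = 1) (ht : 0 ≤ t) {j : ℕ}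
    (hax : ‖E.starProjection v‖ ^ 2 * (((j : ℝ) + 2) / 2) ^ 2 ≤ 1) {y : V} (hy : y ∈ Pj E K v σ t j) :
    y - (σ * ((j + 2) / 2)) • v ∈ Jt E K v σ t := by
  obtain ⟨h1, h2, h3, h4⟩ := hy
  refine ⟨⟨?_, ?_⟩, ?_, ?_⟩
  · have e : y - (σ * ((j + 2) / 2)) • v + σ • v = y + (-(σ * (j / 2))) • v := by module
    rw [e]
    exact Kg_line cK ht h1.1 h2
  · intro h5
    apply h1.2
    have e : y = (y - (σ * ((j + 2) / 2)) • v + σ • v) + (σ * (j / 2)) • v := by module
    rw [e]
    refine Kg_line cK (by linarith) h5 ?_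
    rw [← e]
    exact Kg_sub cK ht h1.1
  · have e : y - (σ * ((j + 2) / 2)) • v + (σ / 2) • v = y + (-(σ * ((j + 1) / 2))) • v := by
      module
    rwa [e]
  · have e : y - (σ * ((j + 2) / 2)) • v = y + (-(σ * (((j : ℝ) + 2) / 2))) • v := by module
    rw [e, inner_add_smul]
    set a := ‖E.starProjection v‖ ^ 2
    have ha0 : 0 ≤ a := by positivity
    have e2 : σ * (⟪E.starProjection v, y⟫ + -(σ * (((j : ℝ) + 2) / 2)) * a) =
        σ * ⟪E.starProjection v, y⟫ - a * (((j : ℝ) + 2) / 2) := by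
      linear_combination (-(((j : ℝ) + 2) / 2) * a) * hσ
    rw [e2]
    have hj : 1 ≤ ((j : ℝ) + 2) / 2 := by
      have := Nat.cast_nonneg (α := ℝ) j
      linarith
    nlinarith [mul_nonneg ha0 (mul_nonneg (by linarith : (0:ℝ) ≤ ((j : ℝ) + 2) / 2)
      (sub_nonneg.2 hj))]

lemma mass_Pj {κ ρ : ℝ} (hκ : 0 < κ) (hκ1 : κ ≤ 1 / 2) (hρ : 0 ≤ ρ) {E : Submodule ℝ V} {v : V}
    {W : V → ℝ≥0∞} (hWm : Measurable W) (hW : LogLip ρ v W) {K : Set V} (hK : IsClosed K)
    (cK : Convex ℝ K) {σ t : ℝ} (hσ : σ ^ 2 = 1) (ht : 0 ≤ t) {j : ℕ}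
    (hρx : ρ * (((j : ℝ) + 2) / 2) ≤ 1)
    (hax : ‖E.starProjection v‖ ^ 2 * (((j : ℝ) + 2) / 2) ^ 2 ≤ 1) :
    mass E (A κ E v W) (Pj E K v σ t j) ≤ ENNReal.ofReal Cg * mass E W (Jt E K v σ t) := by
  have hP := measurableSet_Pj E hK v σ t j
  have hJ := measurableSet_Jt E hK v σ t
  have hj : 1 ≤ ((j : ℝ) + 2) / 2 := by
    have := Nat.cast_nonneg (α := ℝ) j
    linarith
  rw [mass_vol (measurable_A hWm) hP, mass_vol hWm hJ]
  obtain ⟨F, hF⟩ : ∃ F : V → ℝ≥0∞, F = fun x => dE E x * W x := ⟨_, rfl⟩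
  have mF : Measurable F := by rw [hF]; exact (measurable_dE E).mul hWm
  have mp := measurePreserving_sub_right (volume : Measure V) ((σ * (((j : ℝ) + 2) / 2)) • v)
  have h1 : ∫⁻ x in Pj E K v σ t j, dE E x * A κ E v W x ≤
      ∫⁻ x in Pj E K v σ t j, ENNReal.ofReal Cg * F (x - (σ * (((j : ℝ) + 2) / 2)) • v) := by
    refine setLIntegral_mono' hP fun y hy => ?_
    rw [hF]
    exact pt_gain hκ hκ1 hρ hWm hW hσ hj hρx hax y hy.2.2.2
  refine h1.trans ?_
  have mF2 : Measurable fun x => F (x - (σ * (((j : ℝ) + 2) / 2)) • v) := mF.comp (by fun_prop)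
  rw [lintegral_const_mul _ mF2]
  refine mul_le_mul' le_rfl ?_
  have h2 := mp.setLIntegral_comp_preimage hJ mF
  have h3 : ∫⁻ x in Jt E K v σ t, F x = ∫⁻ x in Jt E K v σ t, dE E x * W x := by rw [hF]
  rw [← h3, ← h2]
  exact lintegral_mono_set fun y hy => Pj_J cK hσ ht hax hy

/-- **outflow of the lines with chords in `[2k, 2k+2)`** -/
theorem gain_k {κ ρ : ℝ} (hκ : 0 < κ) (hκ1 : κ ≤ 1 / 2) (hρ : 0 ≤ ρ) {E : Submodule ℝ V} {v : V}
    (hv : κ * ‖E.starProjection v‖ ^ 2 ≤ 1)
    {W : V → ℝ≥0∞} (hWm : Measurable W) (hW : LogLip ρ v W) {K : Set V} (hK : IsClosed K)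
    (cK : Convex ℝ K) (k : ℕ) (hρx : ρ * (2 * k + 3) ≤ 1)
    (hax : ‖E.starProjection v‖ ^ 2 * (2 * k + 3) ^ 2 ≤ 1) :
    mass E (A κ E v W) (Kg K v (2 * k) \ Kg K v (2 * k + 2)) ≤
      ENNReal.ofReal (8 * Cg) * ((k + 1 : ℕ) : ℝ≥0∞) *
        (flux κ E v W (Ot E K v 1 (2 * k)) + flux κ E v W (Ot E K v (-1) (2 * k))) := by
  have side : ∀ σ : ℝ, σ ^ 2 = 1 →
      mass E (A κ E v W) (⋃ j ∈ Finset.range (4 * (k + 1)), Pj E K v σ (2 * k) j) ≤
        ENNReal.ofReal (8 * Cg) * ((k + 1 : ℕ) : ℝ≥0∞) * flux κ E v W (Ot E K v σ (2 * k)) := by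
    intro σ hσ
    have h1 : mass E (A κ E v W) (⋃ j ∈ Finset.range (4 * (k + 1)), Pj E K v σ (2 * k) j) ≤
        ∑ j ∈ Finset.range (4 * (k + 1)), mass E (A κ E v W) (Pj E K v σ (2 * k) j) := by
      have h2 : ∀ s : Finset ℕ, mass E (A κ E v W) (⋃ j ∈ s, Pj E K v σ (2 * k) j) ≤
          ∑ j ∈ s, mass E (A κ E v W) (Pj E K v σ (2 * k) j) := by
        classical
        intro s
        induction s using Finset.induction_on with
        | empty => simp [mass]
        | insert a s ha ih =>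
          rw [Finset.set_biUnion_insert, Finset.sum_insert ha]
          exact (mass_union_le _ _ _).trans (by gcongr)
      exact h2 _
    refine h1.trans ?_
    have h3 : ∀ j ∈ Finset.range (4 * (k + 1)), mass E (A κ E v W) (Pj E K v σ (2 * k) j) ≤
        ENNReal.ofReal Cg * (2 * flux κ E v W (Ot E K v σ (2 * k))) := by
      intro j hj
      rw [Finset.mem_range] at hj
      have hj' : (j : ℝ) + 1 ≤ 4 * (k + 1) := by exact_mod_cast hj
      have hx : ((j : ℝ) + 2) / 2 ≤ 2 * k + 3 := by linarith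
      have hx0 : (0 : ℝ) ≤ ((j : ℝ) + 2) / 2 := by positivity
      refine (mass_Pj hκ hκ1 hρ hWm hW hK cK hσ (by positivity) ?_ ?_).trans ?_
      · calc ρ * (((j : ℝ) + 2) / 2) ≤ ρ * (2 * k + 3) := by gcongr
          _ ≤ 1 := hρx
      · calc ‖E.starProjection v‖ ^ 2 * (((j : ℝ) + 2) / 2) ^ 2 ≤
            ‖E.starProjection v‖ ^ 2 * (2 * k + 3) ^ 2 := by gcongr
          _ ≤ 1 := hax
      · gcongr
        exact mass_J_le hκ hκ1 hv hWm hK hσ
    refine (Finset.sum_le_sum h3).trans ?_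
    rw [Finset.sum_const, Finset.card_range, nsmul_eq_mul]
    rw [ENNReal.ofReal_mul (by norm_num)]
    push_cast
    have : ENNReal.ofReal 8 = 8 := by norm_num
    rw [this]
    apply le_of_eq
    ring
  have hsub : Kg K v (2 * k) \ Kg K v (2 * k + 2) ⊆
      (⋃ j ∈ Finset.range (4 * (k + 1)), Pj E K v 1 (2 * k) j) ∪
        (⋃ j ∈ Finset.range (4 * (k + 1)), Pj E K v (-1) (2 * k) j) := by
    intro y hy
    rcases le_total 0 ⟪E.starProjection v, y⟫ with h | h
    · left
      obtain ⟨j, hj, hjj⟩ := cover_Pj cK (σ := 1) (by norm_num) k hy (by linarith)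
      exact mem_biUnion (Finset.mem_coe.2 (Finset.mem_range.2 hj)) hjj
    · right
      obtain ⟨j, hj, hjj⟩ := cover_Pj cK (σ := -1) (by norm_num) k hy (by linarith)
      exact mem_biUnion (Finset.mem_coe.2 (Finset.mem_range.2 hj)) hjj
  calc _ ≤ _ := mass_mono hsub
    _ ≤ _ := mass_union_le _ _ _
    _ ≤ _ := add_le_add (side 1 (by norm_num)) (side (-1) (by norm_num))
    _ = _ := by rw [mul_add]

end SL161

end Crest.Agent.R239
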