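import Crest.Agent.R239.SL161c

/-!
# R239, block (S1) = (SL_W), part d: short chords (Prekopa for sets), most of `K` has long chords
(helper161)
-/

set_option autoImplicit false
set_option linter.unusedSectionVars false
open MeasureTheory ProbabilityTheory Set
open scoped RealInnerProductSpace ENNReal NNReal

namespace Crest.Agent.R239

namespace SL161

open Chain Crest.Agent.Lib.PrekopaLeindler

variable {V : Type*} [NormedAddCommGroup V] [InnerProductSpace ℝ V] [FiniteDimensional ℝ V]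
  [MeasurableSpace V] [BorelSpace V]

lemma comb_Kg {K : Set V} (cK : Convex ℝ K) {v : V} {s t a b : ℝ} (ha : 0 ≤ a) (hb : 0 ≤ b)
    (hab : a + b = 1) {x y : V} (hx : x ∈ Kg K v s) (hy : y ∈ Kg K v t) :
    a • x + b • y ∈ Kg K v (a * s + b * t) := by
  obtain ⟨p, hp, h1, h2⟩ := mem_Kg.1 hx
  obtain ⟨q, hq, h3, h4⟩ := mem_Kg.1 hy
  refine mem_Kg.2 ⟨a * p + b * q, ?_, ?_, ?_⟩
  · calc |a * p + b * q| ≤ |a * p| + |b * q| := abs_add_le _ _
      _ = a * |p| + b * |q| := by rw [abs_mul, abs_mul, abs_of_nonneg ha, abs_of_nonneg hb]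
      _ ≤ a * (s / 2) + b * (t / 2) := by gcongr
      _ = (a * s + b * t) / 2 := by ring
  · have := cK h1 h3 ha hb hab
    have e : a • x + b • y + (a * p + b * q - (a * s + b * t) / 2) • v =
        a • (x + (p - s / 2) • v) + b • (y + (q - t / 2) • v) := by module
    rwa [e]
  · have := cK h2 h4 ha hb hab
    have e : a • x + b • y + (a * p + b * q + (a * s + b * t) / 2) • v =
        a • (x + (p + s / 2) • v) + b • (y + (q + t / 2) • v) := by module
    rwa [e]

/-- **log-concavity of the mass of the long chords** -/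
theorem mass_Kg_pl {E : Submodule ℝ V} {W : V → ℝ≥0∞} (hWm : Measurable W) (hW : LC W)
    {K : Set V} (hK : IsClosed K) (cK : Convex ℝ K) (v : V) (s t θ : ℝ) (h0 : 0 < θ) (h1 : θ < 1) :
    mass E W (Kg K v s) ^ (1 - θ) * mass E W (Kg K v t) ^ θ ≤
      mass E W (Kg K v ((1 - θ) * s + θ * t)) := by
  have hF : LC fun x => dE E x * W x := LC.mul (LC_dE E) hW
  have mF : Measurable fun x => dE E x * W x := (measurable_dE E).mul hWm
  rw [mass_vol hWm (isClosed_Kg hK s).measurableSet, mass_vol hWm (isClosed_Kg hK t).measurableSet,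
    mass_vol hWm (isClosed_Kg hK _).measurableSet,
    ← lintegral_indicator (isClosed_Kg hK s).measurableSet,
    ← lintegral_indicator (isClosed_Kg hK t).measurableSet,
    ← lintegral_indicator (isClosed_Kg hK _).measurableSet]
  refine PL_fd (V := V) θ h0 h1 _ _ _ (mF.indicator (isClosed_Kg hK s).measurableSet)
    (mF.indicator (isClosed_Kg hK t).measurableSet)
    (mF.indicator (isClosed_Kg hK _).measurableSet) ?_
  intro x y
  by_cases hx : x ∈ Kg K v s
  · by_cases hy : y ∈ Kg K v t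
    · rw [indicator_of_mem hx, indicator_of_mem hy, indicator_of_mem
        (comb_Kg cK (by linarith) h0.le (by ring) hx hy)]
      exact hF x y (1 - θ) θ (by linarith) h0.le (by ring)
    · rw [indicator_of_notMem hy, ENNReal.zero_rpow_of_pos h0, mul_zero]
      exact zero_le
  · rw [indicator_of_notMem hx, ENNReal.zero_rpow_of_pos (by linarith), zero_mul]
    exact zero_le

/-- four point form -/
theorem mass_four {E : Submodule ℝ V} {W : V → ℝ≥0∞} (hWm : Measurable W) (hW : LC W)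
    {K : Set V} (hK : IsClosed K) (cK : Convex ℝ K) (v : V) (k : ℕ) (hk : 1 ≤ k) :
    mass E W (Kg K v 0) * mass E W (Kg K v (2 * k + 2)) ≤
      mass E W (Kg K v 2) * mass E W (Kg K v (2 * k)) := by
  have hk' : (1 : ℝ) ≤ k := by exact_mod_cast hk
  set θ : ℝ := 1 / (k + 1) with hθ
  have hθ0 : 0 < θ := by positivity
  have hθ1 : θ < 1 := by rw [hθ, div_lt_one (by positivity)]; linarith
  have hk1 : (k : ℝ) + 1 ≠ 0 := by positivity
  have e1 := mass_Kg_pl (E := E) hWm hW hK cK v 0 (2 * k + 2) θ hθ0 hθ1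
  have e2 := mass_Kg_pl (E := E) hWm hW hK cK v 0 (2 * k + 2) (1 - θ) (by linarith) (by linarith)
  have t1 : (1 - θ) * 0 + θ * (2 * (k : ℝ) + 2) = 2 := by
    rw [hθ]; field_simp; ring
  have t2 : (1 - (1 - θ)) * 0 + (1 - θ) * (2 * (k : ℝ) + 2) = 2 * k := by
    rw [hθ]; field_simp; ring
  rw [t1] at e1
  rw [t2] at e2
  have e3 := mul_le_mul' e1 e2
  refine le_trans (le_of_eq ?_) e3
  set X := mass E W (Kg K v 0)
  set Y := mass E W (Kg K v (2 * k + 2))
  have hX : X ^ (1 - θ) * X ^ (1 - (1 - θ)) = X := by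
    rw [← ENNReal.rpow_add_of_nonneg _ _ (by linarith) (by linarith),
      show 1 - θ + (1 - (1 - θ)) = 1 by ring, ENNReal.rpow_one]
  have hY : Y ^ θ * Y ^ (1 - θ) = Y := by
    rw [← ENNReal.rpow_add_of_nonneg _ _ (by linarith) (by linarith),
      show θ + (1 - θ) = 1 by ring, ENNReal.rpow_one]
  calc X * Y = (X ^ (1 - θ) * X ^ (1 - (1 - θ))) * (Y ^ θ * Y ^ (1 - θ)) := by rw [hX, hY]
    _ = _ := by ring

lemma mass_diff {E : Submodule ℝ V} {W : V → ℝ≥0∞} {S S' : Set V}
    (hS' : MeasurableSet S') (h : S' ⊆ S) :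
    mass E W S' + mass E W (S \ S') = mass E W S := by
  unfold mass
  have := lintegral_inter_add_sdiff (μ := mE E) W S hS'
  rw [← this, inter_eq_right.2 h]

/-- **short chords are rare** -/
theorem short_le {E : Submodule ℝ V} {W : V → ℝ≥0∞} (hWm : Measurable W) (hW : LC W)
    (hfin : mass E W univ ≠ ∞)
    {K : Set V} (hK : IsClosed K) (cK : Convex ℝ K) (v : V) (k : ℕ) (hk : 1 ≤ k)
    (hhalf : mass E W K ≤ 2 * mass E W (Kg K v (2 * k))) :
    mass E W (K \ Kg K v 2) ≤ 2 * mass E W (Kg K v (2 * k) \ Kg K v (2 * k + 2)) := by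
  have hk' : (1 : ℝ) ≤ k := by exact_mod_cast hk
  have fin : ∀ S, mass E W S ≠ ∞ := fun S => ne_top_of_le_ne_top hfin (mass_le_univ _ _)
  have h4 := mass_four (E := E) hWm hW hK cK v k hk
  rw [Kg_zero] at h4
  have d1 := mass_diff (E := E) (W := W) (isClosed_Kg hK 2).measurableSet
    (Kg_sub cK (v := v) (by norm_num : (0:ℝ) ≤ 2))
  have d2 := mass_diff (E := E) (W := W) (isClosed_Kg hK (2 * (k:ℝ) + 2)).measurableSet
    (Kg_anti cK (v := v) (by positivity : (0:ℝ) ≤ 2 * k) (by linarith : 2 * (k:ℝ) ≤ 2 * k + 2))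
  rw [← ENNReal.toReal_le_toReal (fin _) (ENNReal.mul_ne_top (by norm_num) (fin _)),
    ENNReal.toReal_mul]
  rw [← ENNReal.toReal_le_toReal (ENNReal.mul_ne_top (fin _) (fin _))
    (ENNReal.mul_ne_top (fin _) (fin _)), ENNReal.toReal_mul, ENNReal.toReal_mul] at h4
  rw [← ENNReal.toReal_le_toReal (fin _) (ENNReal.mul_ne_top (by norm_num) (fin _)),
    ENNReal.toReal_mul] at hhalf
  have d1' := congrArg ENNReal.toReal d1
  have d2' := congrArg ENNReal.toReal d2
  rw [ENNReal.toReal_add (fin _) (fin _)] at d1' d2'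
  simp only [ENNReal.toReal_ofNat] at hhalf ⊢
  set n0 := (mass E W K).toReal
  set n2 := (mass E W (Kg K v 2)).toReal
  set nk := (mass E W (Kg K v (2 * k))).toReal
  set nk' := (mass E W (Kg K v (2 * k + 2))).toReal
  set D1 := (mass E W (K \ Kg K v 2)).toReal
  set D2 := (mass E W (Kg K v (2 * k) \ Kg K v (2 * k + 2))).toReal
  have hn0 : 0 ≤ n0 := ENNReal.toReal_nonneg
  have hD1 : 0 ≤ D1 := ENNReal.toReal_nonneg
  have hD2 : 0 ≤ D2 := ENNReal.toReal_nonneg
  have hn2 : 0 ≤ n2 := ENNReal.toReal_nonneg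
  rcases hn0.eq_or_lt with h | h
  · linarith
  · -- n0 * D2 ≥ nk * D1 ≥ n0/2 * D1
    have h5 : nk * D1 ≤ n0 * D2 := by nlinarith
    have h6 : n0 / 2 * D1 ≤ nk * D1 := by nlinarith
    have h7 : n0 * D1 ≤ n0 * (2 * D2) := by nlinarith
    exact le_of_mul_le_mul_left h7 h

lemma LogLip_A_self {κ ρ : ℝ} (hκ : 0 ≤ κ) (hρ : 0 ≤ ρ) {E : Submodule ℝ V} {v : V}
    (hv : κ * ‖E.starProjection v‖ ^ 2 ≤ 1) {W : V → ℝ≥0∞} (hW : LogLip ρ v W) :
    LogLip ρ v (A κ E v W) := by
  apply LogLip.A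
  intro x s
  have e : x + s • bk κ E v v = x + (s * (1 - κ * ‖E.starProjection v‖ ^ 2)) • v := by
    unfold bk
    rw [inner_proj_self]
    module
  rw [e]
  refine (hW x _).trans ?_
  refine mul_le_mul' (ENNReal.ofReal_le_ofReal (Real.exp_le_exp.2
    (mul_le_mul_of_nonneg_left ?_ hρ))) le_rfl
  rw [abs_mul]
  have h1 : |1 - κ * ‖E.starProjection v‖ ^ 2| ≤ 1 := by
    rw [abs_le]; constructor <;> nlinarith [mul_nonneg hκ (sq_nonneg ‖E.starProjection v‖)]
  nlinarith [abs_nonneg s, abs_nonneg (1 - κ * ‖E.starProjection v‖ ^ 2)]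

/-- translation towards `{p = 0}` does not lose density -/
lemma pt_shift {ρ : ℝ} {E : Submodule ℝ V} {v : V}
    {W : V → ℝ≥0∞} (hW : LogLip ρ v W) {σ : ℝ} (hσ : σ ^ 2 = 1) {x : ℝ}
    (hx : 0 ≤ x) (hρx : ρ * x ≤ 1) (hax : ‖E.starProjection v‖ ^ 2 * x ^ 2 ≤ 1) (y : V)
    (hy : 0 ≤ σ * ⟪E.starProjection v, y⟫) :
    dE E y * W y ≤ ENNReal.ofReal (Real.exp (3 / 2)) *
      (dE E (y - (σ * x) • v) * W (y - (σ * x) • v)) := by
  have hσ1 : |σ| = 1 := by
    rw [← sq_abs] at hσ
    nlinarith [abs_nonneg σ]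
  set z := y - (σ * x) • v with hz
  set P := ⟪E.starProjection v, y⟫ with hP
  set a := ‖E.starProjection v‖ ^ 2 with ha
  have hPabs : |P| = σ * P := by
    have : |P| = |σ * P| := by rw [abs_mul, hσ1, one_mul]
    rw [this, abs_of_nonneg hy]
  have hdE : dE E y = ENNReal.ofReal (Real.exp (-(x * |P|) + x ^ 2 * a / 2)) * dE E z := by
    unfold dE
    rw [← ENNReal.ofReal_mul (by positivity), ← Real.exp_add]
    congr 2
    have e : z = y + (-(σ * x)) • v := by rw [hz]; module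
    rw [e, norm_proj_add, ← hP, ← ha, hPabs]
    linear_combination (x ^ 2 * a / 2) * hσ
  have hWy : W y ≤ ENNReal.ofReal (Real.exp (ρ * x)) * W z := by
    have h := hW z (σ * x)
    have e : z + (σ * x) • v = y := by rw [hz]; module
    rw [e, abs_mul, hσ1, one_mul, abs_of_nonneg hx] at h
    exact h
  calc dE E y * W y ≤ (ENNReal.ofReal (Real.exp (-(x * |P|) + x ^ 2 * a / 2)) * dE E z) *
        (ENNReal.ofReal (Real.exp (ρ * x)) * W z) := by
        rw [← hdE]; gcongr
    _ = (ENNReal.ofReal (Real.exp (-(x * |P|) + x ^ 2 * a / 2)) *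
          ENNReal.ofReal (Real.exp (ρ * x))) * (dE E z * W z) := by ring
    _ ≤ _ := by
        rw [← ENNReal.ofReal_mul (by positivity), ← Real.exp_add]
        gcongr
        nlinarith [mul_nonneg hx (abs_nonneg P)]

/-- points of `K` on short lines -/
def Rt (E : Submodule ℝ V) (K : Set V) (v : V) (σ t : ℝ) : Set V :=
  {y | y ∈ K \ Kg K v t ∧ 0 ≤ σ * ⟪E.starProjection v, y⟫}

lemma measurableSet_Rt (E : Submodule ℝ V) {K : Set V} (hK : IsClosed K) (v : V) (σ t : ℝ) :
    MeasurableSet (Rt E K v σ t) := by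
  have m3 : Measurable fun z : V => σ * ⟪E.starProjection v, z⟫ := by fun_prop
  exact (hK.measurableSet.diff (isClosed_Kg hK _).measurableSet).inter (m3 measurableSet_Ici)

/-- the short lines carry little mass -/
theorem mass_Rt {ρ : ℝ} (hρ : 0 ≤ ρ) {E : Submodule ℝ V} {v : V} {W : V → ℝ≥0∞}
    (hWm : Measurable W) (hW : LogLip ρ v W) {K : Set V} (hK : IsClosed K) (cK : Convex ℝ K)
    {σ t : ℝ} (hσ : σ ^ 2 = 1) (ht : 0 < t) (n : ℕ) (hρx : ρ * (n * t) ≤ 1)
    (hax : ‖E.starProjection v‖ ^ 2 * (n * t) ^ 2 ≤ 1) :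
    n * mass E W (Rt E K v σ t) ≤ ENNReal.ofReal (Real.exp (3 / 2)) * mass E W univ := by
  have hR := measurableSet_Rt E hK v σ t
  have hs : σ = 1 ∨ σ = -1 := by
    have : (σ - 1) * (σ + 1) = 0 := by linear_combination hσ
    rcases mul_eq_zero.1 this with h | h
    · left; linarith
    · right; linarith
  let D : ℕ → Set V := fun j => (fun z : V => z + (σ * (j * t)) • v) ⁻¹' (Rt E K v σ t)
  have mD : ∀ j, MeasurableSet (D j) := fun j => (by fun_prop :
    Measurable fun z : V => z + (σ * (j * t)) • v) hR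
  obtain ⟨F, hF⟩ : ∃ F : V → ℝ≥0∞, F = fun x => dE E x * W x := ⟨_, rfl⟩
  have mF : Measurable F := by rw [hF]; exact (measurable_dE E).mul hWm
  have hDj : ∀ j ∈ Finset.range n, mass E W (Rt E K v σ t) ≤
      ENNReal.ofReal (Real.exp (3 / 2)) * mass E W (D j) := by
    intro j hj
    have hj' : (j : ℝ) ≤ n := by exact_mod_cast (Finset.mem_range.1 hj).le
    have hx0 : (0 : ℝ) ≤ j * t := by positivity
    rw [mass_vol hWm hR, mass_vol hWm (mD j)]
    have h1 : ∫⁻ x in Rt E K v σ t, dE E x * W x ≤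
        ∫⁻ x in Rt E K v σ t, ENNReal.ofReal (Real.exp (3 / 2)) * F (x - (σ * (j * t)) • v) := by
      refine setLIntegral_mono' hR fun y hy => ?_
      rw [hF]
      refine pt_shift hW hσ hx0 ?_ ?_ y hy.2
      · calc ρ * (j * t) ≤ ρ * (n * t) := by gcongr
          _ ≤ 1 := hρx
      · calc ‖E.starProjection v‖ ^ 2 * (j * t) ^ 2 ≤ ‖E.starProjection v‖ ^ 2 * (n * t) ^ 2 := by
              gcongr
          _ ≤ 1 := hax
    refine h1.trans ?_
    have mF2 : Measurable fun x => F (x - (σ * (j * t)) • v) := mF.comp (by fun_prop)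
    rw [lintegral_const_mul _ mF2]
    refine mul_le_mul' le_rfl ?_
    have mp := measurePreserving_sub_right (volume : Measure V) ((σ * (j * t)) • v)
    have h2 := mp.setLIntegral_comp_preimage (mD j) mF
    have h3 : ∫⁻ x in D j, F x = ∫⁻ x in D j, dE E x * W x := by rw [hF]
    rw [← h3, ← h2]
    refine lintegral_mono_set fun y hy => ?_
    change y - (σ * (j * t)) • v + (σ * (j * t)) • v ∈ Rt E K v σ t
    rwa [sub_add_cancel]
  have disj : Set.PairwiseDisjoint (↑(Finset.range n)) D := by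
    have key : ∀ i j : ℕ, i < j → Disjoint (D i) (D j) := by
      intro i j hij
      rw [Set.disjoint_left]
      intro z hi hj
      apply hi.1.2
      have h1 : z + (σ * (j * t)) • v ∈ K := hj.1.1
      have h2 : z + (σ * (i * t)) • v ∈ K := hi.1.1
      have hij' : (i : ℝ) + 1 ≤ j := by exact_mod_cast hij
      have hg : t ≤ (j - i) * t := by nlinarith
      have e0 : (z + (σ * (i * t)) • v) + (0 : ℝ) • v ∈ K := by simpa using h2
      have e1 : (z + (σ * (i * t)) • v) + (σ * ((j - i) * t)) • v ∈ K := by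
        have : (z + (σ * (i * t)) • v) + (σ * (((j : ℝ) - i) * t)) • v = z + (σ * (j * t)) • v := by
          module
        rwa [this]
      rcases hs with h | h
      · subst h
        exact mem_Kg_of cK ht.le e0 e1 le_rfl (by linarith) (by linarith)
      · subst h
        exact mem_Kg_of cK ht.le e1 e0 (by linarith) le_rfl (by linarith)
    intro i _ j _ hij
    rcases lt_or_gt_of_ne hij with h | h
    · exact key i j h
    · exact (key j i h).symm
  have hsum : ∑ j ∈ Finset.range n, mass E W (D j) ≤ mass E W univ := by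
    unfold mass
    rw [← lintegral_biUnion_finset disj (fun j _ => mD j)]
    exact lintegral_mono_set (subset_univ _)
  calc (n : ℝ≥0∞) * mass E W (Rt E K v σ t) =
        ∑ j ∈ Finset.range n, mass E W (Rt E K v σ t) := by
        rw [Finset.sum_const, Finset.card_range, nsmul_eq_mul]
    _ ≤ ∑ j ∈ Finset.range n, ENNReal.ofReal (Real.exp (3 / 2)) * mass E W (D j) :=
        Finset.sum_le_sum hDj
    _ = ENNReal.ofReal (Real.exp (3 / 2)) * ∑ j ∈ Finset.range n, mass E W (D j) := by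
        rw [Finset.mul_sum]
    _ ≤ _ := by gcongr

/-- **most of `K` lies on long chords** -/
theorem half_le {ρ : ℝ} (hρ : 0 ≤ ρ) {E : Submodule ℝ V} {v : V} {W : V → ℝ≥0∞}
    (hWm : Measurable W) (hW : LogLip ρ v W) (hfin : mass E W univ ≠ ∞)
    {K : Set V} (hK : IsClosed K) (cK : Convex ℝ K)
    {t τ₀ : ℝ} (ht : 0 < t) (hτ : 0 < τ₀) (n : ℕ) (hn : 4 * Real.exp (3 / 2) ≤ τ₀ * n)
    (hρx : ρ * (n * t) ≤ 1)
    (hax : ‖E.starProjection v‖ ^ 2 * (n * t) ^ 2 ≤ 1)
    (hKτ : ENNReal.ofReal τ₀ * mass E W univ ≤ mass E W K) :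
    mass E W K ≤ 2 * mass E W (Kg K v t) := by
  have fin : ∀ S, mass E W S ≠ ∞ := fun S => ne_top_of_le_ne_top hfin (mass_le_univ _ _)
  have h1 := mass_Rt hρ hWm hW hK cK (σ := 1) (by norm_num) ht n hρx hax
  have h2 := mass_Rt hρ hWm hW hK cK (σ := -1) (by norm_num) ht n hρx hax
  have h3 : mass E W (K \ Kg K v t) ≤ mass E W (Rt E K v 1 t) + mass E W (Rt E K v (-1) t) := by
    refine (mass_mono ?_).trans (mass_union_le _ _ _)
    intro y hy
    rcases le_total 0 ⟪E.starProjection v, y⟫ with h | h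
    · exact Or.inl ⟨hy, by linarith⟩
    · exact Or.inr ⟨hy, by linarith⟩
  have d1 := mass_diff (E := E) (W := W) (isClosed_Kg hK t).measurableSet
    (Kg_sub cK (v := v) ht.le)
  -- to reals
  have e1 := (ENNReal.toReal_le_toReal (ENNReal.mul_ne_top (by simp) (fin _))
    (ENNReal.mul_ne_top ENNReal.ofReal_ne_top (fin _))).2 h1
  have e2 := (ENNReal.toReal_le_toReal (ENNReal.mul_ne_top (by simp) (fin _))
    (ENNReal.mul_ne_top ENNReal.ofReal_ne_top (fin _))).2 h2
  have e3 := (ENNReal.toReal_le_toReal (fin _) (ENNReal.add_ne_top.2 ⟨fin _, fin _⟩)).2 h3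
  have e4 := congrArg ENNReal.toReal d1
  have e5 := (ENNReal.toReal_le_toReal (ENNReal.mul_ne_top ENNReal.ofReal_ne_top (fin _))
    (fin _)).2 hKτ
  rw [← ENNReal.toReal_le_toReal (fin _) (ENNReal.mul_ne_top (by norm_num) (fin _)),
    ENNReal.toReal_mul]
  rw [ENNReal.toReal_mul, ENNReal.toReal_mul, ENNReal.toReal_natCast,
    ENNReal.toReal_ofReal (Real.exp_pos _).le] at e1 e2
  rw [ENNReal.toReal_add (fin _) (fin _)] at e3 e4
  rw [ENNReal.toReal_mul, ENNReal.toReal_ofReal hτ.le] at e5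
  simp only [ENNReal.toReal_ofNat]
  set M := (mass E W univ).toReal
  set mK := (mass E W K).toReal
  set mt := (mass E W (Kg K v t)).toReal
  set R1 := (mass E W (Rt E K v 1 t)).toReal
  set R2 := (mass E W (Rt E K v (-1) t)).toReal
  set D := (mass E W (K \ Kg K v t)).toReal
  have hM : 0 ≤ M := ENNReal.toReal_nonneg
  have hn0 : 0 < (n : ℝ) := by
    by_contra hneg
    push Not at hneg
    have : (n : ℝ) = 0 := le_antisymm hneg (Nat.cast_nonneg _)
    rw [this, mul_zero] at hn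
    linarith [Real.exp_pos (3 / 2 : ℝ)]
  -- n D ≤ 2 e M ≤ n τ₀ M / 2 ≤ n mK / 2
  have h6 : (n : ℝ) * D ≤ n * (mK / 2) := by
    have h7 : (n : ℝ) * D ≤ 2 * Real.exp (3 / 2) * M := by nlinarith
    have h8 : 2 * Real.exp (3 / 2) * M ≤ (τ₀ * n / 2) * M := by nlinarith
    nlinarith
  have h9 : D ≤ mK / 2 := le_of_mul_le_mul_left h6 hn0
  linarith

end SL161

end Crest.Agent.R239
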