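import Crest.Agent.R239.SL161d

/-!
# R239, block (S1) = (SL_W), part e: **the theorem** (helper161)

`SL161.sl_main` : for every `τ₀ > 0` there is an absolute `r₀ > 0` such that for all `V`, `E`,
`‖v‖ ≤ r₀`, `0 ≤ ρ ≤ r₀`, `0 < κ ≤ 1/40` : `SL κ ρ 1 τ₀ E v`.
-/

set_option autoImplicit false
set_option linter.unusedSectionVars false
open MeasureTheory ProbabilityTheory Set
open scoped RealInnerProductSpace ENNReal NNReal

namespace Crest.Agent.R239

namespace SL161

open Chain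

variable {V : Type*} [NormedAddCommGroup V] [InnerProductSpace ℝ V] [FiniteDimensional ℝ V]
  [MeasurableSpace V] [BorelSpace V]

lemma eta_le {κ ρ a : ℝ} (hκ : 0 < κ) (hκ1 : κ ≤ 1 / 40) (hρ : ρ ≤ 1) (ha : a ≤ 1) :
    4 * eta κ ρ a ≤ 1 / 8 := by
  unfold eta
  have h1 : 10 ≤ 1 / (4 * κ) := by
    rw [le_div_iff₀ (by positivity)]; linarith
  have h2 : Real.exp (ρ + a / 4 - 1 / (4 * κ)) ≤ Real.exp (-(8.75 : ℝ)) := by
    rw [Real.exp_le_exp]; linarith
  have h3 := Real.quadratic_le_exp_of_nonneg (x := 8.75) (by norm_num)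
  have h4 : Real.exp (-(8.75 : ℝ)) ≤ 1 / 32 := by
    rw [Real.exp_neg, inv_eq_one_div]
    apply one_div_le_one_div_of_le (by norm_num)
    norm_num at h3 ⊢
    linarith
  linarith

lemma Ot_disjoint {E : Submodule ℝ V} {K : Set V} (cK : Convex ℝ K) {v : V} {σ : ℝ} {i j : ℕ}
    (hij : i < j) : Disjoint (Ot E K v σ (2 * ((i + 1 : ℕ) : ℝ)))
      (Ot E K v σ (2 * ((j + 1 : ℕ) : ℝ))) := by
  rw [Set.disjoint_left]
  intro p hi hj
  apply hi.1.1.2
  have hij' : (i : ℝ) + 1 ≤ j := by exact_mod_cast hij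
  refine Kg_anti cK (by positivity) ?_ hj.1.1.1
  push_cast
  linarith

lemma sum_flux {κ : ℝ} {E : Submodule ℝ V} {v : V} (W : V → ℝ≥0∞)
    {K : Set V} (hK : IsClosed K) (cK : Convex ℝ K) {σ : ℝ} (hσ : σ ^ 2 = 1) (N : ℕ) :
    ∑ i ∈ Finset.range N, flux κ E v W (Ot E K v σ (2 * ((i + 1 : ℕ) : ℝ))) ≤
      flux κ E v W (Sout K v) := by
  have disj : Set.PairwiseDisjoint (↑(Finset.range N))
      (fun i : ℕ => Ot E K v σ (2 * ((i + 1 : ℕ) : ℝ))) := by
    intro i _ j _ hij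
    rcases lt_or_gt_of_ne hij with h | h
    · exact Ot_disjoint cK h
    · exact (Ot_disjoint cK h).symm
  unfold flux
  rw [← lintegral_biUnion_finset disj (fun i _ => measurableSet_Ot E hK v σ _)]
  refine lintegral_mono_set (iUnion₂_subset fun i _ => Ot_sub cK hσ ?_)
  push_cast
  linarith [Nat.cast_nonneg (α := ℝ) i]

/-- choice of the number of scales -/
lemma exists_scales (B : ℝ) : ∃ N : ℕ, B ≤ ∑ i ∈ Finset.range N, (1 / ((i : ℝ) + 1)) := by
  have h := Real.tendsto_sum_range_one_div_nat_succ_atTop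
  obtain ⟨N, hN⟩ := (h.eventually (Filter.eventually_ge_atTop B)).exists
  exact ⟨N, hN⟩

set_option maxHeartbeats 2000000 in
/-- **(SL_W)** with explicit smallness conditions -/
theorem sl_aux {τ₀ : ℝ} (hτ : 0 < τ₀) (N n : ℕ)
    (hN : 256 * Cg ≤ ∑ i ∈ Finset.range N, (1 / ((i : ℝ) + 1)))
    (hn : 4 * Real.exp (3 / 2) ≤ τ₀ * n) {κ ρ : ℝ} (hκ : 0 < κ) (hκ1 : κ ≤ 1 / 40)
    (hρ : 0 ≤ ρ) (hρ1 : ρ * ((n + 1) * (2 * N + 3)) ≤ 1) {E : Submodule ℝ V} {v : V}
    (hv : ‖v‖ * ((n + 1) * (2 * N + 3)) ≤ 1) : SL κ ρ 1 τ₀ E v := by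
  intro W hadm K hK cK hval
  obtain ⟨⟨hLaw, hLip⟩, hLaw'⟩ := hadm
  have hWm := hLaw.1
  set W' := A κ E v W with hW'
  have hW'm : Measurable W' := measurable_A hWm
  have hM1 : (1 : ℝ) ≤ (n + 1) * (2 * N + 3) := by
    have h1 := Nat.cast_nonneg (α := ℝ) n
    have h2 := Nat.cast_nonneg (α := ℝ) N
    nlinarith
  set Mx : ℝ := (n + 1) * (2 * N + 3) with hMx
  set a := ‖E.starProjection v‖ ^ 2 with ha
  have ha0 : 0 ≤ a := by positivity
  have hav : ‖E.starProjection v‖ ≤ ‖v‖ := by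
    have h := E.starProjection.le_opNorm v
    have h2 := Submodule.starProjection_norm_le E
    nlinarith [norm_nonneg v]
  have haM : a * Mx ^ 2 ≤ 1 := by
    have h1 : ‖E.starProjection v‖ * Mx ≤ 1 := by
      nlinarith [norm_nonneg (E.starProjection v)]
    have h0 : 0 ≤ ‖E.starProjection v‖ * Mx := by positivity
    calc a * Mx ^ 2 = (‖E.starProjection v‖ * Mx) ^ 2 := by rw [ha]; ring
      _ ≤ 1 := by nlinarith
  have hρ1' : ρ ≤ 1 := by nlinarith
  have hMx2 : 1 ≤ Mx ^ 2 := by nlinarith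
  have ha1 : a ≤ 1 := by nlinarith [mul_nonneg ha0 (sub_nonneg.2 hMx2)]
  have hvκ : κ * ‖E.starProjection v‖ ^ 2 ≤ 1 := by nlinarith
  have hOK : OK κ E v := by unfold OK; linarith
  have hρκ : ρ ≤ 1 / (2 * κ) := by
    rw [le_div_iff₀ (by positivity)]; nlinarith
  have hfin : mass E W univ ≠ ∞ := by rw [mass_univ]; exact hLaw.2.2
  have huniv : mass E W' univ = mass E W univ := by
    rw [mass_univ, mass_univ]; exact lintegral_A hκ.le hOK hWm
  have hfin' : mass E W' univ ≠ ∞ := by rw [huniv]; exact hfin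
  have hLip' : LogLip ρ v W' := LogLip_A_self hκ.le hρ hvκ hLip
  -- the outflow
  have hstar := (isClosed_star hK v).measurableSet
  have eFS : cross κ E [v] W (star K v) Kᶜ = flux κ E v W (Sout K v) :=
    lintegral_flux hκ hvκ hWm hK.measurableSet.compl hstar
  set FS := flux κ E v W (Sout K v) with hFS
  have finFS : FS ≠ ∞ := by
    rw [← eFS]
    exact ne_top_of_le_ne_top hfin ((cross_le_mass _ _ _).trans (mass_le_univ _ _))
  -- short chords
  have hD0 : mass E W' (K \ Kg K v 2) ≤ ENNReal.ofReal (1 / 4) * FS := by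
    have finD : mass E W' (K \ Kg K v 2) ≠ ∞ := ne_top_of_le_ne_top hfin' (mass_le_univ _ _)
    have hO : ∀ σ : ℝ, σ ^ 2 = 1 → ∀ i : ℕ,
        flux κ E v W (Ot E K v σ (2 * ((i + 1 : ℕ) : ℝ))) ≠ ∞ := by
      intro σ hσ i
      refine ne_top_of_le_ne_top finFS (flux_mono (Ot_sub cK hσ ?_))
      push_cast
      linarith [Nat.cast_nonneg (α := ℝ) i]
    set f : ℕ → ℝ := fun i => (flux κ E v W (Ot E K v 1 (2 * ((i + 1 : ℕ) : ℝ)))).toReal +
      (flux κ E v W (Ot E K v (-1) (2 * ((i + 1 : ℕ) : ℝ)))).toReal with hf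
    have key : ∀ i ∈ Finset.range N, (mass E W' (K \ Kg K v 2)).toReal * (1 / ((i : ℝ) + 1)) ≤
        32 * Cg * f i := by
      intro i hi
      have hi' : (i : ℝ) + 1 ≤ N := by exact_mod_cast Finset.mem_range.1 hi
      have hi0 := Nat.cast_nonneg (α := ℝ) i
      have hn0 := Nat.cast_nonneg (α := ℝ) n
      have hk1 : (1 : ℕ) ≤ i + 1 := by omega
      have hc : ((i + 1 : ℕ) : ℝ) = (i : ℝ) + 1 := by push_cast; ring
      have b1 : 2 * ((i + 1 : ℕ) : ℝ) + 3 ≤ Mx := by
        rw [hMx, hc]; nlinarith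
      have b2 : (n : ℝ) * (2 * ((i + 1 : ℕ) : ℝ)) ≤ Mx := by
        rw [hMx, hc]; nlinarith
      have b0 : (0 : ℝ) ≤ n * (2 * ((i + 1 : ℕ) : ℝ)) := by positivity
      have hhalf := half_le hρ hW'm hLip' hfin' hK cK (t := 2 * ((i + 1 : ℕ) : ℝ))
        (by positivity) hτ n hn (by nlinarith)
        (by
          calc a * (n * (2 * ((i + 1 : ℕ) : ℝ))) ^ 2 ≤ a * Mx ^ 2 := by gcongr
            _ ≤ 1 := haM) (by rw [huniv]; exact hval)
      have h1 := short_le hW'm hLaw'.2.1 hfin' hK cK v (i + 1) hk1 hhalf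
      have h2 := gain_k hκ (by linarith) hρ hvκ hWm hLip hK cK (i + 1) (by nlinarith)
        (by
          calc a * (2 * ((i + 1 : ℕ) : ℝ) + 3) ^ 2 ≤ a * Mx ^ 2 := by gcongr
            _ ≤ 1 := haM)
      have h3 := h1.trans (mul_le_mul' (le_refl (2 : ℝ≥0∞)) h2)
      have h4 := (ENNReal.toReal_le_toReal finD (by
        refine ENNReal.mul_ne_top (by norm_num) (ENNReal.mul_ne_top (ENNReal.mul_ne_top
          ENNReal.ofReal_ne_top (by simp)) (ENNReal.add_ne_top.2 ⟨hO 1 (by norm_num) i,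
            hO (-1) (by norm_num) i⟩)))).2 h3
      rw [ENNReal.toReal_mul, ENNReal.toReal_mul, ENNReal.toReal_mul,
        ENNReal.toReal_add (hO 1 (by norm_num) i) (hO (-1) (by norm_num) i),
        ENNReal.toReal_ofReal (by have := Cg_pos; positivity), ENNReal.toReal_natCast] at h4
      simp only [ENNReal.toReal_ofNat] at h4
      have hfi : 0 ≤ f i := by rw [hf]; positivity
      have h5 : (mass E W' (K \ Kg K v 2)).toReal ≤ 16 * Cg * ((i : ℝ) + 2) * f i := by
        refine h4.trans (le_of_eq ?_)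
        rw [hf]; push_cast; ring
      have hCg := Cg_pos
      rw [mul_one_div, div_le_iff₀ (by positivity)]
      refine h5.trans ?_
      have h6 : (i : ℝ) + 2 ≤ 2 * (i + 1) := by linarith
      have h7 : 16 * Cg * ((i : ℝ) + 2) * f i ≤ 16 * Cg * (2 * (i + 1)) * f i := by gcongr
      refine h7.trans (le_of_eq ?_)
      ring
    have hsum := Finset.sum_le_sum key
    rw [← Finset.mul_sum, ← Finset.mul_sum] at hsum
    have hs1 := sum_flux (κ := κ) (E := E) (v := v) W hK cK (σ := 1) (by norm_num) N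
    have hs2 := sum_flux (κ := κ) (E := E) (v := v) W hK cK (σ := -1) (by norm_num) N
    have hs1' := (ENNReal.toReal_le_toReal (ne_top_of_le_ne_top finFS hs1) finFS).2 hs1
    have hs2' := (ENNReal.toReal_le_toReal (ne_top_of_le_ne_top finFS hs2) finFS).2 hs2
    rw [ENNReal.toReal_sum (fun i _ => hO 1 (by norm_num) i)] at hs1'
    rw [ENNReal.toReal_sum (fun i _ => hO (-1) (by norm_num) i)] at hs2'
    have hsf : ∑ i ∈ Finset.range N, f i ≤ 2 * FS.toReal := by
      rw [hf, Finset.sum_add_distrib]; linarith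
    have hCg := Cg_pos
    have hD0r : (mass E W' (K \ Kg K v 2)).toReal ≤ 1 / 4 * FS.toReal := by
      have h8 : (mass E W' (K \ Kg K v 2)).toReal * (256 * Cg) ≤ 32 * Cg * (2 * FS.toReal) := by
        calc _ ≤ (mass E W' (K \ Kg K v 2)).toReal *
              ∑ i ∈ Finset.range N, (1 / ((i : ℝ) + 1)) := by gcongr
          _ ≤ _ := hsum
          _ ≤ _ := by gcongr
      have h9 : (mass E W' (K \ Kg K v 2)).toReal * (256 * Cg) ≤
          (1 / 4 * FS.toReal) * (256 * Cg) := by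
        refine h8.trans (le_of_eq ?_)
        ring
      exact le_of_mul_le_mul_right h9 (by positivity)
    rw [← ENNReal.ofReal_toReal finD, ← ENNReal.ofReal_toReal finFS,
      ← ENNReal.ofReal_mul (by norm_num)]
    exact ENNReal.ofReal_le_ofReal hD0r
  -- incoming flux
  have hX : cross κ E [v] W (star K v)ᶜ K ≤ ENNReal.ofReal (1 / 2) * FS := by
    have e1 : cross κ E [v] W (star K v)ᶜ K =
        flux κ E v W {p | p.1 ∈ (star K v)ᶜ ∧ p.1 + p.2 • v ∈ K} :=
      lintegral_flux hκ hvκ hWm hK.measurableSet hstar.compl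
    have e2 : flux κ E v W {p | p.1 ∈ (univ : Set V) ∧ p.1 + p.2 • v ∈ K \ Kg K v 2} =
        mass E W' (K \ Kg K v 2) := by
      have h1 := lintegral_flux hκ hvκ hWm
        (hK.measurableSet.diff (isClosed_Kg hK (v := v) 2).measurableSet)
        (MeasurableSet.univ (α := V))
      have h2 := cross_univ_left hκ.le (u := [v]) (fun w hw => by
        rw [List.mem_singleton] at hw; rw [hw]; exact hOK) hWm
        (hK.measurableSet.diff (isClosed_Kg hK (v := v) 2).measurableSet)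
      rw [← h1, h2, evol_cons, evol_nil]
    have hsub : {p : V × ℝ | p.1 ∈ (star K v)ᶜ ∧ p.1 + p.2 • v ∈ K} ⊆
        {p | p.1 ∈ (star K v)ᶜ ∧ p.1 + p.2 • v ∈ Kg K v 2} ∪
        {p | p.1 ∈ (univ : Set V) ∧ p.1 + p.2 • v ∈ K \ Kg K v 2} := by
      rintro p ⟨h1, h2⟩
      by_cases h3 : p.1 + p.2 • v ∈ Kg K v 2
      · exact Or.inl ⟨h1, h3⟩
      · exact Or.inr ⟨mem_univ _, h2, h3⟩
    rw [e1]
    calc _ ≤ _ := flux_mono hsub
      _ ≤ _ := flux_union_le _ _
      _ ≤ ENNReal.ofReal (1 / 8) * FS + ENNReal.ofReal (1 / 4) * FS := by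
          refine add_le_add ((flux_in hκ hρ hρκ hvκ hWm hLip hK cK).trans ?_) ?_
          · exact mul_le_mul' (ENNReal.ofReal_le_ofReal (eta_le hκ hκ1 hρ1' ha1)) le_rfl
          · rw [e2]; exact hD0
      _ ≤ _ := by
          rw [← add_mul, ← ENNReal.ofReal_add (by norm_num) (by norm_num)]
          gcongr
          norm_num
  -- assembly
  have eK : mass E W' K = cross κ E [v] W (star K v) K + cross κ E [v] W (star K v)ᶜ K := by
    have h2 := cross_univ_left hκ.le (u := [v]) (fun w hw => by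
        rw [List.mem_singleton] at hw; rw [hw]; exact hOK) hWm hK.measurableSet
    rw [evol_cons, evol_nil] at h2
    rw [← h2]
    unfold cross
    rw [Measure.restrict_univ]
    exact (lintegral_add_compl _ hstar).symm
  have eS : mass E W (star K v) = cross κ E [v] W (star K v) K + FS := by
    rw [← eFS, ← cross_univ_right (κ := κ) (E := E) [v] W (star K v)]
    unfold cross
    have mt : Measurable fun x => W x * Chain.trans κ E [v] (K.indicator 1) x :=
      hWm.mul (measurable_trans (measurable_one.indicator hK.measurableSet))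
    refine Eq.trans ?_ (lintegral_add_left mt _)
    refine lintegral_congr fun x => ?_
    rw [← mul_add, ← trans_add (measurable_one.indicator hK.measurableSet)]
    congr 2
    funext y
    by_cases hy : y ∈ K
    · rw [indicator_of_mem (mem_univ y), indicator_of_mem hy,
        indicator_of_notMem (fun h : y ∈ Kᶜ => h hy), add_zero]
    · rw [indicator_of_mem (mem_univ y), indicator_of_notMem hy,
        indicator_of_mem (show y ∈ Kᶜ from hy), zero_add]
  rw [eK, eS, add_assoc]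
  gcongr
  calc cross κ E [v] W (star K v)ᶜ K + ENNReal.ofReal 1 * cross κ E [v] W (star K v)ᶜ K
      = 2 * cross κ E [v] W (star K v)ᶜ K := by rw [ENNReal.ofReal_one, one_mul, two_mul]
    _ ≤ 2 * (ENNReal.ofReal (1 / 2) * FS) := by gcongr
    _ = FS := by
      rw [← mul_assoc]
      have : (2 : ℝ≥0∞) * ENNReal.ofReal (1 / 2) = 1 := by
        rw [show (2 : ℝ≥0∞) = ENNReal.ofReal 2 by norm_num, ← ENNReal.ofReal_mul (by norm_num)]
        norm_num
      rw [this, one_mul]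

/-- **(SL_W)**, block (S1): absolute constants depending on `τ₀` only -/
theorem sl_main {τ₀ : ℝ} (hτ : 0 < τ₀) : ∃ r₀ : ℝ, 0 < r₀ ∧
    ∀ (V : Type*) [NormedAddCommGroup V] [InnerProductSpace ℝ V] [FiniteDimensional ℝ V]
      [MeasurableSpace V] [BorelSpace V] (E : Submodule ℝ V) (v : V) (κ ρ : ℝ),
      0 < κ → κ ≤ 1 / 40 → 0 ≤ ρ → ρ ≤ r₀ → ‖v‖ ≤ r₀ → SL κ ρ 1 τ₀ E v := by
  obtain ⟨N, hN⟩ := exists_scales (256 * Cg)
  obtain ⟨n, hn⟩ := exists_nat_ge (4 * Real.exp (3 / 2) / τ₀)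
  rw [div_le_iff₀ hτ] at hn
  refine ⟨1 / ((n + 1) * (2 * N + 3)), by positivity, ?_⟩
  intro V _ _ _ _ _ E v κ ρ hκ hκ1 hρ hρ1 hv
  refine sl_aux hτ N n hN (by linarith) hκ hκ1 hρ ?_ ?_
  · rwa [← le_div_iff₀ (by positivity)]
  · rwa [← le_div_iff₀ (by positivity)]

end SL161

end Crest.Agent.R239
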