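import Crest.Agent.R239.Leaf622d
import Crest.Agent.R239.PrekA675

/-!
# R239: semi-log-convex laws (helper187): one more closed field, and the leaf with absolute slopes

* `SLC θ v W` : `W x ^ 2 ≤ exp (a s²) * W (x + s v) * W (x - s v)` (the logarithm of `W` has second
  derivative `≥ -a` along `v`, in the exact two-point form).
* closure : `SLC.A`, `SLC.evol` (same transport of directions `bk`, `back` as `LogLip`),
  `SLC.mul`, `SLC.smul`, `SLC.lintegral` (mixtures), `SLC_dE`, `SLC_one`, profiles `SLC_profile`.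
* **`SL_leaf_slc`** : the leaf for `ρ ≤ 1/32000` ABSOLUTE, `θ ≤ τ₀/8000`, `‖v‖ ≤ τ₀/16000`
  (helper622's `leaf_slc` with the field at the start of the letter).
-/

set_option autoImplicit false
set_option linter.unusedSectionVars false
open MeasureTheory ProbabilityTheory Set Filter Topology
open scoped RealInnerProductSpace ENNReal NNReal

namespace Crest.Agent.R239

namespace Chain

variable {V : Type*} [NormedAddCommGroup V] [InnerProductSpace ℝ V] [FiniteDimensional ℝ V]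
  [MeasurableSpace V] [BorelSpace V]

section closure

variable {κ : ℝ} {E : Submodule ℝ V} {v w : V} {θ θ' : ℝ} {W W' : V → ℝ≥0∞}

lemma SLC.mono_sq (h : SLC θ v W) (hab : θ ^ 2 ≤ θ' ^ 2) : SLC θ' v W := by
  intro x s
  refine (h x s).trans ?_
  gcongr

lemma SLC.mono (h : SLC θ v W) (h0 : 0 ≤ θ) (hab : θ ≤ θ') : SLC θ' v W :=
  h.mono_sq (by gcongr)

lemma SLC_one (θ : ℝ) (v : V) : SLC θ v (fun _ : V => (1 : ℝ≥0∞)) := by
  intro x s
  rw [one_pow, one_mul, mul_one, ENNReal.one_le_ofReal]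
  exact Real.one_le_exp (by positivity)

lemma SLC.mul (h : SLC θ v W) (h' : SLC θ' v W') :
    SLC (Real.sqrt (θ ^ 2 + θ' ^ 2)) v (fun x => W x * W' x) := by
  intro x s
  simp only
  rw [mul_pow, Real.sq_sqrt (by positivity)]
  refine (mul_le_mul' (h x s) (h' x s)).trans (le_of_eq ?_)
  rw [add_mul, Real.exp_add, ENNReal.ofReal_mul (Real.exp_pos _).le]
  ring

lemma SLC.const_mul (h : SLC θ v W) (c : ℝ≥0∞) : SLC θ v (fun x => c * W x) := by
  intro x s
  simp only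
  rw [mul_pow]
  refine (mul_le_mul' le_rfl (h x s)).trans (le_of_eq ?_)
  ring

lemma SLC.smul (h : SLC θ v W) (c : ℝ) : SLC (θ * c) (c • v) W := by
  intro x s
  have := h x (s * c)
  rw [smul_smul]
  refine this.trans (le_of_eq ?_)
  congr 3
  ring

/-- the two-point inequality in root form -/
lemma SLC.root (h : SLC θ v W) (x : V) (s : ℝ) :
    W x ≤ ENNReal.ofReal (Real.exp (θ ^ 2 * s ^ 2 / 2)) *
      (W (x + s • v) ^ (1 / 2 : ℝ) * W (x - s • v) ^ (1 / 2 : ℝ)) := by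
  have h1 := ENNReal.rpow_le_rpow (h x s) (by norm_num : (0 : ℝ) ≤ 1 / 2)
  rw [← ENNReal.rpow_natCast, ← ENNReal.rpow_mul, ENNReal.mul_rpow_of_nonneg _ _ (by norm_num),
    ENNReal.mul_rpow_of_nonneg _ _ (by norm_num),
    ENNReal.ofReal_rpow_of_nonneg (Real.exp_pos _).le (by norm_num), ← Real.exp_mul] at h1
  norm_num at h1
  rw [show θ ^ 2 * s ^ 2 / 2 = θ ^ 2 * s ^ 2 * (1 / 2) by ring]
  norm_num
  exact h1

lemma SLC.of_root
    (h : ∀ (x : V) (s : ℝ), W x ≤ ENNReal.ofReal (Real.exp (θ ^ 2 * s ^ 2 / 2)) *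
      (W (x + s • v) ^ (1 / 2 : ℝ) * W (x - s • v) ^ (1 / 2 : ℝ))) : SLC θ v W := by
  intro x s
  have h1 : W x ^ 2 ≤ (ENNReal.ofReal (Real.exp (θ ^ 2 * s ^ 2 / 2)) *
      (W (x + s • v) ^ (1 / 2 : ℝ) * W (x - s • v) ^ (1 / 2 : ℝ))) ^ 2 := by
    gcongr
    exact h x s
  refine h1.trans (le_of_eq ?_)
  rw [mul_pow, mul_pow, ← ENNReal.rpow_natCast (W (x + s • v) ^ (1 / 2 : ℝ)),
    ← ENNReal.rpow_natCast (W (x - s • v) ^ (1 / 2 : ℝ)), ← ENNReal.rpow_mul, ← ENNReal.rpow_mul,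
    ← ENNReal.ofReal_pow (Real.exp_pos _).le, ← Real.exp_nat_mul]
  norm_num
  congr 3
  ring

/-- **mixtures** (Cauchy-Schwarz) -/
theorem SLC.lintegral {Ω : Type*} [MeasurableSpace Ω] {μ : Measure Ω} {F : Ω → V → ℝ≥0∞}
    (hm : ∀ x, Measurable fun ω => F ω x)
    (h : ∀ ω, SLC θ v (F ω)) : SLC θ v (fun x => ∫⁻ ω, F ω x ∂μ) := by
  refine SLC.of_root fun x s => ?_
  have hpq : (2 : ℝ).HolderConjugate 2 := Real.HolderConjugate.two_two
  have key := ENNReal.lintegral_mul_le_Lp_mul_Lq μ hpq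
    (f := fun ω => F ω (x + s • v) ^ (1 / 2 : ℝ)) (g := fun ω => F ω (x - s • v) ^ (1 / 2 : ℝ))
    ((hm _).pow_const _).aemeasurable ((hm _).pow_const _).aemeasurable
  have e : ∀ t : ℝ≥0∞, (t ^ (1 / 2 : ℝ)) ^ (2 : ℝ) = t := by
    intro t
    rw [← ENNReal.rpow_mul]
    norm_num
  simp only [e] at key
  calc ∫⁻ ω, F ω x ∂μ ≤ ∫⁻ ω, ENNReal.ofReal (Real.exp (θ ^ 2 * s ^ 2 / 2)) *
      (F ω (x + s • v) ^ (1 / 2 : ℝ) * F ω (x - s • v) ^ (1 / 2 : ℝ)) ∂μ :=
        lintegral_mono fun ω => (h ω).root x s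
    _ = ENNReal.ofReal (Real.exp (θ ^ 2 * s ^ 2 / 2)) *
        ∫⁻ ω, (F ω (x + s • v) ^ (1 / 2 : ℝ) * F ω (x - s • v) ^ (1 / 2 : ℝ)) ∂μ := by
        rw [lintegral_const_mul' _ _ ENNReal.ofReal_ne_top]
    _ ≤ _ := by
        gcongr
        exact key

/-- **the letter operator** -/
theorem SLC.A (hW : Measurable W) (h : SLC θ (bk κ E v w) W) : SLC θ w (Chain.A κ E v W) := by
  unfold Chain.A
  refine SLC.of_root fun x s => ?_
  have hpq : (2 : ℝ).HolderConjugate 2 := Real.HolderConjugate.two_two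
  have hm : ∀ z : V, Measurable fun g : ℝ => W (z + disp κ E v z g • v) := fun z =>
    hW.comp ((measurable_disp κ E v).comp measurable_prodMk_left)
  have key := ENNReal.lintegral_mul_le_Lp_mul_Lq (gaussianReal 0 1) hpq
    (f := fun g => W ((x + s • w) + disp κ E v (x + s • w) g • v) ^ (1 / 2 : ℝ))
    (g := fun g => W ((x - s • w) + disp κ E v (x - s • w) g • v) ^ (1 / 2 : ℝ))
    ((hm _).pow_const _).aemeasurable ((hm _).pow_const _).aemeasurable
  have e : ∀ t : ℝ≥0∞, (t ^ (1 / 2 : ℝ)) ^ (2 : ℝ) = t := by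
    intro t
    rw [← ENNReal.rpow_mul]
    norm_num
  simp only [e] at key
  have hpt : ∀ g : ℝ, W (x + disp κ E v x g • v) ≤ ENNReal.ofReal (Real.exp (θ ^ 2 * s ^ 2 / 2)) *
      (W ((x + s • w) + disp κ E v (x + s • w) g • v) ^ (1 / 2 : ℝ) *
        W ((x - s • w) + disp κ E v (x - s • w) g • v) ^ (1 / 2 : ℝ)) := by
    intro g
    refine (h.root (x + disp κ E v x g • v) s).trans (le_of_eq ?_)
    have e1 : x + disp κ E v x g • v + s • bk κ E v w =
        (x + s • w) + disp κ E v (x + s • w) g • v := by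
      unfold disp bk
      rw [inner_add_right, inner_smul_right]
      module
    have e2 : x + disp κ E v x g • v - s • bk κ E v w =
        (x - s • w) + disp κ E v (x - s • w) g • v := by
      unfold disp bk
      rw [inner_sub_right, inner_smul_right]
      module
    rw [e1, e2]
  calc ∫⁻ g, W (x + disp κ E v x g • v) ∂(gaussianReal 0 1)
      ≤ ∫⁻ g, ENNReal.ofReal (Real.exp (θ ^ 2 * s ^ 2 / 2)) *
      (W ((x + s • w) + disp κ E v (x + s • w) g • v) ^ (1 / 2 : ℝ) *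
        W ((x - s • w) + disp κ E v (x - s • w) g • v) ^ (1 / 2 : ℝ)) ∂(gaussianReal 0 1) :=
        lintegral_mono hpt
    _ = ENNReal.ofReal (Real.exp (θ ^ 2 * s ^ 2 / 2)) *
        ∫⁻ g, (W ((x + s • w) + disp κ E v (x + s • w) g • v) ^ (1 / 2 : ℝ) *
        W ((x - s • w) + disp κ E v (x - s • w) g • v) ^ (1 / 2 : ℝ)) ∂(gaussianReal 0 1) := by
        rw [lintegral_const_mul' _ _ ENNReal.ofReal_ne_top]
    _ ≤ _ := by
        gcongr
        exact key

/-- **words** -/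
theorem SLC.evol {p : List V} (hW : Measurable W) (h : SLC θ (back κ E p w) W) :
    SLC θ w (Chain.evol κ E p W) := by
  induction p generalizing W with
  | nil => exact h
  | cons v p ih => exact ih (measurable_A hW) (SLC.A hW h)

lemma bk_self : bk κ E v v = (1 - κ * ‖E.starProjection v‖ ^ 2) • v := by
  unfold bk
  rw [inner_proj_self]
  module

/-- the letter itself -/
lemma SLC.A_self (hκ : 0 ≤ κ) (h1 : κ * ‖E.starProjection v‖ ^ 2 ≤ 1)
    (hW : Measurable W) (h : SLC θ v W) : SLC θ v (Chain.A κ E v W) := by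
  refine SLC.A hW ?_
  rw [bk_self]
  refine (h.smul _).mono_sq ?_
  have h2 : 0 ≤ κ * ‖E.starProjection v‖ ^ 2 := by positivity
  have h3 : (1 - κ * ‖E.starProjection v‖ ^ 2) ^ 2 ≤ 1 := by nlinarith
  rw [mul_pow]
  nlinarith [sq_nonneg θ]

/-- the reference density -/
lemma SLC_dE (E : Submodule ℝ V) (v : V) : SLC ‖E.starProjection v‖ v (dE E) := by
  intro x s
  have h1 := dE_add E v x s
  have h2 := dE_add E v x (-s)
  rw [neg_smul, ← sub_eq_add_neg] at h2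
  rw [h1, h2]
  refine le_of_eq ?_
  have e : ENNReal.ofReal (Real.exp (‖E.starProjection v‖ ^ 2 * s ^ 2)) *
      (ENNReal.ofReal (Real.exp (-(s * ⟪E.starProjection v, x⟫) -
          s ^ 2 * ‖E.starProjection v‖ ^ 2 / 2)) *
        ENNReal.ofReal (Real.exp (-(-s * ⟪E.starProjection v, x⟫) -
          (-s) ^ 2 * ‖E.starProjection v‖ ^ 2 / 2))) = 1 := by
    rw [← ENNReal.ofReal_mul (Real.exp_pos _).le, ← ENNReal.ofReal_mul (Real.exp_pos _).le,
      ← Real.exp_add, ← Real.exp_add]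
    have : ‖E.starProjection v‖ ^ 2 * s ^ 2 + (-(s * ⟪E.starProjection v, x⟫) -
          s ^ 2 * ‖E.starProjection v‖ ^ 2 / 2 + (-(-s * ⟪E.starProjection v, x⟫) -
          (-s) ^ 2 * ‖E.starProjection v‖ ^ 2 / 2)) = 0 := by ring
    rw [this]
    simp
  calc dE E x ^ 2 = 1 * (dE E x * dE E x) := by rw [one_mul, sq]
    _ = _ := by rw [← e]; ring

/-- the end density along the letter -/
lemma SLC_fp (hκ : 0 ≤ κ) (h1 : κ * ‖E.starProjection v‖ ^ 2 ≤ 1)
    (hW : Measurable W) (h : SLC θ v W) :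
    SLC (Real.sqrt (‖E.starProjection v‖ ^ 2 + θ ^ 2)) v (fp κ E v W) :=
  (SLC_dE E v).mul (h.A_self hκ h1 hW)

/-- **profiles** : a one-dimensional semi-log-convex function of `⟪h, x⟫` -/
lemma SLC_profile {φ : ℝ → ℝ≥0∞} (hφ : ∀ y s : ℝ, φ y ^ 2 ≤
    ENNReal.ofReal (Real.exp (θ ^ 2 * s ^ 2)) * (φ (y + s) * φ (y - s))) (h v : V) :
    SLC (θ * ⟪h, v⟫) v (fun x => φ ⟪h, x⟫) := by
  intro x s
  have := hφ ⟪h, x⟫ (s * ⟪h, v⟫)
  simp only
  rw [inner_add_right, inner_sub_right, inner_smul_right]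
  refine this.trans (le_of_eq ?_)
  congr 3
  ring

end closure

section final

variable {κ : ℝ} {E : Submodule ℝ V} {v : V}

/-- the leaf with the additional field -/
def SLs (κ ρ θ c τ₀ : ℝ) (E : Submodule ℝ V) (v : V) : Prop :=
  ∀ W, AdmW κ ρ E [v] W → SLC θ v W → ∀ K : Set V, IsClosed K → Convex ℝ K →
    ENNReal.ofReal τ₀ * mass E W univ ≤ mass E (A κ E v W) K →
    mass E (A κ E v W) K + ENNReal.ofReal c * cross κ E [v] W (star K v)ᶜ K ≤ mass E W (star K v)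

/-- **the leaf (SL_W) for semi-log-convex laws** (helper622's `leaf_slc`) : absolute slope `ρ` -/
theorem SL_leaf_slc {ρ θ τ₀ : ℝ} (hκ : 0 < κ) (hκ1 : κ ≤ 1 / 16) (hτ : 0 < τ₀) (hτ1 : τ₀ ≤ 1)
    (hρ : 0 ≤ ρ) (hρ1 : ρ ≤ 1 / 32000) (hθ : 0 ≤ θ) (hθ1 : θ ≤ τ₀ / 8000)
    (hv1 : ‖v‖ ≤ τ₀ / 16000) : SLs κ ρ θ 1 τ₀ E v := by
  intro W hadm hslc K hK cK hval
  obtain ⟨⟨⟨hW, -, hfin⟩, hWl⟩, ⟨-, hAlc, -⟩⟩ := hadm
  rw [ENNReal.ofReal_one, one_mul]
  have hPv : ‖E.starProjection v‖ ≤ τ₀ / 16000 := (E.norm_starProjection_apply_le v).trans hv1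
  have ha : ‖E.starProjection v‖ ^ 2 ≤ (τ₀ / 16000) ^ 2 := by gcongr
  have hτ2 : τ₀ ^ 2 ≤ 1 := by nlinarith
  have ha0 : 0 ≤ ‖E.starProjection v‖ ^ 2 := by positivity
  have ha1 : ‖E.starProjection v‖ ^ 2 ≤ 1 := by nlinarith
  have hκa : κ * ‖E.starProjection v‖ ^ 2 ≤ 1 := by nlinarith
  exact leaf_slc hκ hκ1 hτ hτ1 hρ hρ1 hθ hθ1 hv1 hW hfin hWl hAlc (hslc.A_self hκ.le hκa hW)
    hK cK hval

end final

end Chain

end Crest.Agent.R239
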