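import Mathlib

/-!
R239 (prefix discrepancy), trace splitting lemma: pure linear algebra, no probability.
-/

open Matrix

namespace Crest.Agent.R239.Split

variable {n : ℕ}

/-- the energy matrix of a list of vectors -/
noncomputable def Q (u : List (EuclideanSpace ℝ (Fin n))) : Matrix (Fin n) (Fin n) ℝ :=
  Matrix.of fun i j => (u.map fun v => v i * v j).sum

@[simp] lemma Q_nil : Q ([] : List (EuclideanSpace ℝ (Fin n))) = 0 := by
  ext i j; simp [Q]

lemma Q_cons (v : EuclideanSpace ℝ (Fin n)) (u : List (EuclideanSpace ℝ (Fin n))) :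
    Q (v :: u) = Q [v] + Q u := by
  ext i j; simp [Q]

lemma Q_append (u w : List (EuclideanSpace ℝ (Fin n))) : Q (u ++ w) = Q u + Q w := by
  ext i j; simp [Q]

lemma Q_single (v : EuclideanSpace ℝ (Fin n)) : Q [v] = Matrix.vecMulVec (fun i => v i) (fun i => v i) := by
  ext i j; simp [Q, Matrix.vecMulVec_apply]

lemma Q_single_posSemidef (v : EuclideanSpace ℝ (Fin n)) : (Q [v]).PosSemidef := by
  rw [Q_single]
  have := Matrix.posSemidef_vecMulVec_self_star (R := ℝ) (fun i => v i)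
  simpa using this

lemma Q_posSemidef (u : List (EuclideanSpace ℝ (Fin n))) : (Q u).PosSemidef := by
  induction u with
  | nil => simpa using (Matrix.PosSemidef.zero (n := Fin n) (R := ℝ))
  | cons v u ih => rw [Q_cons]; exact (Q_single_posSemidef v).add ih

lemma trace_Q_single (v : EuclideanSpace ℝ (Fin n)) : (Q [v]).trace = ‖v‖ ^ 2 := by
  rw [EuclideanSpace.norm_sq_eq]
  simp [Q, Matrix.trace, sq]

lemma trace_Q (u : List (EuclideanSpace ℝ (Fin n))) :
    (Q u).trace = (u.map fun v => ‖v‖ ^ 2).sum := by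
  induction u with
  | nil => simp
  | cons v u ih => rw [Q_cons, Matrix.trace_add, trace_Q_single, ih]; simp

lemma posDef_one_add {A : Matrix (Fin n) (Fin n) ℝ} (hA : A.PosSemidef) : (1 + A).PosDef :=
  Matrix.PosDef.one.add_posSemidef hA

/-- `A⁻¹ - 2X + XAX` is positive semidefinite. -/
lemma key {A X : Matrix (Fin n) (Fin n) ℝ} (hA : A.PosDef) (hX : X.IsHermitian) :
    (A⁻¹ - X - X + X * A * X).PosSemidef := by
  have hdet : IsUnit A.det := (Matrix.isUnit_iff_isUnit_det _).1 hA.isUnit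
  have h1 : (A⁻¹ - X)ᴴ = A⁻¹ - X := by
    rw [Matrix.conjTranspose_sub, hX.eq, Matrix.conjTranspose_nonsing_inv, hA.isHermitian.eq]
  have h2 := hA.posSemidef.conjTranspose_mul_mul_same (A⁻¹ - X)
  rw [h1] at h2
  have h3 : (A⁻¹ - X) * A * (A⁻¹ - X) = A⁻¹ - X - X + X * A * X := by
    rw [sub_mul, Matrix.nonsing_inv_mul _ hdet, sub_mul, one_mul, mul_sub,
      Matrix.mul_assoc X A A⁻¹, Matrix.mul_nonsing_inv _ hdet, mul_one]
    abel
  rwa [h3] at h2

/-- inverse is antitone -/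
lemma inv_anti {A B : Matrix (Fin n) (Fin n) ℝ} (hA : A.PosDef) (hB : B.PosDef)
    (h : (B - A).PosSemidef) : (A⁻¹ - B⁻¹).PosSemidef := by
  have hdet : IsUnit B.det := (Matrix.isUnit_iff_isUnit_det _).1 hB.isUnit
  have hX : (B⁻¹).IsHermitian := hB.inv.isHermitian
  have h1 := key hA hX
  have h2 := h.conjTranspose_mul_mul_same (B⁻¹)
  rw [hX.eq] at h2
  have h3 := h1.add h2
  have h4 : A⁻¹ - B⁻¹ - B⁻¹ + B⁻¹ * A * B⁻¹ + B⁻¹ * (B - A) * B⁻¹ = A⁻¹ - B⁻¹ := by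
    rw [mul_sub, sub_mul, Matrix.nonsing_inv_mul _ hdet, one_mul]
    abel
  rwa [h4] at h3

/-- trace convexity of the inverse -/
lemma trace_inv_convex {A B M : Matrix (Fin n) (Fin n) ℝ} (hA : A.PosDef) (hB : B.PosDef)
    (hM : M.PosDef) (h : A + B = M + M) :
    2 * (M⁻¹).trace ≤ (A⁻¹).trace + (B⁻¹).trace := by
  have hdet : IsUnit M.det := (Matrix.isUnit_iff_isUnit_det _).1 hM.isUnit
  have hX : (M⁻¹).IsHermitian := hM.inv.isHermitian
  have h3 := ((key hA hX).add (key hB hX)).trace_nonneg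
  have h4 : A⁻¹ - M⁻¹ - M⁻¹ + M⁻¹ * A * M⁻¹ + (B⁻¹ - M⁻¹ - M⁻¹ + M⁻¹ * B * M⁻¹)
      = A⁻¹ + B⁻¹ - M⁻¹ - M⁻¹ := by
    have : M⁻¹ * A * M⁻¹ + M⁻¹ * B * M⁻¹ = M⁻¹ + M⁻¹ := by
      rw [← add_mul, ← mul_add, h, mul_add, add_mul, Matrix.nonsing_inv_mul _ hdet, one_mul]
    calc _ = A⁻¹ + B⁻¹ - M⁻¹ - M⁻¹ - M⁻¹ - M⁻¹ + (M⁻¹ * A * M⁻¹ + M⁻¹ * B * M⁻¹) := by abel
      _ = _ := by rw [this]; abel
  rw [h4] at h3
  simp only [Matrix.trace_sub, Matrix.trace_add] at h3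
  linarith

/-- `ψ(A) = tr A(1+A)⁻¹ = n - tr (1+A)⁻¹` -/
noncomputable def psi (A : Matrix (Fin n) (Fin n) ℝ) : ℝ := n - ((1 + A)⁻¹).trace

lemma psi_zero : psi (0 : Matrix (Fin n) (Fin n) ℝ) = 0 := by
  simp [psi]

lemma psi_mono {A B : Matrix (Fin n) (Fin n) ℝ} (hA : A.PosSemidef) (hB : (B - A).PosSemidef) :
    psi A ≤ psi B := by
  have hB' : B.PosSemidef := by simpa using hA.add hB
  have h := (inv_anti (posDef_one_add hA) (posDef_one_add hB')
    (by simpa using hB)).trace_nonneg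
  rw [Matrix.trace_sub] at h
  unfold psi; linarith

lemma psi_nonneg {A : Matrix (Fin n) (Fin n) ℝ} (hA : A.PosSemidef) : 0 ≤ psi A := by
  rw [← psi_zero (n := n)]
  exact psi_mono Matrix.PosSemidef.zero (by simpa using hA)

lemma psi_le {A : Matrix (Fin n) (Fin n) ℝ} (hA : A.PosSemidef) : psi A ≤ n := by
  have := (posDef_one_add hA).inv.posSemidef.trace_nonneg
  unfold psi; linarith

lemma trace_basis (M : Matrix (Fin n) (Fin n) ℝ)
    (b : OrthonormalBasis (Fin n) ℝ (EuclideanSpace ℝ (Fin n))) :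
    M.trace = ∑ i, (⇑(b i)) ⬝ᵥ (M *ᵥ ⇑(b i)) := by
  have h1 := LinearMap.trace_eq_sum_inner (Matrix.toEuclideanLin M) b
  have h2 : (LinearMap.trace ℝ _) (Matrix.toEuclideanLin M) = M.trace := by
    change (LinearMap.trace ℝ _) (Matrix.toLpLin 2 2 M) = M.trace
    rw [Matrix.toLpLin_eq_toLin, Matrix.trace_toLin_eq]
  rw [← h2, h1]
  refine Finset.sum_congr rfl fun i _ => ?_
  rw [EuclideanSpace.inner_eq_star_dotProduct, Matrix.toLpLin_apply]
  simp [dotProduct_comm]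

lemma qf_nonneg {M : Matrix (Fin n) (Fin n) ℝ} (hM : M.PosSemidef) (x : Fin n → ℝ) :
    0 ≤ x ⬝ᵥ (M *ᵥ x) := by
  have := hM.dotProduct_mulVec_nonneg x
  simpa using this

lemma trace_mul_nonneg {A B : Matrix (Fin n) (Fin n) ℝ} (hA : A.PosSemidef) (hB : B.PosSemidef) :
    0 ≤ (A * B).trace := by
  classical
  rw [trace_basis (A * B) hB.isHermitian.eigenvectorBasis]
  refine Finset.sum_nonneg fun i _ => ?_
  rw [← Matrix.mulVec_mulVec, hB.isHermitian.mulVec_eigenvectorBasis, Matrix.mulVec_smul,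
    dotProduct_smul]
  exact smul_nonneg (hB.eigenvalues_nonneg i) (qf_nonneg hA _)

lemma one_sub_inv {A : Matrix (Fin n) (Fin n) ℝ} (hA : A.PosSemidef) :
    1 - (1 + A)⁻¹ = A * (1 + A)⁻¹ := by
  have hdet : IsUnit (1 + A).det := (Matrix.isUnit_iff_isUnit_det _).1 (posDef_one_add hA).isUnit
  have h := Matrix.mul_nonsing_inv _ hdet
  rw [add_mul, one_mul] at h
  exact sub_eq_of_eq_add' h.symm

lemma psi_eq {A : Matrix (Fin n) (Fin n) ℝ} (hA : A.PosSemidef) :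
    psi A = (A * (1 + A)⁻¹).trace := by
  rw [← one_sub_inv hA, Matrix.trace_sub, Matrix.trace_one, Fintype.card_fin]; rfl

lemma psi_add_le {A B : Matrix (Fin n) (Fin n) ℝ} (hA : A.PosSemidef) (hB : B.PosSemidef) :
    psi (A + B) ≤ psi A + psi B := by
  rw [psi_eq (hA.add hB), psi_eq hA, psi_eq hB, add_mul, Matrix.trace_add]
  have h1 : ((1 + A)⁻¹ - (1 + (A + B))⁻¹).PosSemidef :=
    inv_anti (posDef_one_add hA) (posDef_one_add (hA.add hB)) (by
      have : 1 + (A + B) - (1 + A) = B := by abel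
      rwa [this])
  have h2 : ((1 + B)⁻¹ - (1 + (A + B))⁻¹).PosSemidef :=
    inv_anti (posDef_one_add hB) (posDef_one_add (hA.add hB)) (by
      have : 1 + (A + B) - (1 + B) = A := by abel
      rwa [this])
  have h3 := trace_mul_nonneg hA h1
  have h4 := trace_mul_nonneg hB h2
  rw [mul_sub, Matrix.trace_sub] at h3 h4
  linarith

lemma psi_le_trace {A : Matrix (Fin n) (Fin n) ℝ} (hA : A.PosSemidef) : psi A ≤ A.trace := by
  have h := (key (posDef_one_add hA) (X := 1) Matrix.isHermitian_one).trace_nonneg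
  simp only [Matrix.trace_add, Matrix.trace_sub, one_mul, mul_one, Matrix.trace_one,
    Fintype.card_fin] at h
  unfold psi; linarith

lemma psi_add_single_le {A : Matrix (Fin n) (Fin n) ℝ} (hA : A.PosSemidef)
    (v : EuclideanSpace ℝ (Fin n)) : psi (A + Q [v]) ≤ psi A + ‖v‖ ^ 2 := by
  have h1 := psi_add_le hA (Q_single_posSemidef v)
  have h2 := psi_le_trace (Q_single_posSemidef v)
  rw [trace_Q_single] at h2
  linarith

lemma psi_half_sum {A B M : Matrix (Fin n) (Fin n) ℝ} (hA : A.PosSemidef) (hB : B.PosSemidef)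
    (hM : M.PosSemidef) (h : A + B = M + M) : psi A + psi B ≤ 2 * psi M := by
  have := trace_inv_convex (posDef_one_add hA) (posDef_one_add hB) (posDef_one_add hM) (by
    calc 1 + A + (1 + B) = 1 + 1 + (A + B) := by abel
      _ = 1 + M + (1 + M) := by rw [h]; abel)
  unfold psi; linarith

/-- trace of the resolvent in the eigenbasis -/
lemma inv_mulVec_eig {A : Matrix (Fin n) (Fin n) ℝ} (hA : A.PosSemidef) (x : Fin n → ℝ) (l : ℝ)
    (hl : 0 ≤ l) (hx : A *ᵥ x = l • x) : (1 + A)⁻¹ *ᵥ x = (1 + l)⁻¹ • x := by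
  have hdet : IsUnit (1 + A).det := (Matrix.isUnit_iff_isUnit_det _).1 (posDef_one_add hA).isUnit
  have h1 : (1 + A) *ᵥ x = (1 + l) • x := by
    rw [Matrix.add_mulVec, Matrix.one_mulVec, hx, add_smul, one_smul]
  have h2 : (1 + A)⁻¹ *ᵥ ((1 + A) *ᵥ x) = x := by
    rw [Matrix.mulVec_mulVec, Matrix.nonsing_inv_mul _ hdet, Matrix.one_mulVec]
  rw [h1, Matrix.mulVec_smul] at h2
  have h3 : (1 + l) ≠ 0 := by positivity
  calc (1 + A)⁻¹ *ᵥ x = (1 + l)⁻¹ • ((1 + l) • (1 + A)⁻¹ *ᵥ x) := by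
        rw [smul_smul, inv_mul_cancel₀ h3, one_smul]
    _ = _ := by rw [h2]

lemma cross {α : Type*} (f : List α → ℝ) (c : ℝ) (u : List α) (h0 : f [] ≤ c) (hu : c < f u) :
    ∃ u1 v u2, u = u1 ++ v :: u2 ∧ f u1 ≤ c ∧ c < f (u1 ++ [v]) := by
  induction u using List.reverseRecOn with
  | nil => exact absurd hu (not_lt.2 h0)
  | append_singleton u' v ih =>
    by_cases h : c < f u'
    · obtain ⟨u1, w, u2, h1, h2, h3⟩ := ih h
      exact ⟨u1, w, u2 ++ [v], by rw [h1]; simp, h2, h3⟩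
    · exact ⟨u', v, [], by simp, not_lt.1 h, hu⟩

/-- `u` has no exact split `u1 , v , u2` with both sides losing `δ` in `ψ` -/
def Gap (δ : ℝ) (u : List (EuclideanSpace ℝ (Fin n))) : Prop :=
  ∀ u1 v u2, u = u1 ++ v :: u2 → psi (Q u) - δ < psi (Q u1) ∨ psi (Q u) - δ < psi (Q u2)

lemma Q_sub_of_append (u w : List (EuclideanSpace ℝ (Fin n))) :
    (Q (u ++ w) - Q u).PosSemidef := by
  rw [Q_append, add_sub_cancel_left]; exact Q_posSemidef w

lemma psi_Q_infix (a u c : List (EuclideanSpace ℝ (Fin n))) :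
    psi (Q u) ≤ psi (Q (a ++ u ++ c)) := by
  refine psi_mono (Q_posSemidef u) ?_
  rw [Q_append, Q_append, show Q a + Q u + Q c - Q u = Q a + Q c by abel]
  exact (Q_posSemidef a).add (Q_posSemidef c)

lemma posSemidef_half {A : Matrix (Fin n) (Fin n) ℝ} (hA : A.PosSemidef) :
    ((1 / 2 : ℝ) • A).PosSemidef := hA.smul (by norm_num)

theorem gap_psi {δ : ℝ} (hδ : 0 < δ) {u : List (EuclideanSpace ℝ (Fin n))} (hG : Gap δ u) :
    psi (Q u) - psi ((1 / 2 : ℝ) • Q u) ≤ δ := by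
  have hp := psi_nonneg (posSemidef_half (Q_posSemidef u))
  by_cases h0 : psi (Q u) < δ
  · linarith
  obtain ⟨u1, v, u2, h1, h2, h3⟩ := cross (fun w => psi (Q w)) (psi (Q u) - δ) u
    (by rw [Q_nil, psi_zero]; linarith) (by linarith)
  have h4 := (hG u1 v u2 h1).resolve_left (not_lt.2 h2)
  have h5 : Q (u1 ++ [v]) + Q u2 = (1 / 2 : ℝ) • Q u + (1 / 2 : ℝ) • Q u := by
    rw [← add_smul, show (1 / 2 + 1 / 2 : ℝ) = 1 by norm_num, one_smul, h1, ← Q_append]
    simp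
  have h6 := psi_half_sum (Q_posSemidef _) (Q_posSemidef _) (posSemidef_half (Q_posSemidef u)) h5
  linarith

/-- trace of the resolvent in an eigenbasis -/
lemma trace_inv_eig {A : Matrix (Fin n) (Fin n) ℝ} (hA : A.PosSemidef)
    (b : OrthonormalBasis (Fin n) ℝ (EuclideanSpace ℝ (Fin n))) (l : Fin n → ℝ)
    (hl : ∀ i, 0 ≤ l i) (hb : ∀ i, A *ᵥ ⇑(b i) = l i • ⇑(b i)) :
    ((1 + A)⁻¹).trace = ∑ i, (1 + l i)⁻¹ := by
  rw [trace_basis _ b]
  refine Finset.sum_congr rfl fun i _ => ?_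
  rw [inv_mulVec_eig hA _ _ (hl i) (hb i), dotProduct_smul]
  have h1 : ‖b i‖ = 1 := b.orthonormal.1 i
  have h2 : (⇑(b i) : Fin n → ℝ) ⬝ᵥ ⇑(b i) = 1 := by
    have := real_inner_self_eq_norm_sq (b i)
    rw [h1, EuclideanSpace.inner_eq_star_dotProduct] at this
    simpa using this
  rw [h2]; simp

lemma psi_eig {A : Matrix (Fin n) (Fin n) ℝ} (hA : A.PosSemidef)
    (b : OrthonormalBasis (Fin n) ℝ (EuclideanSpace ℝ (Fin n))) (l : Fin n → ℝ)
    (hl : ∀ i, 0 ≤ l i) (hb : ∀ i, A *ᵥ ⇑(b i) = l i • ⇑(b i)) :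
    psi A = ∑ i, l i / (1 + l i) := by
  unfold psi
  rw [trace_inv_eig hA b l hl hb]
  have : (n : ℝ) = ∑ _i : Fin n, (1 : ℝ) := by simp
  rw [this, ← Finset.sum_sub_distrib]
  refine Finset.sum_congr rfl fun i _ => ?_
  have := hl i
  field_simp
  ring

lemma scalar_gap {l : ℝ} (hl : 0 ≤ l) :
    min l l⁻¹ ≤ 6 * (l / (1 + l) - (1 / 2 * l) / (1 + 1 / 2 * l)) := by
  have e : l / (1 + l) - (1 / 2 * l) / (1 + 1 / 2 * l) = l / ((1 + l) * (2 + l)) := by
    have h1 : (1 + l) ≠ 0 := by positivity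
    have h2 : (2 + l) ≠ 0 := by positivity
    have h3 : (1 + 1 / 2 * l) ≠ 0 := by positivity
    field_simp
    ring
  rw [e]
  rcases le_total l 1 with h | h
  · refine (min_le_left _ _).trans ?_
    rw [← mul_div_assoc, le_div_iff₀ (by positivity)]
    nlinarith [mul_nonneg hl hl, mul_nonneg hl (sub_nonneg.2 h)]
  · refine (min_le_right _ _).trans ?_
    have h0 : 0 < l := by linarith
    rw [← mul_div_assoc, le_div_iff₀ (by positivity), inv_mul_le_iff₀ h0]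
    nlinarith

/-- eigenbasis form of the gap -/
theorem gap_eig {δ : ℝ} (hδ : 0 < δ) {u : List (EuclideanSpace ℝ (Fin n))} (hG : Gap δ u) :
    ∃ (b : OrthonormalBasis (Fin n) ℝ (EuclideanSpace ℝ (Fin n))) (l : Fin n → ℝ),
      (∀ i, 0 ≤ l i) ∧ (∀ i, Q u *ᵥ ⇑(b i) = l i • ⇑(b i)) ∧
      ∑ i, min (l i) (l i)⁻¹ ≤ 6 * δ := by
  have hP := Q_posSemidef u
  refine ⟨hP.isHermitian.eigenvectorBasis, hP.isHermitian.eigenvalues, hP.eigenvalues_nonneg,
    hP.isHermitian.mulVec_eigenvectorBasis, ?_⟩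
  have h1 := psi_eig hP _ _ hP.eigenvalues_nonneg hP.isHermitian.mulVec_eigenvectorBasis
  have h2 := psi_eig (posSemidef_half hP) hP.isHermitian.eigenvectorBasis
    (fun i => 1 / 2 * hP.isHermitian.eigenvalues i)
    (fun i => mul_nonneg (by norm_num) (hP.eigenvalues_nonneg i)) (fun i => by
      rw [Matrix.smul_mulVec, hP.isHermitian.mulVec_eigenvectorBasis, smul_smul])
  have h3 := gap_psi hδ hG
  rw [h1, h2, ← Finset.sum_sub_distrib] at h3
  calc _ ≤ ∑ i, 6 * (hP.isHermitian.eigenvalues i / (1 + hP.isHermitian.eigenvalues i)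
        - (1 / 2 * hP.isHermitian.eigenvalues i) / (1 + 1 / 2 * hP.isHermitian.eigenvalues i)) :=
        Finset.sum_le_sum fun i _ => scalar_gap (hP.eigenvalues_nonneg i)
    _ ≤ 6 * δ := by rw [← Finset.mul_sum]; linarith

end Crest.Agent.R239.Split
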