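import Mathlib
import Crest.Agent.R239.Pass690

/-! R239, helper590: the support inequality (*) of #11481 (supergradient of the conditional
functional `K(y,m)`), the comparison lemma CMP and the near inclusion. -/

set_option autoImplicit false
set_option linter.unusedSectionVars false
open MeasureTheory ProbabilityTheory Set Filter Topology Metric
open scoped ENNReal NNReal RealInnerProductSpace Pointwise

namespace Crest.Agent.R239.Sup

open Crest.Agent.R239.Pass690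
open Crest.Agent.Lib.Ehrhard (Phi Phi_pos Phi_lt_one strictMono_Phi Phi_neg continuous_Phi)

variable {E : Type*} [NormedAddCommGroup E] [InnerProductSpace ℝ E] [FiniteDimensional ℝ E]
  [MeasurableSpace E] [BorelSpace E]
variable {F : Type*} [NormedAddCommGroup F] [InnerProductSpace ℝ F] [FiniteDimensional ℝ F]
  [MeasurableSpace F] [BorelSpace F]
variable {W : Type*} [NormedAddCommGroup W] [InnerProductSpace ℝ W] [FiniteDimensional ℝ W]
  [MeasurableSpace W] [BorelSpace W]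
variable {G : Type*} [NormedAddCommGroup G] [InnerProductSpace ℝ G] [FiniteDimensional ℝ G]
  [MeasurableSpace G] [BorelSpace G]
variable {G0 : Type*} [NormedAddCommGroup G0] [InnerProductSpace ℝ G0] [FiniteDimensional ℝ G0]
  [MeasurableSpace G0] [BorelSpace G0]
variable {G1 : Type*} [NormedAddCommGroup G1] [InnerProductSpace ℝ G1] [FiniteDimensional ℝ G1]
  [MeasurableSpace G1] [BorelSpace G1]
variable {G2 : Type*} [NormedAddCommGroup G2] [InnerProductSpace ℝ G2] [FiniteDimensional ℝ G2]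
  [MeasurableSpace G2] [BorelSpace G2]

/-! ### The Euclidean product -/

variable (F W) in
/-- first projection -/
noncomputable def q0 : WithLp 2 (F × W) →L[ℝ] F := WithLp.fstL 2 ℝ F W

variable (F W) in
/-- second projection -/
noncomputable def q1 : WithLp 2 (F × W) →L[ℝ] W := WithLp.sndL 2 ℝ F W

/-- pairing -/
noncomputable def pr (x : F) (y : W) : WithLp 2 (F × W) := WithLp.toLp 2 (x, y)

@[simp] lemma q0_pr (x : F) (y : W) : q0 F W (pr x y) = x := rfl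
@[simp] lemma q1_pr (x : F) (y : W) : q1 F W (pr x y) = y := rfl

lemma inner_W2 (z w : WithLp 2 (F × W)) :
    ⟪z, w⟫ = ⟪q0 F W z, q0 F W w⟫ + ⟪q1 F W z, q1 F W w⟫ := by
  rw [WithLp.prod_inner_apply]
  rfl

/-! ### Separation -/

lemma separate (T : F →L[ℝ] E) (Q : W →L[ℝ] E) (M : G →L[ℝ] E) {Z : Set E} (hZ : IsClosed Z)
    (cZ : Convex ℝ Z) {y0 : F} {e : ℝ} (h : (gau M).real {z | T y0 + z ∈ Z} < Phi (-e)) :
    ∃ (c : ℝ) (α : F) (μ : W), ∀ (y : F) (m : W) (s : ℝ),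
      Phi s ≤ (gau M).real {z | T y + Q m + z ∈ Z} →
      c * (s + e) + ⟪α, y - y0⟫ + ⟪μ, m⟫ < 0 := by
  set T' : WithLp 2 (F × W) →L[ℝ] E := T ∘L q0 F W + Q ∘L q1 F W with hT'
  set x0 : X2 (WithLp 2 (F × W)) := i0 _ (pr y0 0) + i1 _ (-e) with hx0
  have hx : x0 ∉ hyp T' M Z := by
    intro hx
    simp only [hyp, mem_ofPred_eq, hx0, map_add, p1_i0, p1_i1, p0_i0, p0_i1, zero_add, add_zero,
      hT', add_apply, ContinuousLinearMap.comp_apply, q0_pr, q1_pr,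
      map_zero] at hx
    exact absurd h (not_lt.2 hx)
  obtain ⟨f, u, h1, h2⟩ := geometric_hahn_banach_closed_point (convex_hyp T' M hZ cZ)
    (isClosed_hyp T' M hZ) hx
  set n : X2 (WithLp 2 (F × W)) := (InnerProductSpace.toDual ℝ _).symm f with hn
  have hf : ∀ x, f x = ⟪n, x⟫ := fun x => by
    rw [hn, InnerProductSpace.toDual_symm_apply]
  refine ⟨p1 _ n, q0 F W (p0 _ n), q1 F W (p0 _ n), fun y m s hs => ?_⟩
  set p : X2 (WithLp 2 (F × W)) := i0 _ (pr y m) + i1 _ s with hp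
  have hpm : p ∈ hyp T' M Z := by
    simp only [hyp, mem_ofPred_eq, hp, map_add, p1_i0, p1_i1, p0_i0, p0_i1, zero_add, add_zero,
      hT', add_apply, ContinuousLinearMap.comp_apply, q0_pr, q1_pr,
      map_zero]
    exact hs
  have h3 := h1 p hpm
  rw [hf, inner_X2, inner_W2] at h3 h2
  simp only [hp, hx0, map_add, p1_i0, p1_i1, p0_i0, p0_i1, zero_add, add_zero, q0_pr, q1_pr,
    map_zero, inner_zero_right] at h3 h2
  rw [inner_sub_right]
  linarith

lemma c_nonneg {Q : W →L[ℝ] E} {T : F →L[ℝ] E} {M : G →L[ℝ] E} {Z : Set E} {y0 : F} {e c : ℝ}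
    {α : F} {μ : W}
    (H : ∀ (y : F) (m : W) (s : ℝ), Phi s ≤ (gau M).real {z | T y + Q m + z ∈ Z} →
      c * (s + e) + ⟪α, y - y0⟫ + ⟪μ, m⟫ < 0) {y1 : F} {m1 : W} {s1 : ℝ}
    (h1 : Phi s1 ≤ (gau M).real {z | T y1 + Q m1 + z ∈ Z}) : 0 ≤ c := by
  by_contra hc
  push Not at hc
  set a : ℝ := ⟪α, y1 - y0⟫ + ⟪μ, m1⟫ with ha
  set s : ℝ := min s1 (a / (-c) - e) with hs
  have h2 := H y1 m1 s ((strictMono_Phi.monotone (min_le_left _ _)).trans h1)
  have h3 : s + e ≤ a / (-c) := by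
    have := min_le_right s1 (a / (-c) - e)
    linarith
  have h4 : c * (a / (-c)) ≤ c * (s + e) := mul_le_mul_of_nonpos_left h3 hc.le
  have h5 : c * (a / (-c)) = -a := by
    rw [div_neg, mul_neg, mul_div_cancel₀ _ hc.ne]
  linarith

lemma mu_bound {Q : W →L[ℝ] E} {T : F →L[ℝ] E} {M : G →L[ℝ] E} {Z : Set E} (hZ : IsClosed Z)
    {y0 : F} {e c : ℝ} {α : F} {μ : W}
    (H : ∀ (y : F) (m : W) (s : ℝ), Phi s ≤ (gau M).real {z | T y + Q m + z ∈ Z} →
      c * (s + e) + ⟪α, y - y0⟫ + ⟪μ, m⟫ < 0) {y1 : F} {m1 : W} {s1 : ℝ}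
    (h1 : Phi s1 ≤ (gau M).real {z | T y1 + Q m1 + z ∈ Z}) {v : W} {u : G} (huv : M u = Q v) :
    ⟪μ, v⟫ ≤ c * ‖u‖ := by
  by_contra hc
  push Not at hc
  set d : ℝ := ⟪μ, v⟫ - c * ‖u‖ with hd
  have hd0 : 0 < d := by linarith
  set a : ℝ := c * (s1 + e) + ⟪α, y1 - y0⟫ + ⟪μ, m1⟫ with ha
  have ha0 : a < 0 := H y1 m1 s1 h1
  set t : ℝ := (-a) / d with ht
  have ht0 : 0 ≤ t := div_nonneg (by linarith) hd0.le
  have h2 := tset_shift M hZ.measurableSet (t • u) (y := T y1 + Q m1) (a := s1) h1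
  have h3 : Phi (s1 - t * ‖u‖) ≤ (gau M).real {z | T y1 + Q (m1 + t • v) + z ∈ Z} := by
    have e1 : T y1 + Q (m1 + t • v) = T y1 + Q m1 + M (t • u) := by
      rw [map_add, map_smul, map_smul, huv]
      abel
    rw [e1]
    rw [norm_smul, Real.norm_of_nonneg ht0] at h2
    exact h2
  have h4 := H y1 (m1 + t • v) _ h3
  rw [inner_add_right, inner_smul_right] at h4
  have h5 : t * d = -a := by rw [ht]; field_simp
  have : c * (s1 - t * ‖u‖ + e) + ⟪α, y1 - y0⟫ + (⟪μ, m1⟫ + t * ⟪μ, v⟫) = a + t * d := by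
    rw [ha, hd]; ring
  linarith

/-! ### The half space bound -/

/-- `P(TA ξ + M g ∈ Z')` is the Gaussian measure of a hypograph; a half space containing it
bounds it. -/
lemma halfspace_bound {B : W →L[ℝ] E} {M : G →L[ℝ] E} {N : G1 →L[ℝ] E}
    (hN : ∀ t, ‖B.adjoint t‖ ^ 2 + ‖M.adjoint t‖ ^ 2 = ‖N.adjoint t‖ ^ 2) {Z : Set E}
    (hZ : IsClosed Z) {β : W} {c x : ℝ} (h1 : c ^ 2 + ‖β‖ ^ 2 = 1)
    (H : ∀ (w : W) (s : ℝ), Phi s ≤ (gau M).real {z | B w + z ∈ Z} → ⟪β, w⟫ + c * s ≤ x) :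
    (gau N).real Z ≤ Phi x := by
  rw [← measure_hyp B M hN hZ]
  set n : X2 W := i0 W β + i1 W c with hn
  have hn1 : ‖n‖ = 1 := by
    have h := norm_X2 n
    simp only [hn, map_add, p0_i0, p0_i1, p1_i0, p1_i1, add_zero, zero_add] at h
    rw [Real.norm_eq_abs, sq_abs] at h
    have : ‖n‖ ^ 2 = 1 := by rw [hn, ← h]; linarith
    nlinarith [norm_nonneg n]
  have hn0 : n ≠ 0 := by
    intro h0
    rw [h0, norm_zero] at hn1
    exact zero_ne_one hn1
  have h2 := std_halfspace n hn0 x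
  rw [hn1, div_one] at h2
  rw [← h2]
  refine measureReal_mono ?_ (measure_ne_top _ _)
  intro p hp
  simp only [hyp, mem_ofPred_eq] at hp ⊢
  have := H _ _ hp
  rw [inner_X2]
  simp only [hn, map_add, p0_i0, p0_i1, p1_i0, p1_i1, add_zero, zero_add]
  exact this

/-- the level of `y ↦ P(L y + N g ∈ Z)` as an average over the tied noise -/
lemma level_hyp (L : F →L[ℝ] E) {B : W →L[ℝ] E} {M : G →L[ℝ] E} {N : G1 →L[ℝ] E}
    (hN : ∀ t, ‖B.adjoint t‖ ^ 2 + ‖M.adjoint t‖ ^ 2 = ‖N.adjoint t‖ ^ 2) {Z : Set E}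
    (hZ : IsClosed Z) (y : F) :
    (gau N).real {z | L y + z ∈ Z} = (stdGaussian (X2 W)).real (hyp B M {z | L y + z ∈ Z}) :=
  (measure_hyp B M hN (isClosed_shift hZ _)).symm

/-- if the level of `P(B w + M g ∈ Z)` is positive then some fibre has positive level -/
lemma exists_fibre {B : W →L[ℝ] E} {M : G →L[ℝ] E} {N : G1 →L[ℝ] E}
    (hN : ∀ t, ‖B.adjoint t‖ ^ 2 + ‖M.adjoint t‖ ^ 2 = ‖N.adjoint t‖ ^ 2) {Z : Set E}
    (hZ : IsClosed Z) (h : (gau N).real Z ≠ 0) :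
    ∃ (w : W) (s : ℝ), Phi s ≤ (gau M).real {z | B w + z ∈ Z} := by
  rw [← measure_hyp B M hN hZ] at h
  by_contra hc
  push Not at hc
  apply h
  have : hyp B M Z = ∅ := by
    ext p
    simp only [hyp, mem_ofPred_eq, mem_empty_iff_false, iff_false, not_le]
    exact hc _ _
  rw [this, measureReal_empty]

/-- **Support inequality (*)**: `T` static map, `Q` the tied noise map (`= T A + B`), `A` the
motion, `R R† = 1 - A†A`, `B0` untied noise. -/
theorem support (T : F →L[ℝ] E) (Q : W →L[ℝ] E) (A : W →L[ℝ] F) (R : W →L[ℝ] W)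
    (B0 : G0 →L[ℝ] E) {M : G1 →L[ℝ] E} {N : G2 →L[ℝ] E}
    (hM : ∀ t, ‖(Q ∘L R).adjoint t‖ ^ 2 + ‖B0.adjoint t‖ ^ 2 = ‖M.adjoint t‖ ^ 2)
    (hN : ∀ t, ‖(T ∘L A).adjoint t‖ ^ 2 + ‖M.adjoint t‖ ^ 2 = ‖N.adjoint t‖ ^ 2)
    (hR : ∀ v, R.adjoint v = 0 → v = 0)
    {Z : Set E} (hZ : IsClosed Z) (cZ : Convex ℝ Z) {y0 : F} {e : ℝ}
    (h : (gau M).real {z | T y0 + z ∈ Z} < Phi (-e)) :
    (∀ w : W, (gau N).real {z | (T - Q ∘L A.adjoint) (y0 + A w) + z ∈ Z} = 0) ∨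
    ∃ (c : ℝ) (α : F) (μ : W), 0 ≤ c ∧ ‖R.adjoint μ‖ ≤ c ∧ c ^ 2 + ‖A.adjoint α‖ ^ 2 = 1 ∧
      ∀ y, (gau N).real {z | (T - Q ∘L A.adjoint) y + z ∈ Z}
        ≤ Phi (-(c * e + ⟪α, y - y0⟫ - ⟪μ, A.adjoint y⟫)) := by
  -- concrete version of `M`
  set M' : WithLp 2 (W × G0) →L[ℝ] E := (Q ∘L R) ∘L q0 W G0 + B0 ∘L q1 W G0 with hM'
  have adjM : ∀ t, ‖M'.adjoint t‖ ^ 2 = ‖(Q ∘L R).adjoint t‖ ^ 2 + ‖B0.adjoint t‖ ^ 2 := by
    intro t
    have h1 : M'.adjoint t = pr ((Q ∘L R).adjoint t) (B0.adjoint t) := by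
      apply ext_inner_right ℝ
      intro v
      rw [ContinuousLinearMap.adjoint_inner_left, inner_W2]
      simp only [hM', add_apply, ContinuousLinearMap.comp_apply, q0_pr, q1_pr, inner_add_right,
        ContinuousLinearMap.adjoint_inner_left]
    rw [h1, ← real_inner_self_eq_norm_sq, inner_W2, q0_pr, q1_pr, real_inner_self_eq_norm_sq,
      real_inner_self_eq_norm_sq]
  have eM : gau M = gau M' := by
    apply gau_ext
    intro t
    have := adjM t
    rw [hM t] at this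
    exact ((pow_left_inj₀ (norm_nonneg _) (norm_nonneg _) two_ne_zero).1 this).symm
  have hN' : ∀ t, ‖(T ∘L A).adjoint t‖ ^ 2 + ‖M'.adjoint t‖ ^ 2 = ‖N.adjoint t‖ ^ 2 := by
    intro t
    rw [adjM t, hM t, hN t]
  rw [eM] at h
  obtain ⟨c, α, μ, H⟩ := separate T Q M' hZ cZ h
  by_cases hall : ∀ y, (gau N).real {z | (T - Q ∘L A.adjoint) y + z ∈ Z} = 0
  · exact Or.inl fun w => hall _
  push Not at hall
  obtain ⟨y1, hy1⟩ := hall
  obtain ⟨w1, s1, hs1⟩ := exists_fibre hN' (isClosed_shift hZ _) hy1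
  -- the fibres
  have fib : ∀ (y : F) (w : W) (s : ℝ),
      Phi s ≤ (gau M').real {z | (T ∘L A) w + z ∈ {z | (T - Q ∘L A.adjoint) y + z ∈ Z}} →
      Phi s ≤ (gau M').real {z | T (y + A w) + Q (-(A.adjoint y)) + z ∈ Z} := by
    intro y w s hs
    refine hs.trans (le_of_eq ?_)
    congr 1
    ext z
    simp only [mem_ofPred_eq, ContinuousLinearMap.comp_apply, sub_apply, map_add, map_neg]
    have : T y - Q (A.adjoint y) + (T (A w) + z) = T y + T (A w) + -Q (A.adjoint y) + z := by abel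
    rw [this]
  have hs1' := fib _ _ _ hs1
  have hc : 0 ≤ c := c_nonneg H hs1'
  have hμ : ‖R.adjoint μ‖ ≤ c := by
    have h1 : ∀ v : W, ⟪R.adjoint μ, v⟫ ≤ c * ‖v‖ := by
      intro v
      have hv : M' (pr v 0) = Q (R v) := by
        simp only [hM', add_apply, ContinuousLinearMap.comp_apply, q0_pr, q1_pr, map_zero,
          add_zero]
      have h2 := mu_bound hZ H hs1' hv
      have h3 : ‖(pr v 0 : WithLp 2 (W × G0))‖ = ‖v‖ := by
        have : ‖(pr v 0 : WithLp 2 (W × G0))‖ ^ 2 = ‖v‖ ^ 2 := by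
          rw [← real_inner_self_eq_norm_sq, inner_W2, q0_pr, q1_pr, inner_zero_left, add_zero,
            real_inner_self_eq_norm_sq]
        exact (pow_left_inj₀ (norm_nonneg _) (norm_nonneg _) two_ne_zero).1 this
      rw [h3] at h2
      rw [ContinuousLinearMap.adjoint_inner_left]
      exact h2
    have h2 := h1 (R.adjoint μ)
    rw [real_inner_self_eq_norm_sq] at h2
    rcases eq_or_lt_of_le (norm_nonneg (R.adjoint μ)) with h0 | h0
    · rw [← h0]; exact hc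
    · nlinarith
  -- the bound for arbitrary `y`, before normalisation
  have key : ∀ (y : F) (w : W) (s : ℝ),
      Phi s ≤ (gau M').real {z | (T ∘L A) w + z ∈ {z | (T - Q ∘L A.adjoint) y + z ∈ Z}} →
      ⟪A.adjoint α, w⟫ + c * s < -(c * e + ⟪α, y - y0⟫ - ⟪μ, A.adjoint y⟫) := by
    intro y w s hs
    have h1 := H _ _ _ (fib y w s hs)
    rw [inner_neg_right] at h1
    have h2 : ⟪α, y + A w - y0⟫ = ⟪α, y - y0⟫ + ⟪A.adjoint α, w⟫ := by
      rw [ContinuousLinearMap.adjoint_inner_left, ← inner_add_right]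
      congr 1
      abel
    rw [h2] at h1
    linarith
  rcases eq_or_lt_of_le (show 0 ≤ c ^ 2 + ‖A.adjoint α‖ ^ 2 by positivity) with hr | hr
  · -- degenerate case
    have hc0 : c = 0 := by nlinarith [sq_nonneg c, sq_nonneg ‖A.adjoint α‖]
    have hα0 : A.adjoint α = 0 := by
      have : ‖A.adjoint α‖ ^ 2 = 0 := by nlinarith [sq_nonneg c, sq_nonneg ‖A.adjoint α‖]
      exact norm_eq_zero.1 (pow_eq_zero_iff two_ne_zero |>.1 this)
    have hμ0 : μ = 0 := by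
      apply hR
      rw [hc0] at hμ
      exact norm_le_zero_iff.1 hμ
    refine Or.inl fun w => ?_
    by_contra hne
    obtain ⟨w2, s2, hs2⟩ := exists_fibre hN' (isClosed_shift hZ _) hne
    have h1 := key _ _ _ hs2
    have h2 : ⟪α, y0 + A w - y0⟫ = 0 := by
      rw [add_sub_cancel_left, ← ContinuousLinearMap.adjoint_inner_left, hα0, inner_zero_left]
    rw [h2, hα0, hμ0, hc0] at h1
    simp at h1
  · -- normalisation
    set r : ℝ := Real.sqrt (c ^ 2 + ‖A.adjoint α‖ ^ 2) with hrd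
    have hr0 : 0 < r := Real.sqrt_pos.2 hr
    have hr2 : r ^ 2 = c ^ 2 + ‖A.adjoint α‖ ^ 2 := Real.sq_sqrt hr.le
    have hri : 0 ≤ r⁻¹ := (inv_pos.2 hr0).le
    have hone : (r⁻¹ * c) ^ 2 + ‖r⁻¹ • A.adjoint α‖ ^ 2 = 1 := by
      rw [norm_smul, Real.norm_of_nonneg hri, mul_pow, mul_pow, ← mul_add, ← hr2, ← mul_pow,
        inv_mul_cancel₀ hr0.ne', one_pow]
    refine Or.inr ⟨r⁻¹ * c, r⁻¹ • α, r⁻¹ • μ, mul_nonneg hri hc, ?_, ?_, fun y => ?_⟩
    · rw [map_smul, norm_smul, Real.norm_of_nonneg hri]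
      exact mul_le_mul_of_nonneg_left hμ hri
    · rw [map_smul]; exact hone
    · refine halfspace_bound hN' (isClosed_shift hZ _) hone fun w s hs => ?_
      have h1 := (key y w s hs).le
      have h2 := mul_le_mul_of_nonneg_left h1 hri
      rw [inner_smul_left, inner_smul_left, inner_smul_left]
      simp only [conj_trivial]
      linarith

/-! ### The comparison lemma -/

/-- `R` has a right inverse of norm `≤ (1-θ²)^{-1/2}`. -/
lemma exists_preimage {A : W →L[ℝ] F} {R : W →L[ℝ] W} {θ : ℝ} (hθ0 : 0 ≤ θ) (hθ1 : θ < 1)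
    (hA : ∀ v, ‖A v‖ ≤ θ * ‖v‖) (hR : ∀ v, ‖A v‖ ^ 2 + ‖R.adjoint v‖ ^ 2 = ‖v‖ ^ 2) (w : W) :
    ∃ h : W, R h = w ∧ Real.sqrt (1 - θ ^ 2) * ‖h‖ ≤ ‖w‖ := by
  set k : ℝ := Real.sqrt (1 - θ ^ 2) with hk
  have h1θ : 0 < 1 - θ ^ 2 := by nlinarith
  have hk0 : 0 < k := Real.sqrt_pos.2 h1θ
  have hk2 : k ^ 2 = 1 - θ ^ 2 := Real.sq_sqrt h1θ.le
  have hlow : ∀ v, k * ‖v‖ ≤ ‖R.adjoint v‖ := by
    intro v
    have h1 := hA v
    have h2 := hR v
    have h3 : ‖A v‖ ^ 2 ≤ θ ^ 2 * ‖v‖ ^ 2 := by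
      rw [← mul_pow]
      exact pow_le_pow_left₀ (norm_nonneg _) h1 2
    have h4 : (k * ‖v‖) ^ 2 ≤ ‖R.adjoint v‖ ^ 2 := by
      rw [mul_pow, hk2]; nlinarith
    exact (pow_le_pow_iff_left₀ (by positivity) (norm_nonneg _) two_ne_zero).1 h4
  have hinj : Function.Injective ((R ∘L R.adjoint : W →L[ℝ] W) : W →ₗ[ℝ] W) := by
    rw [injective_iff_map_eq_zero]
    intro v hv
    have h1 : ‖R.adjoint v‖ ^ 2 = 0 := by
      rw [← real_inner_self_eq_norm_sq, ContinuousLinearMap.adjoint_inner_left]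
      have : R (R.adjoint v) = 0 := hv
      rw [this, inner_zero_right]
    have h2 : ‖R.adjoint v‖ = 0 := pow_eq_zero_iff two_ne_zero |>.1 h1
    have h3 := hlow v
    rw [h2] at h3
    have : ‖v‖ ≤ 0 := by
      by_contra hc
      push Not at hc
      nlinarith
    exact norm_le_zero_iff.1 this
  have hsurj := LinearMap.surjective_of_injective hinj
  obtain ⟨v, hv⟩ := hsurj w
  have hv' : R (R.adjoint v) = w := hv
  refine ⟨R.adjoint v, hv', ?_⟩
  have h1 : ‖R.adjoint v‖ ^ 2 = ⟪v, w⟫ := by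
    rw [← real_inner_self_eq_norm_sq, ContinuousLinearMap.adjoint_inner_left, hv']
  have h2 := real_inner_le_norm v w
  have h3 := hlow v
  rcases eq_or_lt_of_le (norm_nonneg (R.adjoint v)) with h0 | h0
  · rw [← h0, mul_zero]; exact norm_nonneg _
  · by_contra hc
    push Not at hc
    have : ‖v‖ * ‖w‖ < ‖R.adjoint v‖ ^ 2 := by
      have h5 : k * (‖v‖ * ‖w‖) < k * ‖R.adjoint v‖ ^ 2 := by
        calc k * (‖v‖ * ‖w‖) = (k * ‖v‖) * ‖w‖ := by ring
          _ ≤ ‖R.adjoint v‖ * ‖w‖ := mul_le_mul_of_nonneg_right h3 (norm_nonneg _)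
          _ < ‖R.adjoint v‖ * (k * ‖R.adjoint v‖) := mul_lt_mul_of_pos_left hc h0
          _ = k * ‖R.adjoint v‖ ^ 2 := by ring
      exact lt_of_mul_lt_mul_left h5 hk0.le
    linarith

end Crest.Agent.R239.Sup
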