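import Mathlib
import Crest.Agent.R239.Sup590
import Crest.Agent.R239.Gau7

/-! R239, helper590: comparison lemma CMP and near inclusion (K4). -/

set_option autoImplicit false
set_option linter.unusedSectionVars false
open MeasureTheory ProbabilityTheory Set Filter Topology Metric
open scoped ENNReal NNReal RealInnerProductSpace Pointwise

namespace Crest.Agent.R239.Sup

open Crest.Agent.R239.Pass690
open Crest.Agent.Lib.Ehrhard (Phi Phi_pos Phi_lt_one strictMono_Phi Phi_neg continuous_Phi)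

variable {E : Type*} [NormedAddCommGroup E] [InnerProductSpace ℝ E] [FiniteDimensional ℝ E]
  [MeasurableSpace E] [BorelSpace E]
variable {F : Type*} [NormedAddCommGroup F] [InnerProductSpace ℝ F] [FiniteDimensional ℝ F]
  [MeasurableSpace F] [BorelSpace F]
variable {W : Type*} [NormedAddCommGroup W] [InnerProductSpace ℝ W] [FiniteDimensional ℝ W]
  [MeasurableSpace W] [BorelSpace W]
variable {G0 : Type*} [NormedAddCommGroup G0] [InnerProductSpace ℝ G0] [FiniteDimensional ℝ G0]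
  [MeasurableSpace G0] [BorelSpace G0]
variable {G1 : Type*} [NormedAddCommGroup G1] [InnerProductSpace ℝ G1] [FiniteDimensional ℝ G1]
  [MeasurableSpace G1] [BorelSpace G1]
variable {G2 : Type*} [NormedAddCommGroup G2] [InnerProductSpace ℝ G2] [FiniteDimensional ℝ G2]
  [MeasurableSpace G2] [BorelSpace G2]
variable {G3 : Type*} [NormedAddCommGroup G3] [InnerProductSpace ℝ G3] [FiniteDimensional ℝ G3]
  [MeasurableSpace G3] [BorelSpace G3]

/-- the concrete conditional noise -/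
noncomputable def conc (P : W →L[ℝ] E) (B0 : G0 →L[ℝ] E) : WithLp 2 (W × G0) →L[ℝ] E :=
  P ∘L q0 W G0 + B0 ∘L q1 W G0

lemma adj_conc (P : W →L[ℝ] E) (B0 : G0 →L[ℝ] E) (t : E) :
    ‖(conc P B0).adjoint t‖ ^ 2 = ‖P.adjoint t‖ ^ 2 + ‖B0.adjoint t‖ ^ 2 := by
  have h1 : (conc P B0).adjoint t = pr (P.adjoint t) (B0.adjoint t) := by
    apply ext_inner_right ℝ
    intro v
    rw [ContinuousLinearMap.adjoint_inner_left, inner_W2]
    simp only [conc, add_apply, ContinuousLinearMap.comp_apply, q0_pr, q1_pr, inner_add_right,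
      ContinuousLinearMap.adjoint_inner_left]
  rw [h1, ← real_inner_self_eq_norm_sq, inner_W2, q0_pr, q1_pr, real_inner_self_eq_norm_sq,
    real_inner_self_eq_norm_sq]

lemma gau_conc {P : W →L[ℝ] E} {B0 : G0 →L[ℝ] E} {M : G1 →L[ℝ] E}
    (hM : ∀ t, ‖P.adjoint t‖ ^ 2 + ‖B0.adjoint t‖ ^ 2 = ‖M.adjoint t‖ ^ 2) :
    gau M = gau (conc P B0) := by
  apply gau_ext
  intro t
  have := adj_conc P B0 t
  rw [hM t] at this
  exact ((pow_left_inj₀ (norm_nonneg _) (norm_nonneg _) two_ne_zero).1 this).symm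

lemma norm_pr_zero (v : W) : ‖(pr v 0 : WithLp 2 (W × G0))‖ = ‖v‖ := by
  have : ‖(pr v 0 : WithLp 2 (W × G0))‖ ^ 2 = ‖v‖ ^ 2 := by
    rw [← real_inner_self_eq_norm_sq, inner_W2, q0_pr, q1_pr, inner_zero_left, add_zero,
      real_inner_self_eq_norm_sq]
  exact (pow_left_inj₀ (norm_nonneg _) (norm_nonneg _) two_ne_zero).1 this

/-- shift of the tied part of the noise -/
lemma shift_tied {P : W →L[ℝ] E} {B0 : G0 →L[ℝ] E} {M : G1 →L[ℝ] E}
    (hM : ∀ t, ‖P.adjoint t‖ ^ 2 + ‖B0.adjoint t‖ ^ 2 = ‖M.adjoint t‖ ^ 2) {Z : Set E}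
    (hZ : MeasurableSet Z) {x : E} {s : ℝ} (v : W) (h : Phi s ≤ (gau M).real {z | x + z ∈ Z}) :
    Phi (s - ‖v‖) ≤ (gau M).real {z | x + P v + z ∈ Z} := by
  rw [gau_conc hM] at h ⊢
  have h2 := tset_shift (conc P B0) hZ (pr v 0) (y := x) (a := s) h
  rw [norm_pr_zero] at h2
  have e : conc P B0 (pr v 0) = P v := by
    simp only [conc, add_apply, ContinuousLinearMap.comp_apply, q0_pr, q1_pr, map_zero, add_zero]
  rw [e] at h2
  exact h2

/-- **CMP**: enlarging the tied noise from `Q R g` to `Q g` costs at most `k⁻¹ E|A†ξ|` in level. -/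
theorem cmp {Q : W →L[ℝ] E} {A : W →L[ℝ] F} {R : W →L[ℝ] W} {B0 : G0 →L[ℝ] E}
    {M : G1 →L[ℝ] E} {D : G2 →L[ℝ] E} {θ : ℝ} (hθ0 : 0 ≤ θ) (hθ1 : θ < 1)
    (hA : ∀ v, ‖A v‖ ≤ θ * ‖v‖) (hR : ∀ v, ‖A v‖ ^ 2 + ‖R.adjoint v‖ ^ 2 = ‖v‖ ^ 2)
    (hM : ∀ t, ‖(Q ∘L R).adjoint t‖ ^ 2 + ‖B0.adjoint t‖ ^ 2 = ‖M.adjoint t‖ ^ 2)
    (hD : ∀ t, ‖Q.adjoint t‖ ^ 2 + ‖B0.adjoint t‖ ^ 2 = ‖D.adjoint t‖ ^ 2)
    {Z : Set E} (hZ : IsClosed Z) {x : E} {s : ℝ}
    (h : Phi s ≤ (gau M).real {z | x + z ∈ Z}) :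
    Phi s - (Real.sqrt (1 - θ ^ 2))⁻¹ * ∫ ξ, ‖A.adjoint ξ‖ ∂(stdGaussian F)
      ≤ (gau D).real {z | x + z ∈ Z} := by
  set k : ℝ := Real.sqrt (1 - θ ^ 2) with hk
  have h1θ : 0 < 1 - θ ^ 2 := by nlinarith
  have hk0 : 0 < k := Real.sqrt_pos.2 h1θ
  have hmix : ∀ t, ‖(Q ∘L A.adjoint).adjoint t‖ ^ 2 + ‖M.adjoint t‖ ^ 2 = ‖D.adjoint t‖ ^ 2 := by
    intro t
    rw [← hM t, ← hD t, ContinuousLinearMap.adjoint_comp, ContinuousLinearMap.adjoint_comp,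
      ContinuousLinearMap.adjoint_adjoint, ContinuousLinearMap.comp_apply,
      ContinuousLinearMap.comp_apply, ← hR (Q.adjoint t)]
    ring
  have hK := isClosed_shift hZ x
  rw [gau_mix_real hmix hK.measurableSet]
  have hmeas : Measurable (fun u : E => (gau M).real {z | u + z ∈ {z | x + z ∈ Z}}) :=
    measurable_gau_shift_real M hK.measurableSet
  have e1 : ∫ u, (gau M).real {z | u + z ∈ {z | x + z ∈ Z}} ∂(gau (Q ∘L A.adjoint))
      = ∫ ξ, (gau M).real {z | (Q ∘L A.adjoint) ξ + z ∈ {z | x + z ∈ Z}} ∂(stdGaussian F) := by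
    exact integral_map (Q ∘L A.adjoint).continuous.aemeasurable hmeas.aestronglyMeasurable
  rw [e1]
  have hint : Integrable (fun ξ : F => ‖A.adjoint ξ‖) (stdGaussian F) := by
    refine (integrable_norm_std (F := F)).const_mul ‖A.adjoint‖ |>.mono'
      (A.adjoint.continuous.norm.aestronglyMeasurable) (Eventually.of_forall fun ξ => ?_)
    rw [Real.norm_of_nonneg (norm_nonneg _)]
    exact A.adjoint.le_opNorm ξ
  have hpt : ∀ ξ : F, Phi s - k⁻¹ * ‖A.adjoint ξ‖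
      ≤ (gau M).real {z | (Q ∘L A.adjoint) ξ + z ∈ {z | x + z ∈ Z}} := by
    intro ξ
    obtain ⟨v, hv, hvn⟩ := exists_preimage hθ0 hθ1 hA hR (A.adjoint ξ)
    have h2 := shift_tied hM hZ.measurableSet v h
    have e2 : {z | x + (Q ∘L R) v + z ∈ Z} = {z | (Q ∘L A.adjoint) ξ + z ∈ {z | x + z ∈ Z}} := by
      ext z
      simp only [mem_ofPred_eq, ContinuousLinearMap.comp_apply, hv, add_assoc]
    rw [e2] at h2
    have h3 := Phi_sub_le (a := s) (b := s - ‖v‖) (by linarith [norm_nonneg v])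
    have h4 : ‖v‖ ≤ k⁻¹ * ‖A.adjoint ξ‖ := by
      rw [← hk] at hvn
      rw [inv_mul_eq_div, le_div_iff₀ hk0]
      linarith
    linarith
  have h5 : ∫ ξ, (Phi s - k⁻¹ * ‖A.adjoint ξ‖) ∂(stdGaussian F)
      ≤ ∫ ξ, (gau M).real {z | (Q ∘L A.adjoint) ξ + z ∈ {z | x + z ∈ Z}} ∂(stdGaussian F) := by
    refine integral_mono ((integrable_const _).sub (hint.const_mul _)) ?_ hpt
    refine integrable_of_bdd (hmeas.comp (Q ∘L A.adjoint).continuous.measurable) (M := 1) ?_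
    intro ξ
    have h0 : 0 ≤ (gau M).real {z | (Q ∘L A.adjoint) ξ + z ∈ {z | x + z ∈ Z}} := measureReal_nonneg
    have h01 : (gau M).real {z | (Q ∘L A.adjoint) ξ + z ∈ {z | x + z ∈ Z}} ≤ 1 := measureReal_le_one
    exact (abs_of_nonneg h0).trans_le h01
  rw [integral_sub (integrable_const _) (hint.const_mul _), integral_const, integral_const_mul] at h5
  simpa using h5

/-- a closed convex set of Gaussian measure `≥ Φ(-d)`, `d ≥ 0`, meets the ball of radius `d` -/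
lemma exists_near {K : Set E} (hK : IsClosed K) (cK : Convex ℝ K) {d : ℝ} (hd : 0 ≤ d)
    (h : Phi (-d) ≤ (stdGaussian E).real K) : ∃ x ∈ K, ‖x‖ ≤ d := by
  have hiso := isoperimetry hK cK (r := d) hd h
  rw [neg_add_cancel] at hiso
  have hcc : Convex ℝ (cthickening d K) := cK.cthickening _
  have h0 : (0:E) ∈ cthickening d K :=
    ball_subset isClosed_cthickening hcc hiso (mem_closedBall_self le_rfl)
  obtain ⟨p, hp, u, hu, hpu⟩ := cthickening_subset_add hK hd h0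
  refine ⟨p, hp, ?_⟩
  have : p = -u := eq_neg_of_add_eq_zero_left hpu
  rw [this, norm_neg]
  exact mem_closedBall_zero_iff.1 hu

/-- first step of the near inclusion: freeze the static copy of the noise -/
lemma freeze {B : W →L[ℝ] E} {M : G1 →L[ℝ] E} {N : G2 →L[ℝ] E}
    (hN : ∀ t, ‖B.adjoint t‖ ^ 2 + ‖M.adjoint t‖ ^ 2 = ‖N.adjoint t‖ ^ 2) {Z : Set E}
    (hZ : IsClosed Z) (cZ : Convex ℝ Z) {d : ℝ} (hd : 0 ≤ d) (h : Phi (-d) ≤ (gau N).real Z) :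
    ∃ v : W, ‖v‖ ≤ d ∧ Phi (-d) ≤ (gau M).real {z | B v + z ∈ Z} := by
  rw [← measure_hyp B M hN hZ] at h
  obtain ⟨p, hp, hpd⟩ := exists_near (isClosed_hyp B M hZ) (convex_hyp B M hZ cZ) hd h
  have hn := norm_X2 p
  have h1 : ‖p0 W p‖ ≤ d := by
    refine le_trans ?_ hpd
    have : ‖p0 W p‖ ^ 2 ≤ ‖p‖ ^ 2 := by nlinarith [sq_nonneg ‖p1 W p‖]
    exact (pow_le_pow_iff_left₀ (norm_nonneg _) (norm_nonneg _) two_ne_zero).1 this
  have h2 : |p1 W p| ≤ d := by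
    refine le_trans ?_ hpd
    have : ‖p1 W p‖ ^ 2 ≤ ‖p‖ ^ 2 := by nlinarith [sq_nonneg ‖p0 W p‖]
    have := (pow_le_pow_iff_left₀ (norm_nonneg _) (norm_nonneg _) two_ne_zero).1 this
    simpa using this
  refine ⟨p0 W p, h1, ?_⟩
  have h3 : -d ≤ p1 W p := by have := neg_abs_le (p1 W p); linarith
  exact (strictMono_Phi.monotone h3).trans hp

/-- **Near inclusion (K4)** in operator form. -/
theorem near_incl {T : F →L[ℝ] E} {Q : W →L[ℝ] E} {A : W →L[ℝ] F} {R : W →L[ℝ] W}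
    {B0 : G0 →L[ℝ] E} {M : G1 →L[ℝ] E} {N : G2 →L[ℝ] E} {D : G3 →L[ℝ] E} {θ : ℝ} (hθ0 : 0 ≤ θ)
    (hθ1 : θ < 1) (hA : ∀ v, ‖A v‖ ≤ θ * ‖v‖)
    (hR : ∀ v, ‖A v‖ ^ 2 + ‖R.adjoint v‖ ^ 2 = ‖v‖ ^ 2)
    (hM : ∀ t, ‖(Q ∘L R).adjoint t‖ ^ 2 + ‖B0.adjoint t‖ ^ 2 = ‖M.adjoint t‖ ^ 2)
    (hN : ∀ t, ‖(T ∘L A).adjoint t‖ ^ 2 + ‖M.adjoint t‖ ^ 2 = ‖N.adjoint t‖ ^ 2)
    (hD : ∀ t, ‖Q.adjoint t‖ ^ 2 + ‖B0.adjoint t‖ ^ 2 = ‖D.adjoint t‖ ^ 2)
    {Z : Set E} (hZ : IsClosed Z) (cZ : Convex ℝ Z) {y : F} {d : ℝ} (hd : 0 ≤ d)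
    (h : Phi (-d) ≤ (gau N).real {z | (T - Q ∘L A.adjoint) y + z ∈ Z}) :
    ∃ v : W, ‖v‖ ≤ d ∧ Phi (-d - (Real.sqrt (1 - θ ^ 2))⁻¹ * ‖A.adjoint y‖)
      - (Real.sqrt (1 - θ ^ 2))⁻¹ * ∫ ξ, ‖A.adjoint ξ‖ ∂(stdGaussian F)
      ≤ (gau D).real {z | T (y + A v) + z ∈ Z} := by
  set k : ℝ := Real.sqrt (1 - θ ^ 2) with hk
  have h1θ : 0 < 1 - θ ^ 2 := by nlinarith
  have hk0 : 0 < k := Real.sqrt_pos.2 h1θ
  obtain ⟨v, hv, h1⟩ := freeze hN (isClosed_shift hZ _) (convex_shift cZ _) hd h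
  refine ⟨v, hv, ?_⟩
  obtain ⟨u, hu, hun⟩ := exists_preimage hθ0 hθ1 hA hR (A.adjoint y)
  have e1 : {z | (T ∘L A) v + z ∈ {z | (T - Q ∘L A.adjoint) y + z ∈ Z}}
      = {z | (T (y + A v) - Q (A.adjoint y)) + z ∈ Z} := by
    ext z
    simp only [mem_ofPred_eq, ContinuousLinearMap.comp_apply, sub_apply, map_add]
    have : T y - Q (A.adjoint y) + (T (A v) + z) = T y + T (A v) - Q (A.adjoint y) + z := by abel
    rw [this]
  rw [e1] at h1
  have h2 := shift_tied hM hZ.measurableSet u h1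
  have e2 : T (y + A v) - Q (A.adjoint y) + (Q ∘L R) u = T (y + A v) := by
    rw [ContinuousLinearMap.comp_apply, hu]; abel
  rw [e2] at h2
  have h3 : Phi (-d - k⁻¹ * ‖A.adjoint y‖) ≤ (gau M).real {z | T (y + A v) + z ∈ Z} := by
    refine le_trans (strictMono_Phi.monotone ?_) h2
    have : ‖u‖ ≤ k⁻¹ * ‖A.adjoint y‖ := by
      rw [← hk] at hun
      rw [inv_mul_eq_div, le_div_iff₀ hk0]
      linarith
    linarith
  exact cmp hθ0 hθ1 hA hR hM hD hZ h3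

end Crest.Agent.R239.Sup
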