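import Mathlib

/-!
# R239: the trace splitting lemma

`QM u = ∑_{v ∈ u} v vᵀ`, `Psi k u = n - tr (1 + k QM u)⁻¹`.  Every word `u` either splits as
`u = u₁ ++ v :: u₂` with `Psi u₁, Psi u₂ ≤ Psi u - δ`, or `∑ᵢ min (kλᵢ) (1/(kλᵢ)) ≤ 6 δ` for the
eigenvalues `λᵢ` of `QM u`.
-/

set_option autoImplicit false
set_option linter.unusedSectionVars false

open Matrix

namespace Crest.Agent.R239

variable {ι : Type*} [Fintype ι] [DecidableEq ι]

/-! ### variational formula for the inverse -/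

section var

variable {M A B : Matrix ι ι ℝ}

lemma dot_comm_of_symm (hM : M.IsHermitian) (x y : ι → ℝ) : x ⬝ᵥ (M *ᵥ y) = y ⬝ᵥ (M *ᵥ x) := by
  have h : Mᵀ = M := by simpa [conjTranspose_eq_transpose_of_trivial] using hM.eq
  rw [dotProduct_mulVec, ← mulVec_transpose, h, dotProduct_comm]

lemma inv_mulVec_mulVec (hM : M.PosDef) (b : ι → ℝ) : M *ᵥ (M⁻¹ *ᵥ b) = b := by
  rw [mulVec_mulVec, Matrix.mul_nonsing_inv _ ((Matrix.isUnit_iff_isUnit_det _).1 hM.isUnit), one_mulVec]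

lemma dot_nonneg (hM : M.PosSemidef) (x : ι → ℝ) : 0 ≤ x ⬝ᵥ (M *ᵥ x) := by
  have := hM.dotProduct_mulVec_nonneg x
  simpa using this

/-- `2 b·y - y·My ≤ b·M⁻¹b` -/
lemma dot_inv_ge (hM : M.PosDef) (b y : ι → ℝ) :
    2 * (b ⬝ᵥ y) - y ⬝ᵥ (M *ᵥ y) ≤ b ⬝ᵥ (M⁻¹ *ᵥ b) := by
  have h := dot_nonneg hM.posSemidef (y - M⁻¹ *ᵥ b)
  rw [mulVec_sub, inv_mulVec_mulVec hM, sub_dotProduct, dotProduct_sub, dotProduct_sub] at h
  have h1 : (M⁻¹ *ᵥ b) ⬝ᵥ (M *ᵥ y) = b ⬝ᵥ y := by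
    rw [dot_comm_of_symm hM.1, inv_mulVec_mulVec hM, dotProduct_comm]
  have h2 : (M⁻¹ *ᵥ b) ⬝ᵥ b = b ⬝ᵥ (M⁻¹ *ᵥ b) := dotProduct_comm _ _
  rw [h1, h2, dotProduct_comm y b] at h
  linarith

lemma dot_inv_eq (hM : M.PosDef) (b : ι → ℝ) :
    2 * (b ⬝ᵥ (M⁻¹ *ᵥ b)) - (M⁻¹ *ᵥ b) ⬝ᵥ (M *ᵥ (M⁻¹ *ᵥ b)) = b ⬝ᵥ (M⁻¹ *ᵥ b) := by
  rw [inv_mulVec_mulVec hM, dotProduct_comm (M⁻¹ *ᵥ b) b]
  ring

/-- `M ↦ b·M⁻¹b` is antitone. -/
lemma dot_inv_anti (hA : A.PosDef) (hB : B.PosDef)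
    (h : ∀ y, y ⬝ᵥ (A *ᵥ y) ≤ y ⬝ᵥ (B *ᵥ y)) (b : ι → ℝ) :
    b ⬝ᵥ (B⁻¹ *ᵥ b) ≤ b ⬝ᵥ (A⁻¹ *ᵥ b) := by
  have h1 := dot_inv_ge hA b (B⁻¹ *ᵥ b)
  have h2 := dot_inv_eq hB b
  have h3 := h (B⁻¹ *ᵥ b)
  linarith

/-- `M ↦ b·M⁻¹b` is convex. -/
lemma dot_inv_convex (hA : A.PosDef) (hB : B.PosDef) (hM : M.PosDef)
    (h : ∀ y, 2 * (y ⬝ᵥ (M *ᵥ y)) = y ⬝ᵥ (A *ᵥ y) + y ⬝ᵥ (B *ᵥ y)) (b : ι → ℝ) :
    2 * (b ⬝ᵥ (M⁻¹ *ᵥ b)) ≤ b ⬝ᵥ (A⁻¹ *ᵥ b) + b ⬝ᵥ (B⁻¹ *ᵥ b) := by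
  have h1 := dot_inv_ge hA b (M⁻¹ *ᵥ b)
  have h2 := dot_inv_ge hB b (M⁻¹ *ᵥ b)
  have h3 := dot_inv_eq hM b
  have h4 := h (M⁻¹ *ᵥ b)
  linarith

/-- trace in an arbitrary orthonormal basis -/
lemma trace_eq_sum_dot {κ : Type*} [Fintype κ] (M : Matrix ι ι ℝ)
    (b : OrthonormalBasis κ ℝ (EuclideanSpace ℝ ι)) :
    M.trace = ∑ i, (b i).ofLp ⬝ᵥ (M *ᵥ (b i).ofLp) := by
  have h1 := LinearMap.trace_eq_sum_inner (toEuclideanLin M) b
  have h2 : LinearMap.trace ℝ _ (toEuclideanLin M) = M.trace := by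
    rw [LinearMap.trace_eq_matrix_trace ℝ (EuclideanSpace.basisFun ι ℝ).toBasis]
    congr 1
    rw [toEuclideanLin_eq_toLin_orthonormal]
    simp
  rw [← h2, h1]
  refine Finset.sum_congr rfl fun i _ => ?_
  rw [EuclideanSpace.inner_eq_star_dotProduct, Matrix.ofLp_toLpLin, Matrix.toLin'_apply,
    dotProduct_comm]
  simp

end var

/-! ### energy matrices -/

/-- energy matrix of a word -/
noncomputable def QM (u : List (EuclideanSpace ℝ ι)) : Matrix ι ι ℝ :=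
  (u.map fun v => Matrix.vecMulVec v.ofLp v.ofLp).sum

@[simp] lemma QM_nil : QM ([] : List (EuclideanSpace ℝ ι)) = 0 := rfl

@[simp] lemma QM_cons (v : EuclideanSpace ℝ ι) (u : List (EuclideanSpace ℝ ι)) :
    QM (v :: u) = Matrix.vecMulVec v.ofLp v.ofLp + QM u := by simp [QM]

@[simp] lemma QM_append (u w : List (EuclideanSpace ℝ ι)) : QM (u ++ w) = QM u + QM w := by
  simp [QM]

lemma QM_posSemidef (u : List (EuclideanSpace ℝ ι)) : (QM u).PosSemidef := by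
  induction u with
  | nil => exact PosSemidef.zero
  | cons v u ih =>
    rw [QM_cons]
    refine PosSemidef.add ?_ ih
    have := posSemidef_vecMulVec_self_star (R := ℝ) v.ofLp
    simpa using this

lemma dot_QM (u : List (EuclideanSpace ℝ ι)) (x y : ι → ℝ) :
    x ⬝ᵥ (QM u *ᵥ y) = (u.map fun v => (v.ofLp ⬝ᵥ x) * (v.ofLp ⬝ᵥ y)).sum := by
  induction u with
  | nil => simp
  | cons v u ih =>
    rw [QM_cons, add_mulVec, dotProduct_add, ih, List.map_cons, List.sum_cons]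
    congr 1
    rw [vecMulVec_mulVec]
    simp [dotProduct_comm x v.ofLp, mul_comm]

lemma dot_QM_nonneg (u : List (EuclideanSpace ℝ ι)) (x : ι → ℝ) : 0 ≤ x ⬝ᵥ (QM u *ᵥ x) :=
  dot_nonneg (QM_posSemidef u) x

/-- `1 + k QM u` -/
noncomputable def MQ (k : ℝ) (u : List (EuclideanSpace ℝ ι)) : Matrix ι ι ℝ := 1 + k • QM u

lemma dot_MQ (k : ℝ) (u : List (EuclideanSpace ℝ ι)) (x y : ι → ℝ) :
    x ⬝ᵥ (MQ k u *ᵥ y) = x ⬝ᵥ y + k * (x ⬝ᵥ (QM u *ᵥ y)) := by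
  simp [MQ, add_mulVec, smul_mulVec]

lemma MQ_posDef {k : ℝ} (hk : 0 ≤ k) (u : List (EuclideanSpace ℝ ι)) : (MQ k u).PosDef :=
  PosDef.add_posSemidef PosDef.one ((QM_posSemidef u).smul hk)

/-- `b · (1 + k Q_u)⁻¹ b` -/
noncomputable def rs (k : ℝ) (u : List (EuclideanSpace ℝ ι)) (b : ι → ℝ) : ℝ :=
  b ⬝ᵥ ((MQ k u)⁻¹ *ᵥ b)

lemma rs_nonneg {k : ℝ} (hk : 0 ≤ k) (u : List (EuclideanSpace ℝ ι)) (b : ι → ℝ) : 0 ≤ rs k u b :=
  dot_nonneg (MQ_posDef hk u).posSemidef.inv b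

lemma rs_le {k : ℝ} (hk : 0 ≤ k) (u : List (EuclideanSpace ℝ ι)) (b : ι → ℝ) :
    rs k u b ≤ b ⬝ᵥ b := by
  have h := dot_inv_anti (PosDef.one (n := ι) (R := ℝ)) (MQ_posDef hk u) (fun y => by
    rw [dot_MQ, one_mulVec]
    have := mul_nonneg hk (dot_QM_nonneg u y)
    linarith) b
  simpa [rs] using h

lemma rs_anti {k : ℝ} (hk : 0 ≤ k) {u w : List (EuclideanSpace ℝ ι)}
    (h : ∀ y, y ⬝ᵥ (QM u *ᵥ y) ≤ y ⬝ᵥ (QM w *ᵥ y)) (b : ι → ℝ) : rs k w b ≤ rs k u b := by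
  refine dot_inv_anti (MQ_posDef hk u) (MQ_posDef hk w) (fun y => ?_) b
  rw [dot_MQ, dot_MQ]
  have := mul_le_mul_of_nonneg_left (h y) hk
  linarith

/-- `Psi k u = n - tr (1 + k Q_u)⁻¹` -/
noncomputable def Psi (k : ℝ) (u : List (EuclideanSpace ℝ ι)) : ℝ :=
  Fintype.card ι - ((MQ k u)⁻¹).trace

lemma trace_inv_eq {κ : Type*} [Fintype κ] (k : ℝ) (u : List (EuclideanSpace ℝ ι))
    (b : OrthonormalBasis κ ℝ (EuclideanSpace ℝ ι)) :
    ((MQ k u)⁻¹).trace = ∑ i, rs k u (b i).ofLp := trace_eq_sum_dot _ b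

lemma dot_self_basis {κ : Type*} [Fintype κ] (b : OrthonormalBasis κ ℝ (EuclideanSpace ℝ ι)) (i : κ) :
    (b i).ofLp ⬝ᵥ (b i).ofLp = 1 := by
  have h := b.orthonormal.1 i
  have h2 : ‖b i‖ ^ 2 = (b i).ofLp ⬝ᵥ (b i).ofLp := by
    rw [EuclideanSpace.real_norm_sq_eq, dotProduct]
    exact Finset.sum_congr rfl fun j _ => by ring
  rw [← h2, h, one_pow]

lemma Psi_eq {κ : Type*} [Fintype κ] (k : ℝ) (u : List (EuclideanSpace ℝ ι))
    (b : OrthonormalBasis κ ℝ (EuclideanSpace ℝ ι)) :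
    Psi k u = ∑ i, (1 - rs k u (b i).ofLp) := by
  have hcard : (Fintype.card κ : ℝ) = Fintype.card ι := by
    have h1 := Module.finrank_eq_card_basis b.toBasis
    have h2 : Module.finrank ℝ (EuclideanSpace ℝ ι) = Fintype.card ι := by simp
    rw [h1] at h2
    exact_mod_cast h2
  rw [Finset.sum_sub_distrib, Psi, trace_inv_eq k u b]
  simp [hcard]

lemma Psi_nonneg {k : ℝ} (hk : 0 ≤ k) (u : List (EuclideanSpace ℝ ι)) : 0 ≤ Psi k u := by
  rw [Psi_eq k u (EuclideanSpace.basisFun ι ℝ)]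
  refine Finset.sum_nonneg fun i _ => ?_
  have h1 := rs_le hk u (EuclideanSpace.basisFun ι ℝ i).ofLp
  rw [dot_self_basis] at h1
  linarith

lemma Psi_le_card {k : ℝ} (hk : 0 ≤ k) (u : List (EuclideanSpace ℝ ι)) :
    Psi k u ≤ Fintype.card ι := by
  have : 0 ≤ ((MQ k u)⁻¹).trace := by
    rw [trace_inv_eq k u (EuclideanSpace.basisFun ι ℝ)]
    exact Finset.sum_nonneg fun i _ => rs_nonneg hk u _
  unfold Psi
  linarith

lemma Psi_nil (k : ℝ) : Psi k ([] : List (EuclideanSpace ℝ ι)) = 0 := by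
  simp [Psi, MQ]

/-- monotonicity of `Psi` with respect to the energy form -/
lemma Psi_mono {k : ℝ} (hk : 0 ≤ k) {u w : List (EuclideanSpace ℝ ι)}
    (h : ∀ y, y ⬝ᵥ (QM u *ᵥ y) ≤ y ⬝ᵥ (QM w *ᵥ y)) : Psi k u ≤ Psi k w := by
  rw [Psi_eq k u (EuclideanSpace.basisFun ι ℝ), Psi_eq k w (EuclideanSpace.basisFun ι ℝ)]
  refine Finset.sum_le_sum fun i _ => ?_
  have := rs_anti hk h (EuclideanSpace.basisFun ι ℝ i).ofLp
  linarith

lemma Psi_mono_left {k : ℝ} (hk : 0 ≤ k) (u w : List (EuclideanSpace ℝ ι)) :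
    Psi k u ≤ Psi k (u ++ w) := Psi_mono hk fun y => by
  rw [QM_append, add_mulVec, dotProduct_add]
  linarith [dot_QM_nonneg w y]

lemma Psi_mono_right {k : ℝ} (hk : 0 ≤ k) (u w : List (EuclideanSpace ℝ ι)) :
    Psi k w ≤ Psi k (u ++ w) := Psi_mono hk fun y => by
  rw [QM_append, add_mulVec, dotProduct_add]
  linarith [dot_QM_nonneg u y]

/-- **comparison on the complete part**: if `Q_p ≤ Q_u` and `Psi p ≥ Psi u - δ`, the resolvent of
`p` is `δ`-close to that of `u` in trace norm (and larger). -/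
lemma sum_rs_sub_le {κ : Type*} [Fintype κ] {k δ : ℝ} (hk : 0 ≤ k) {p u : List (EuclideanSpace ℝ ι)}
    (h : ∀ y, y ⬝ᵥ (QM p *ᵥ y) ≤ y ⬝ᵥ (QM u *ᵥ y)) (hp : Psi k u - δ ≤ Psi k p)
    (b : OrthonormalBasis κ ℝ (EuclideanSpace ℝ ι)) (s : Finset κ) :
    ∑ i ∈ s, rs k p (b i).ofLp ≤ ∑ i ∈ s, rs k u (b i).ofLp + δ := by
  classical
  rw [Psi_eq k u b, Psi_eq k p b, Finset.sum_sub_distrib, Finset.sum_sub_distrib] at hp
  have h1 : ∑ i ∈ s, (rs k p (b i).ofLp - rs k u (b i).ofLp) ≤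
      ∑ i, (rs k p (b i).ofLp - rs k u (b i).ofLp) :=
    Finset.sum_le_sum_of_subset_of_nonneg (Finset.subset_univ s) fun i _ _ => by
      have := rs_anti hk h (b i).ofLp
      linarith
  rw [Finset.sum_sub_distrib, Finset.sum_sub_distrib] at h1
  linarith

/-! ### eigenvalues -/

/-- eigenvalues of the energy matrix -/
noncomputable def ev (u : List (EuclideanSpace ℝ ι)) : ι → ℝ := (QM_posSemidef u).1.eigenvalues

/-- eigenbasis of the energy matrix -/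
noncomputable def eb (u : List (EuclideanSpace ℝ ι)) : OrthonormalBasis ι ℝ (EuclideanSpace ℝ ι) :=
  (QM_posSemidef u).1.eigenvectorBasis

lemma ev_nonneg (u : List (EuclideanSpace ℝ ι)) (i : ι) : 0 ≤ ev u i :=
  (QM_posSemidef u).eigenvalues_nonneg i

lemma QM_mulVec_eb (u : List (EuclideanSpace ℝ ι)) (i : ι) :
    QM u *ᵥ (eb u i).ofLp = ev u i • (eb u i).ofLp :=
  (QM_posSemidef u).1.mulVec_eigenvectorBasis i

lemma MQ_mulVec_eb (k : ℝ) (u : List (EuclideanSpace ℝ ι)) (i : ι) :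
    MQ k u *ᵥ (eb u i).ofLp = (1 + k * ev u i) • (eb u i).ofLp := by
  rw [MQ, add_mulVec, one_mulVec, smul_mulVec, QM_mulVec_eb, smul_smul, add_smul, one_smul]

lemma rs_eb {k : ℝ} (hk : 0 ≤ k) (u : List (EuclideanSpace ℝ ι)) (i : ι) :
    rs k u (eb u i).ofLp = 1 / (1 + k * ev u i) := by
  have h0 : 0 < 1 + k * ev u i := by
    have := mul_nonneg hk (ev_nonneg u i)
    linarith
  have h : (MQ k u)⁻¹ *ᵥ (eb u i).ofLp = (1 + k * ev u i)⁻¹ • (eb u i).ofLp := by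
    have h1 : (eb u i).ofLp = (1 + k * ev u i)⁻¹ • (MQ k u *ᵥ (eb u i).ofLp) := by
      rw [MQ_mulVec_eb, smul_smul, inv_mul_cancel₀ h0.ne', one_smul]
    conv_lhs => rw [h1]
    rw [mulVec_smul, mulVec_mulVec,
      Matrix.nonsing_inv_mul _ ((Matrix.isUnit_iff_isUnit_det _).1 (MQ_posDef hk u).isUnit), one_mulVec]
  rw [rs, h, dotProduct_smul, dot_self_basis]
  simp

/-- upper bound of the resolvent of half the energy at an eigenvector: `b·(1+kQ/2)⁻¹b = 1/(1+kλ/2)` -/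
lemma rs_eb_half {k : ℝ} (hk : 0 ≤ k) (u : List (EuclideanSpace ℝ ι)) (i : ι) :
    rs (k / 2) u (eb u i).ofLp = 1 / (1 + k * ev u i / 2) := by
  rw [rs_eb (by positivity)]
  congr 2
  ring

lemma half_gap {x : ℝ} (hx : 0 ≤ x) : min x (1 / x) / 6 ≤ 1 / (1 + x / 2) - 1 / (1 + x) := by
  have h : 1 / (1 + x / 2) - 1 / (1 + x) = x / ((2 + x) * (1 + x)) := by
    have h1 : (2:ℝ) + x ≠ 0 := by positivity
    have h2 : (1:ℝ) + x ≠ 0 := by positivity
    have h3 : (1:ℝ) + x / 2 ≠ 0 := by positivity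
    field_simp
    ring
  rw [h]
  rcases le_total x 1 with h1 | h1
  · refine (div_le_div_of_nonneg_right (min_le_left _ _) (by norm_num)).trans ?_
    rw [div_le_div_iff₀ (by norm_num) (by positivity)]
    have : (2 + x) * (1 + x) ≤ 6 := by nlinarith
    exact mul_le_mul_of_nonneg_left this hx
  · refine (div_le_div_of_nonneg_right (min_le_right _ _) (by norm_num)).trans ?_
    rw [div_div, div_le_div_iff₀ (by positivity) (by positivity)]
    nlinarith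

/-- **the trace gap**: if `Q_{u₁} + Q_{u₂} = Q_u` (in particular if `u = u₁ ++ u₂`) and both halves
have `Psi ≥ Psi u - δ`, the spectrum of `k Q_u` has a trace gap. -/
theorem trace_gap {k δ : ℝ} (hk : 0 ≤ k) {u u₁ u₂ : List (EuclideanSpace ℝ ι)}
    (hQ : QM u₁ + QM u₂ = QM u) (h1 : Psi k u - δ ≤ Psi k u₁) (h2 : Psi k u - δ ≤ Psi k u₂) :
    ∑ i, min (k * ev u i) (1 / (k * ev u i)) ≤ 6 * δ := by
  have hconv : ∀ b : ι → ℝ, 2 * rs (k / 2) u b ≤ rs k u₁ b + rs k u₂ b := by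
    intro b
    refine dot_inv_convex (MQ_posDef hk u₁) (MQ_posDef hk u₂) (MQ_posDef (by positivity) u)
      (fun y => ?_) b
    rw [dot_MQ, dot_MQ, dot_MQ, ← hQ, add_mulVec, dotProduct_add]
    ring
  have hP : Psi k u - δ ≤ ∑ i, (1 - rs (k / 2) u (eb u i).ofLp) := by
    have e1 := Psi_eq k u₁ (eb u)
    have e2 := Psi_eq k u₂ (eb u)
    have : ∑ i, (1 - rs k u₁ (eb u i).ofLp) + ∑ i, (1 - rs k u₂ (eb u i).ofLp) ≤
        2 * ∑ i, (1 - rs (k / 2) u (eb u i).ofLp) := by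
      rw [← Finset.sum_add_distrib, Finset.mul_sum]
      refine Finset.sum_le_sum fun i _ => ?_
      have := hconv (eb u i).ofLp
      linarith
    rw [← e1, ← e2] at this
    linarith
  rw [Psi_eq k u (eb u)] at hP
  have hs : ∑ i, (rs (k / 2) u (eb u i).ofLp - rs k u (eb u i).ofLp) ≤ δ := by
    rw [Finset.sum_sub_distrib] at hP ⊢
    rw [Finset.sum_sub_distrib] at hP
    linarith
  have : ∑ i, min (k * ev u i) (1 / (k * ev u i)) / 6 ≤ δ := by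
    refine (Finset.sum_le_sum fun i _ => ?_).trans hs
    rw [rs_eb hk, rs_eb_half hk]
    exact half_gap (mul_nonneg hk (ev_nonneg u i))
  rw [← Finset.sum_div] at this
  linarith

/-- prefix splitting at the first time the prefix has a property which the whole word has -/
lemma exists_first_prefix {α : Type*} (P : List α → Prop) (u : List α) (h0 : ¬ P []) (h1 : P u) :
    ∃ u₁ v u₂, u = u₁ ++ v :: u₂ ∧ ¬ P u₁ ∧ P (u₁ ++ [v]) := by
  induction u using List.reverseRecOn with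
  | nil => exact absurd h1 h0
  | append_singleton u v ih =>
    by_cases hu : P u
    · obtain ⟨a, w, c, e, h2, h3⟩ := ih hu
      exact ⟨a, w, c ++ [v], by simp [e], h2, h3⟩
    · exact ⟨u, v, [], rfl, hu, h1⟩

/-- **Trace splitting lemma.** -/
theorem trace_split {k δ : ℝ} (hk : 0 ≤ k) (hδ : 0 < δ) (u : List (EuclideanSpace ℝ ι))
    (hu : δ ≤ Psi k u) :
    (∃ u₁ v u₂, u = u₁ ++ v :: u₂ ∧ Psi k u₁ ≤ Psi k u - δ ∧ Psi k u₂ ≤ Psi k u - δ) ∨
      ∑ i, min (k * ev u i) (1 / (k * ev u i)) ≤ 6 * δ := by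
  obtain ⟨u₁, v, u₂, e, h1, h2⟩ := exists_first_prefix (fun w => Psi k u - δ < Psi k w) u
    (by rw [Psi_nil]; linarith) (by linarith)
  by_cases h3 : Psi k u₂ ≤ Psi k u - δ
  · exact Or.inl ⟨u₁, v, u₂, e, not_lt.1 h1, h3⟩
  · right
    refine trace_gap hk (u₁ := u₁ ++ [v]) (u₂ := u₂) ?_ h2.le (not_le.1 h3).le
    rw [e]
    simp [add_assoc]

/-- In the gap case the resolvent of every sub-block `p` with `Psi p ≥ Psi u - δ` has trace `≤ 7δ`
on the complete directions `kλ ≥ 1`. -/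
theorem complete_part {k δ : ℝ} (hk : 0 ≤ k) {p u : List (EuclideanSpace ℝ ι)}
    (hgap : ∑ i, min (k * ev u i) (1 / (k * ev u i)) ≤ 6 * δ)
    (h : ∀ y, y ⬝ᵥ (QM p *ᵥ y) ≤ y ⬝ᵥ (QM u *ᵥ y)) (hp : Psi k u - δ ≤ Psi k p) :
    ∑ i ∈ Finset.univ.filter (fun i => 1 ≤ k * ev u i), rs k p (eb u i).ofLp ≤ 7 * δ := by
  classical
  refine (sum_rs_sub_le hk h hp (eb u) _).trans ?_
  have h1 : ∑ i ∈ Finset.univ.filter (fun i => 1 ≤ k * ev u i), rs k u (eb u i).ofLp ≤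
      ∑ i, min (k * ev u i) (1 / (k * ev u i)) := by
    refine (Finset.sum_le_sum (g := fun i => min (k * ev u i) (1 / (k * ev u i))) ?_).trans
      (Finset.sum_le_sum_of_subset_of_nonneg (Finset.filter_subset _ _) ?_)
    · intro i hi
      have hi : 1 ≤ k * ev u i := by simpa using hi
      rw [rs_eb hk]
      refine le_min ?_ ?_
      · rw [div_le_iff₀ (by linarith)]
        nlinarith
      · exact one_div_le_one_div_of_le (by linarith) (by linarith)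
    · intro i _ _
      have := mul_nonneg hk (ev_nonneg u i)
      exact le_min this (by positivity)
  linarith

/-- In the gap case the energy of the incomplete directions `kλ < 1` is at most `6δ`. -/
theorem incomplete_part {k δ : ℝ} (hk : 0 ≤ k) {u : List (EuclideanSpace ℝ ι)}
    (hgap : ∑ i, min (k * ev u i) (1 / (k * ev u i)) ≤ 6 * δ) :
    ∑ i ∈ Finset.univ.filter (fun i => ¬ 1 ≤ k * ev u i), k * ev u i ≤ 6 * δ := by
  classical
  refine le_trans ?_ hgap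
  refine (Finset.sum_le_sum (g := fun i => min (k * ev u i) (1 / (k * ev u i))) ?_).trans
    (Finset.sum_le_sum_of_subset_of_nonneg (Finset.filter_subset _ _) ?_)
  · intro i hi
    have hi : k * ev u i < 1 := by simpa using hi
    have h0 := mul_nonneg hk (ev_nonneg u i)
    refine le_min le_rfl ?_
    rcases eq_or_lt_of_le h0 with h | h
    · rw [← h]; simp
    · rw [le_div_iff₀ h]
      nlinarith
  · intro i _ _
    have := mul_nonneg hk (ev_nonneg u i)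
    exact le_min this (by positivity)

/-- Cutting a word into minimal pieces with `Psi ≥ c`; the remainder has `Psi < c`, and every piece
without its last vector has `Psi < c`. -/
theorem exists_pieces {k c : ℝ} (hc : 0 < c) (u : List (EuclideanSpace ℝ ι)) :
    ∃ (ps : List (List (EuclideanSpace ℝ ι))) (r : List (EuclideanSpace ℝ ι)),
      u = ps.flatten ++ r ∧ Psi k r < c ∧
      ∀ p ∈ ps, c ≤ Psi k p ∧ ∃ q v, p = q ++ [v] ∧ Psi k q < c := by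
  induction hn : u.length using Nat.strong_induction_on generalizing u with
  | _ n ih =>
    by_cases hu : Psi k u < c
    · exact ⟨[], u, by simp, hu, by simp⟩
    · obtain ⟨u₁, v, u₂, e, h1, h2⟩ := exists_first_prefix (fun w => c ≤ Psi k w) u
        (by rw [Psi_nil]; linarith) (not_lt.1 hu)
      obtain ⟨ps, r, e2, h3, h4⟩ := ih u₂.length (by
        rw [← hn, e]; simp; omega) u₂ rfl
      refine ⟨(u₁ ++ [v]) :: ps, r, ?_, h3, ?_⟩
      · rw [e, e2]; simp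
      · intro p hp
        rcases List.mem_cons.1 hp with rfl | hp
        · exact ⟨h2, u₁, v, rfl, not_le.1 h1⟩
        · exact h4 p hp

end Crest.Agent.R239
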